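import Mathlib

/-! # Extension of derivations to arbitrary field extensions in characteristic zero, valuation
rings dominating primes, tensor products of domains over the complex numbers -/

namespace Vale.Agent.P292

open TensorProduct

universe u v w

/-- Dual numbers, without the standard algebra structures. -/
def ExtDual (E : Type*) := TrivSqZeroExt E E

noncomputable instance (E : Type*) [CommRing E] : CommRing (ExtDual E) :=
  inferInstanceAs (CommRing (TrivSqZeroExt E E))

/-- Field extensions in characteristic zero are formally smooth. -/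
theorem formallySmooth_of_charZero (K L : Type*) [Field K] [Field L] [CharZero K] [Algebra K L] :
    Algebra.FormallySmooth K L := by
  obtain ⟨ι, x, hx⟩ := exists_isTranscendenceBasis' K L
  have h1 : Algebra.IsAlgebraic (IntermediateField.adjoin K (Set.range x)) L :=
    hx.isAlgebraic_field
  have h2 : CharZero (IntermediateField.adjoin K (Set.range x)) :=
    charZero_of_injective_algebraMap (algebraMap K _).injective
  have h3 : Algebra.IsSeparable (IntermediateField.adjoin K (Set.range x)) L := inferInstance
  exact Algebra.FormallySmooth.of_algebraicIndependent_of_isSeparable hx.1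

/-- Every derivation from a domain to an overfield of characteristic zero extends to a derivation
of the overfield. -/
theorem exists_derivation_extend {k : Type*} {A : Type*} {E : Type*} [CommRing k] [CommRing A]
    [IsDomain A] [Field E] [CharZero E] [Algebra k A] [Algebra A E] [Algebra k E]
    [IsScalarTower k A E] (hinj : Function.Injective (algebraMap A E)) (d : Derivation k A E) :
    ∃ D : Derivation k E E, ∀ x, D (algebraMap A E x) = d x := by
  have : FaithfulSMul A E := (faithfulSMul_iff_algebraMap_injective A E).2 hinj
  let : Algebra (FractionRing A) E := FractionRing.liftAlgebra A E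
  have : IsScalarTower A (FractionRing A) E := FractionRing.isScalarTower_liftAlgebra A E
  have : CharZero A := (algebraMap A E).charZero
  have : CharZero (FractionRing A) := IsFractionRing.charZero_of_isFractionRing A
  have : Algebra.FormallyEtale A (FractionRing A) :=
    Algebra.FormallyEtale.of_isLocalization (nonZeroDivisors A)
  have : Algebra.FormallySmooth (FractionRing A) E := formallySmooth_of_charZero _ _
  have : Algebra.FormallySmooth A E := Algebra.FormallySmooth.comp A (FractionRing A) E
  let φ : A →+* ExtDual E :=
    { toFun := fun a => (TrivSqZeroExt.inl (algebraMap A E a) + TrivSqZeroExt.inr (d a) :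
        TrivSqZeroExt E E)
      map_one' := by
        change (_ : TrivSqZeroExt E E) = 1
        ext <;> simp
      map_zero' := by
        change (_ : TrivSqZeroExt E E) = 0
        ext <;> simp
      map_mul' := fun a b => by
        change (_ : TrivSqZeroExt E E) = (_ : TrivSqZeroExt E E) * (_ : TrivSqZeroExt E E)
        refine TrivSqZeroExt.ext ?_ ?_
        · simp
        · rw [TrivSqZeroExt.snd_mul]
          simp only [TrivSqZeroExt.snd_add, TrivSqZeroExt.fst_add, TrivSqZeroExt.fst_inl,
            TrivSqZeroExt.snd_inl, TrivSqZeroExt.fst_inr, TrivSqZeroExt.snd_inr, zero_add,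
            add_zero, Derivation.leibniz, Algebra.smul_def, MulOpposite.smul_eq_mul_unop,
            MulOpposite.unop_op, Algebra.algebraMap_self, RingHom.id_apply]
          ring
      map_add' := fun a b => by
        change (_ : TrivSqZeroExt E E) = (_ : TrivSqZeroExt E E) + (_ : TrivSqZeroExt E E)
        ext <;> simp }
  let _ : Algebra A (ExtDual E) := φ.toAlgebra
  let g : ExtDual E →ₐ[A] E :=
    { toRingHom := (TrivSqZeroExt.fstHom E E E).toRingHom
      commutes' := fun a => by
        change TrivSqZeroExt.fst (TrivSqZeroExt.inl (algebraMap A E a) +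
          TrivSqZeroExt.inr (d a) : TrivSqZeroExt E E) = _
        simp }
  have hg : Function.Surjective g := fun x => ⟨(TrivSqZeroExt.inl x : TrivSqZeroExt E E), rfl⟩
  have hgn : IsNilpotent (RingHom.ker (g : ExtDual E →+* E)) := by
    refine ⟨2, ?_⟩
    rw [pow_two]
    refine le_antisymm (Ideal.mul_le.2 fun r hr s hs => ?_) bot_le
    have h1 : TrivSqZeroExt.fst (r : TrivSqZeroExt E E) = 0 := hr
    have h2 : TrivSqZeroExt.fst (s : TrivSqZeroExt E E) = 0 := hs
    have h3 : ∀ a b : TrivSqZeroExt E E, TrivSqZeroExt.fst a = 0 → TrivSqZeroExt.fst b = 0 →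
        a * b = 0 := fun a b ha hb => by ext <;> simp [ha, hb]
    exact h3 r s h1 h2
  let h : E →ₐ[A] ExtDual E :=
    Algebra.FormallySmooth.liftOfSurjective (AlgHom.id A E) g hg hgn
  have hh : ∀ x, TrivSqZeroExt.fst (h x : TrivSqZeroExt E E) = x := fun x =>
    Algebra.FormallySmooth.liftOfSurjective_apply (AlgHom.id A E) g hg hgn x
  let D : E →ₗ[ℤ] E :=
    { toFun := fun x => TrivSqZeroExt.snd (h x : TrivSqZeroExt E E)
      map_add' := fun x y => by
        rw [map_add]
        exact TrivSqZeroExt.snd_add _ _
      map_smul' := fun c x => by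
        rw [map_zsmul]
        exact TrivSqZeroExt.snd_smul _ _ }
  have hD : ∀ x, D x = TrivSqZeroExt.snd (h x : TrivSqZeroExt E E) := fun _ => rfl
  have hDA : ∀ a, D (algebraMap A E a) = d a := by
    intro a
    rw [hD, h.commutes]
    change TrivSqZeroExt.snd (TrivSqZeroExt.inl (algebraMap A E a) +
          TrivSqZeroExt.inr (d a) : TrivSqZeroExt E E) = _
    simp
  have hDm : ∀ x y, D (x * y) = x * D y + y * D x := by
    intro x y
    have key : ∀ a b : TrivSqZeroExt E E, TrivSqZeroExt.snd (a * b) =
        TrivSqZeroExt.fst a * TrivSqZeroExt.snd b + TrivSqZeroExt.fst b * TrivSqZeroExt.snd a := by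
      intro a b
      rw [TrivSqZeroExt.snd_mul]
      simp [mul_comm]
    have h3 := key (h x) (h y)
    rw [hh, hh] at h3
    rw [hD, map_mul]
    exact h3
  have hDk : ∀ c : k, D (algebraMap k E c) = 0 := by
    intro c
    rw [IsScalarTower.algebraMap_apply k A E, hDA, Derivation.map_algebraMap]
  refine ⟨Derivation.mk' { toFun := D, map_add' := map_add D, map_smul' := fun c x => ?_ }
    (fun x y => hDm x y), hDA⟩
  rw [Algebra.smul_def, hDm, hDk, mul_zero, add_zero, RingHom.id_apply, Algebra.smul_def]

/-- A prime of a subring of a field is dominated by a valuation ring of the field. -/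
theorem exists_valuationSubring_prime {A : Type u} [CommRing A] {E : Type v} [Field E]
    (f : A →+* E) (hf : Function.Injective f) (𝔭 : Ideal A) [h𝔭 : 𝔭.IsPrime] :
    ∃ O : ValuationSubring E, ∀ a, f a ∈ O ∧ (a ∈ 𝔭 ↔ O.valuation (f a) < 1) := by
  have : IsDomain A := hf.isDomain f
  have hunit : ∀ y : 𝔭.primeCompl, IsUnit (f y) := fun y => by
    refine IsUnit.mk0 _ fun h0 => y.2 ?_
    have h1 : (y : A) = 0 := hf (by rw [h0, map_zero])
    rw [h1]
    exact 𝔭.zero_mem
  let g : Localization.AtPrime 𝔭 →+* E := IsLocalization.lift hunit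
  have hg : ∀ a, g (algebraMap A _ a) = f a := fun a => IsLocalization.lift_eq hunit a
  obtain ⟨O, h, hloc⟩ := IsLocalRing.exists_factor_valuationRing g
  refine ⟨O, fun a => ⟨?_, ?_⟩⟩
  · have := h (algebraMap A _ a)
    rwa [hg] at this
  · have h1 : IsUnit (algebraMap A (Localization.AtPrime 𝔭) a) ↔ a ∉ 𝔭 := by
      rw [IsLocalization.AtPrime.isUnit_to_map_iff (Localization.AtPrime 𝔭) 𝔭]
      rfl
    have h2 : IsUnit (g.codRestrict O.toSubring h (algebraMap A _ a)) ↔
        IsUnit (algebraMap A (Localization.AtPrime 𝔭) a) := isUnit_map_iff _ _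
    have h3 : (O.valuation (f a) < 1) ↔
        ¬ IsUnit (g.codRestrict O.toSubring h (algebraMap A _ a)) := by
      rw [← hg a]
      exact (O.valuation_lt_one_iff ⟨g (algebraMap A _ a), h _⟩).symm.trans
        (by rw [IsLocalRing.mem_maximalIdeal]; rfl)
    rw [h3, h2, h1, not_not]

end Vale.Agent.P292
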