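import Mathlib
import Vale.Agent.P292.LS.Curve

/-! # LeBrun-Salamon: conics on contact Fano manifolds. Definitions. -/

namespace Vale.Agent.P292

open MvPolynomial TensorProduct

universe u v

/-- The point of the cone with parameter `a` on the curve `φ`. -/
noncomputable def pt {R : Type u} [CommRing R] [Algebra ℂ R] {κ : Type v} [Field κ] [Algebra ℂ κ]
    (φ : R →ₐ[ℂ] MvPolynomial (Fin 2) κ) (a : Fin 2 → κ) : R →ₐ[ℂ] κ :=
  ((aeval a : MvPolynomial (Fin 2) κ →ₐ[κ] κ).restrictScalars ℂ).comp φ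

/-- Two general points are joined by a conic (a rational curve of degree two for `L`): there is
`F ≠ 0` in `R ⊗ R` such that every two points `p`, `q` with `F (p, q) ≠ 0` are the points with
parameters `(1, 0)` and `(0, 1)` of a curve of degree two. -/
def IsConicConnected {R : Type u} [CommRing R] [Algebra ℂ R] (𝒜 : ℕ → Submodule ℂ R) : Prop :=
  ∃ F : R ⊗[ℂ] R, F ≠ 0 ∧ ∀ p q : R →ₐ[ℂ] ℂ,
    Algebra.TensorProduct.lift p q (fun _ _ => Commute.all _ _) F ≠ 0 →
    ∃ φ : R →ₐ[ℂ] MvPolynomial (Fin 2) ℂ, IsCurve 𝒜 2 φ ∧ pt φ ![1, 0] = p ∧ pt φ ![0, 1] = q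

end Vale.Agent.P292
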