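import Vale.Agent.P292.Defs

/-! # Picard number one. -/

namespace Vale.Agent.P292

universe u

/-- Picard number one: every prime divisor of `X = Proj R` is, up to its multiplicity, the zero
divisor of a section of a power of `L`. -/
def IsPicardOne {R : Type u} [CommRing R] [Algebra ℂ R] (𝒜 : ℕ → Submodule ℂ R)
    [GradedAlgebra 𝒜] : Prop :=
  ∀ 𝔭 : Ideal R, 𝔭.IsPrime → 𝔭.height = 1 → 𝔭.IsHomogeneous 𝒜 →
    ∃ k, ∃ g ∈ 𝒜 k, 𝔭 = (Ideal.span {g}).radical

end Vale.Agent.P292
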