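import Vale.Agent.P292.Fr.A

/-! # LeBrun-Salamon, block A1: homogeneous charts at closed points. -/

namespace Vale.Agent.P292

open Module

universe u v

variable {R : Type u} [CommRing R] [Algebra ℂ R] {𝒜 : ℕ → Submodule ℂ R} [GradedAlgebra 𝒜]
  {P : R →ₗ[ℂ] R →ₗ[ℂ] R}

variable (𝒜) in
/-- Scaling as a linear map. -/
noncomputable def scaleLin (c : ℂ) : R →ₗ[ℂ] R :=
  (DirectSum.toModule ℂ ℕ R (fun k => (c ^ k : ℂ) • (𝒜 k).subtype)) ∘ₗ
    (DirectSum.decomposeLinearEquiv 𝒜).toLinearMap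

lemma scaleLin_apply (c : ℂ) {k : ℕ} {r : R} (hr : r ∈ 𝒜 k) : scaleLin 𝒜 c r = (c ^ k) • r := by
  change DirectSum.toModule ℂ ℕ R (fun k => (c ^ k : ℂ) • (𝒜 k).subtype)
    (DirectSum.decompose 𝒜 r) = _
  rw [DirectSum.decompose_of_mem 𝒜 hr]
  change DirectSum.toModule ℂ ℕ R (fun k => (c ^ k : ℂ) • (𝒜 k).subtype)
    (DirectSum.lof ℂ ℕ (fun k => 𝒜 k) k ⟨r, hr⟩) = _
  rw [DirectSum.toModule_lof]
  rfl

lemma scaleLin_mul (c : ℂ) (a b : R) :
    scaleLin 𝒜 c (a * b) = scaleLin 𝒜 c a * scaleLin 𝒜 c b := by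
  refine forall_of_homogeneous' (𝒜 := 𝒜) (scaleLin 𝒜 c ∘ₗ LinearMap.mulRight ℂ b)
    (LinearMap.mulRight ℂ (scaleLin 𝒜 c b) ∘ₗ scaleLin 𝒜 c) (fun k r hr => ?_) a
  refine forall_of_homogeneous' (𝒜 := 𝒜) (scaleLin 𝒜 c ∘ₗ LinearMap.mulLeft ℂ r)
    (LinearMap.mulLeft ℂ (scaleLin 𝒜 c r) ∘ₗ scaleLin 𝒜 c) (fun l s hs => ?_) b
  simp only [LinearMap.comp_apply, LinearMap.mulLeft_apply]
  rw [scaleLin_apply c (SetLike.mul_mem_graded hr hs), scaleLin_apply c hr, scaleLin_apply c hs,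
    smul_mul_smul_comm, pow_add]

variable (𝒜) in
/-- Scaling as an algebra homomorphism. -/
noncomputable def scaleHom (c : ℂ) : R →ₐ[ℂ] R :=
  AlgHom.ofLinearMap (scaleLin 𝒜 c)
    (by rw [scaleLin_apply c (SetLike.one_mem_graded 𝒜), pow_zero, one_smul]) (scaleLin_mul c)

lemma scaleHom_apply (c : ℂ) {k : ℕ} {r : R} (hr : r ∈ 𝒜 k) : scaleHom 𝒜 c r = (c ^ k) • r :=
  scaleLin_apply c hr

lemma scaleHom_scaleHom_inv {c : ℂ} (hc : c ≠ 0) (r : R) :
    scaleHom 𝒜 c (scaleHom 𝒜 c⁻¹ r) = r := by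
  refine forall_of_homogeneous' (𝒜 := 𝒜)
    ((scaleHom 𝒜 c).toLinearMap ∘ₗ (scaleHom 𝒜 c⁻¹).toLinearMap) LinearMap.id
    (fun k r hr => ?_) r
  simp only [LinearMap.comp_apply, AlgHom.toLinearMap_apply, LinearMap.id_apply]
  rw [scaleHom_apply _ hr, map_smul, scaleHom_apply _ hr, smul_smul, ← mul_pow,
    inv_mul_cancel₀ hc, one_pow, one_smul]

/-- A subspace stable under scaling contains the homogeneous components of its elements. -/
theorem component_mem_of_scale (I : Submodule ℂ R)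
    (hI : ∀ c : ℂ, c ≠ 0 → ∀ r ∈ I, scaleHom 𝒜 c r ∈ I) {r : R} (hr : r ∈ I) (l : ℕ) :
    (DirectSum.decompose 𝒜 r l : R) ∈ I := by
  classical
  by_contra hl
  have h1 : I.mkQ (DirectSum.decompose 𝒜 r l : R) ≠ 0 := by
    rwa [Submodule.mkQ_apply, Ne, Submodule.Quotient.mk_eq_zero]
  obtain ⟨φ, hφ⟩ : ∃ φ : Module.Dual ℂ (R ⧸ I), φ (I.mkQ (DirectSum.decompose 𝒜 r l : R)) ≠ 0 := by
    by_contra hcon
    push Not at hcon
    exact h1 ((Module.forall_dual_apply_eq_zero_iff ℂ _).mp hcon)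
  let p : Polynomial ℂ := ∑ k ∈ (DirectSum.decompose 𝒜 r).support,
    Polynomial.C (φ (I.mkQ (DirectSum.decompose 𝒜 r k : R))) * Polynomial.X ^ k
  have hp : p = 0 := by
    refine Polynomial.eq_zero_of_infinite_isRoot p (Set.Infinite.mono (s := {c : ℂ | c ≠ 0}) ?_ ?_)
    · intro c hc
      have h2 : φ (I.mkQ (scaleHom 𝒜 c r)) = 0 := by
        rw [Submodule.mkQ_apply, (Submodule.Quotient.mk_eq_zero _).mpr (hI c hc r hr), map_zero]
      change Polynomial.eval c p = 0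
      rw [← h2]
      conv_rhs => rw [← DirectSum.sum_support_decompose 𝒜 r]
      rw [map_sum, map_sum, map_sum, Polynomial.eval_finsetSum]
      refine Finset.sum_congr rfl fun k _ => ?_
      rw [scaleHom_apply c (SetLike.coe_mem _), map_smul, map_smul, Polynomial.eval_mul,
        Polynomial.eval_C, Polynomial.eval_pow, Polynomial.eval_X, smul_eq_mul, mul_comm]
    · exact (Set.finite_singleton (0 : ℂ)).infinite_compl
  have h3 : p.coeff l = φ (I.mkQ (DirectSum.decompose 𝒜 r l : R)) := by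
    rw [Polynomial.finsetSum_coeff]
    rw [Finset.sum_eq_single l]
    · rw [Polynomial.coeff_C_mul, Polynomial.coeff_X_pow_self, mul_one]
    · intro k _ hk
      rw [Polynomial.coeff_C_mul, Polynomial.coeff_X_pow, if_neg (Ne.symm hk), mul_zero]
    · intro hl'
      rw [DFinsupp.notMem_support_iff] at hl'
      rw [hl']; simp
  apply hφ
  rw [← h3, hp, Polynomial.coeff_zero]

/-- Relations between differentials hold for derivations along homomorphisms. -/
theorem relation_along {A : Type*} [CommRing A] [Algebra ℂ A] (τ : R →ₐ[ℂ] A) {M : Type*}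
    [AddCommGroup M] [Module A M] [Module ℂ M] [IsScalarTower ℂ A M] (δ : R →ₗ[ℂ] M)
    (hδ : ∀ a b, δ (a * b) = τ a • δ b + τ b • δ a) {N : ℕ} {x c : Fin N → R} {g r : R}
    (h : g • KaehlerDifferential.D ℂ R r = ∑ i, c i • KaehlerDifferential.D ℂ R (x i)) :
    τ g • δ r = ∑ i, τ (c i) • δ (x i) := by
  let _ : Module R M := Module.compHom M (τ : R →+* A)
  have hsm : ∀ (r : R) (m : M), r • m = τ r • m := fun _ _ => rfl
  have : IsScalarTower ℂ R M := ⟨fun c r m => by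
    rw [hsm, hsm, map_smul, smul_assoc]⟩
  let δ' : Derivation ℂ R M := Derivation.mk' δ fun a b => by
    rw [hsm, hsm]; exact hδ a b
  have h1 := congrArg δ'.liftKaehlerDifferential h
  rw [map_smul, map_sum, Derivation.liftKaehlerDifferential_comp_D] at h1
  change τ g • δ r = _ at h1
  rw [h1]
  refine Finset.sum_congr rfl fun i _ => ?_
  rw [map_smul, Derivation.liftKaehlerDifferential_comp_D]
  rfl

/-- A1: homogeneous coordinates at every nonvertex closed point. -/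
theorem exists_chart (hX : IsContactFano 𝒜 P) (p : R →ₐ[ℂ] ℂ) (hp : ¬ IsVertex 𝒜 p) :
    ∃ (N : ℕ) (x : Fin N → R) (k : Fin N → ℕ) (g : R) (l : ℕ), (∀ i, x i ∈ 𝒜 (k i)) ∧ g ∈ 𝒜 l ∧
      p g ≠ 0 ∧ p (Matrix.det (Matrix.of fun i j => P (x i) (x j))) ≠ 0 ∧
      ∀ r, ∃ c : Fin N → R, g • KaehlerDifferential.D ℂ R r =
        ∑ i, c i • KaehlerDifferential.D ℂ R (x i) := by
  classical
  obtain ⟨N, x, g, h, hF, hg⟩ := exists_frame hX hp
  rw [map_mul] at hg
  choose k hk using hF.homogeneous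
  let Q : Submodule R (Ω[R⁄ℂ]) :=
    Submodule.span R (Set.range fun i => KaehlerDifferential.D ℂ R (x i))
  let I : Submodule ℂ R :=
    { carrier := {a | ∀ r, a • KaehlerDifferential.D ℂ R r ∈ Q}
      add_mem' := fun {a b} ha hb r => by
        rw [add_smul]; exact add_mem (ha r) (hb r)
      zero_mem' := fun r => by rw [zero_smul]; exact zero_mem _
      smul_mem' := fun c a ha r => by
        have h1 : (c • a) • KaehlerDifferential.D ℂ R r =
            (algebraMap ℂ R c) • (a • KaehlerDifferential.D ℂ R r) := by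
          rw [Algebra.smul_def, mul_smul]
        rw [h1]
        exact Submodule.smul_mem _ _ (ha r) }
  have hgI : g ∈ I := fun r => by
    rw [hF.smul_D r]
    exact sum_mem fun i _ => Submodule.smul_mem _ _ (Submodule.subset_span ⟨i, rfl⟩)
  have hI : ∀ c : ℂ, c ≠ 0 → ∀ a ∈ I, scaleHom 𝒜 c a ∈ I := by
    intro c hc a ha r
    obtain ⟨y, hy⟩ := (Submodule.mem_span_range_iff_exists_fun R).mp (ha (scaleHom 𝒜 c⁻¹ r))
    have h1 := relation_along (scaleHom 𝒜 c)
      ((KaehlerDifferential.D ℂ R).toLinearMap ∘ₗ (scaleHom 𝒜 c).toLinearMap) (fun a b => by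
        simp only [LinearMap.comp_apply, AlgHom.toLinearMap_apply, map_mul]
        exact Derivation.leibniz _ _ _) hy.symm
    simp only [LinearMap.comp_apply, AlgHom.toLinearMap_apply] at h1
    rw [scaleHom_scaleHom_inv hc] at h1
    change _ • KaehlerDifferential.D ℂ R r ∈ Q
    change _ • KaehlerDifferential.D ℂ R r = _ at h1
    rw [h1]
    refine sum_mem fun i _ => Submodule.smul_mem _ _ ?_
    change KaehlerDifferential.D ℂ R (scaleHom 𝒜 c (x i)) ∈ Q
    rw [scaleHom_apply c (hk i), Derivation.map_smul, ← algebraMap_smul R (c ^ k i)]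
    exact Submodule.smul_mem _ _ (Submodule.subset_span ⟨i, rfl⟩)
  obtain ⟨l, hl⟩ : ∃ l, p (DirectSum.decompose 𝒜 g l : R) ≠ 0 := by
    by_contra hcon
    push Not at hcon
    apply left_ne_zero_of_mul hg
    rw [← DirectSum.sum_support_decompose 𝒜 g, map_sum]
    exact Finset.sum_eq_zero fun l _ => hcon l
  refine ⟨N, x, k, (DirectSum.decompose 𝒜 g l : R), l, hk, SetLike.coe_mem _, hl,
    right_ne_zero_of_mul hg, fun r => ?_⟩
  obtain ⟨c, hc⟩ := (Submodule.mem_span_range_iff_exists_fun R).mp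
    (component_mem_of_scale I hI hgI l r)
  exact ⟨c, hc.symm⟩

end Vale.Agent.P292
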