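import Vale.Agent.P292.K.ChartKD

/-! # LeBrun-Salamon, block A2: charts at points with values in domains, in Cramer form -/

namespace Vale.Agent.P292

universe u v w

variable {R : Type u} [CommRing R] [Algebra ℂ R] {𝒜 : ℕ → Submodule ℂ R} [GradedAlgebra 𝒜]
  {P : R →ₗ[ℂ] R →ₗ[ℂ] R}

/-- A derivation over a point, applied to a relation between differentials. -/
theorem a2_apply {F : Type w} [CommRing F] [Algebra ℂ F] (y : R →ₐ[ℂ] F) {δ : R →ₗ[ℂ] F}
    (hδ : IsDer y δ) {N : ℕ} {x : Fin N → R} {g : R} {c : Fin N → R} {r : R}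
    (h : g • KaehlerDifferential.D ℂ R r = ∑ i, c i • KaehlerDifferential.D ℂ R (x i)) :
    y g * δ r = ∑ i, y (c i) * δ (x i) := by
  let _ : Module R F := Module.compHom F y.toRingHom
  have hsm : ∀ (r : R) (z : F), r • z = y r * z := fun _ _ => rfl
  have _ : IsScalarTower ℂ R F := ⟨fun c r z => by rw [hsm, hsm, map_smul, smul_mul_assoc]⟩
  let D' : Derivation ℂ R F := Derivation.mk' δ (fun a b => by rw [hsm, hsm]; exact hδ a b)
  have hD' : ∀ s, D' s = δ s := fun _ => rfl
  have h1 := congrArg D'.liftKaehlerDifferential h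
  rw [map_smul, map_sum, Derivation.liftKaehlerDifferential_comp_D, hD', hsm] at h1
  rw [h1]
  refine Finset.sum_congr rfl fun i _ => ?_
  rw [map_smul, Derivation.liftKaehlerDifferential_comp_D, hD', hsm]

/-- Cramer's rule for a derivation over a point, in a chart. -/
theorem a2_cramer (hX : IsContactFano 𝒜 P) {F : Type w} [CommRing F] [IsDomain F] [Algebra ℂ F]
    (y : R →ₐ[ℂ] F) {δ : R →ₗ[ℂ] F} (hδ : IsDer y δ) {N : ℕ} {x : Fin N → R} {g : R}
    (hg : y g ≠ 0)
    (h : ∀ r, ∃ c : Fin N → R, g • KaehlerDifferential.D ℂ R r =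
      ∑ i, c i • KaehlerDifferential.D ℂ R (x i)) (r : R) :
    y (Matrix.det (Matrix.of fun i j => P (x i) (x j))) * δ r =
      ∑ i, ∑ j, δ (x i) * y (Matrix.adjugate (Matrix.of fun i j => P (x i) (x j)) i j) *
        y (P (x j) r) := by
  obtain ⟨c, hc⟩ := h r
  set M : Matrix (Fin N) (Fin N) R := Matrix.of fun i j => P (x i) (x j) with hM
  have hham : ∀ a : R, IsDer y (hamAt P y a) := fun a s t => by
    simp only [hamAt_apply, hX.leibniz, map_add, map_mul]
    ring
  have h2 : ∀ j, y g * y (P (x j) r) = ∑ l, y (c l) * y (M j l) := fun j =>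
    a2_apply y (hham (x j)) hc
  have h3 : ∀ i l, ∑ j, y (M.adjugate i j) * y (M j l) = if i = l then y M.det else 0 := by
    intro i l
    have h4 := congrArg y (congrFun (congrFun (Matrix.adjugate_mul M) i) l)
    rw [Matrix.mul_apply, map_sum] at h4
    simp only [map_mul] at h4
    rw [h4, Matrix.smul_apply, Matrix.one_apply]
    split_ifs with hil
    · simp
    · simp
  refine mul_left_cancel₀ hg ?_
  calc y g * (y M.det * δ r) = y M.det * (y g * δ r) := by ring
    _ = ∑ i, δ (x i) * (y (c i) * y M.det) := by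
        rw [a2_apply y hδ hc, Finset.mul_sum]
        exact Finset.sum_congr rfl fun i _ => by ring
    _ = ∑ i, δ (x i) * ∑ j, y (M.adjugate i j) * (y g * y (P (x j) r)) := by
        refine Finset.sum_congr rfl fun i _ => ?_
        congr 1
        simp only [h2, Finset.mul_sum]
        rw [Finset.sum_comm]
        have h5 : ∀ l, ∑ j, y (M.adjugate i j) * (y (c l) * y (M j l)) =
            y (c l) * if i = l then y M.det else 0 := fun l => by
          rw [← h3 i l, Finset.mul_sum]
          exact Finset.sum_congr rfl fun j _ => by ring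
        simp only [h5, mul_ite, mul_zero, Finset.sum_ite_eq, Finset.mem_univ, if_true]
    _ = y g * ∑ i, ∑ j, δ (x i) * y (M.adjugate i j) * y (P (x j) r) := by
        rw [Finset.mul_sum]
        refine Finset.sum_congr rfl fun i _ => ?_
        rw [Finset.mul_sum, Finset.mul_sum]
        exact Finset.sum_congr rfl fun j _ => by ring

/-- A2: charts at points with values in domains, in the form used everywhere: for every
derivation `δ` over any point `y : R → F` (`F` a domain) with `y g ≠ 0`: Cramer. -/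
theorem exists_chart_at (hX : IsContactFano 𝒜 P) {E : Type v} [CommRing E] [IsDomain E]
    [Algebra ℂ E] (x₀ : R →ₐ[ℂ] E) (hx : IsNV 𝒜 x₀) :
    ∃ (N : ℕ) (x : Fin N → R) (k : Fin N → ℕ) (g : R) (l : ℕ), (∀ i, x i ∈ 𝒜 (k i)) ∧ g ∈ 𝒜 l ∧
      x₀ g ≠ 0 ∧ x₀ (Matrix.det (Matrix.of fun i j => P (x i) (x j))) ≠ 0 ∧
      ∀ (F : Type w) [CommRing F] [IsDomain F] [Algebra ℂ F] (y : R →ₐ[ℂ] F) (δ : R →ₗ[ℂ] F),
        y g ≠ 0 → IsDer y δ → ∀ r, y (Matrix.det (Matrix.of fun i j => P (x i) (x j))) * δ r =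
          ∑ i, ∑ j, δ (x i) * y (Matrix.adjugate (Matrix.of fun i j => P (x i) (x j)) i j) *
            y (P (x j) r) := by
  obtain ⟨N, x, k, g, l, h1, h2, h3, h4, h5⟩ := exists_chart_kd hX x₀ hx
  exact ⟨N, x, k, g, l, h1, h2, h3, h4, fun F _ _ _ y δ hy hδ r => a2_cramer hX y hδ hy h5 r⟩

end Vale.Agent.P292
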