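import Vale.Agent.P292.K.Basic
import Vale.Agent.P292.K.A1

/-! Charts at points with values in domains, in terms of Kaehler differentials. -/

namespace Vale.Agent.P292

open MvPolynomial

universe u v w

variable {R : Type u} [CommRing R] [Algebra ℂ R] {𝒜 : ℕ → Submodule ℂ R} [GradedAlgebra 𝒜]
  {P : R →ₗ[ℂ] R →ₗ[ℂ] R}

/-- Closed specialisations. -/
theorem kd_exists_closed {B : Type v} [CommRing B] [IsDomain B] [Algebra ℂ B]
    [Algebra.FiniteType ℂ R] (x : R →ₐ[ℂ] B) (g : R) (hg : x g ≠ 0) :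
    ∃ p : R →ₐ[ℂ] ℂ, (∀ r, x r = 0 → p r = 0) ∧ p g ≠ 0 := by
  have hJ : IsJacobsonRing R := isJacobsonRing_of_finiteType (A := ℂ)
  set I : Ideal R := RingHom.ker x with hI
  have hprime : I.IsPrime := RingHom.ker_isPrime _
  have hjac : I.jacobson = I := hJ.out hprime.isRadical
  have hgI : g ∉ I.jacobson := by
    rw [hjac, hI, RingHom.mem_ker]
    exact hg
  rw [Ideal.jacobson, Ideal.mem_sInf] at hgI
  push Not at hgI
  obtain ⟨m, ⟨hm1, hm2⟩, hm3⟩ := hgI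
  letI : Field (R ⧸ m) := Ideal.Quotient.field m
  have hft : Algebra.FiniteType ℂ (R ⧸ m) :=
    Algebra.FiniteType.of_surjective (Ideal.Quotient.mkₐ ℂ m) Ideal.Quotient.mk_surjective
  have hfin : Module.Finite ℂ (R ⧸ m) := finite_of_finite_type_of_isJacobsonRing ℂ (R ⧸ m)
  have hint : Algebra.IsIntegral ℂ (R ⧸ m) := Algebra.IsIntegral.of_finite ℂ (R ⧸ m)
  have hbij : Function.Bijective (algebraMap ℂ (R ⧸ m)) :=
    IsAlgClosed.algebraMap_bijective_of_isIntegral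
  let e : ℂ ≃ₐ[ℂ] (R ⧸ m) := AlgEquiv.ofBijective (Algebra.ofId ℂ (R ⧸ m)) hbij
  refine ⟨(e.symm : (R ⧸ m) →ₐ[ℂ] ℂ).comp (Ideal.Quotient.mkₐ ℂ m), ?_, ?_⟩
  · intro r hr
    have h1 : (Ideal.Quotient.mkₐ ℂ m) r = 0 := by
      rw [Ideal.Quotient.mkₐ_eq_mk, Ideal.Quotient.eq_zero_iff_mem]
      exact hm1 hr
    rw [AlgHom.comp_apply, h1, map_zero]
  · intro h0
    rw [AlgHom.comp_apply] at h0
    have h1 : (Ideal.Quotient.mkₐ ℂ m) g = 0 := by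
      have := congrArg e h0
      simpa using this
    rw [Ideal.Quotient.mkₐ_eq_mk, Ideal.Quotient.eq_zero_iff_mem] at h1
    exact hm3 h1

/-- Homogeneous coordinates at a nonvertex point with values in a domain. -/
theorem exists_chart_kd (hX : IsContactFano 𝒜 P) {E : Type v} [CommRing E] [IsDomain E]
    [Algebra ℂ E] (x₀ : R →ₐ[ℂ] E) (hx : IsNV 𝒜 x₀) :
    ∃ (N : ℕ) (x : Fin N → R) (k : Fin N → ℕ) (g : R) (l : ℕ), (∀ i, x i ∈ 𝒜 (k i)) ∧ g ∈ 𝒜 l ∧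
      x₀ g ≠ 0 ∧ x₀ (Matrix.det (Matrix.of fun i j => P (x i) (x j))) ≠ 0 ∧
      ∀ r, ∃ c : Fin N → R, g • KaehlerDifferential.D ℂ R r =
        ∑ i, c i • KaehlerDifferential.D ℂ R (x i) := by
  have hft : Algebra.FiniteType ℂ R := hX.finiteType
  obtain ⟨k₀, hk₀, r₀, hr₀, hne⟩ := hx
  obtain ⟨p, hp, hpr⟩ := kd_exists_closed x₀ r₀ hne
  obtain ⟨N, x, k, g, l, h1, h2, h3, h4, h5⟩ := exists_chart hX p fun h => hpr (h k₀ hk₀ r₀ hr₀)
  exact ⟨N, x, k, g, l, h1, h2, fun h => h3 (hp g h), fun h => h4 (hp _ h), h5⟩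

end Vale.Agent.P292
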