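import Vale.Agent.P292.K.Basic
import Vale.Agent.P292.Fr.A

/-! # Closedness of the symplectic form on points with values in a field. -/

namespace Vale.Agent.P292

universe u v

variable {R : Type u} [CommRing R] [Algebra ℂ R] {𝒜 : ℕ → Submodule ℂ R} [GradedAlgebra 𝒜]
  {P : R →ₗ[ℂ] R →ₗ[ℂ] R}

/-- The derivative of the pairing of two derivations given by Hamiltonian derivations. -/
lemma closed_aux (hX : IsContactFano 𝒜 P) {E : Type v} [Field E] [Algebra ℂ E] {x : R →ₐ[ℂ] E}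
    (D₁ D₂ D₃ : Derivation ℂ E E) {N : ℕ} (r : Fin N → R) (a₁ a₂ a₃ : Fin N → E)
    (h1 : ∀ s, D₁ (x s) = ∑ i, a₁ i * x (P (r i) s))
    (h2 : ∀ s, D₂ (x s) = ∑ i, a₂ i * x (P (r i) s))
    (h3 : ∀ s, D₃ (x s) = ∑ i, a₃ i * x (P (r i) s)) :
    D₁ (∑ i, a₂ i * D₃ (x (r i))) = (∑ i, a₂ i * D₁ (D₃ (x (r i)))) -
      (∑ k, a₃ k * D₁ (D₂ (x (r k)))) +
      ∑ k, ∑ i, ∑ j, a₃ k * a₂ i * a₁ j * x (P (r j) (P (r i) (r k))) := by
  -- the derivative of the second relation at `r k`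
  have key : ∀ k, D₁ (D₂ (x (r k))) = (∑ i, D₁ (a₂ i) * x (P (r i) (r k))) +
      ∑ i, ∑ j, a₂ i * a₁ j * x (P (r j) (P (r i) (r k))) := by
    intro k
    rw [h2, map_sum, ← Finset.sum_add_distrib]
    refine Finset.sum_congr rfl fun i _ => ?_
    rw [Derivation.leibniz, smul_eq_mul, smul_eq_mul, h1, Finset.mul_sum, add_comm, mul_comm]
    congr 1
    exact Finset.sum_congr rfl fun j _ => by ring
  have hskew : ∀ i, D₃ (x (r i)) = - ∑ k, a₃ k * x (P (r i) (r k)) := by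
    intro i
    rw [h3, ← Finset.sum_neg_distrib]
    refine Finset.sum_congr rfl fun k _ => ?_
    rw [hX.skew (r k) (r i), map_neg, mul_neg]
  have e1 : (∑ i, D₁ (a₂ i) * D₃ (x (r i))) = - ∑ k, a₃ k * ∑ i, D₁ (a₂ i) * x (P (r i) (r k)) := by
    simp_rw [Finset.mul_sum]
    rw [Finset.sum_comm, ← Finset.sum_neg_distrib]
    refine Finset.sum_congr rfl fun i _ => ?_
    rw [hskew, mul_neg, Finset.mul_sum]
    congr 1
    exact Finset.sum_congr rfl fun k _ => by ring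
  have e2 : D₁ (∑ i, a₂ i * D₃ (x (r i))) = (∑ i, a₂ i * D₁ (D₃ (x (r i)))) +
      ∑ i, D₁ (a₂ i) * D₃ (x (r i)) := by
    rw [map_sum, ← Finset.sum_add_distrib]
    refine Finset.sum_congr rfl fun i _ => ?_
    rw [Derivation.leibniz, smul_eq_mul, smul_eq_mul]
    ring
  have e3 : (∑ k, a₃ k * D₁ (D₂ (x (r k)))) =
      (∑ k, a₃ k * ∑ i, D₁ (a₂ i) * x (P (r i) (r k))) +
      ∑ k, ∑ i, ∑ j, a₃ k * a₂ i * a₁ j * x (P (r j) (P (r i) (r k))) := by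
    rw [← Finset.sum_add_distrib]
    refine Finset.sum_congr rfl fun k _ => ?_
    rw [key, mul_add]
    congr 1
    rw [Finset.mul_sum]
    refine Finset.sum_congr rfl fun i _ => ?_
    rw [Finset.mul_sum]
    exact Finset.sum_congr rfl fun j _ => by ring
  rw [e2, e1, e3]
  ring

/-- Closedness, in terms of coefficients. -/
lemma closed_coeff (hX : IsContactFano 𝒜 P) {E : Type v} [Field E] [Algebra ℂ E] {x : R →ₐ[ℂ] E}
    (D₁ D₂ D₃ : Derivation ℂ E E)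
    (h12 : ∀ e, D₁ (D₂ e) = D₂ (D₁ e)) (h13 : ∀ e, D₁ (D₃ e) = D₃ (D₁ e))
    (h23 : ∀ e, D₂ (D₃ e) = D₃ (D₂ e)) {N : ℕ} (r : Fin N → R) (a₁ a₂ a₃ : Fin N → E)
    (h1 : ∀ s, D₁ (x s) = ∑ i, a₁ i * x (P (r i) s))
    (h2 : ∀ s, D₂ (x s) = ∑ i, a₂ i * x (P (r i) s))
    (h3 : ∀ s, D₃ (x s) = ∑ i, a₃ i * x (P (r i) s)) :
    D₁ (∑ i, a₂ i * D₃ (x (r i))) + D₂ (∑ i, a₃ i * D₁ (x (r i))) +
      D₃ (∑ i, a₁ i * D₂ (x (r i))) = 0 := by
  rw [closed_aux hX D₁ D₂ D₃ r a₁ a₂ a₃ h1 h2 h3, closed_aux hX D₂ D₃ D₁ r a₂ a₃ a₁ h2 h3 h1,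
    closed_aux hX D₃ D₁ D₂ r a₃ a₁ a₂ h3 h1 h2]
  -- the triple sums
  have t1 : (∑ k, ∑ i, ∑ j, a₃ k * a₂ i * a₁ j * x (P (r j) (P (r i) (r k)))) =
      ∑ p, ∑ q, ∑ m, a₁ p * a₂ q * a₃ m * x (P (r p) (P (r q) (r m))) := by
    rw [Finset.sum_comm]
    simp_rw [fun i => Finset.sum_comm (s := (Finset.univ : Finset (Fin N)))
      (t := (Finset.univ : Finset (Fin N))) (f := fun k j =>
        a₃ k * a₂ i * a₁ j * x (P (r j) (P (r i) (r k))))]
    rw [Finset.sum_comm]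
    refine Finset.sum_congr rfl fun p _ => Finset.sum_congr rfl fun q _ =>
      Finset.sum_congr rfl fun m _ => by ring
  have t2 : (∑ k, ∑ i, ∑ j, a₁ k * a₃ i * a₂ j * x (P (r j) (P (r i) (r k)))) =
      ∑ p, ∑ q, ∑ m, a₁ p * a₂ q * a₃ m * x (P (r q) (P (r m) (r p))) := by
    refine Finset.sum_congr rfl fun p _ => ?_
    rw [Finset.sum_comm]
    exact Finset.sum_congr rfl fun q _ => Finset.sum_congr rfl fun m _ => by ring
  have t3 : (∑ k, ∑ i, ∑ j, a₂ k * a₁ i * a₃ j * x (P (r j) (P (r i) (r k)))) =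
      ∑ p, ∑ q, ∑ m, a₁ p * a₂ q * a₃ m * x (P (r m) (P (r p) (r q))) := by
    rw [Finset.sum_comm]
    exact Finset.sum_congr rfl fun p _ => Finset.sum_congr rfl fun q _ =>
      Finset.sum_congr rfl fun m _ => by ring
  have tz : (∑ p, ∑ q, ∑ m, a₁ p * a₂ q * a₃ m * x (P (r p) (P (r q) (r m)))) +
      (∑ p, ∑ q, ∑ m, a₁ p * a₂ q * a₃ m * x (P (r q) (P (r m) (r p)))) +
      (∑ p, ∑ q, ∑ m, a₁ p * a₂ q * a₃ m * x (P (r m) (P (r p) (r q)))) = 0 := by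
    simp_rw [← Finset.sum_add_distrib]
    refine Finset.sum_eq_zero fun p _ => Finset.sum_eq_zero fun q _ =>
      Finset.sum_eq_zero fun m _ => ?_
    rw [← mul_add, ← mul_add, ← map_add, ← map_add]
    have hj : P (r p) (P (r q) (r m)) + P (r q) (P (r m) (r p)) + P (r m) (P (r p) (r q)) = 0 := by
      rw [hX.jacobi (r p) (r q) (r m), hX.skew (P (r p) (r q)) (r m), hX.skew (r p) (r m),
        map_neg]
      ring
    rw [hj, map_zero, mul_zero]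
  rw [t1, t2, t3]
  simp_rw [← h12, ← h13, ← h23]
  linear_combination tz

/-- Every derivation over a nonvertex point is a combination of Hamiltonian ones. -/
lemma ham_rep_aux (hX : IsContactFano 𝒜 P) {E : Type v} [Field E] [Algebra ℂ E]
    {x : R →ₐ[ℂ] E} (hx : IsNV 𝒜 x) :
    ∃ (N : ℕ) (r : Fin N → R), ∀ δ, IsDer x δ → ∃ a : Fin N → E, ∀ s,
      δ s = ∑ i, a i * x (P (r i) s) := by
  obtain ⟨k, hk, r, hr, hrx⟩ := hx
  obtain ⟨N, y, g, h, hF, hg⟩ := exists_frame_of_point hX x hk hr hrx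
  refine ⟨N, y, fun δ hδ => ?_⟩
  letI : Algebra R E := x.toRingHom.toAlgebra
  have hsm : ∀ (a : R) (e : E), a • e = x a * e := fun a e => Algebra.smul_def a e
  haveI : IsScalarTower ℂ R E := IsScalarTower.of_algebraMap_eq fun c => (x.commutes c).symm
  let d : Derivation ℂ R E := Derivation.mk' δ (fun a b => by
    rw [hsm, hsm]; exact hδ a b)
  have hd : ∀ s, d s = δ s := fun s => rfl
  refine ⟨fun j => (x (g * (brMat P y).det))⁻¹ * ∑ i, x (g * (brMat P y).adjugate i j) *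
    δ (y i), fun s => ?_⟩
  have h1 := hF.det_smul_derivation hX d s
  rw [hsm, hd] at h1
  rw [eq_comm, ← mul_right_inj' hg, h1]
  simp_rw [hsm, hd]
  rw [Finset.sum_comm, Finset.mul_sum]
  refine Finset.sum_congr rfl fun j _ => ?_
  rw [← mul_assoc, ← mul_assoc, mul_inv_cancel₀ hg, one_mul, Finset.sum_mul]
  refine Finset.sum_congr rfl fun i _ => ?_
  simp only [map_mul]
  ring

/-- The value of the pairing does not depend on the representation. -/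
lemma om_eq_aux (hX : IsContactFano 𝒜 P) {E : Type v} [Field E] [Algebra ℂ E]
    {x : R →ₐ[ℂ] E} (hx : IsNV 𝒜 x) {δ δ' : R →ₗ[ℂ] E} (hδ' : IsDer x δ')
    {N : ℕ} {a : Fin N → E} {r : Fin N → R} (h : ∀ s, δ s = ∑ i, a i * x (P (r i) s)) :
    om P x δ δ' = ∑ i, a i * δ' (r i) := by
  have hex : ∃ c, IsOm P x δ δ' c := ⟨_, N, a, r, h, rfl⟩
  rw [om, dif_pos hex]
  obtain ⟨M, b, q, hb, hc⟩ := hex.choose_spec
  rw [hc]
  obtain ⟨L, t, ht⟩ := ham_rep_aux hX hx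
  obtain ⟨c, hc'⟩ := ht δ' hδ'
  have key : ∀ {K : ℕ} (e : Fin K → E) (u : Fin K → R)
      (_ : ∀ s, δ s = ∑ i, e i * x (P (u i) s)),
      ∑ i, e i * δ' (u i) = - ∑ k, c k * δ (t k) := by
    intro K e u he
    simp_rw [hc', he, Finset.mul_sum]
    rw [Finset.sum_comm, ← Finset.sum_neg_distrib]
    refine Finset.sum_congr rfl fun k _ => ?_
    rw [← Finset.sum_neg_distrib]
    refine Finset.sum_congr rfl fun i _ => ?_
    rw [hX.skew (t k) (u i), map_neg]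
    ring
  rw [key b q hb, key a r h]

/-- Closedness (Jacobi), for commuting derivations of the field. -/
theorem om_closed (hX : IsContactFano 𝒜 P) {E : Type v} [Field E] [Algebra ℂ E]
    {x : R →ₐ[ℂ] E} (hx : IsNV 𝒜 x) (D₁ D₂ D₃ : Derivation ℂ E E)
    (h12 : ∀ e, D₁ (D₂ e) = D₂ (D₁ e)) (h13 : ∀ e, D₁ (D₃ e) = D₃ (D₁ e))
    (h23 : ∀ e, D₂ (D₃ e) = D₃ (D₂ e)) :
    D₁ (om P x (alongAt x D₂) (alongAt x D₃)) + D₂ (om P x (alongAt x D₃) (alongAt x D₁)) +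
      D₃ (om P x (alongAt x D₁) (alongAt x D₂)) = 0 := by
  obtain ⟨N, r, hr⟩ := ham_rep_aux hX hx
  obtain ⟨a₁, h1⟩ := hr _ (isDer_alongAt x D₁)
  obtain ⟨a₂, h2⟩ := hr _ (isDer_alongAt x D₂)
  obtain ⟨a₃, h3⟩ := hr _ (isDer_alongAt x D₃)
  rw [om_eq_aux hX hx (isDer_alongAt x D₃) h2, om_eq_aux hX hx (isDer_alongAt x D₁) h3,
    om_eq_aux hX hx (isDer_alongAt x D₂) h1]
  exact closed_coeff hX D₁ D₂ D₃ h12 h13 h23 r a₁ a₂ a₃ h1 h2 h3

end Vale.Agent.P292
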