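import Vale.Agent.P292.K.Basic

/-! # P292, block C4, C5: standard derivations along a curve, division by a linear form. -/

namespace Vale.Agent.P292

open MvPolynomial TensorProduct

universe u v w

variable {R : Type u} [CommRing R] [Algebra ℂ R] {𝒜 : ℕ → Submodule ℂ R} [GradedAlgebra 𝒜]

section C4

variable {κ : Type v} [Field κ] [IsAlgClosed κ] [Algebra ℂ κ] {d : ℕ}
  {φ : R →ₐ[ℂ] MvPolynomial (Fin 2) κ}

omit [GradedAlgebra 𝒜] [IsAlgClosed κ] in
/-- C4: the partial derivatives along a curve. -/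
theorem isHDer_pd (hφ : IsCurve 𝒜 d φ) (i : Fin 2) : IsHDer 𝒜 d φ (-1) (pd φ i) where
  der r s := by
    rw [pd_apply, pd_apply, pd_apply, map_mul, Derivation.leibniz, smul_eq_mul, smul_eq_mul]
  homog k r hr m hm := by
    rw [pd_apply]
    have h := (hφ.degree k r hr).pderiv (i := i)
    have h1 : d * k - 1 = m := by
      have : ((d * k : ℕ) : ℤ) = d * k := by push_cast; ring
      omega
    rwa [h1] at h
  neg k hk r hr := by
    have h := hφ.degree k r hr
    have h1 : d * k = 0 := by
      have : ((d * k : ℕ) : ℤ) = d * k := by push_cast; ring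
      omega
    rw [h1] at h
    rw [pd_apply]
    have h2 : (φ r).totalDegree = 0 := Nat.le_zero.1 h.totalDegree_le
    rw [totalDegree_eq_zero_iff_eq_C.1 h2, pderiv_C]

omit [GradedAlgebra 𝒜] [IsAlgClosed κ] in
/-- C4: the derivation of the coefficients along a curve. -/
theorem isHDer_mapD (hφ : IsCurve 𝒜 d φ) (D : Derivation ℂ κ κ) :
    IsHDer 𝒜 d φ 0 ((mapD D : Derivation ℂ _ _).toLinearMap ∘ₗ φ.toLinearMap) where
  der r s := by
    change mapD D (φ (r * s)) = φ r * mapD D (φ s) + φ s * mapD D (φ r)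
    rw [map_mul, Derivation.leibniz, smul_eq_mul, smul_eq_mul]
  homog k r hr m hm := by
    have h1 : d * k = m := by
      have : ((d * k : ℕ) : ℤ) = d * k := by push_cast; ring
      omega
    have h := hφ.degree k r hr
    rw [h1] at h
    intro a ha
    apply h
    intro h0
    apply ha
    change coeff a (mapD D (φ r)) = 0
    rw [coeff_mapD, h0, map_zero]
  neg k hk r hr := by
    have : ((d * k : ℕ) : ℤ) = d * k := by push_cast; ring
    omega

end C4

section C5

variable {κ : Type v} [Field κ] [Algebra ℂ κ] {d : ℕ}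
  {φ : R →ₐ[ℂ] MvPolynomial (Fin 2) κ}

/-- Division by the variable `X i`. -/
noncomputable def C4_divL (κ : Type v) [Field κ] [Algebra ℂ κ] (i : Fin 2) :
    MvPolynomial (Fin 2) κ →ₗ[ℂ] MvPolynomial (Fin 2) κ where
  toFun p := divMonomial p (Finsupp.single i 1)
  map_add' p q := by
    ext m
    simp only [coeff_divMonomial, coeff_add]
  map_smul' c p := by
    ext m
    simp only [coeff_divMonomial, coeff_smul, RingHom.id_apply]

theorem C4_coeff_divL (i : Fin 2) (p : MvPolynomial (Fin 2) κ) (m : Fin 2 →₀ ℕ) :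
    coeff m (C4_divL κ i p) = coeff (Finsupp.single i 1 + m) p := by
  simp [C4_divL, coeff_divMonomial]

theorem C4_X_mul_divL {i : Fin 2} {p : MvPolynomial (Fin 2) κ} (h : X i ∣ p) :
    X i * C4_divL κ i p = p := by
  obtain ⟨q, rfl⟩ := h
  congr 1
  simp only [C4_divL, LinearMap.coe_mk, AddHom.coe_mk]
  exact X_mul_divMonomial i q

/-- The point where only the `i`-th coordinate vanishes. -/
def C4_pt (κ : Type v) [Field κ] (i : Fin 2) : Fin 2 → κ := fun j => if j = i then 0 else 1

omit [Algebra ℂ κ] in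
theorem C4_eval_monomial (i : Fin 2) (m : Fin 2 →₀ ℕ) (c : κ) :
    eval (C4_pt κ i) (monomial m c) = if m i = 0 then c else 0 := by
  rw [eval_monomial, Finsupp.prod_fintype _ _ (fun _ => pow_zero _)]
  fin_cases i <;> simp [C4_pt, zero_pow_eq]

omit [Algebra ℂ κ] in
theorem C4_dvd {i : Fin 2} {m : ℕ} {p : MvPolynomial (Fin 2) κ} (hp : p.IsHomogeneous m)
    (h : eval (C4_pt κ i) p = 0) : X i ∣ p := by
  classical
  rw [X_dvd_iff_modMonomial_eq_zero]
  ext a
  rw [coeff_zero]
  by_cases ha : Finsupp.single i 1 ≤ a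
  · exact coeff_modMonomial_of_le p ha
  · rw [coeff_modMonomial_of_not_le p ha]
    by_contra hc
    have hai : a i = 0 := by
      by_contra h0
      apply ha
      rw [Finsupp.single_le_iff]
      omega
    have hdeg : ∀ b : Fin 2 →₀ ℕ, b ∈ p.support → b i = 0 → b = a := by
      intro b hb hbi
      have h1 := hp (mem_support_iff.1 hb)
      have h2 := hp hc
      rw [Finsupp.weight_apply, Finsupp.sum_fintype _ _ (by simp)] at h1 h2
      simp only [Pi.one_apply, smul_eq_mul, mul_one, Fin.sum_univ_two] at h1 h2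
      ext j
      fin_cases i <;> fin_cases j <;> simp at hai hbi ⊢ <;> omega
    apply hc
    have h3 : eval (C4_pt κ i) p = coeff a p := by
      conv_lhs => rw [p.as_sum]
      rw [map_sum, Finset.sum_eq_single a]
      · rw [C4_eval_monomial, if_pos hai]
      · intro b hb hba
        rw [C4_eval_monomial, if_neg]
        exact fun h0 => hba (hdeg b hb h0)
      · intro h0
        rw [C4_eval_monomial, if_pos hai]
        exact notMem_support_iff.1 h0
    rw [← h3, h]

theorem C4_div {e : ℤ} {δ : R →ₗ[ℂ] MvPolynomial (Fin 2) κ}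
    (h1 : IsHDer 𝒜 d φ e δ) (i : Fin 2) (h0 : ∀ r, eval (C4_pt κ i) (δ r) = 0) :
    ∃ δ', IsHDer 𝒜 d φ (e - 1) δ' ∧ ∀ r, δ r = X i * δ' r := by
  classical
  have hdvd : ∀ r, X i ∣ δ r := by
    intro r
    induction r using DirectSum.Decomposition.inductionOn 𝒜 with
    | zero => rw [map_zero]; exact dvd_zero _
    | @homogeneous k r =>
      by_cases hk : (d * k + e : ℤ) < 0
      · rw [h1.neg k hk r r.2]; exact dvd_zero _
      · push Not at hk
        obtain ⟨m, hm⟩ := Int.eq_ofNat_of_zero_le hk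
        exact C4_dvd (h1.homog k r r.2 m hm.symm) (h0 r)
    | add r s hr hs => rw [map_add]; exact dvd_add hr hs
  have hmul : ∀ r, δ r = X i * C4_divL κ i (δ r) := fun r => (C4_X_mul_divL (hdvd r)).symm
  refine ⟨C4_divL κ i ∘ₗ δ, ⟨fun r s => ?_, fun k r hr m hm => ?_, fun k hk r hr => ?_⟩,
    fun r => hmul r⟩
  · have hX : (X i : MvPolynomial (Fin 2) κ) ≠ 0 := X_ne_zero i
    apply mul_left_cancel₀ hX
    simp only [LinearMap.comp_apply]
    rw [← hmul, h1.der, mul_add, mul_left_comm, ← hmul, mul_left_comm, ← hmul]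
  · intro a ha
    simp only [LinearMap.comp_apply] at ha
    rw [C4_coeff_divL] at ha
    have h2 := h1.homog k r hr (m + 1) (by push_cast; omega) ha
    rw [map_add, Finsupp.weight_single] at h2
    simp only [Pi.one_apply, smul_eq_mul, mul_one] at h2
    omega
  · simp only [LinearMap.comp_apply]
    by_cases hk' : (d * k + e : ℤ) < 0
    · rw [h1.neg k hk' r hr, map_zero]
    · have h3 := h1.homog k r hr 0 (by push_cast; omega)
      ext a
      rw [C4_coeff_divL, coeff_zero]
      by_contra hc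
      have h2 := h3 hc
      rw [map_add, Finsupp.weight_single] at h2
      simp only [Pi.one_apply, smul_eq_mul, mul_one] at h2
      omega

/-- C5: division by a linear form: a derivation over `φ` of degree `e` vanishing at `(1, 0)` is
`X 1` times one of degree `e - 1`. -/
theorem exists_div_X_one (_hφ : IsCurve 𝒜 d φ) {e : ℤ} {δ : R →ₗ[ℂ] MvPolynomial (Fin 2) κ}
    (h1 : IsHDer 𝒜 d φ e δ) (h0 : ∀ r, eval ![1, 0] (δ r) = 0) :
    ∃ δ', IsHDer 𝒜 d φ (e - 1) δ' ∧ ∀ r, δ r = X 1 * δ' r := by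
  have hpt : C4_pt κ 1 = ![1, 0] := by
    funext j
    fin_cases j <;> simp [C4_pt]
  exact C4_div h1 1 fun r => by rw [hpt]; exact h0 r

theorem exists_div_X_zero (_hφ : IsCurve 𝒜 d φ) {e : ℤ} {δ : R →ₗ[ℂ] MvPolynomial (Fin 2) κ}
    (h1 : IsHDer 𝒜 d φ e δ) (h0 : ∀ r, eval ![0, 1] (δ r) = 0) :
    ∃ δ', IsHDer 𝒜 d φ (e - 1) δ' ∧ ∀ r, δ r = X 0 * δ' r := by
  have hpt : C4_pt κ 0 = ![0, 1] := by
    funext j
    fin_cases j <;> simp [C4_pt]
  exact C4_div h1 0 fun r => by rw [hpt]; exact h0 r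

end C5

end Vale.Agent.P292
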