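import Vale.Agent.P292.K.C1H
import Vale.Agent.P292.K.C4
import Vale.Agent.P292.K.BClosed

/-! # P292 K-plan, V0, V1, V2: the constant `b` and the first variation. -/

namespace Vale.Agent.P292

open MvPolynomial TensorProduct

universe u v w

/-! ### extension of derivations (formally etale case) -/

section Der

variable {κ A Ω : Type*} [CommRing κ] [CommRing A] [CommRing Ω] [Algebra κ A] [Algebra A Ω]
  [Algebra κ Ω] [IsScalarTower κ A Ω] [Algebra.FormallyEtale A Ω]

theorem v1_exists_der (d : Derivation κ A Ω) :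
    ∃ D : Derivation κ Ω Ω, ∀ x, D (algebraMap A Ω x) = d x := by
  have hb : IsBaseChange Ω (KaehlerDifferential.map κ κ A Ω) :=
    KaehlerDifferential.isBaseChange_of_formallyEtale κ A Ω
  refine ⟨(hb.lift d.liftKaehlerDifferential).compDer (KaehlerDifferential.D κ Ω), fun x => ?_⟩
  have h1 := hb.lift_eq d.liftKaehlerDifferential (KaehlerDifferential.D κ A x)
  rw [KaehlerDifferential.map_D, Derivation.liftKaehlerDifferential_comp_D] at h1
  exact h1

theorem v1_der_ext (D₁ D₂ : Derivation κ Ω Ω)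
    (h : ∀ x : A, D₁ (algebraMap A Ω x) = D₂ (algebraMap A Ω x)) : D₁ = D₂ := by
  have hb : IsBaseChange Ω (KaehlerDifferential.map κ κ A Ω) :=
    KaehlerDifferential.isBaseChange_of_formallyEtale κ A Ω
  have h1 : D₁.liftKaehlerDifferential = D₂.liftKaehlerDifferential := by
    refine hb.algHom_ext' _ _ ?_
    refine Derivation.liftKaehlerDifferential_unique _ _ ?_
    ext x
    have h2 := h x
    rw [← Derivation.liftKaehlerDifferential_comp_D D₁,
      ← Derivation.liftKaehlerDifferential_comp_D D₂] at h2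
    simpa using h2
  ext x
  rw [← Derivation.liftKaehlerDifferential_comp_D D₁,
    ← Derivation.liftKaehlerDifferential_comp_D D₂, h1]

end Der

/-! ### general facts on coefficientwise derivations -/

section gen

variable {κ : Type v} [Field κ] [Algebra ℂ κ]

theorem mapD_C (D : Derivation ℂ κ κ) (c : κ) : mapD D (C c) = C (D c) := by
  classical
  ext m
  rw [coeff_mapD, coeff_C, coeff_C]
  split_ifs with h
  · rfl
  · exact map_zero _

theorem mapD_X (D : Derivation ℂ κ κ) (i : Fin 2) : mapD D (X i) = 0 := by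
  classical
  ext m
  rw [coeff_mapD, coeff_X, coeff_zero]
  split_ifs with h
  · exact D.map_one_eq_zero
  · exact map_zero _

theorem mapD_pderiv (D : Derivation ℂ κ κ) (i : Fin 2) (p : MvPolynomial (Fin 2) κ) :
    mapD D (pderiv i p) = pderiv i (mapD D p) := by
  classical
  induction p using MvPolynomial.induction_on with
  | C c => simp [mapD_C]
  | add p q hp hq => simp [hp, hq]
  | mul_X p j hp =>
    have h1 : mapD D (pderiv i (X j : MvPolynomial (Fin 2) κ)) = 0 := by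
      rw [pderiv_X, Pi.single_apply]
      split_ifs
      · exact (mapD D).map_one_eq_zero
      · exact map_zero _
    simp only [Derivation.leibniz, map_add, mapD_X, h1, hp, smul_eq_mul, mul_zero, zero_add,
      add_zero]
    ring

omit [Algebra ℂ κ] in
theorem pderiv_comm (i j : Fin 2) (p : MvPolynomial (Fin 2) κ) :
    pderiv i (pderiv j p) = pderiv j (pderiv i p) := by
  classical
  have h : ⁅(pderiv i : Derivation κ (MvPolynomial (Fin 2) κ) (MvPolynomial (Fin 2) κ)),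
      (pderiv j : Derivation κ (MvPolynomial (Fin 2) κ) (MvPolynomial (Fin 2) κ))⁆ = 0 := by
    refine MvPolynomial.derivation_ext fun k => ?_
    rw [Derivation.commutator_apply, pderiv_X, pderiv_X, Pi.single_apply, Pi.single_apply]
    split_ifs <;> simp
  have h2 := congrArg (fun D : Derivation κ (MvPolynomial (Fin 2) κ) (MvPolynomial (Fin 2) κ) =>
    D p) h
  simp only [Derivation.commutator_apply, Derivation.zero_apply] at h2
  exact sub_eq_zero.1 h2

theorem eval_mapD (D : Derivation ℂ κ κ) (a : Fin 2 → κ) (ha : ∀ i, D (a i) = 0)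
    (p : MvPolynomial (Fin 2) κ) : eval a (mapD D p) = D (eval a p) := by
  induction p using MvPolynomial.induction_on with
  | C c => simp [mapD_C]
  | add p q hp hq => simp [hp, hq]
  | mul_X p j hp =>
    rw [Derivation.leibniz, mapD_X]
    simp only [smul_eq_mul, mul_zero, zero_add, map_mul, eval_X, hp, Derivation.leibniz, ha]

theorem eval_mapD_10 (D : Derivation ℂ κ κ) (p : MvPolynomial (Fin 2) κ) :
    eval ![1, 0] (mapD D p) = D (eval ![1, 0] p) := by
  refine eval_mapD D _ (fun i => ?_) p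
  fin_cases i
  · exact D.map_one_eq_zero
  · exact map_zero _

theorem eval_mapD_01 (D : Derivation ℂ κ κ) (p : MvPolynomial (Fin 2) κ) :
    eval ![0, 1] (mapD D p) = D (eval ![0, 1] p) := by
  refine eval_mapD D _ (fun i => ?_) p
  fin_cases i
  · exact map_zero _
  · exact D.map_one_eq_zero

omit [Algebra ℂ κ] in
theorem pderiv_of_homog_one {p : MvPolynomial (Fin 2) κ} (hp : p.IsHomogeneous 1) :
    pderiv 0 p = C (eval ![1, 0] p) ∧ pderiv 1 p = C (eval ![0, 1] p) := by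
  have he := hp.sum_X_mul_pderiv
  rw [Fin.sum_univ_two, one_nsmul] at he
  have h0 : (pderiv 0 p).IsHomogeneous 0 := hp.pderiv
  have h1 : (pderiv 1 p).IsHomogeneous 0 := hp.pderiv
  have h0' := totalDegree_eq_zero_iff_eq_C.1 (Nat.le_zero.1 h0.totalDegree_le)
  have h1' := totalDegree_eq_zero_iff_eq_C.1 (Nat.le_zero.1 h1.totalDegree_le)
  constructor
  · rw [h0']
    congr 1
    have := congrArg (eval ![1, 0]) he
    rw [h0', h1'] at this
    simpa using this
  · rw [h1']
    congr 1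
    have := congrArg (eval ![0, 1]) he
    rw [h0', h1'] at this
    simpa using this

end gen

section
variable {R : Type u} [CommRing R] [Algebra ℂ R] {𝒜 : ℕ → Submodule ℂ R} [GradedAlgebra 𝒜]
  {P : R →ₗ[ℂ] R →ₗ[ℂ] R}

omit [GradedAlgebra 𝒜] in
theorem IsCurve.isNV_pt {κ : Type v} [Field κ] [Algebra ℂ κ] {d : ℕ}
    {φ : R →ₐ[ℂ] MvPolynomial (Fin 2) κ} (hφ : IsCurve 𝒜 d φ) {a : Fin 2 → κ} (ha : a ≠ 0) :
    IsNV 𝒜 (pt φ a) := by
  obtain ⟨k, hk, r, hr, h⟩ := hφ.bpf a ha
  exact ⟨k, hk, r, hr, h⟩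

theorem vec10_ne {κ : Type v} [Field κ] : (![1, 0] : Fin 2 → κ) ≠ 0 := fun h => by
  have := congrFun h 0
  simp at this

theorem vec01_ne {κ : Type v} [Field κ] : (![0, 1] : Fin 2 → κ) ≠ 0 := fun h => by
  have := congrFun h 1
  simp at this

theorem IsDer.evL {κ : Type v} [Field κ] [Algebra ℂ κ] {φ : R →ₐ[ℂ] MvPolynomial (Fin 2) κ}
    {δ : R →ₗ[ℂ] MvPolynomial (Fin 2) κ} (h : IsDer φ δ) (a : Fin 2 → κ) :
    IsDer (pt φ a) (P292.evL a δ) := fun r s => by
  simp [h r s]

section closed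

variable {κ : Type v} [Field κ] [IsAlgClosed κ] [Algebra ℂ κ] {d : ℕ}
  {φ : R →ₐ[ℂ] MvPolynomial (Fin 2) κ}

/-- closedness of the symplectic form, along a moving curve -/
theorem curve_closed (hX : IsContactFano 𝒜 P) (hφ : IsCurve 𝒜 d φ) (D : Derivation ℂ κ κ) :
    mapD D (omC P φ (pd φ 0) (pd φ 1)) =
      pderiv 0 (omC P φ ((mapD D : Derivation ℂ _ _).toLinearMap ∘ₗ φ.toLinearMap) (pd φ 1)) -
      pderiv 1 (omC P φ ((mapD D : Derivation ℂ _ _).toLinearMap ∘ₗ φ.toLinearMap)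
        (pd φ 0)) := by
  classical
  let A := MvPolynomial (Fin 2) κ
  let K := FractionRing A
  have : Algebra.FormallyEtale A K := Algebra.FormallyEtale.of_isLocalization (nonZeroDivisors A)
  let j : A →ₐ[ℂ] K := IsScalarTower.toAlgHom ℂ A K
  have hj : ∀ p, j p = algebraMap A K p := fun p => rfl
  let E0 : Derivation ℂ A A := mapD D
  let E1 : Derivation ℂ A A := (pderiv 0 : Derivation κ A A).restrictScalars ℂ
  let E2 : Derivation ℂ A A := (pderiv 1 : Derivation κ A A).restrictScalars ℂ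
  obtain ⟨D0, hD0⟩ := v1_exists_der ((Algebra.linearMap A K).compDer E0)
  obtain ⟨D1, hD1⟩ := v1_exists_der ((Algebra.linearMap A K).compDer E1)
  obtain ⟨D2, hD2⟩ := v1_exists_der ((Algebra.linearMap A K).compDer E2)
  have g0 : ∀ p : A, D0 (algebraMap A K p) = algebraMap A K (mapD D p) := hD0
  have g1 : ∀ p : A, D1 (algebraMap A K p) = algebraMap A K (pderiv 0 p) := hD1
  have g2 : ∀ p : A, D2 (algebraMap A K p) = algebraMap A K (pderiv 1 p) := hD2
  have comm : ∀ (F G : Derivation ℂ K K), (∀ p : A, F (G (algebraMap A K p)) =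
      G (F (algebraMap A K p))) → ∀ e, F (G e) = G (F e) := by
    intro F G h e
    have h1 : ⁅F, G⁆ = 0 := by
      refine v1_der_ext (A := A) _ _ fun p => ?_
      rw [Derivation.commutator_apply, Derivation.zero_apply, h, sub_self]
    have h2 := congrArg (fun D : Derivation ℂ K K => D e) h1
    simp only [Derivation.commutator_apply, Derivation.zero_apply] at h2
    exact sub_eq_zero.1 h2
  have c01 : ∀ e, D0 (D1 e) = D1 (D0 e) := comm _ _ fun p => by
    rw [g1, g0, g0, g1, mapD_pderiv]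
  have c02 : ∀ e, D0 (D2 e) = D2 (D0 e) := comm _ _ fun p => by
    rw [g2, g0, g0, g2, mapD_pderiv]
  have c12 : ∀ e, D1 (D2 e) = D2 (D1 e) := comm _ _ fun p => by
    rw [g2, g1, g1, g2, pderiv_comm]
  have hx : IsNV 𝒜 (j.comp φ) := by
    obtain ⟨k, hk, r, hr, h⟩ := hφ.bpf ![1, 0] vec10_ne
    refine ⟨k, hk, r, hr, ?_⟩
    rw [AlgHom.comp_apply, hj]
    intro h0
    rw [(injective_iff_map_eq_zero _).1 (IsFractionRing.injective A K) _ h0, map_zero] at h
    exact h rfl
  have a0 : alongAt (j.comp φ) D0 = j.toLinearMap ∘ₗ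
      ((mapD D : Derivation ℂ _ _).toLinearMap ∘ₗ φ.toLinearMap) := by
    ext r
    exact g0 _
  have a1 : alongAt (j.comp φ) D1 = j.toLinearMap ∘ₗ (pd φ 0) := by
    ext r
    exact g1 _
  have a2 : alongAt (j.comp φ) D2 = j.toLinearMap ∘ₗ (pd φ 1) := by
    ext r
    exact g2 _
  have h := om_closed hX hx D0 D1 D2 c01 c02 c12
  rw [om_antisymm hX hx (isDer_alongAt _ D2) (isDer_alongAt _ D0), a0, a1, a2,
    omC_spec hX hφ (isHDer_pd hφ 0) (isHDer_pd hφ 1) j hx,
    omC_spec hX hφ (isHDer_mapD hφ D) (isHDer_pd hφ 1) j hx,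
    omC_spec hX hφ (isHDer_mapD hφ D) (isHDer_pd hφ 0) j hx, hj, hj, hj, map_neg, g0, g1, g2,
    ← map_neg, ← map_add, ← map_add] at h
  have h' := (injective_iff_map_eq_zero _).1 (IsFractionRing.injective A K) _ h
  linear_combination h'

end closed

section conic
variable {Ω : Type v} [Field Ω] [IsAlgClosed Ω] [Algebra ℂ Ω] {w : R →ₐ[ℂ] ℂ}
  {φ : R →ₐ[ℂ] MvPolynomial (Fin 2) Ω}

/-- V0: the constant `b`. -/
theorem exists_b (hX : IsContactFano 𝒜 P) (hφ : IsCurve 𝒜 2 φ) :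
    ∃ b : Ω, omC P φ (pd φ 0) (pd φ 1) = C b := by
  have h := omC_homog hX hφ (isHDer_pd hφ 0) (isHDer_pd hφ 1) (m := 0) (by norm_num)
  exact ⟨_, (totalDegree_eq_zero_iff_eq_C.1 (Nat.le_zero.1 h.totalDegree_le))⟩

omit [IsAlgClosed Ω] in
theorem evL_mapD_01 (φ : R →ₐ[ℂ] MvPolynomial (Fin 2) Ω) (D : Derivation ℂ Ω Ω) :
    evL ![0, 1] ((mapD D : Derivation ℂ _ _).toLinearMap ∘ₗ φ.toLinearMap) =
      alongAt (pt φ ![0, 1]) D := by
  ext r
  rw [evL_apply, alongAt_apply, pt_apply]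
  exact eval_mapD_01 D _

omit [IsAlgClosed Ω] in
theorem evL_mapD_10' (φ : R →ₐ[ℂ] MvPolynomial (Fin 2) Ω) (D : Derivation ℂ Ω Ω) :
    evL ![1, 0] ((mapD D : Derivation ℂ _ _).toLinearMap ∘ₗ φ.toLinearMap) =
      alongAt (pt φ ![1, 0]) D := by
  ext r
  rw [evL_apply, alongAt_apply, pt_apply]
  exact eval_mapD_10 D _

omit [IsAlgClosed Ω] [GradedAlgebra 𝒜] in
theorem GenConicAt.kill_left (hφ : GenConicAt 𝒜 w φ) (D : Derivation ℂ Ω Ω) (r : R) :
    D (pt φ ![1, 0] r) = 0 := by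
  rw [hφ.left, Derivation.map_algebraMap]

omit [IsAlgClosed Ω] [GradedAlgebra 𝒜] in
theorem evL_mapD_10 (hφ : GenConicAt 𝒜 w φ) (D : Derivation ℂ Ω Ω) :
    evL ![1, 0] ((mapD D : Derivation ℂ _ _).toLinearMap ∘ₗ φ.toLinearMap) = 0 := by
  rw [evL_mapD_10']
  ext r
  exact hφ.kill_left D r

/-- V1, general form: first variation for a derivation which kills the left end point. -/
theorem first_variation' (hX : IsContactFano 𝒜 P) (hc : IsCurve 𝒜 2 φ) {b : Ω}
    (hb : omC P φ (pd φ 0) (pd φ 1) = C b) (D : Derivation ℂ Ω Ω)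
    (hD0 : ∀ r, D (pt φ ![1, 0] r) = 0) :
    D b = om P (pt φ ![0, 1]) (evL ![0, 1] (pd φ 0)) (alongAt (pt φ ![0, 1]) D) := by
  have hD := isHDer_mapD hc D
  have h0 := isHDer_pd hc 0
  have h1 := isHDer_pd hc 1
  have h := curve_closed hX hc D
  rw [hb, mapD_C] at h
  have d0 : (omC P φ ((mapD D : Derivation ℂ _ _).toLinearMap ∘ₗ φ.toLinearMap)
      (pd φ 0)).IsHomogeneous 1 := omC_homog hX hc hD h0 (by norm_num)
  have d1 : (omC P φ ((mapD D : Derivation ℂ _ _).toLinearMap ∘ₗ φ.toLinearMap)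
      (pd φ 1)).IsHomogeneous 1 := omC_homog hX hc hD h1 (by norm_num)
  have hz0 : alongAt (pt φ ![1, 0]) D = 0 := LinearMap.ext hD0
  rw [(pderiv_of_homog_one d1).1, (pderiv_of_homog_one d0).2,
    ← omC_eval hX hc hD h1 _ vec10_ne, ← omC_eval hX hc hD h0 _ vec01_ne, evL_mapD_10', hz0,
    evL_mapD_01, ← map_sub] at h
  have h' := C_injective _ _ h
  have hz : om P (pt φ ![1, 0]) 0 (evL ![1, 0] (pd φ 1)) = 0 := by
    have := om_smul_left hX (hc.isNV_pt vec10_ne) (h1.der.evL ![1, 0]) (h1.der.evL ![1, 0]) (0 : Ω)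
    rwa [zero_smul, zero_mul] at this
  rw [h', hz, om_antisymm hX (hc.isNV_pt vec01_ne) (isDer_alongAt _ D) (h0.der.evL _)]
  ring

/-- V2, general form. -/
theorem first_variation_ham' (hX : IsContactFano 𝒜 P) (hc : IsCurve 𝒜 2 φ) {b : Ω}
    (hb : omC P φ (pd φ 0) (pd φ 1) = C b) (D : Derivation ℂ Ω Ω)
    (hD0 : ∀ r, D (pt φ ![1, 0] r) = 0) (r : R)
    (hD : ∀ s, D (pt φ ![0, 1] s) = pt φ ![0, 1] (P r s)) :
    D b = - eval ![0, 1] (pderiv 0 (φ r)) := by
  have h0 := isHDer_pd hc 0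
  have ha : alongAt (pt φ ![0, 1]) D = hamAt P (pt φ ![0, 1]) r := by
    ext s
    rw [alongAt_apply, hamAt_apply, hD]
  have hd : IsDer (pt φ ![0, 1]) (hamAt P (pt φ ![0, 1]) r) := ha ▸ isDer_alongAt _ D
  rw [first_variation' hX hc hb D hD0, ha, om_antisymm hX (hc.isNV_pt vec01_ne) (h0.der.evL _) hd,
    om_ham hX (hc.isNV_pt vec01_ne) (h0.der.evL _), evL_apply, pd_apply]

/-- V1: first variation. -/
theorem first_variation (hX : IsContactFano 𝒜 P) (hφ : GenConicAt 𝒜 w φ) {b : Ω}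
    (hb : omC P φ (pd φ 0) (pd φ 1) = C b) (D : Derivation ℂ Ω Ω) :
    D b = om P (pt φ ![0, 1]) (evL ![0, 1] (pd φ 0)) (alongAt (pt φ ![0, 1]) D) :=
  first_variation' hX hφ.curve hb D (hφ.kill_left D)

/-- V2: first variation in Hamiltonian directions. -/
theorem first_variation_ham (hX : IsContactFano 𝒜 P) (hφ : GenConicAt 𝒜 w φ) {b : Ω}
    (hb : omC P φ (pd φ 0) (pd φ 1) = C b) (D : Derivation ℂ Ω Ω) (r : R)
    (hD : ∀ s, D (pt φ ![0, 1] s) = pt φ ![0, 1] (P r s)) :
    D b = - eval ![0, 1] (pderiv 0 (φ r)) :=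
  first_variation_ham' hX hφ.curve hb D (hφ.kill_left D) r hD

end conic
end

end Vale.Agent.P292
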