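import Vale.Agent.P292.K.Q2Defs
import Vale.Agent.P292.K.V1
import Vale.Agent.P292.K.ChartKD

set_option linter.all false

/-! # Q2 part I, block D: curves with a maximal field of definition; every deformation of such a
curve comes from a derivation of the field. -/

namespace Vale.Agent.P292

open MvPolynomial

universe u v w

section cfs

variable {R : Type u} [CommRing R] [Algebra ℂ R]

/-- The algebra generated by the coefficients of a family of curves. -/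
noncomputable def cfs {A : Type v} [CommRing A] [Algebra ℂ A]
    (Φ : R →ₐ[ℂ] MvPolynomial (Fin 2) A) : Subalgebra ℂ A :=
  Algebra.adjoin ℂ {c | ∃ r m, c = coeff m (Φ r)}

theorem coeff_mem_cfs {A : Type v} [CommRing A] [Algebra ℂ A]
    (Φ : R →ₐ[ℂ] MvPolynomial (Fin 2) A) (r : R) (m : Fin 2 →₀ ℕ) : coeff m (Φ r) ∈ cfs Φ :=
  Algebra.subset_adjoin ⟨r, m, rfl⟩

/-- There are `n` algebraically independent elements in the algebra of the coefficients. -/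
def TrGE {A : Type v} [CommRing A] [Algebra ℂ A] (Φ : R →ₐ[ℂ] MvPolynomial (Fin 2) A) (n : ℕ) :
    Prop :=
  ∃ x : Fin n → A, (∀ i, x i ∈ cfs Φ) ∧ AlgebraicIndependent ℂ x

theorem cfs_le {A : Type v} [CommRing A] [Algebra ℂ A]
    (Φ : R →ₐ[ℂ] MvPolynomial (Fin 2) A) {s : Set R} (hs : Algebra.adjoin ℂ s = ⊤)
    (B : Subalgebra ℂ A) (hB : ∀ r ∈ s, ∀ m, coeff m (Φ r) ∈ B) : cfs Φ ≤ B := by
  classical
  refine Algebra.adjoin_le ?_
  rintro c ⟨r, m, rfl⟩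
  have hr : r ∈ Algebra.adjoin ℂ s := by rw [hs]; trivial
  have key : ∀ m, coeff m (Φ r) ∈ B := by
    induction hr using Algebra.adjoin_induction with
    | mem r hr => exact hB r hr
    | algebraMap c =>
      intro m
      rw [AlgHom.commutes, MvPolynomial.algebraMap_apply, coeff_C]
      split_ifs
      · exact B.algebraMap_mem c
      · exact B.zero_mem
    | add x y _ _ hx hy => intro m; rw [map_add, coeff_add]; exact B.add_mem (hx m) (hy m)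
    | mul x y _ _ hx hy =>
      intro m
      rw [map_mul, coeff_mul]
      exact B.sum_mem fun e _ => B.mul_mem (hx _) (hy _)
  exact key m

theorem trGE_map_iff {A : Type v} [CommRing A] [Algebra ℂ A] {Ω : Type w} [CommRing Ω]
    [Algebra ℂ Ω] (ι : A →ₐ[ℂ] Ω) (hι : Function.Injective ι)
    (Φ : R →ₐ[ℂ] MvPolynomial (Fin 2) A) (n : ℕ) (h : TrGE Φ n) :
    TrGE ((mapAlgHom ι).comp Φ) n := by
  obtain ⟨x, hx, hi⟩ := h
  refine ⟨ι ∘ x, fun i => ?_, hi.map' hι⟩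
  have h1 : (cfs Φ).map ι ≤ cfs ((mapAlgHom ι).comp Φ) := by
    rw [cfs, AlgHom.map_adjoin]
    refine Algebra.adjoin_mono ?_
    rintro _ ⟨_, ⟨r, m, rfl⟩, rfl⟩
    exact ⟨r, m, by simp [coeff_map]⟩
  exact h1 ⟨x i, hx i, rfl⟩

theorem trGE_le {𝒜 : ℕ → Submodule ℂ R} [GradedAlgebra 𝒜] {K : Type v} [Field K] [Algebra ℂ K]
    {φ : R →ₐ[ℂ] MvPolynomial (Fin 2) K} {d : ℕ}
    (hdeg : ∀ k, ∀ r ∈ 𝒜 k, (φ r).IsHomogeneous (d * k)) {s : Finset R}
    (hs : Algebra.adjoin ℂ (s : Set R) = ⊤) {n : ℕ} (h : TrGE φ n) :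
    n ≤ Fintype.card (Σ r : s, box (dbd 𝒜 d r.1)) := by
  classical
  obtain ⟨x, hx, hi⟩ := h
  let z : (Σ r : s, box (dbd 𝒜 d r.1)) → K := fun j => coeff j.2.1 (φ j.1.1)
  have h1 : cfs φ ≤ (aeval z : MvPolynomial _ ℂ →ₐ[ℂ] K).range := by
    refine cfs_le φ hs _ fun r hr m => ?_
    by_cases hm : m ∈ box (dbd 𝒜 d r)
    · refine ⟨X ⟨⟨r, hr⟩, ⟨m, hm⟩⟩, ?_⟩
      change aeval z (X _) = _
      rw [aeval_X]
    · rw [coeff_eq_zero_of_notMem_box hdeg r m hm]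
      exact Subalgebra.zero_mem _
  choose y hy using fun i => h1 (hx i)
  have h2 : AlgebraicIndependent ℂ y := by
    refine AlgebraicIndependent.of_comp (aeval z : MvPolynomial _ ℂ →ₐ[ℂ] K) ?_
    have : (aeval z : MvPolynomial _ ℂ →ₐ[ℂ] K) ∘ y = x := funext fun i => hy i
    rw [this]
    exact hi
  have h3 := h2.lift_cardinalMk_le_trdeg
  rw [MvPolynomial.trdeg_of_isDomain] at h3
  simp only [Cardinal.lift_natCast, Cardinal.mk_fintype, Fintype.card_fin] at h3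
  exact_mod_cast h3

end cfs

section arc

variable {R : Type u} [CommRing R] [Algebra ℂ R]

/-- The reduction of a family over power series with the same transcendence degree is injective
on the algebra of coefficients. -/
theorem cfs_reduction_injective {A : Type v} [CommRing A] [IsDomain A] [Algebra ℂ A]
    {K : Type w} [CommRing K] [Algebra ℂ K] (π : A →ₐ[ℂ] K)
    (Φ : R →ₐ[ℂ] MvPolynomial (Fin 2) A) {n : ℕ} (hn : TrGE ((mapAlgHom π).comp Φ) n)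
    (hmax : ¬ TrGE Φ (n + 1)) (z : A) (hz : z ∈ cfs Φ) (hπ : π z = 0) : z = 0 := by
  classical
  by_contra hz0
  obtain ⟨x, hx, hi⟩ := hn
  have h1 : cfs ((mapAlgHom π).comp Φ) ≤ (cfs Φ).map π := by
    rw [cfs, cfs, AlgHom.map_adjoin]
    refine Algebra.adjoin_mono ?_
    rintro _ ⟨r, m, rfl⟩
    exact ⟨coeff m (Φ r), ⟨r, m, rfl⟩, by simp [coeff_map]⟩
  choose y hy using fun i => h1 (hx i)
  have hyx : π ∘ y = x := funext fun i => (hy i).2
  have h2 : AlgebraicIndependent ℂ y := by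
    refine AlgebraicIndependent.of_comp π ?_
    rw [hyx]
    exact hi
  have h3 : ¬ AlgebraicIndependent ℂ (fun o : Option (Fin n) => o.elim z y) := by
    intro h4
    refine hmax ⟨fun i => (fun o : Option (Fin n) => o.elim z y) (finSuccEquiv n i), fun i => ?_,
      h4.comp _ (finSuccEquiv n).injective⟩
    change ((finSuccEquiv n i).elim z y) ∈ cfs Φ
    rcases finSuccEquiv n i with _ | j
    · exact hz
    · exact (hy j).1
  rw [h2.option_iff_transcendental, Transcendental, not_not] at h3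
  obtain ⟨q, hq0, hq⟩ := h3.exists_nonzero_coeff_and_aeval_eq_zero
    (mem_nonZeroDivisors_of_ne_zero hz0)
  -- apply the reduction
  have h5 : π (q.coeff 0 : A) = 0 := by
    have h6 : (Polynomial.aeval z q : A) = (q.coeff 0 : A) + z * Polynomial.aeval z q.divX := by
      conv_lhs => rw [← Polynomial.divX_mul_X_add q]
      rw [map_add, map_mul, Polynomial.aeval_X, Polynomial.aeval_C]
      rw [add_comm, mul_comm]
      rfl
    rw [h6] at hq
    have h7 := congrArg π hq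
    rwa [map_add, map_mul, hπ, zero_mul, add_zero, map_zero] at h7
  have h8 : (q.coeff 0 : A) ∈ (aeval y : MvPolynomial (Fin n) ℂ →ₐ[ℂ] A).range := by
    rw [← Algebra.adjoin_range_eq_range_aeval]
    exact (q.coeff 0).2
  obtain ⟨p, hp⟩ := h8
  have h9 : aeval x p = 0 := by
    rw [← hyx]
    have : aeval (π ∘ y) p = π (aeval y p) := by
      rw [← AlgHom.comp_apply, comp_aeval]
      rfl
    rw [this]
    rw [← h5, ← hp]
    rfl
  have h10 : p = 0 := by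
    have := hi
    rw [algebraicIndependent_iff] at this
    exact this p h9
  apply hq0
  apply Subtype.ext
  rw [← hp, h10]
  simp

/-- The derivation of the field defined by an arc with the same transcendence degree. -/
theorem exists_derivation_of_arc {K : Type v} [Field K] [Algebra ℂ K]
    {φ : R →ₐ[ℂ] MvPolynomial (Fin 2) K} {δ : R →ₗ[ℂ] MvPolynomial (Fin 2) K}
    (Φ : R →ₐ[ℂ] MvPolynomial (Fin 2) (PowerSeries K))
    (h0 : ∀ r, map PowerSeries.constantCoeff (Φ r) = φ r)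
    (h1 : ∀ r m, PowerSeries.coeff 1 (coeff m (Φ r)) = coeff m (δ r)) {n : ℕ}
    (hn : TrGE φ n) (hmax : ¬ TrGE Φ (n + 1)) :
    ∃ D : Derivation ℂ K K, ∀ r, mapD D (φ r) = δ r := by
  classical
  let π : PowerSeries K →ₐ[ℂ] K :=
    { (PowerSeries.constantCoeff : PowerSeries K →+* K) with
      commutes' := fun c => by
        change PowerSeries.constantCoeff (algebraMap ℂ (PowerSeries K) c) = _
        rw [PowerSeries.algebraMap_apply, PowerSeries.constantCoeff_C] }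
  have hπ : ∀ f, π f = PowerSeries.constantCoeff f := fun f => rfl
  have hcomp : (mapAlgHom π).comp Φ = φ := by
    ext r : 1
    rw [← h0 r]
    rfl
  have hinj : ∀ f ∈ cfs Φ, ∀ g ∈ cfs Φ, π f = π g → f = g := by
    intro f hf g hg hfg
    rw [← sub_eq_zero]
    refine cfs_reduction_injective π Φ (n := n) (by rwa [hcomp]) hmax _ (sub_mem hf hg) ?_
    rw [map_sub, hfg, sub_self]
  have hlift : ∀ a : cfs φ, ∃ f ∈ cfs Φ, π f = (a : K) := by
    rintro ⟨a, ha⟩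
    have h2 : cfs φ ≤ (cfs Φ).map π := by
      rw [← hcomp, cfs, cfs, AlgHom.map_adjoin]
      refine Algebra.adjoin_mono ?_
      rintro _ ⟨r, m, rfl⟩
      exact ⟨coeff m (Φ r), ⟨r, m, rfl⟩, by simp [coeff_map]⟩
    obtain ⟨f, hf, hfa⟩ := h2 ha
    exact ⟨f, hf, hfa⟩
  choose L hL hLπ using hlift
  have hLmul : ∀ a b, L (a * b) = L a * L b := fun a b =>
    hinj _ (hL _) _ (mul_mem (hL _) (hL _)) (by rw [map_mul, hLπ, hLπ, hLπ]; rfl)
  have hLadd : ∀ a b, L (a + b) = L a + L b := fun a b =>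
    hinj _ (hL _) _ (add_mem (hL _) (hL _)) (by rw [map_add, hLπ, hLπ, hLπ]; rfl)
  have hLsmul : ∀ (c : ℂ) a, L (c • a) = c • L a := fun c a =>
    hinj _ (hL _) _ (Subalgebra.smul_mem _ (hL _) c) (by rw [map_smul, hLπ, hLπ]; rfl)
  let d : Derivation ℂ (cfs φ) K := Derivation.mk'
    { toFun := fun a => PowerSeries.coeff 1 (L a)
      map_add' := fun a b => by rw [hLadd, map_add]
      map_smul' := fun c a => by
        rw [hLsmul, RingHom.id_apply, Algebra.smul_def c (L a), PowerSeries.algebraMap_apply,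
          PowerSeries.coeff_C_mul, Algebra.smul_def] } (fun a b => by
    change PowerSeries.coeff 1 (L (a * b)) = a • PowerSeries.coeff 1 (L b) +
      b • PowerSeries.coeff 1 (L a)
    have e1 : PowerSeries.constantCoeff (L a) = (a : K) := hLπ a
    have e2 : PowerSeries.constantCoeff (L b) = (b : K) := hLπ b
    rw [hLmul, PowerSeries.coeff_one_mul, e1, e2, Subalgebra.smul_def, Subalgebra.smul_def,
      smul_eq_mul, smul_eq_mul]
    ring)
  have hd : ∀ a, d a = PowerSeries.coeff 1 (L a) := fun a => rfl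
  have : CharZero K := charZero_of_injective_algebraMap (algebraMap ℂ K).injective
  obtain ⟨D, hD⟩ := exists_derivation_extend (k := ℂ) (A := cfs φ) (E := K)
    Subtype.val_injective d
  refine ⟨D, fun r => ?_⟩
  ext m
  rw [coeff_mapD]
  have h2 := hD ⟨coeff m (φ r), coeff_mem_cfs φ r m⟩
  have h3 : L ⟨coeff m (φ r), coeff_mem_cfs φ r m⟩ = coeff m (Φ r) := by
    refine hinj _ (hL _) _ (coeff_mem_cfs Φ r m) ?_
    rw [hLπ, hπ]
    change coeff m (φ r) = _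
    rw [← h0 r, coeff_map]
  rw [hd, h3, h1] at h2
  exact h2

end arc

section classes

variable {R : Type u} [CommRing R] [Algebra ℂ R] {𝒜 : ℕ → Submodule ℂ R} [GradedAlgebra 𝒜]
  {P : R →ₗ[ℂ] R →ₗ[ℂ] R}

theorem q2d_exists_max (hX : IsContactFano 𝒜 P) {d : ℕ}
    (Cls : ∀ (Ω : Type u) [Field Ω] [IsAlgClosed Ω] [Algebra ℂ Ω],
      (R →ₐ[ℂ] MvPolynomial (Fin 2) Ω) → Prop)
    (hCls : ∀ (Ω : Type u) [Field Ω] [IsAlgClosed Ω] [Algebra ℂ Ω]
      (φ : R →ₐ[ℂ] MvPolynomial (Fin 2) Ω), Cls Ω φ → IsCurve 𝒜 d φ)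
    (hne : ∃ (Ω : Type u) (_ : Field Ω) (_ : IsAlgClosed Ω) (_ : Algebra ℂ Ω)
      (φ : R →ₐ[ℂ] MvPolynomial (Fin 2) Ω), Cls Ω φ) :
    ∃ (n : ℕ) (Ω : Type u) (_ : Field Ω) (_ : IsAlgClosed Ω) (_ : Algebra ℂ Ω)
      (φ : R →ₐ[ℂ] MvPolynomial (Fin 2) Ω), Cls Ω φ ∧ TrGE φ n ∧
      ∀ (Ω' : Type u) [Field Ω'] [IsAlgClosed Ω'] [Algebra ℂ Ω']
        (φ' : R →ₐ[ℂ] MvPolynomial (Fin 2) Ω'), Cls Ω' φ' → ¬ TrGE φ' (n + 1) := by
  classical
  have := hX.finiteType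
  obtain ⟨s, hs, -⟩ := exists_generators 𝒜 hX.connected
  by_contra hcon
  push Not at hcon
  have key : ∀ n : ℕ, ∃ (Ω : Type u) (_ : Field Ω) (_ : IsAlgClosed Ω) (_ : Algebra ℂ Ω)
      (φ : R →ₐ[ℂ] MvPolynomial (Fin 2) Ω), Cls Ω φ ∧ TrGE φ n := by
    intro n
    induction n with
    | zero =>
      obtain ⟨Ω, i1, i2, i3, φ, hφ⟩ := hne
      refine ⟨Ω, i1, i2, i3, φ, hφ, fun i => i.elim0, fun i => i.elim0, ?_⟩
      rw [algebraicIndependent_empty_type_iff]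
      exact (algebraMap ℂ Ω).injective
    | succ n ih =>
      obtain ⟨Ω, i1, i2, i3, φ, hφ, hn⟩ := ih
      obtain ⟨Ω', j1, j2, j3, φ', hφ', hn'⟩ := hcon n Ω i1 i2 i3 φ hφ hn
      exact ⟨Ω', j1, j2, j3, φ', hφ', hn'⟩
  obtain ⟨Ω, i1, i2, i3, φ, hφ, hn⟩ := key (Fintype.card (Σ r : s, box (dbd 𝒜 d r.1)) + 1)
  have := trGE_le (hCls Ω φ hφ).degree hs hn
  omega

/-- The algebraic closure of the field of Laurent series. -/
abbrev ArcField (K : Type u) [Field K] : Type u := AlgebraicClosure (FractionRing (PowerSeries K))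

/-- The embedding of the power series. -/
noncomputable def arcMap (K : Type u) [Field K] [Algebra ℂ K] :
    PowerSeries K →ₐ[ℂ] ArcField K :=
  IsScalarTower.toAlgHom ℂ (PowerSeries K) (ArcField K)

theorem arcMap_injective (K : Type u) [Field K] [Algebra ℂ K] :
    Function.Injective (arcMap K) := by
  have h1 : Function.Injective (algebraMap (PowerSeries K) (ArcField K)) := by
    rw [IsScalarTower.algebraMap_eq (PowerSeries K) (FractionRing (PowerSeries K)) (ArcField K)]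
    exact (algebraMap (FractionRing (PowerSeries K)) (ArcField K)).injective.comp
      (IsFractionRing.injective _ _)
  exact h1

/-- The generic member of an arc of curves is a curve. -/
theorem q2d_isCurve {K : Type u} [Field K] [IsAlgClosed K] [Algebra ℂ K] {d : ℕ}
    {φ : R →ₐ[ℂ] MvPolynomial (Fin 2) K} (hφ : IsCurve 𝒜 d φ)
    (Φ : R →ₐ[ℂ] MvPolynomial (Fin 2) (PowerSeries K))
    (hdeg : ∀ k, ∀ r ∈ 𝒜 k, (Φ r).IsHomogeneous (d * k))
    (h0 : ∀ r, map PowerSeries.constantCoeff (Φ r) = φ r) :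
    IsCurve 𝒜 d ((mapAlgHom (arcMap K)).comp Φ) := by
  classical
  let π : PowerSeries K →ₐ[ℂ] K :=
    { (PowerSeries.constantCoeff : PowerSeries K →+* K) with
      commutes' := fun c => by
        change PowerSeries.constantCoeff (algebraMap ℂ (PowerSeries K) c) = _
        rw [PowerSeries.algebraMap_apply, PowerSeries.constantCoeff_C] }
  have hcomp : (mapAlgHom π).comp Φ = φ := by
    ext r : 1
    rw [← h0 r]
    rfl
  have hp : (Ideal.span {(PowerSeries.X : PowerSeries K)}).IsPrime := by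
    rw [Ideal.span_singleton_prime PowerSeries.X_ne_zero]
    exact PowerSeries.X_prime
  obtain ⟨O, hO⟩ := exists_valuationSubring_prime (arcMap K : PowerSeries K →+* ArcField K)
    (arcMap_injective K) (Ideal.span {(PowerSeries.X : PowerSeries K)})
  refine IsCurve.of_reduction π (fun a => ⟨PowerSeries.C a, PowerSeries.constantCoeff_C a⟩)
    (arcMap K) O (fun a => (hO a).1) (fun a ha => ((hO a).2).1 ?_) Φ hdeg (by rwa [hcomp])
  rw [Ideal.mem_span_singleton, PowerSeries.X_dvd_iff]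
  exact ha

theorem q2d_pt {K : Type u} [Field K] [Algebra ℂ K]
    {φ : R →ₐ[ℂ] MvPolynomial (Fin 2) K}
    (Φ : R →ₐ[ℂ] MvPolynomial (Fin 2) (PowerSeries K))
    (h0 : ∀ r, map PowerSeries.constantCoeff (Φ r) = φ r) (a : Fin 2 → ℕ) (r : R) :
    ∃ f : PowerSeries K, PowerSeries.constantCoeff f = pt φ (fun i => (a i : K)) r ∧
      pt ((mapAlgHom (arcMap K)).comp Φ) (fun i => (a i : ArcField K)) r = arcMap K f := by
  refine ⟨eval (fun i => (a i : PowerSeries K)) (Φ r), ?_, ?_⟩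
  · rw [pt_apply, ← h0 r, eval_map, ← eval₂_id, hom_eval₂]
    congr 1
  · rw [pt_apply]
    change eval _ (map (arcMap K : PowerSeries K →+* ArcField K) (Φ r)) =
      (arcMap K : PowerSeries K →+* ArcField K) _
    rw [eval_map, ← eval₂_id, hom_eval₂]
    congr 1
    funext i
    exact (map_natCast _ _).symm

theorem q2d_vec10 {K : Type*} [Field K] : (fun i => ((![1, 0] : Fin 2 → ℕ) i : K)) = ![1, 0] := by
  funext i
  fin_cases i <;> simp

theorem q2d_vec01 {K : Type*} [Field K] : (fun i => ((![0, 1] : Fin 2 → ℕ) i : K)) = ![0, 1] := by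
  funext i
  fin_cases i <;> simp

theorem q2d_isAnch {K : Type u} [Field K] [IsAlgClosed K] [Algebra ℂ K] {d : ℕ}
    {φ : R →ₐ[ℂ] MvPolynomial (Fin 2) K} (hφ : IsAnch 𝒜 d φ)
    (Φ : R →ₐ[ℂ] MvPolynomial (Fin 2) (PowerSeries K))
    (hdeg : ∀ k, ∀ r ∈ 𝒜 k, (Φ r).IsHomogeneous (d * k))
    (h0 : ∀ r, map PowerSeries.constantCoeff (Φ r) = φ r) :
    IsAnch 𝒜 d ((mapAlgHom (arcMap K)).comp Φ) := by
  refine ⟨q2d_isCurve hφ.curve Φ hdeg h0, ?_⟩
  rw [injective_iff_map_eq_zero]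
  intro r hr
  obtain ⟨f, hf1, hf2⟩ := q2d_pt Φ h0 ![1, 0] r
  rw [q2d_vec10] at hf1 hf2
  rw [hf2, map_eq_zero_iff _ (arcMap_injective K)] at hr
  rw [hr, map_zero] at hf1
  exact (injective_iff_map_eq_zero (pt φ ![1, 0])).1 hφ.inj r hf1.symm

theorem q2d_nonProp {K : Type u} [Field K] [IsAlgClosed K] [Algebra ℂ K]
    {φ : R →ₐ[ℂ] MvPolynomial (Fin 2) K} (hφ : NonProp 𝒜 φ)
    (Φ : R →ₐ[ℂ] MvPolynomial (Fin 2) (PowerSeries K))
    (h0 : ∀ r, map PowerSeries.constantCoeff (Φ r) = φ r) :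
    NonProp 𝒜 ((mapAlgHom (arcMap K)).comp Φ) := by
  obtain ⟨k, r, hr, s, hs, hne⟩ := hφ
  refine ⟨k, r, hr, s, hs, fun heq => hne ?_⟩
  obtain ⟨f1, hf1, hf1'⟩ := q2d_pt Φ h0 ![1, 0] r
  obtain ⟨f2, hf2, hf2'⟩ := q2d_pt Φ h0 ![1, 0] s
  obtain ⟨g1, hg1, hg1'⟩ := q2d_pt Φ h0 ![0, 1] r
  obtain ⟨g2, hg2, hg2'⟩ := q2d_pt Φ h0 ![0, 1] s
  rw [q2d_vec10] at hf1 hf2 hf1' hf2'
  rw [q2d_vec01] at hg1 hg2 hg1' hg2'
  rw [hf1', hf2', hg1', hg2', ← map_mul, ← map_mul] at heq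
  have h1 := arcMap_injective K heq
  rw [← hf1, ← hf2, ← hg1, ← hg2, ← map_mul, ← map_mul, h1]

theorem q2d_b_ne_zero (hX : IsContactFano 𝒜 P) {K : Type u} [Field K] [IsAlgClosed K]
    [Algebra ℂ K] {φ : R →ₐ[ℂ] MvPolynomial (Fin 2) K} (hφ : IsCurve 𝒜 2 φ) {b : K}
    (hb : omC P φ (pd φ 0) (pd φ 1) = C b) (hb0 : b ≠ 0)
    (Φ : R →ₐ[ℂ] MvPolynomial (Fin 2) (PowerSeries K))
    (hdeg : ∀ k, ∀ r ∈ 𝒜 k, (Φ r).IsHomogeneous (2 * k))
    (h0 : ∀ r, map PowerSeries.constantCoeff (Φ r) = φ r) :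
    ∃ b' : ArcField K, omC P ((mapAlgHom (arcMap K)).comp Φ)
      (pd ((mapAlgHom (arcMap K)).comp Φ) 0) (pd ((mapAlgHom (arcMap K)).comp Φ) 1) = C b' ∧
      b' ≠ 0 := by
  classical
  set φ' := (mapAlgHom (arcMap K)).comp Φ with hφ'
  have hc' : IsCurve 𝒜 2 φ' := q2d_isCurve hφ Φ hdeg h0
  obtain ⟨b', hb'⟩ := exists_b hX hc'
  refine ⟨b', hb', fun hb0' => hb0 ?_⟩
  have hNV : IsNV 𝒜 φ := by
    obtain ⟨k, hk, r, hr, h1⟩ := hφ.bpf ![1, 0] vec10_ne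
    exact ⟨k, hk, r, hr, fun h2 => h1 (by rw [h2, map_zero])⟩
  obtain ⟨N, x, k, g, l, -, -, hg, hdet, hch⟩ := exists_chart_kd hX φ hNV
  have e1 := omC_chart hX hφ (isHDer_pd hφ 0) (isHDer_pd hφ 1) x g hg hch
  have hmap : ∀ r, φ' r = map (arcMap K : PowerSeries K →+* ArcField K) (Φ r) := fun r => rfl
  have hinj : Function.Injective (map (arcMap K : PowerSeries K →+* ArcField K) :
      MvPolynomial (Fin 2) (PowerSeries K) → MvPolynomial (Fin 2) (ArcField K)) :=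
    map_injective _ (arcMap_injective K)
  have hg' : φ' g ≠ 0 := by
    intro h1
    apply hg
    rw [hmap, map_eq_zero_iff _ hinj] at h1
    rw [← h0, h1, map_zero]
  have e2 := omC_chart hX hc' (isHDer_pd hc' 0) (isHDer_pd hc' 1) x g hg' hch
  rw [hb', hb0', C_0, mul_zero] at e2
  have e3 : (∑ i, ∑ j, pderiv 0 (Φ (x i)) *
      Φ (Matrix.adjugate (Matrix.of fun i j => P (x i) (x j)) i j) * pderiv 1 (Φ (x j))) = 0 := by
    apply hinj
    rw [map_zero]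
    rw [e2]
    simp only [map_sum, map_mul, pderiv_map, pd_apply, hmap]
  have e4 : φ (Matrix.det (Matrix.of fun i j => P (x i) (x j))) * C b = 0 := by
    rw [hb] at e1
    rw [e1]
    have e5 := congrArg (map (PowerSeries.constantCoeff : PowerSeries K →+* K)) e3
    rw [map_zero] at e5
    rw [← e5]
    simp only [map_sum, map_mul, pderiv_map, pd_apply, ← h0]
  have e6 := (mul_eq_zero.mp e4).resolve_left hdet
  rwa [C_eq_zero] at e6

theorem q2d_isFull {K : Type u} [Field K] [IsAlgClosed K] [Algebra ℂ K] {d n : ℕ}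
    {φ : R →ₐ[ℂ] MvPolynomial (Fin 2) K} (hn : TrGE φ n)
    (hmax : ∀ (Φ : R →ₐ[ℂ] MvPolynomial (Fin 2) (PowerSeries K)),
      (∀ k, ∀ r ∈ 𝒜 k, (Φ r).IsHomogeneous (d * k)) →
      (∀ r, map PowerSeries.constantCoeff (Φ r) = φ r) →
      ¬ TrGE ((mapAlgHom (arcMap K)).comp Φ) (n + 1))
    (harc : ∀ δ, IsHDer 𝒜 d φ 0 δ → ∃ Φ : R →ₐ[ℂ] MvPolynomial (Fin 2) (PowerSeries K),
      (∀ k, ∀ r ∈ 𝒜 k, (Φ r).IsHomogeneous (d * k)) ∧
      (∀ r, map PowerSeries.constantCoeff (Φ r) = φ r) ∧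
      ∀ r e, PowerSeries.coeff 1 (coeff e (Φ r)) = coeff e (δ r)) : IsFull 𝒜 d φ := by
  intro δ hδ
  obtain ⟨Φ, h1, h2, h3⟩ := harc δ hδ
  exact exists_derivation_of_arc Φ h2 h3 hn fun h4 =>
    hmax Φ h1 h2 (trGE_map_iff _ (arcMap_injective K) Φ _ h4)

/-- The arc property: every deformation of first order extends to an arc. -/
def HasArcs (𝒜 : ℕ → Submodule ℂ R) : Prop :=
  ∀ (K : Type u) [Field K] [IsAlgClosed K] [Algebra ℂ K] (d : ℕ)
    (φ : R →ₐ[ℂ] MvPolynomial (Fin 2) K), IsAnch 𝒜 d φ → ∀ δ, IsHDer 𝒜 d φ 0 δ →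
    ∃ Φ : R →ₐ[ℂ] MvPolynomial (Fin 2) (PowerSeries K),
      (∀ k, ∀ r ∈ 𝒜 k, (Φ r).IsHomogeneous (d * k)) ∧
      (∀ r, map PowerSeries.constantCoeff (Φ r) = φ r) ∧
      ∀ r e, PowerSeries.coeff 1 (coeff e (Φ r)) = coeff e (δ r)

theorem q2d_full_line (hX : IsContactFano 𝒜 P) (harc : HasArcs 𝒜) {K : Type u} [Field K]
    [IsAlgClosed K] [Algebra ℂ K] {φ : R →ₐ[ℂ] MvPolynomial (Fin 2) K} {d : ℕ}
    (hφ : IsAnch 𝒜 d φ) :
    ∃ (Ω : Type u) (_ : Field Ω) (_ : IsAlgClosed Ω) (_ : Algebra ℂ Ω)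
      (ψ : R →ₐ[ℂ] MvPolynomial (Fin 2) Ω), IsAnch 𝒜 d ψ ∧ IsFull 𝒜 d ψ := by
  obtain ⟨n, Ω, i1, i2, i3, ψ, h1, h2, h3⟩ := q2d_exists_max hX (d := d)
    (fun Ω _ _ _ φ => IsAnch 𝒜 d φ) (fun Ω _ _ _ φ h => h.curve)
    ⟨K, inferInstance, inferInstance, inferInstance, φ, hφ⟩
  exact ⟨Ω, i1, i2, i3, ψ, h1, q2d_isFull h2
    (fun Φ h4 h5 => h3 _ _ (q2d_isAnch h1 Φ h4 h5)) (harc Ω d ψ h1)⟩

theorem q2d_full_conic (hX : IsContactFano 𝒜 P) (harc : HasArcs 𝒜) {K : Type u} [Field K]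
    [IsAlgClosed K] [Algebra ℂ K] {φ : R →ₐ[ℂ] MvPolynomial (Fin 2) K}
    (hφ : IsAnch 𝒜 2 φ) {b : K} (hb : omC P φ (pd φ 0) (pd φ 1) = C b) (hb0 : b ≠ 0) :
    ∃ (Ω : Type u) (_ : Field Ω) (_ : IsAlgClosed Ω) (_ : Algebra ℂ Ω)
      (ψ : R →ₐ[ℂ] MvPolynomial (Fin 2) Ω), IsAnch 𝒜 2 ψ ∧ IsFull 𝒜 2 ψ ∧
      ∃ b' : Ω, omC P ψ (pd ψ 0) (pd ψ 1) = C b' ∧ b' ≠ 0 := by
  obtain ⟨n, Ω, i1, i2, i3, ψ, h1, h2, h3⟩ := q2d_exists_max hX (d := 2)
    (fun Ω _ _ _ φ => IsAnch 𝒜 2 φ ∧ ∃ b : Ω, omC P φ (pd φ 0) (pd φ 1) = C b ∧ b ≠ 0)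
    (fun Ω _ _ _ φ h => h.1.curve)
    ⟨K, inferInstance, inferInstance, inferInstance, φ, hφ, b, hb, hb0⟩
  obtain ⟨h1, b1, hb1, hb1'⟩ := h1
  exact ⟨Ω, i1, i2, i3, ψ, h1, q2d_isFull h2
    (fun Φ h4 h5 => h3 _ _ ⟨q2d_isAnch h1 Φ h4 h5, q2d_b_ne_zero hX h1.curve hb1 hb1' Φ h4 h5⟩)
    (harc Ω 2 ψ h1), b1, hb1, hb1'⟩

theorem q2d_full_conic' (hX : IsContactFano 𝒜 P) (harc : HasArcs 𝒜) {K : Type u} [Field K]
    [IsAlgClosed K] [Algebra ℂ K] {φ : R →ₐ[ℂ] MvPolynomial (Fin 2) K}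
    (hφ : IsAnch 𝒜 2 φ) (hp : NonProp 𝒜 φ) :
    ∃ (Ω : Type u) (_ : Field Ω) (_ : IsAlgClosed Ω) (_ : Algebra ℂ Ω)
      (ψ : R →ₐ[ℂ] MvPolynomial (Fin 2) Ω), IsAnch 𝒜 2 ψ ∧ IsFull 𝒜 2 ψ ∧ NonProp 𝒜 ψ := by
  obtain ⟨n, Ω, i1, i2, i3, ψ, h1, h2, h3⟩ := q2d_exists_max hX (d := 2)
    (fun Ω _ _ _ φ => IsAnch 𝒜 2 φ ∧ NonProp 𝒜 φ) (fun Ω _ _ _ φ h => h.1.curve)
    ⟨K, inferInstance, inferInstance, inferInstance, φ, hφ, hp⟩
  exact ⟨Ω, i1, i2, i3, ψ, h1.1, q2d_isFull h2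
    (fun Φ h4 h5 => h3 _ _ ⟨q2d_isAnch h1.1 Φ h4 h5, q2d_nonProp h1.2 Φ h5⟩)
    (harc Ω 2 ψ h1.1), h1.2⟩

end classes

end Vale.Agent.P292
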