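import Vale.Agent.P292.K.FrameLine
import Vale.Agent.P292.K.Q2D
import Vale.Agent.P292.VF.Arc
import Vale.Agent.P292.VF.ArcSplit

/-! # Arcs along anchored curves, and full anchored curves. -/

namespace Vale.Agent.P292

open MvPolynomial

universe u v w

variable {R : Type u} [CommRing R] [Algebra ℂ R] {𝒜 : ℕ → Submodule ℂ R} [GradedAlgebra 𝒜]
  {P : R →ₗ[ℂ] R →ₗ[ℂ] R}

theorem IsHDer.hz {κ : Type v} [Field κ] [Algebra ℂ κ] {d : ℕ}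
    {φ : R →ₐ[ℂ] MvPolynomial (Fin 2) κ} {K : ℕ} {δ : R →ₗ[ℂ] MvPolynomial (Fin 2) κ}
    (h : IsHDer 𝒜 d φ K δ) : VF.HZ 𝒜 d φ K δ :=
  ⟨h.der, fun k r hr => h.homog k r hr (d * k + K) (by push_cast; ring)⟩

theorem IsHDer.of_hz {κ : Type v} [Field κ] [Algebra ℂ κ] {d : ℕ}
    {φ : R →ₐ[ℂ] MvPolynomial (Fin 2) κ} {K : ℕ} {δ : R →ₗ[ℂ] MvPolynomial (Fin 2) κ}
    (h : VF.HZ 𝒜 d φ K δ) : IsHDer 𝒜 d φ K δ :=
  IsHDer.fr_of_zhom h.1 fun k r hr => (ZHom.of_nat (h.2 k r hr)).congr (by push_cast; ring)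

theorem IsHFrame.splitZ (hX : IsContactFano 𝒜 P) [IsDomain R] {κ : Type v} [Field κ]
    [IsAlgClosed κ] [Algebra ℂ κ] {d : ℕ} {φ : R →ₐ[ℂ] MvPolynomial (Fin 2) κ}
    (hφ : IsCurve 𝒜 d φ) {e : Fin (cdim R) → ℤ}
    {δ : Fin (cdim R) → R →ₗ[ℂ] MvPolynomial (Fin 2) κ} {c : κ}
    (h : IsHFrame 𝒜 P d φ e δ c) : VF.SplitZ 𝒜 d φ := by
  refine VF.splitZ_of_frame h.nonpos h.hder fun K θ hθ => ?_
  obtain ⟨p, hp, hp'⟩ := h.exists_coeff_zhom hX hφ (IsHDer.of_hz hθ)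
  exact ⟨p, fun i m hm => (hp i).nat m hm, hp'⟩

/-- Anchored curves have arcs. -/
theorem hasArcs (hX : IsContactFano 𝒜 P) [IsDomain R] : HasArcs 𝒜 := by
  intro K _ _ _ d φ hφ δ hδ
  obtain ⟨e, δ', c, hf⟩ := hφ.exists_hframe hX
  exact VF.exists_arc hX hφ.curve (hf.splitZ hX hφ.curve) (IsHDer.hz (K := 0) hδ)

/-- D, lines: a full anchored line exists as soon as an anchored line exists. -/
theorem exists_full_line (hX : IsContactFano 𝒜 P) [IsDomain R] {K : Type u} [Field K]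
    [IsAlgClosed K] [Algebra ℂ K] {φ : R →ₐ[ℂ] MvPolynomial (Fin 2) K} (hφ : IsAnch 𝒜 1 φ) :
    ∃ (Ω : Type u) (_ : Field Ω) (_ : IsAlgClosed Ω) (_ : Algebra ℂ Ω)
      (ψ : R →ₐ[ℂ] MvPolynomial (Fin 2) Ω), IsAnch 𝒜 1 ψ ∧ IsFull 𝒜 1 ψ :=
  q2d_full_line hX (hasArcs hX) hφ

/-- D, conics with `b ≠ 0`. -/
theorem exists_full_conic (hX : IsContactFano 𝒜 P) [IsDomain R] {K : Type u} [Field K]
    [IsAlgClosed K] [Algebra ℂ K] {φ : R →ₐ[ℂ] MvPolynomial (Fin 2) K} (hφ : IsAnch 𝒜 2 φ)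
    {b : K} (hb : omC P φ (pd φ 0) (pd φ 1) = C b) (hb0 : b ≠ 0) :
    ∃ (Ω : Type u) (_ : Field Ω) (_ : IsAlgClosed Ω) (_ : Algebra ℂ Ω)
      (ψ : R →ₐ[ℂ] MvPolynomial (Fin 2) Ω), IsAnch 𝒜 2 ψ ∧ IsFull 𝒜 2 ψ ∧
      ∃ b' : Ω, omC P ψ (pd ψ 0) (pd ψ 1) = C b' ∧ b' ≠ 0 :=
  q2d_full_conic hX (hasArcs hX) hφ hb hb0

/-- D, conics with non-proportional ends. -/
theorem exists_full_conic' (hX : IsContactFano 𝒜 P) [IsDomain R] {K : Type u} [Field K]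
    [IsAlgClosed K] [Algebra ℂ K] {φ : R →ₐ[ℂ] MvPolynomial (Fin 2) K} (hφ : IsAnch 𝒜 2 φ)
    (hp : NonProp 𝒜 φ) :
    ∃ (Ω : Type u) (_ : Field Ω) (_ : IsAlgClosed Ω) (_ : Algebra ℂ Ω)
      (ψ : R →ₐ[ℂ] MvPolynomial (Fin 2) Ω), IsAnch 𝒜 2 ψ ∧ IsFull 𝒜 2 ψ ∧ NonProp 𝒜 ψ :=
  q2d_full_conic' hX (hasArcs hX) hφ hp

end Vale.Agent.P292
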