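import Vale.Agent.P292.K.F0
import Vale.Agent.P292.G.Final

/-! # Block F, Galois half: from the flow of `B` to the adjoint variety. -/

namespace Vale.Agent.P292

open Polynomial

universe u v

variable {R : Type u} [CommRing R] [Algebra ℂ R] {𝒜 : ℕ → Submodule ℂ R} [GradedAlgebra 𝒜]
  {P : R →ₗ[ℂ] R →ₗ[ℂ] R}

/-- Roots of homogeneous polynomials are homogeneous of degree one. -/
theorem euler_root {M : Type v} [Field M] [Algebra ℂ M] [Algebra R M] [IsScalarTower ℂ R M]
    {x : M} {q : R[X]} (hq : IsHomRootOne 𝒜 x q) (E' : Derivation ℂ M M)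
    (hE' : ∀ r, E' (algebraMap R M r) = algebraMap R M (euler 𝒜 r)) : E' x = x := by
  obtain ⟨hmon, hhom, hx, hx'⟩ := hq
  set n := q.natDegree with hn
  have hq' : q = ∑ i ∈ Finset.range (n + 1), C (q.coeff i) * X ^ i := by
    rw [hn]; exact q.as_sum_range_C_mul_X_pow
  have h0 : ∑ i ∈ Finset.range (n + 1), algebraMap R M (q.coeff i) * x ^ i = 0 := by
    rw [← hx]
    conv_rhs => rw [hq']
    rw [map_sum]
    exact Finset.sum_congr rfl fun i _ => by
      rw [map_mul, aeval_C, map_pow, aeval_X]
  have h1 : aeval x (derivative q) =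
      ∑ i ∈ Finset.range (n + 1), algebraMap R M (q.coeff i) * ((i : M) * x ^ (i - 1)) := by
    conv_lhs => rw [hq']
    rw [map_sum, map_sum]
    exact Finset.sum_congr rfl fun i _ => by
      rw [derivative_C_mul, derivative_X_pow, map_mul, aeval_C, map_mul, map_pow, aeval_X,
        map_natCast, map_natCast]
  have h2 : ∑ i ∈ Finset.range (n + 1), (((n - i : ℕ) : M) * algebraMap R M (q.coeff i) * x ^ i +
      algebraMap R M (q.coeff i) * ((i : M) * x ^ (i - 1)) * E' x) = 0 := by
    have h3 := congrArg E' h0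
    rw [map_sum, map_zero] at h3
    rw [← h3]
    refine Finset.sum_congr rfl fun i hi => ?_
    have h4 : E' (algebraMap R M (q.coeff i)) = ((n - i : ℕ) : M) * algebraMap R M (q.coeff i) := by
      rw [hE', euler_apply _ _ (hhom i (Nat.lt_succ_iff.mp (Finset.mem_range.mp hi)))]
      rw [Algebra.smul_def, map_mul, ← IsScalarTower.algebraMap_apply, map_natCast]
    rw [Derivation.leibniz, h4, Derivation.leibniz_pow, smul_eq_mul, smul_eq_mul, smul_eq_mul,
      nsmul_eq_mul]
    ring
  rw [Finset.sum_add_distrib, ← Finset.sum_mul, ← h1] at h2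
  have h3 : ∑ i ∈ Finset.range (n + 1), ((n - i : ℕ) : M) * algebraMap R M (q.coeff i) * x ^ i =
      - (x * aeval x (derivative q)) := by
    rw [h1, Finset.mul_sum, ← Finset.sum_neg_distrib, ← sub_eq_zero, ← Finset.sum_sub_distrib]
    have h5 : (n : M) * ∑ i ∈ Finset.range (n + 1), algebraMap R M (q.coeff i) * x ^ i = 0 := by
      rw [h0, mul_zero]
    rw [← h5, Finset.mul_sum]
    refine Finset.sum_congr rfl fun i hi => ?_
    have hi' : i ≤ n := Nat.lt_succ_iff.mp (Finset.mem_range.mp hi)
    rw [Nat.cast_sub hi']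
    rcases Nat.eq_zero_or_pos i with h | h
    · subst h
      simp
    · obtain ⟨j, rfl⟩ := Nat.exists_eq_add_of_lt h
      simp only [Nat.zero_add, Nat.add_sub_cancel, pow_succ]
      ring
  rw [h3] at h2
  have h6 : aeval x (derivative q) * (E' x - x) = 0 := by linear_combination h2
  rcases mul_eq_zero.mp h6 with h | h
  · exact absurd h hx'
  · exact sub_eq_zero.mp h

/-- Uniqueness and degree of the extended bracket. -/
theorem euler_bracket_ext (hX : IsContactFano 𝒜 P) {M : Type v} [Field M] [Algebra ℂ M]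
    [Algebra R M] [IsScalarTower ℂ R M] [FaithfulSMul R M] [Algebra.IsAlgebraic R M]
    (P' : M →ₗ[ℂ] M →ₗ[ℂ] M)
    (hP1 : ∀ r s, P' (algebraMap R M r) (algebraMap R M s) = algebraMap R M (P r s))
    (hP2 : ∀ x, P' x x = 0) (hP3 : ∀ x y z, P' x (y * z) = P' x y * z + y * P' x z)
    (E' : Derivation ℂ M M) (hE1 : ∀ r, E' (algebraMap R M r) = algebraMap R M (euler 𝒜 r))
    (x y : M) : E' (P' x y) = P' (E' x) y + P' x (E' y) - P' x y := by
  have hEm : ∀ x y, E' (x * y) = E' x * y + x * E' y := by
    intro x y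
    rw [Derivation.leibniz, smul_eq_mul, smul_eq_mul]
    ring
  have hskew : ∀ x y, P' x y = - P' y x := by
    intro x y
    have h := hP2 (x + y)
    rw [map_add, map_add, LinearMap.add_apply, LinearMap.add_apply, hP2 x, hP2 y, zero_add,
      add_zero] at h
    exact eq_neg_of_add_eq_zero_right h
  let F : M → M → M := fun x y => E' (P' x y) - P' (E' x) y - P' x (E' y) + P' x y
  have hF : ∀ x y, F x y = E' (P' x y) - P' (E' x) y - P' x (E' y) + P' x y := fun _ _ => rfl
  have hF1 : ∀ x y z, F x (y + z) = F x y + F x z := by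
    intro x y z
    simp only [hF, map_add]
    ring
  have hF2 : ∀ x y z, F x (y * z) = F x y * z + y * F x z := by
    intro x y z
    simp only [hF, hP3, hEm, map_add]
    ring
  have hF3 : ∀ x y, F x y = - F y x := by
    intro x y
    rw [hF, hF, hskew x y, hskew (E' x) y, hskew x (E' y), map_neg]
    ring
  have hF4 : ∀ r s : R, F (algebraMap R M r) (algebraMap R M s) = 0 := by
    intro r s
    rw [hF, hE1, hE1, hP1, hP1, hP1, hE1, zb5_euler_P hX, map_sub, map_add]
    ring
  have hF5 : ∀ (r : R) (y : M), F (algebraMap R M r) y = 0 := fun r y =>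
    eq_zero_of_restrict (R := R) (F (algebraMap R M r)) (hF1 _) (hF2 _) (hF4 r) y
  have hF6 : ∀ x y : M, F x y = 0 := fun x y =>
    eq_zero_of_restrict (R := R) (F x) (hF1 _) (hF2 _)
      (fun r => by rw [hF3, hF5, neg_zero]) y
  have := hF6 x y
  rw [hF] at this
  linear_combination this

/-- The final step inside the splitting field `M`. -/
theorem isAdjointVariety_of_splitting (hX : IsContactFano 𝒜 P) [IsDomain R] {M : Type u}
    [Field M] [Algebra ℂ M] [Algebra R M] [IsScalarTower ℂ R M] [Algebra (FractionRing R) M]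
    [IsScalarTower R (FractionRing R) M] {Q : R[X]} (hmon : Q.Monic) (hirr : Irreducible Q)
    (hhom : ∀ i ≤ Q.natDegree, Q.coeff i ∈ 𝒜 (Q.natDegree - i))
    [hspl : (Q.map (algebraMap R (FractionRing R))).IsSplittingField (FractionRing R) M]
    (hU : IsUnram R M) (P' : M →ₗ[ℂ] M →ₗ[ℂ] M)
    (hP1 : ∀ r s, P' (algebraMap R M r) (algebraMap R M s) = algebraMap R M (P r s))
    (hP2 : ∀ x, P' x x = 0) (hP3 : ∀ x y z, P' x (y * z) = P' x y * z + y * P' x z)
    {B J : M} (hB : aeval B Q = 0) (hB0 : B ≠ 0) (hJ : IsIntegral R J) {k : ℕ} (hk : 0 < k)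
    {r : R} (hr : r ∈ 𝒜 k) {c₁ c₂ : ℂ} (h1 : c₁ ≠ 0) (h2 : c₂ ≠ 0)
    (e1 : (⇑(P' B))^[2 * k - 1] (algebraMap R M r) = c₁ • (B ^ (k - 1) * J))
    (e2 : P' B J = c₂ • B) : IsAdjointVariety 𝒜 P := by
  classical
  have : IsIntegrallyClosed R := hX.normal
  have : CharZero R := charZero_of_injective_algebraMap (algebraMap ℂ R).injective
  have : CharZero (FractionRing R) := charZero_of_injective_algebraMap
    (IsFractionRing.injective R (FractionRing R))
  have hinj : Function.Injective (algebraMap R M) := by
    rw [IsScalarTower.algebraMap_eq R (FractionRing R) M]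
    exact (algebraMap (FractionRing R) M).injective.comp
      (IsFractionRing.injective R (FractionRing R))
  have : FaithfulSMul R M := (faithfulSMul_iff_algebraMap_injective R M).2 hinj
  have : FiniteDimensional (FractionRing R) M :=
    IsSplittingField.finiteDimensional M (Q.map (algebraMap R (FractionRing R)))
  have : Algebra.IsAlgebraic R M := ⟨fun x => (IsFractionRing.isAlgebraic_iff R (FractionRing R) M).2
    (Algebra.IsAlgebraic.isAlgebraic x)⟩
  have hirr' : Irreducible (Q.map (algebraMap R (FractionRing R))) :=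
    (hmon.irreducible_iff_irreducible_map_fraction_map (K := FractionRing R)).mp hirr
  have hsep : (Q.map (algebraMap R (FractionRing R))).Separable := hirr'.separable
  have : IsGalois (FractionRing R) M := IsGalois.of_separable_splitting_field hsep
  have hroot : ∀ x : M, aeval x Q = 0 → IsHomRootOne 𝒜 x Q := by
    intro x hx
    refine ⟨hmon, hhom, hx, ?_⟩
    have h3 : aeval x (Q.map (algebraMap R (FractionRing R))) = 0 := by
      rw [aeval_map_algebraMap]; exact hx
    have h4 := hsep.aeval_derivative_ne_zero h3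
    rw [derivative_map, aeval_map_algebraMap] at h4
    exact h4
  have hskew : ∀ x y, P' x y = - P' y x := by
    intro x y
    have h := hP2 (x + y)
    rw [map_add, map_add, LinearMap.add_apply, LinearMap.add_apply, hP2 x, hP2 y, zero_add,
      add_zero] at h
    exact eq_neg_of_add_eq_zero_right h
  refine isAdjointVariety_of_isUnram hX hU ((Q.map (algebraMap R (FractionRing R))).rootSet M)
    (fun x hx => ⟨Q, hroot x ?_⟩) (IsSplittingField.adjoin_rootSet M _) P' hP1 hP2 hP3 J hJ ?_ B
    ⟨Q, hmon, by rw [← aeval_def]; exact hB⟩ ?_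
  · have h3 := (mem_rootSet.mp hx).2
    rw [aeval_map_algebraMap] at h3
    exact h3
  · intro E' hE'
    have hEB : E' B = B := euler_root (hroot B hB) E' hE'
    have hEP := euler_bracket_ext hX P' hP1 hP2 hP3 E' hE'
    have h3 : ∀ n : ℕ, E' ((⇑(P' B))^[n] (algebraMap R M r)) =
        (k : M) * (⇑(P' B))^[n] (algebraMap R M r) := by
      intro n
      induction n with
      | zero =>
        rw [Function.iterate_zero, id, hE', euler_apply k r hr, Algebra.smul_def, map_mul,
          ← IsScalarTower.algebraMap_apply, map_natCast]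
      | succ n ih =>
        rw [Function.iterate_succ_apply', hEP, hEB, ih]
        have h4 : (k : M) * (⇑(P' B))^[n] (algebraMap R M r) =
            (k : ℂ) • (⇑(P' B))^[n] (algebraMap R M r) := by
          rw [Algebra.smul_def, map_natCast]
        rw [h4, map_smul, Algebra.smul_def, map_natCast]
        ring
    have h5 := h3 (2 * k - 1)
    rw [e1, Derivation.map_smul, Algebra.smul_def, Algebra.smul_def] at h5
    have hc : algebraMap ℂ M c₁ ≠ 0 := by
      rw [Ne, map_eq_zero]; exact h1
    have h6 : E' (B ^ (k - 1) * J) = (k : M) * (B ^ (k - 1) * J) := by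
      apply mul_left_cancel₀ hc
      rw [h5]
      ring
    obtain ⟨j, rfl⟩ := Nat.exists_eq_add_of_lt hk
    rw [Nat.zero_add] at h6
    simp only [Nat.add_sub_cancel] at h6
    rw [Derivation.leibniz, Derivation.leibniz_pow, hEB] at h6
    simp only [smul_eq_mul, nsmul_eq_mul] at h6
    have h7 : B ^ j * (E' J - J) = 0 := by
      rcases Nat.eq_zero_or_pos j with h | h
      · subst h
        simp at h6 ⊢
        rw [h6]; ring
      · obtain ⟨i, rfl⟩ := Nat.exists_eq_add_of_lt h
        simp only [Nat.zero_add, Nat.add_sub_cancel] at h6 ⊢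
        push_cast at h6
        rw [pow_succ] at h6 ⊢
        linear_combination h6
    rcases mul_eq_zero.mp h7 with h | h
    · exact absurd h (pow_ne_zero _ hB0)
    · exact sub_eq_zero.mp h
  · intro n
    have h3 : ∀ n : ℕ, (⇑(P' J))^[n] B = (-c₂) ^ n • B := by
      intro n
      induction n with
      | zero => simp
      | succ n ih =>
        rw [Function.iterate_succ_apply', ih, map_smul, hskew J B, e2, pow_succ, ← neg_smul,
          smul_smul]
    rw [h3]
    exact smul_ne_zero (pow_ne_zero _ (neg_ne_zero.mpr h2)) hB0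

/-- **Block F, Galois half.** `ι : R → Ω` is an injective point with values in an algebraically
closed field, `B ∈ Ω` is a root of a good polynomial with unramified splitting field, and the
derivation `D = {B, ·}` of `Ω` satisfies the flow identities for some integral element `J`. -/
theorem isAdjointVariety_of_flow (hX : IsContactFano 𝒜 P) [IsDomain R]
    {Ω : Type u} [Field Ω] [IsAlgClosed Ω] [Algebra ℂ Ω] (ι : R →ₐ[ℂ] Ω)
    (hι : Function.Injective ι) {Q : Polynomial R} (hQ : IsGood 𝒜 P 1 Q) {B : Ω} (hB : B ≠ 0)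
    (hroot : Q.eval₂ (ι : R →+* Ω) B = 0)
    (hU : ∀ (M : Type u) [Field M] [Algebra R M] [Algebra (FractionRing R) M]
      [IsScalarTower R (FractionRing R) M]
      [(Q.map (algebraMap R (FractionRing R))).IsSplittingField (FractionRing R) M],
      IsUnram R M)
    {k : ℕ} (hk : 0 < k) {r : R} (hr : r ∈ 𝒜 k) {J : Ω}
    (hJ : ∃ q : Polynomial R, q.Monic ∧ q.eval₂ (ι : R →+* Ω) J = 0) {c₁ c₂ : ℂ}
    (h1 : c₁ ≠ 0) (h2 : c₂ ≠ 0)
    (hflow : ∀ D : Derivation ℂ Ω Ω,
      (∀ (s : R) (D' : Derivation ℂ Ω Ω), (∀ t, D' (ι t) = ι (P s t)) → D' B = - D (ι s)) →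
      (⇑D)^[2 * k - 1] (ι r) = c₁ • (B ^ (k - 1) * J) ∧ D J = c₂ • B) :
    IsAdjointVariety 𝒜 P := by
  classical
  have : IsIntegrallyClosed R := hX.normal
  have : CharZero R := charZero_of_injective_algebraMap (algebraMap ℂ R).injective
  have : CharZero (FractionRing R) := charZero_of_injective_algebraMap
    (IsFractionRing.injective R (FractionRing R))
  have hchΩ : CharZero Ω := charZero_of_injective_algebraMap (algebraMap ℂ Ω).injective
  let : Algebra R Ω := (ι : R →+* Ω).toAlgebra
  have hmap : ∀ r, algebraMap R Ω r = ι r := fun _ => rfl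
  have : IsScalarTower ℂ R Ω := IsScalarTower.of_algebraMap_eq fun c => by
    rw [hmap, AlgHom.commutes]
  have : FaithfulSMul R Ω := (faithfulSMul_iff_algebraMap_injective R Ω).mpr hι
  let : Algebra (FractionRing R) Ω := FractionRing.liftAlgebra R Ω
  have : IsScalarTower R (FractionRing R) Ω := inferInstance
  have : IsScalarTower ℂ (FractionRing R) Ω := IsScalarTower.of_algebraMap_eq fun c => by
    rw [IsScalarTower.algebraMap_apply ℂ R Ω, IsScalarTower.algebraMap_apply ℂ R (FractionRing R),
      ← IsScalarTower.algebraMap_apply R (FractionRing R) Ω]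
  set q : (FractionRing R)[X] := Q.map (algebraMap R (FractionRing R)) with hq
  have hqs : (q.map (algebraMap (FractionRing R) Ω)).Splits := IsAlgClosed.splits _
  let M : IntermediateField (FractionRing R) Ω :=
    IntermediateField.adjoin (FractionRing R) (q.rootSet Ω)
  have hspl : q.IsSplittingField (FractionRing R) M :=
    IntermediateField.adjoin_rootSet_isSplittingField hqs
  have hU' : IsUnram R M := hU M
  have hinj : Function.Injective (algebraMap R M) := by
    rw [IsScalarTower.algebraMap_eq R (FractionRing R) M]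
    exact (algebraMap (FractionRing R) M).injective.comp
      (IsFractionRing.injective R (FractionRing R))
  have : FaithfulSMul R M := (faithfulSMul_iff_algebraMap_injective R M).2 hinj
  have : FiniteDimensional (FractionRing R) M := IsSplittingField.finiteDimensional M q
  have : Algebra.IsAlgebraic R M := ⟨fun x => (IsFractionRing.isAlgebraic_iff R (FractionRing R) M).2
    (Algebra.IsAlgebraic.isAlgebraic x)⟩
  have : IsScalarTower ℂ R M := IsScalarTower.of_algebraMap_eq fun c => by
    apply Subtype.val_injective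
    change algebraMap ℂ Ω c = algebraMap R Ω (algebraMap ℂ R c)
    rw [← IsScalarTower.algebraMap_apply]
  have : IsScalarTower ℂ M Ω := IsScalarTower.of_algebraMap_eq fun c => rfl
  have hval : ∀ r : R, ((algebraMap R M r : M) : Ω) = ι r := fun r => rfl
  obtain ⟨P', hP1, hP2, hP3, hP4⟩ := exists_bracket_ext (M := M) P hX.alternating hX.leibniz
    hX.jacobi
  have hskew : ∀ x y, P' x y = - P' y x := by
    intro x y
    have h := hP2 (x + y)
    rw [map_add, map_add, LinearMap.add_apply, LinearMap.add_apply, hP2 x, hP2 y, zero_add,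
      add_zero] at h
    exact eq_neg_of_add_eq_zero_right h
  have hBm : B ∈ M := by
    apply IntermediateField.subset_adjoin
    rw [mem_rootSet]
    refine ⟨(hQ.monic.map _).ne_zero, ?_⟩
    rw [hq, aeval_map_algebraMap, aeval_def]
    exact hroot
  let BM : M := ⟨B, hBm⟩
  have hBMv : ((BM : M) : Ω) = B := rfl
  -- the derivation `{B, ·}` of `M`, extended to `Ω`
  let d : Derivation ℂ M Ω := Derivation.mk'
    ((IsScalarTower.toAlgHom ℂ M Ω).toLinearMap ∘ₗ P' BM) (fun x y => by
      change ((P' BM (x * y) : M) : Ω) = (x : Ω) * ((P' BM y : M) : Ω) + (y : Ω) * ((P' BM x : M) : Ω)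
      rw [hP3]
      push_cast
      ring)
  have hd : ∀ x : M, d x = ((P' BM x : M) : Ω) := fun x => rfl
  obtain ⟨D, hD⟩ := exists_derivation_extension_field (k := ℂ) (K := M) (Ω := Ω) d
  have hD' : ∀ x : M, D (x : Ω) = ((P' BM x : M) : Ω) := fun x => (hD x).trans (hd x)
  obtain ⟨e1, e2⟩ := hflow D (fun s D' hDs => by
    -- `D'` agrees with `P' s` on `M`
    have key : ∀ x : M, D' (x : Ω) - ((P' (algebraMap R M s) x : M) : Ω) = 0 := by
      intro x
      refine derivation_eq_zero_of_isAlgebraic (A := R) (S := M) (Ω := Ω) (algebraMap M Ω)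
        (algebraMap M Ω).injective
        { toFun := fun x => D' (x : Ω) - ((P' (algebraMap R M s) x : M) : Ω)
          map_zero' := by simp
          map_add' := fun x y => by
            push_cast
            rw [map_add, map_add]
            push_cast
            ring } ?_ ?_ hinj (Algebra.IsAlgebraic.isAlgebraic x)
      · intro p q
        change D' ((p * q : M) : Ω) - ((P' (algebraMap R M s) (p * q) : M) : Ω) =
          (p : Ω) * (D' (q : Ω) - ((P' (algebraMap R M s) q : M) : Ω)) +
          (q : Ω) * (D' (p : Ω) - ((P' (algebraMap R M s) p : M) : Ω))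
        rw [hP3]
        push_cast
        rw [Derivation.leibniz, smul_eq_mul, smul_eq_mul]
        ring
      · intro t
        change D' ((algebraMap R M t : M) : Ω) -
          ((P' (algebraMap R M s) (algebraMap R M t) : M) : Ω) = 0
        rw [hP1, hval, hval, hDs, sub_self]
    have h3 := key BM
    rw [hBMv, sub_eq_zero] at h3
    rw [h3, hskew, ← hval s, hD']
    push_cast
    rfl)
  have hiter : ∀ (n : ℕ) (x : M), (⇑D)^[n] (x : Ω) = (((⇑(P' BM))^[n] x : M) : Ω) := by
    intro n
    induction n with
    | zero => intro x; rfl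
    | succ n ih =>
      intro x
      rw [Function.iterate_succ_apply, Function.iterate_succ_apply, hD', ih]
  have hBM0 : BM ≠ 0 := fun h => hB (by rw [← hBMv, h]; rfl)
  let JM : M := c₁⁻¹ • ((BM ^ (k - 1))⁻¹ * (⇑(P' BM))^[2 * k - 1] (algebraMap R M r))
  have hJM : ((JM : M) : Ω) = J := by
    change c₁⁻¹ • ((B ^ (k - 1))⁻¹ * (((⇑(P' BM))^[2 * k - 1] (algebraMap R M r) : M) : Ω)) = J
    rw [← hiter, hval, e1, mul_smul_comm, smul_smul, inv_mul_cancel₀ h1, one_smul, ← mul_assoc,
      inv_mul_cancel₀ (pow_ne_zero _ hB), one_mul]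
  have hJint : IsIntegral R JM := by
    obtain ⟨p, hp, hp'⟩ := hJ
    refine ⟨p, hp, ?_⟩
    apply (algebraMap M Ω).injective
    rw [map_zero, hom_eval₂]
    change p.eval₂ (ι : R →+* Ω) ((JM : M) : Ω) = 0
    rw [hJM]
    exact hp'
  refine isAdjointVariety_of_splitting hX hQ.monic hQ.irr
    (fun i hi => hQ.homog i hi _ (by rw [one_mul])) hU' P' hP1 hP2 hP3 (B := BM) (J := JM)
    ?_ hBM0 hJint hk hr h1 h2 ?_ ?_
  · apply (algebraMap M Ω).injective
    rw [map_zero, aeval_def, hom_eval₂]
    exact hroot
  · apply Subtype.val_injective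
    rw [← hiter, hval, e1, ← hJM]
    rfl
  · apply Subtype.val_injective
    rw [← hD', hJM, e2]
    rfl

end Vale.Agent.P292
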