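import Vale.Agent.P292.K.Basic
import Vale.Agent.P292.Bdl.B7

/-! # Block I: integrality over `R` from valuation rings, and good polynomials. -/

namespace Vale.Agent.P292

open Module Polynomial

universe u v

set_option linter.style.haveILetI false
set_option linter.unusedSectionVars false

/-- Units of a valuation ring have valuation one. -/
theorem i0_valuation_eq_one {Ω : Type*} [Field Ω] (v : ValuationSubring Ω) {y z : Ω}
    (hy : y ∈ v) (hz : z ∈ v) (hyz : y * z = 1) : v.valuation y = 1 := by
  have h1 := (v.valuation_le_one_iff y).2 hy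
  have h2 := (v.valuation_le_one_iff z).2 hz
  refine le_antisymm h1 ?_
  calc (1 : v.ValueGroup) = v.valuation y * v.valuation z := by rw [← map_mul, hyz, map_one]
    _ ≤ v.valuation y * 1 := mul_le_mul_right h2 _
    _ = v.valuation y := mul_one _

variable {R : Type u} [CommRing R] [Algebra ℂ R] {𝒜 : ℕ → Submodule ℂ R} [GradedAlgebra 𝒜]
  {P : R →ₗ[ℂ] R →ₗ[ℂ] R}

/-- (I0a) An element of an extension field of `R` which lies in every valuation ring containing
`R` and having a nonvertex centre is integral over `R`. -/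
theorem isIntegral_of_valuationSubring (hX : IsContactFano 𝒜 P) {Ω : Type v} [Field Ω]
    [Algebra ℂ Ω] (ι : R →ₐ[ℂ] Ω) (hι : Function.Injective ι) (x : Ω)
    (h : ∀ v : ValuationSubring Ω, (∀ c : ℂ, algebraMap ℂ Ω c ∈ v) → (∀ r, ι r ∈ v) →
      (∃ k : ℕ, 0 < k ∧ ∃ r ∈ 𝒜 k, v.valuation (ι r) = 1) → x ∈ v) :
    ∃ q : R[X], q.Monic ∧ q.eval₂ (ι : R →+* Ω) x = 0 := by
  haveI := hX.domain
  haveI := hX.normal
  haveI := hX.finiteType
  haveI : IsNoetherianRing R := Algebra.FiniteType.isNoetherianRing ℂ R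
  letI : Algebra R Ω := (ι : R →+* Ω).toAlgebra
  have hι' : ∀ r, algebraMap R Ω r = ι r := fun r => rfl
  haveI : FaithfulSMul R Ω := (faithfulSMul_iff_algebraMap_injective R Ω).2 hι
  suffices IsIntegral R x from this
  letI : Algebra (FractionRing R) Ω := FractionRing.liftAlgebra R Ω
  haveI : IsScalarTower R (FractionRing R) Ω := FractionRing.isScalarTower_liftAlgebra R Ω
  have halg : IsIntegral (FractionRing R) x := by
    refine isIntegral_of_forall_valuationSubring x fun v hv => ?_
    have hvR : ∀ r, ι r ∈ v := fun r => by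
      have h1 := hv (algebraMap R _ r)
      rwa [← IsScalarTower.algebraMap_apply] at h1
    refine h v (fun c => ?_) hvR ?_
    · rw [← ι.commutes c]
      exact hvR _
    · obtain ⟨p, hp⟩ := hX.nonempty
      unfold IsVertex at hp
      push Not at hp
      obtain ⟨k, hk, r, hr, hpr⟩ := hp
      refine ⟨k, hk, r, hr, ?_⟩
      have hr0 : r ≠ 0 := by
        rintro rfl
        exact hpr (map_zero p)
      have hr1 : algebraMap R (FractionRing R) r ≠ 0 := by
        rw [Ne, map_eq_zero_iff _ (IsFractionRing.injective R _)]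
        exact hr0
      refine i0_valuation_eq_one v (hvR r) (hv (algebraMap R (FractionRing R) r)⁻¹) ?_
      rw [← hι', IsScalarTower.algebraMap_apply R (FractionRing R) Ω, ← map_mul,
        mul_inv_cancel₀ hr1, map_one]
  refine isIntegral_of_forall_dvr x
    ((IsFractionRing.isAlgebraic_iff R (FractionRing R) Ω).2 halg.isAlgebraic) ?_
  intro 𝔭 _ V _ _ _ _ _ _ _ _
  refine isIntegral_of_forall_valuationSubring x fun v hv => ?_
  have hvR : ∀ r, ι r ∈ v := fun r => by
    have h1 := hv (algebraMap R _ r)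
    rwa [← IsScalarTower.algebraMap_apply] at h1
  refine h v (fun c => ?_) hvR ?_
  · rw [← ι.commutes c]
    exact hvR _
  · by_cases h𝔭 : ∀ k, 0 < k → ∀ r ∈ 𝒜 k, r ∈ 𝔭
    · exact (not_dvr_vertex hX 𝔭 h𝔭 V).elim
    push Not at h𝔭
    obtain ⟨k, hk, g, hg, hg𝔭⟩ := h𝔭
    refine ⟨k, hk, g, hg, ?_⟩
    obtain ⟨w, hw⟩ := (IsLocalization.map_units V (⟨g, hg𝔭⟩ : 𝔭.primeCompl)).exists_right_inv
    refine i0_valuation_eq_one v (hvR g) (hv w) ?_
    rw [← hι', IsScalarTower.algebraMap_apply R V Ω, ← map_mul, hw, map_one]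

/-- The chain rule for a derivation and a polynomial with coefficients in `R`. -/
theorem i0_derivation_aeval {Ω : Type v} [CommRing Ω] [Algebra ℂ Ω] [Algebra R Ω]
    (D : Derivation ℂ Ω Ω) (β : Ω) (q : R[X]) : D (aeval β q) =
      (q.sum fun i c => D (algebraMap R Ω c) * β ^ i) + aeval β (derivative q) * D β := by
  induction q using Polynomial.induction_on' with
  | add p q hp hq =>
    rw [map_add, map_add, hp, hq, Polynomial.sum_add_index _ _ _ (fun i => by simp)
      (fun i a b => by rw [map_add, map_add, add_mul]), map_add, map_add]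
    ring
  | monomial n c =>
    rw [aeval_monomial, Derivation.leibniz, Derivation.leibniz_pow,
      Polynomial.sum_monomial_index _ _ (by simp), derivative_monomial, aeval_monomial]
    simp only [smul_eq_mul, nsmul_eq_mul, map_mul, map_natCast]
    ring

theorem i0_decompose_euler (r : R) (i : ℕ) : (DirectSum.decompose 𝒜 (euler 𝒜 r) i : R) =
    (i : ℂ) • (DirectSum.decompose 𝒜 r i : R) := by
  classical
  refine forall_of_homogeneous' (𝒜 := 𝒜)
    ((𝒜 i).subtype ∘ₗ DirectSum.component ℂ ℕ (fun j => 𝒜 j) i ∘ₗ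
      (DirectSum.decomposeLinearEquiv 𝒜).toLinearMap ∘ₗ euler 𝒜)
    ((i : ℂ) • ((𝒜 i).subtype ∘ₗ DirectSum.component ℂ ℕ (fun j => 𝒜 j) i ∘ₗ
      (DirectSum.decomposeLinearEquiv 𝒜).toLinearMap)) (fun j s hs => ?_) r
  change (DirectSum.decompose 𝒜 (euler 𝒜 s) i : R) = (i : ℂ) • (DirectSum.decompose 𝒜 s i : R)
  rw [euler_apply j s hs]
  have h1 : (j : ℂ) • s ∈ 𝒜 j := Submodule.smul_mem _ _ hs
  by_cases hij : i = j
  · subst hij
    rw [DirectSum.decompose_of_mem_same 𝒜 h1, DirectSum.decompose_of_mem_same 𝒜 hs]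
  · rw [DirectSum.decompose_of_mem_ne 𝒜 h1 (Ne.symm hij),
      DirectSum.decompose_of_mem_ne 𝒜 hs (Ne.symm hij), smul_zero]

/-- (I0b) Integral elements of degree `1 / d` with integral brackets are roots of good
polynomials. -/
theorem exists_isGood_of (hX : IsContactFano 𝒜 P) {Ω : Type u} [Field Ω] [Algebra ℂ Ω]
    (ι : R →ₐ[ℂ] Ω) (hι : Function.Injective ι) {d : ℕ} (hd : 0 < d) (β : Ω)
    (hβ : ∃ q : R[X], q.Monic ∧ q.eval₂ (ι : R →+* Ω) β = 0)
    (hE : ∃ D : Derivation ℂ Ω Ω, (∀ k, ∀ r ∈ 𝒜 k, D (ι r) = (k : ℂ) • ι r) ∧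
      (d : ℂ) • D β = β)
    (hbr : ∀ k, 0 < k → ∀ r ∈ 𝒜 k, ∃ D : Derivation ℂ Ω Ω, (∀ s, D (ι s) = ι (P r s)) ∧
      ∃ q : R[X], q.Monic ∧ q.eval₂ (ι : R →+* Ω) (D β) = 0) :
    ∃ Q : R[X], IsGood 𝒜 P d Q ∧ Q.eval₂ (ι : R →+* Ω) β = 0 := by
  haveI := hX.domain
  haveI := hX.normal
  letI : Algebra R Ω := (ι : R →+* Ω).toAlgebra
  have hι' : ∀ r, algebraMap R Ω r = ι r := fun r => rfl
  haveI : FaithfulSMul R Ω := (faithfulSMul_iff_algebraMap_injective R Ω).2 hι
  have hint : IsIntegral R β := hβ
  have hdc : (d : ℂ) ≠ 0 := Nat.cast_ne_zero.2 hd.ne'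
  haveI : CharZero Ω := charZero_of_injective_algebraMap (algebraMap ℂ Ω).injective
  haveI : CharZero R := charZero_of_injective_algebraMap (algebraMap ℂ R).injective
  set Q := minpoly R β with hQ
  have hQm : Q.Monic := minpoly.monic hint
  have hQi : Irreducible Q := minpoly.irreducible hint
  have hQ0 : aeval β Q = 0 := minpoly.aeval R β
  -- minimality
  have hmin : ∀ q : R[X], q.degree < Q.degree → aeval β q = 0 → q = 0 := by
    intro q hq hq0
    by_contra hne
    exact absurd (minpoly.IsIntegrallyClosed.degree_le_of_ne_zero hne hq0) (not_le.2 hq)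
  have hQ'0 : aeval β (derivative Q) ≠ 0 := by
    intro h0
    have h1 := hmin _ (degree_derivative_lt hQm.ne_zero) h0
    have h2 := derivative_eq_zero.1 h1
    exact (minpoly.natDegree_pos hint).ne' h2
  -- homogeneity
  have hhom : ∀ i, (d : ℂ) • euler 𝒜 (Q.coeff i) = ((Q.natDegree : ℂ) - i) • Q.coeff i := by
    obtain ⟨D, hD, hDβ⟩ := hE
    have hDι : ∀ r, D (ι r) = ι (euler 𝒜 r) := by
      intro r
      refine forall_of_homogeneous' (𝒜 := 𝒜) ((D : Ω →ₗ[ℂ] Ω) ∘ₗ ι.toLinearMap)
        (ι.toLinearMap ∘ₗ euler 𝒜) (fun k s hs => ?_) r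
      change D (ι s) = ι (euler 𝒜 s)
      rw [hD k s hs, euler_apply k s hs, map_smul]
    have h1 := i0_derivation_aeval D β Q
    rw [hQ0, map_zero] at h1
    let EQ : R[X] := ∑ i ∈ Finset.range (Q.natDegree + 1), monomial i (euler 𝒜 (Q.coeff i))
    have hEQ : ∀ i, EQ.coeff i = euler 𝒜 (Q.coeff i) := by
      intro i
      rw [finsetSum_coeff]
      simp only [coeff_monomial]
      rw [Finset.sum_ite_eq']
      split_ifs with hi
      · rfl
      · rw [Finset.mem_range, not_lt] at hi
        rw [coeff_eq_zero_of_natDegree_lt (by omega), map_zero]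
    have hEQβ : aeval β EQ = Q.sum fun i c => D (algebraMap R Ω c) * β ^ i := by
      rw [Polynomial.sum_over_range _ (fun i => by simp), map_sum]
      refine Finset.sum_congr rfl fun i _ => ?_
      rw [aeval_monomial, hι', hι', hDι]
    let T : R[X] := C (algebraMap ℂ R d) * EQ - C (algebraMap ℂ R Q.natDegree) * Q +
      X * derivative Q
    have hT : ∀ i, T.coeff i = (d : ℂ) • euler 𝒜 (Q.coeff i) -
        ((Q.natDegree : ℂ) - i) • Q.coeff i := by
      intro i
      simp only [T]
      rw [coeff_add, coeff_sub, coeff_C_mul, coeff_C_mul, hEQ, Algebra.smul_def, Algebra.smul_def,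
        map_sub]
      rcases i with _ | i
      · simp
      · rw [coeff_X_mul, coeff_derivative]
        simp only [map_natCast]
        push_cast
        ring
    have hTd : T.degree < Q.degree := by
      rw [degree_eq_natDegree hQm.ne_zero, degree_lt_iff_coeff_zero]
      intro i hi
      rw [hT]
      rcases hi.eq_or_lt with rfl | hi
      · have h3 := euler_apply 0 (1 : R) (SetLike.one_mem_graded 𝒜)
        rw [hQm.coeff_natDegree, h3, Nat.cast_zero, zero_smul, sub_self, zero_smul, smul_zero,
          sub_zero]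
      · rw [coeff_eq_zero_of_natDegree_lt hi, map_zero, smul_zero, smul_zero, sub_zero]
    have hT0 : aeval β T = 0 := by
      simp only [T]
      rw [map_add, map_sub, map_mul, map_mul, map_mul, hQ0, hEQβ, aeval_C, aeval_X, mul_zero,
        sub_zero, hι', ι.commutes]
      have h4 : algebraMap ℂ Ω d * D β = β := by rw [← Algebra.smul_def]; exact hDβ
      linear_combination (-(algebraMap ℂ Ω d)) * h1 - aeval β (derivative Q) * h4
    have hT00 := hmin T hTd hT0
    intro i
    rw [← sub_eq_zero, ← hT, hT00, coeff_zero]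
  refine ⟨Q, ⟨hQm, hQi, ?_, ?_, ?_⟩, hQ0⟩
  · intro i hi j hj
    refine zb6_mem_of_euler ?_
    have h1 := hhom i
    have h2 : (Q.natDegree : ℂ) - i = (d : ℂ) * j := by
      rw [← Nat.cast_sub hi, hj, Nat.cast_mul]
    rw [h2, mul_smul] at h1
    exact smul_right_injective R hdc h1
  · intro i hi hndvd
    classical
    rw [← DirectSum.sum_support_decompose 𝒜 (Q.coeff i)]
    refine Finset.sum_eq_zero fun j _ => ?_
    have h1 := congrArg (fun r => (DirectSum.decompose 𝒜 r j : R)) (hhom i)
    simp only [DirectSum.decompose_smul, DirectSum.smul_apply, Submodule.coe_smul,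
      i0_decompose_euler] at h1
    rw [smul_smul, ← sub_eq_zero, ← sub_smul, smul_eq_zero] at h1
    refine h1.resolve_left fun h2 => hndvd ⟨j, ?_⟩
    have h3 : ((Q.natDegree - i : ℕ) : ℂ) = ((d * j : ℕ) : ℂ) := by
      rw [Nat.cast_sub hi, Nat.cast_mul]
      linear_combination -h2
    exact_mod_cast h3
  · refine ⟨Ω, inferInstance, inferInstance, hι, β, hQ0, ?_⟩
    have hsum : ∀ r, aeval β (brP P r Q) = Q.sum fun i c => algebraMap R Ω (P r c) * β ^ i := by
      intro r
      rw [brP, Polynomial.sum_over_range _ (fun i => by simp),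
        Polynomial.sum_over_range _ (fun i => by simp), map_sum]
      refine Finset.sum_congr rfl fun i _ => ?_
      rw [aeval_monomial]
    have hzero : ∀ r, (∀ s, P r s = 0) → aeval β (brP P r Q) = 0 := by
      intro r hr
      rw [hsum, Polynomial.sum_over_range _ (fun i => by simp)]
      refine Finset.sum_eq_zero fun i _ => ?_
      rw [hr, map_zero, zero_mul]
    intro r
    induction r using DirectSum.Decomposition.inductionOn 𝒜 with
    | zero =>
      rw [hzero 0 (fun s => by rw [map_zero, LinearMap.zero_apply]), zero_div]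
      exact isIntegral_zero
    | @homogeneous k r =>
      rcases Nat.eq_zero_or_pos k with rfl | hk
      · obtain ⟨c, hc⟩ := hX.connected r r.2
        rw [hzero r (fun s => by rw [hc]; exact hX.P_algebraMap_left s c), zero_div]
        exact isIntegral_zero
      · obtain ⟨D, hD, hDβ⟩ := hbr k hk r r.2
        have h1 := i0_derivation_aeval D β Q
        rw [hQ0, map_zero] at h1
        have h2 : aeval β (brP P r Q) = Q.sum fun i c => D (algebraMap R Ω c) * β ^ i := by
          rw [hsum]
          congr 1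
          ext i c
          rw [hι', hι', hD]
        have h3 : aeval β (brP P r Q) / aeval β (derivative Q) = - D β := by
          rw [div_eq_iff hQ'0, h2]
          linear_combination -h1
        rw [h3]
        exact IsIntegral.neg hDβ
    | add r s hr hs =>
      have h1 : aeval β (brP P (r + s) Q) = aeval β (brP P r Q) + aeval β (brP P s Q) := by
        rw [hsum, hsum, hsum, Polynomial.sum_over_range _ (fun i => by simp),
          Polynomial.sum_over_range _ (fun i => by simp),
          Polynomial.sum_over_range _ (fun i => by simp), ← Finset.sum_add_distrib]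
        refine Finset.sum_congr rfl fun i _ => ?_
        rw [map_add, LinearMap.add_apply, map_add, add_mul]
      rw [h1, add_div]
      exact IsIntegral.add hr hs

end Vale.Agent.P292
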