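import Vale.Agent.P292.K.Basic
import Vale.Agent.P292.Fr.A

/-! # LeBrun-Salamon, block B: the symplectic form at a field valued point -/

namespace Vale.Agent.P292

universe u v

variable {R : Type u} [CommRing R] [Algebra ℂ R] {𝒜 : ℕ → Submodule ℂ R} [GradedAlgebra 𝒜]
  {P : R →ₗ[ℂ] R →ₗ[ℂ] R}

section om

variable {E : Type v} [Field E] [Algebra ℂ E] {x : R →ₐ[ℂ] E}

theorem isDer_hamAt (hX : IsContactFano 𝒜 P) (x : R →ₐ[ℂ] E) (r : R) :
    IsDer x (hamAt P x r) := by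
  intro s t
  simp only [hamAt_apply, hX.leibniz, map_add, map_mul]
  ring

theorem exists_ham_rep (hX : IsContactFano 𝒜 P) (hx : IsNV 𝒜 x) :
    ∃ (N : ℕ) (r : Fin N → R), ∀ δ, IsDer x δ → ∃ a : Fin N → E, ∀ s,
      δ s = ∑ i, a i * x (P (r i) s) := by
  obtain ⟨k, hk, r, hr, hrx⟩ := hx
  obtain ⟨N, y, g, h, hF, hg⟩ := exists_frame_of_point hX x hk hr hrx
  refine ⟨N, y, fun δ hδ => ?_⟩
  let _ : Module R E := Module.compHom E x.toRingHom
  have hsm : ∀ (r : R) (z : E), r • z = x r * z := fun _ _ => rfl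
  have _ : IsScalarTower ℂ R E := ⟨fun c r z => by rw [hsm, hsm, map_smul, smul_mul_assoc]⟩
  let D' : Derivation ℂ R E := Derivation.mk' δ (fun a b => by rw [hsm, hsm]; exact hδ a b)
  have hD' : ∀ s, D' s = δ s := fun _ => rfl
  refine ⟨fun j => ∑ i, x ((brMat P y).adjugate i j) * δ (y i) / x (brMat P y).det,
    fun s => ?_⟩
  have h1 := hF.det_smul_derivation hX D' s
  rw [map_mul] at hg
  have hg1 : x g ≠ 0 := left_ne_zero_of_mul hg
  have hg2 : x (brMat P y).det ≠ 0 := right_ne_zero_of_mul hg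
  have h2 : x g * (x (brMat P y).det * δ s) =
      x g * ∑ i, ∑ j, x ((brMat P y).adjugate i j) * x (P (y j) s) * δ (y i) := by
    have h3 : (g * (brMat P y).det) • D' s = x g * (x (brMat P y).det * δ s) := by
      rw [hsm, map_mul, hD', mul_assoc]
    rw [← h3, h1, Finset.mul_sum]
    refine Finset.sum_congr rfl fun i _ => ?_
    rw [Finset.mul_sum]
    refine Finset.sum_congr rfl fun j _ => ?_
    rw [hsm, hD', map_mul, map_mul]
    ring
  have h4 := mul_left_cancel₀ hg1 h2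
  have h5 : δ s = (∑ i, ∑ j, x ((brMat P y).adjugate i j) * x (P (y j) s) * δ (y i)) /
      x (brMat P y).det := by
    rw [eq_div_iff hg2, mul_comm, h4]
  rw [h5, Finset.sum_comm, Finset.sum_div]
  refine Finset.sum_congr rfl fun j _ => ?_
  rw [Finset.sum_mul, Finset.sum_div]
  refine Finset.sum_congr rfl fun i _ => ?_
  ring

/-- Two representations of a derivation by Hamiltonian derivations give the same value. -/
theorem ham_rep_pair (hX : IsContactFano 𝒜 P) {δ δ' : R →ₗ[ℂ] E}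
    {N : ℕ} {a : Fin N → E} {r : Fin N → R} (h : ∀ s, δ s = ∑ i, a i * x (P (r i) s))
    {M : ℕ} {c : Fin M → E} {t : Fin M → R} (h' : ∀ s, δ' s = ∑ i, c i * x (P (t i) s)) :
    ∑ i, a i * δ' (r i) = - ∑ k, c k * δ (t k) := by
  have h1 : ∑ i, a i * δ' (r i) = ∑ i, ∑ k, a i * (c k * x (P (t k) (r i))) := by
    refine Finset.sum_congr rfl fun i _ => ?_
    rw [h', Finset.mul_sum]
  have h2 : ∑ k, c k * δ (t k) = ∑ k, ∑ i, c k * (a i * x (P (r i) (t k))) := by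
    refine Finset.sum_congr rfl fun k _ => ?_
    rw [h, Finset.mul_sum]
  rw [h1, h2, Finset.sum_comm, ← Finset.sum_neg_distrib]
  refine Finset.sum_congr rfl fun k _ => ?_
  rw [← Finset.sum_neg_distrib]
  refine Finset.sum_congr rfl fun i _ => ?_
  rw [hX.skew (t k) (r i), map_neg]
  ring

theorem om_eq (hX : IsContactFano 𝒜 P) (hx : IsNV 𝒜 x) {δ δ' : R →ₗ[ℂ] E} (hδ' : IsDer x δ')
    {N : ℕ} {a : Fin N → E} {r : Fin N → R} (h : ∀ s, δ s = ∑ i, a i * x (P (r i) s)) :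
    om P x δ δ' = ∑ i, a i * δ' (r i) := by
  have hex : ∃ c, IsOm P x δ δ' c := ⟨_, N, a, r, h, rfl⟩
  have h1 : om P x δ δ' = hex.choose := by
    unfold om
    rw [dif_pos hex]
  obtain ⟨M, b, t, hb, hc⟩ := hex.choose_spec
  obtain ⟨L, u, hu⟩ := exists_ham_rep hX hx
  obtain ⟨c, hc'⟩ := hu δ' hδ'
  rw [h1, hc, ham_rep_pair hX hb hc', ham_rep_pair hX h hc']

theorem om_ham (hX : IsContactFano 𝒜 P) (hx : IsNV 𝒜 x) {δ' : R →ₗ[ℂ] E} (hδ' : IsDer x δ')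
    (r : R) : om P x (hamAt P x r) δ' = δ' r := by
  rw [om_eq hX hx hδ' (N := 1) (a := fun _ => 1) (r := fun _ => r) (fun s => by simp)]
  simp

theorem om_antisymm (hX : IsContactFano 𝒜 P) (hx : IsNV 𝒜 x) {δ δ' : R →ₗ[ℂ] E}
    (hδ : IsDer x δ) (hδ' : IsDer x δ') : om P x δ δ' = - om P x δ' δ := by
  obtain ⟨L, u, hu⟩ := exists_ham_rep hX hx
  obtain ⟨a, ha⟩ := hu δ hδ
  obtain ⟨c, hc⟩ := hu δ' hδ'
  rw [om_eq hX hx hδ' ha, om_eq hX hx hδ hc, ham_rep_pair hX ha hc]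

theorem om_add_right (hX : IsContactFano 𝒜 P) (hx : IsNV 𝒜 x) {δ δ₁ δ₂ : R →ₗ[ℂ] E}
    (hδ : IsDer x δ) (h1 : IsDer x δ₁) (h2 : IsDer x δ₂) :
    om P x δ (δ₁ + δ₂) = om P x δ δ₁ + om P x δ δ₂ := by
  have h12 : IsDer x (δ₁ + δ₂) := (DerAt x).add_mem h1 h2
  obtain ⟨L, u, hu⟩ := exists_ham_rep hX hx
  obtain ⟨a, ha⟩ := hu δ hδ
  rw [om_eq hX hx h12 ha, om_eq hX hx h1 ha, om_eq hX hx h2 ha, ← Finset.sum_add_distrib]
  refine Finset.sum_congr rfl fun i _ => ?_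
  rw [LinearMap.add_apply, mul_add]

theorem om_smul_right (hX : IsContactFano 𝒜 P) (hx : IsNV 𝒜 x) {δ δ' : R →ₗ[ℂ] E}
    (hδ : IsDer x δ) (h1 : IsDer x δ') (c : E) :
    om P x δ (c • δ') = c * om P x δ δ' := by
  have h12 : IsDer x (c • δ') := (DerAt x).smul_mem c h1
  obtain ⟨L, u, hu⟩ := exists_ham_rep hX hx
  obtain ⟨a, ha⟩ := hu δ hδ
  rw [om_eq hX hx h12 ha, om_eq hX hx h1 ha, Finset.mul_sum]
  refine Finset.sum_congr rfl fun i _ => ?_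
  rw [LinearMap.smul_apply, smul_eq_mul]
  ring

theorem om_add_left (hX : IsContactFano 𝒜 P) (hx : IsNV 𝒜 x) {δ₁ δ₂ δ' : R →ₗ[ℂ] E}
    (h1 : IsDer x δ₁) (h2 : IsDer x δ₂) (hδ' : IsDer x δ') :
    om P x (δ₁ + δ₂) δ' = om P x δ₁ δ' + om P x δ₂ δ' := by
  have h12 : IsDer x (δ₁ + δ₂) := (DerAt x).add_mem h1 h2
  rw [om_antisymm hX hx h12 hδ', om_antisymm hX hx h1 hδ', om_antisymm hX hx h2 hδ',
    om_add_right hX hx hδ' h1 h2]
  ring

theorem om_smul_left (hX : IsContactFano 𝒜 P) (hx : IsNV 𝒜 x) {δ δ' : R →ₗ[ℂ] E}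
    (h1 : IsDer x δ) (hδ' : IsDer x δ') (c : E) :
    om P x (c • δ) δ' = c * om P x δ δ' := by
  have h12 : IsDer x (c • δ) := (DerAt x).smul_mem c h1
  rw [om_antisymm hX hx h12 hδ', om_antisymm hX hx h1 hδ', om_smul_right hX hx hδ' h1 c]
  ring

/-- The value of the form on a Hamiltonian derivation in the second place. -/
theorem om_ham_right (hX : IsContactFano 𝒜 P) (hx : IsNV 𝒜 x) {δ : R →ₗ[ℂ] E}
    (hδ : IsDer x δ) (r : R) : om P x δ (hamAt P x r) = - δ r := by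
  rw [om_antisymm hX hx hδ (isDer_hamAt hX x r), om_ham hX hx hδ]

/-- The form is alternating. -/
theorem om_self (hX : IsContactFano 𝒜 P) (hx : IsNV 𝒜 x) {δ : R →ₗ[ℂ] E}
    (hδ : IsDer x δ) : om P x δ δ = 0 := by
  have hE : CharZero E := charZero_of_injective_algebraMap (algebraMap ℂ E).injective
  exact self_eq_neg.mp (om_antisymm hX hx hδ hδ)

theorem eq_zero_of_om (hX : IsContactFano 𝒜 P) (hx : IsNV 𝒜 x) {δ : R →ₗ[ℂ] E}
    (h1 : IsDer x δ) (h : ∀ δ', IsDer x δ' → om P x δ δ' = 0) : δ = 0 := by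
  ext r
  have h2 := h _ (isDer_hamAt hX x r)
  rw [om_ham_right hX hx h1, neg_eq_zero] at h2
  rw [h2, LinearMap.zero_apply]

/-- A derivation which pairs to zero with all Hamiltonian derivations is zero. -/
theorem eq_zero_of_om' (hX : IsContactFano 𝒜 P) (hx : IsNV 𝒜 x) {δ : R →ₗ[ℂ] E}
    (h1 : IsDer x δ) (h : ∀ δ', IsDer x δ' → om P x δ' δ = 0) : δ = 0 := by
  refine eq_zero_of_om hX hx h1 fun δ' hδ' => ?_
  rw [om_antisymm hX hx h1 hδ', h δ' hδ', neg_zero]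

theorem om_neg_left (hX : IsContactFano 𝒜 P) (hx : IsNV 𝒜 x) {δ δ' : R →ₗ[ℂ] E}
    (h1 : IsDer x δ) (hδ' : IsDer x δ') : om P x (-δ) δ' = - om P x δ δ' := by
  have h := om_smul_left hX hx h1 hδ' (-1)
  have e : (-1 : E) • δ = -δ := by
    ext s; simp
  rwa [e, neg_one_mul] at h

theorem om_neg_right (hX : IsContactFano 𝒜 P) (hx : IsNV 𝒜 x) {δ δ' : R →ₗ[ℂ] E}
    (h1 : IsDer x δ) (hδ' : IsDer x δ') : om P x δ (-δ') = - om P x δ δ' := by
  have h := om_smul_right hX hx h1 hδ' (-1)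
  have e : (-1 : E) • δ' = -δ' := by
    ext s; simp
  rwa [e, neg_one_mul] at h

theorem om_sub_left (hX : IsContactFano 𝒜 P) (hx : IsNV 𝒜 x) {δ₁ δ₂ δ' : R →ₗ[ℂ] E}
    (h1 : IsDer x δ₁) (h2 : IsDer x δ₂) (hδ' : IsDer x δ') :
    om P x (δ₁ - δ₂) δ' = om P x δ₁ δ' - om P x δ₂ δ' := by
  rw [sub_eq_add_neg, om_add_left hX hx h1 ((DerAt x).neg_mem h2) hδ', om_neg_left hX hx h2 hδ',
    sub_eq_add_neg]

theorem om_sub_right (hX : IsContactFano 𝒜 P) (hx : IsNV 𝒜 x) {δ δ₁ δ₂ : R →ₗ[ℂ] E}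
    (hδ : IsDer x δ) (h1 : IsDer x δ₁) (h2 : IsDer x δ₂) :
    om P x δ (δ₁ - δ₂) = om P x δ δ₁ - om P x δ δ₂ := by
  rw [sub_eq_add_neg, om_add_right hX hx hδ h1 ((DerAt x).neg_mem h2), om_neg_right hX hx hδ h2,
    sub_eq_add_neg]

theorem om_zero_left (hX : IsContactFano 𝒜 P) (hx : IsNV 𝒜 x) {δ' : R →ₗ[ℂ] E}
    (hδ' : IsDer x δ') : om P x 0 δ' = 0 := by
  have := om_smul_left hX hx hδ' hδ' 0
  rwa [zero_smul, zero_mul] at this

theorem om_zero_right (hX : IsContactFano 𝒜 P) (hx : IsNV 𝒜 x) {δ : R →ₗ[ℂ] E}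
    (hδ : IsDer x δ) : om P x δ 0 = 0 := by
  have := om_smul_right hX hx hδ hδ 0
  rwa [zero_smul, zero_mul] at this

end om

end Vale.Agent.P292
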