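import Vale.Agent.P292.K.ChartKD
import Vale.Agent.P292.K.B

/-! # Blocks C1, C3: the symplectic form along curves is polynomial. -/

namespace Vale.Agent.P292

open MvPolynomial TensorProduct

universe u v w

/-! ### the form in a chart -/

section
variable {R : Type u} [CommRing R] [Algebra ℂ R] {𝒜 : ℕ → Submodule ℂ R} [GradedAlgebra 𝒜]
  {P : R →ₗ[ℂ] R →ₗ[ℂ] R}

theorem c1_antisymm (hX : IsContactFano 𝒜 P) (r s : R) : P r s = - P s r := by
  have h := hX.alternating (r + s)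
  simp only [map_add, LinearMap.add_apply, hX.alternating r, hX.alternating s, zero_add,
    add_zero] at h
  exact eq_neg_of_add_eq_zero_left (by rwa [add_comm] at h)

/-- A relation between differentials holds for all derivations over a point. -/
theorem c1_isDer_rel {E : Type v} [CommRing E] [Algebra ℂ E] {x₀ : R →ₐ[ℂ] E}
    {δ : R →ₗ[ℂ] E} (hδ : IsDer x₀ δ) {N : ℕ} {x : Fin N → R} {g r : R} {c : Fin N → R}
    (h : g • KaehlerDifferential.D ℂ R r = ∑ i, c i • KaehlerDifferential.D ℂ R (x i)) :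
    x₀ g * δ r = ∑ i, x₀ (c i) * δ (x i) := by
  letI : Algebra R E := x₀.toRingHom.toAlgebra
  have hmap : ∀ r : R, algebraMap R E r = x₀ r := fun _ => rfl
  haveI : IsScalarTower ℂ R E := IsScalarTower.of_algebraMap_eq fun c => by
    rw [hmap, AlgHom.commutes]
  let D : Derivation ℂ R E := Derivation.mk' δ fun a b => by
    rw [hδ a b, Algebra.smul_def, Algebra.smul_def, hmap, hmap]
  have hD : ∀ r, D r = δ r := fun _ => rfl
  have := congrArg D.liftKaehlerDifferential h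
  rw [map_smul, Derivation.liftKaehlerDifferential_comp_D, map_sum, hD, Algebra.smul_def,
    hmap] at this
  rw [this]
  refine Finset.sum_congr rfl fun i _ => ?_
  rw [map_smul, Derivation.liftKaehlerDifferential_comp_D, hD, Algebra.smul_def, hmap]

/-- A relation between differentials holds for the brackets. -/
theorem c1_bracket_rel (hX : IsContactFano 𝒜 P) {N : ℕ} {x : Fin N → R} {g r : R}
    {c : Fin N → R}
    (h : g • KaehlerDifferential.D ℂ R r = ∑ i, c i • KaehlerDifferential.D ℂ R (x i)) (s : R) :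
    g * P r s = ∑ i, c i * P (x i) s := by
  have hδ : IsDer (AlgHom.id ℂ R) (P s) := fun a b => by
    rw [hX.leibniz, AlgHom.id_apply, AlgHom.id_apply]; ring
  have h1 := c1_isDer_rel hδ h
  simp only [AlgHom.id_apply] at h1
  rw [c1_antisymm hX r s, mul_neg, h1, ← Finset.sum_neg_distrib]
  refine Finset.sum_congr rfl fun i _ => ?_
  rw [c1_antisymm hX (x i) s, mul_neg]

/-- The symplectic form in a chart. -/
theorem c1_chart_om (hX : IsContactFano 𝒜 P) {E : Type v} [Field E] [Algebra ℂ E]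
    {x₀ : R →ₐ[ℂ] E} (hx : IsNV 𝒜 x₀) {δ δ' : R →ₗ[ℂ] E} (hδ : IsDer x₀ δ) (hδ' : IsDer x₀ δ')
    {N : ℕ} (x : Fin N → R) (g : R) (hg : x₀ g ≠ 0)
    (h : ∀ r, ∃ c : Fin N → R, g • KaehlerDifferential.D ℂ R r =
        ∑ i, c i • KaehlerDifferential.D ℂ R (x i)) :
    x₀ (Matrix.det (Matrix.of fun i j => P (x i) (x j))) * om P x₀ δ δ' =
      ∑ i, ∑ j, δ (x i) * x₀ (Matrix.adjugate (Matrix.of fun i j => P (x i) (x j)) i j) *
        δ' (x j) := by
  obtain ⟨K, r, hr⟩ := exists_ham_rep hX hx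
  obtain ⟨a, ha⟩ := hr δ hδ
  choose c hc using fun l => h (r l)
  set b : Fin N → E := fun m => (x₀ g)⁻¹ * ∑ l, a l * x₀ (c l m) with hb
  have key : ∀ (f : R → E) (f' : Fin N → E), (∀ l, x₀ g * f (r l) = ∑ m, x₀ (c l m) * f' m) →
      ∑ l, a l * f (r l) = ∑ m, b m * f' m := by
    intro f f' hf
    have h1 : x₀ g * ∑ l, a l * f (r l) = x₀ g * ∑ m, b m * f' m := by
      calc x₀ g * ∑ l, a l * f (r l) = ∑ l, a l * (x₀ g * f (r l)) := by
            rw [Finset.mul_sum]; exact Finset.sum_congr rfl fun l _ => by ring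
        _ = ∑ l, ∑ m, a l * (x₀ (c l m) * f' m) :=
            Finset.sum_congr rfl fun l _ => by rw [hf l, Finset.mul_sum]
        _ = ∑ m, ∑ l, a l * (x₀ (c l m) * f' m) := Finset.sum_comm
        _ = x₀ g * ∑ m, b m * f' m := by
            rw [Finset.mul_sum]
            refine Finset.sum_congr rfl fun m _ => ?_
            simp only [hb]
            rw [← mul_assoc, ← mul_assoc, mul_inv_cancel₀ hg, one_mul, Finset.sum_mul]
            exact Finset.sum_congr rfl fun l _ => by ring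
    exact mul_left_cancel₀ hg h1
  have hδx : ∀ s, δ s = ∑ m, b m * x₀ (P (x m) s) := by
    intro s
    rw [ha s]
    refine key (fun t => x₀ (P t s)) (fun m => x₀ (P (x m) s)) fun l => ?_
    rw [← map_mul, c1_bracket_rel hX (hc l) s, map_sum]
    exact Finset.sum_congr rfl fun m _ => by rw [map_mul]
  have hom : om P x₀ δ δ' = ∑ m, b m * δ' (x m) := om_eq hX hx hδ' hδx
  set M : Matrix (Fin N) (Fin N) R := Matrix.of fun i j => P (x i) (x j) with hM
  have hMadj : ∀ m j, ∑ i, x₀ (P (x m) (x i)) * x₀ (M.adjugate i j) =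
      if m = j then x₀ M.det else 0 := by
    intro m j
    have h1 := congrFun (congrFun (Matrix.mul_adjugate M) m) j
    rw [Matrix.mul_apply, Matrix.smul_apply, Matrix.one_apply] at h1
    have h2 := congrArg x₀ h1
    rw [map_sum] at h2
    simp only [map_mul] at h2
    rw [show (∑ i, x₀ (P (x m) (x i)) * x₀ (M.adjugate i j)) =
      ∑ i, x₀ (M m i) * x₀ (M.adjugate i j) from rfl, h2]
    split_ifs <;> simp
  rw [hom]
  symm
  calc ∑ i, ∑ j, δ (x i) * x₀ (M.adjugate i j) * δ' (x j)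
      = ∑ j, ∑ i, δ (x i) * x₀ (M.adjugate i j) * δ' (x j) := Finset.sum_comm
    _ = ∑ j, (x₀ M.det * b j) * δ' (x j) := by
        refine Finset.sum_congr rfl fun j _ => ?_
        rw [← Finset.sum_mul]
        congr 1
        calc ∑ i, δ (x i) * x₀ (M.adjugate i j)
            = ∑ i, ∑ m, b m * (x₀ (P (x m) (x i)) * x₀ (M.adjugate i j)) := by
              refine Finset.sum_congr rfl fun i _ => ?_
              rw [hδx (x i), Finset.sum_mul]
              exact Finset.sum_congr rfl fun m _ => by ring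
          _ = ∑ m, ∑ i, b m * (x₀ (P (x m) (x i)) * x₀ (M.adjugate i j)) := Finset.sum_comm
          _ = ∑ m, b m * (if m = j then x₀ M.det else 0) := by
              refine Finset.sum_congr rfl fun m _ => ?_
              rw [← Finset.mul_sum, hMadj]
          _ = x₀ M.det * b j := by
              simp only [mul_ite, mul_zero, Finset.sum_ite_eq', Finset.mem_univ, if_true]
              ring
    _ = x₀ M.det * ∑ m, b m * δ' (x m) := by
        rw [Finset.mul_sum]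
        exact Finset.sum_congr rfl fun j _ => by ring

end

/-! ### rational functions of two variables with poles only at the origin -/

theorem c1_exists_poly {κ : Type v} [Field κ] [IsAlgClosed κ]
    (z : FractionRing (MvPolynomial (Fin 2) κ))
    (h : ∀ a : Fin 2 → κ, a ≠ 0 → ∃ q c : MvPolynomial (Fin 2) κ, eval a q ≠ 0 ∧
      algebraMap _ (FractionRing (MvPolynomial (Fin 2) κ)) q * z = algebraMap _ _ c) :
    ∃ c : MvPolynomial (Fin 2) κ, algebraMap _ (FractionRing (MvPolynomial (Fin 2) κ)) c = z := by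
  apply IsFractionRing.isInteger_of_isUnit_den
  by_contra hu
  set D : MvPolynomial (Fin 2) κ := (IsFractionRing.den (MvPolynomial (Fin 2) κ) z :
    nonZeroDivisors (MvPolynomial (Fin 2) κ)).1 with hD
  have hD0 : D ≠ 0 := nonZeroDivisors.coe_ne_zero _
  obtain ⟨π, hπ, hπD⟩ := WfDvdMonoid.exists_irreducible_factor hu hD0
  have hπp : Prime π := hπ.prime
  have hz : ∀ a : Fin 2 → κ, a ≠ 0 → eval a π ≠ 0 := by
    intro a ha h0
    obtain ⟨q, c, hq, hqc⟩ := h a ha
    have h1 : q * IsFractionRing.num (MvPolynomial (Fin 2) κ) z = c * D := by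
      apply IsFractionRing.injective (MvPolynomial (Fin 2) κ)
        (FractionRing (MvPolynomial (Fin 2) κ))
      rw [map_mul, map_mul, ← hqc]
      have h2 := (IsFractionRing.num_mul_den_eq_num_iff_eq
        (A := MvPolynomial (Fin 2) κ) (x := z) (y := z)).mpr rfl
      rw [← h2, mul_assoc]
    have h2 : D ∣ q * IsFractionRing.num (MvPolynomial (Fin 2) κ) z := ⟨c, by rw [h1, mul_comm]⟩
    have h3 : D ∣ q := IsRelPrime.dvd_of_dvd_mul_right
      (IsFractionRing.num_den_reduced (MvPolynomial (Fin 2) κ) z).symm h2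
    obtain ⟨t, ht⟩ := hπD.trans h3
    apply hq
    rw [ht, map_mul, h0, zero_mul]
  haveI : (Ideal.span {π}).IsPrime := (Ideal.span_singleton_prime hπp.ne_zero).mpr hπp
  have hX : ∀ i : Fin 2, π ∣ (X i : MvPolynomial (Fin 2) κ) := by
    intro i
    rw [← Ideal.mem_span_singleton, ← MvPolynomial.IsPrime.vanishingIdeal_zeroLocus (K := κ)
      (Ideal.span {π}), mem_vanishingIdeal_iff]
    intro a ha
    rw [mem_zeroLocus_iff] at ha
    have h1 := ha π (Ideal.mem_span_singleton_self π)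
    have h2 : a = 0 := by
      by_contra h3
      apply hz a h3
      rwa [aeval_eq_eval] at h1
    rw [h2]
    simp
  have h4 : (X 0 : MvPolynomial (Fin 2) κ) ∣ π :=
    hπ.dvd_symm (X_prime (R := κ) (i := (0 : Fin 2))).irreducible (hX 0)
  have h5 := X_dvd_X.mp (h4.trans (hX 1))
  exact absurd h5 (by decide)

/-! ### the form along a curve -/

variable {R : Type u} [CommRing R] [Algebra ℂ R] {𝒜 : ℕ → Submodule ℂ R} [GradedAlgebra 𝒜]
  {P : R →ₗ[ℂ] R →ₗ[ℂ] R}

section omC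
variable {κ : Type v} [Field κ] [IsAlgClosed κ] [Algebra ℂ κ] {d : ℕ}
  {φ : R →ₐ[ℂ] MvPolynomial (Fin 2) κ}

omit [IsAlgClosed κ] in
theorem c1_isDer_comp {δ : R →ₗ[ℂ] MvPolynomial (Fin 2) κ} (h : IsDer φ δ)
    {F : Type w} [CommRing F] [Algebra ℂ F] (j : MvPolynomial (Fin 2) κ →ₐ[ℂ] F) :
    IsDer (j.comp φ) (j.toLinearMap ∘ₗ δ) := fun r s => by
  simp [h r s]

omit [GradedAlgebra 𝒜] [IsAlgClosed κ] in
theorem c1_isNV_pt (hφ : IsCurve 𝒜 d φ) (a : Fin 2 → κ) (ha : a ≠ 0) : IsNV 𝒜 (pt φ a) := by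
  obtain ⟨k, hk, r, hr, h⟩ := hφ.bpf a ha
  exact ⟨k, hk, r, hr, by rwa [pt_apply, ← aeval_eq_eval]⟩

omit [GradedAlgebra 𝒜] [IsAlgClosed κ] in
theorem c1_isNV_gen (hφ : IsCurve 𝒜 d φ) {F : Type w} [CommRing F] [Algebra ℂ F]
    (j : MvPolynomial (Fin 2) κ →ₐ[ℂ] F) (hj : Function.Injective j) : IsNV 𝒜 (j.comp φ) := by
  obtain ⟨k, hk, r, hr, h⟩ := hφ.bpf ![1, 0] (by
    intro h0
    have := congrFun h0 0
    simp at this)
  refine ⟨k, hk, r, hr, fun h0 => h ?_⟩
  rw [AlgHom.comp_apply] at h0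
  rw [hj (h0.trans (map_zero j).symm), map_zero]

omit [IsAlgClosed κ] in
theorem c1_chart_comp (hX : IsContactFano 𝒜 P) {F : Type w} [Field F] [Algebra ℂ F]
    (j : MvPolynomial (Fin 2) κ →ₐ[ℂ] F) (hj : IsNV 𝒜 (j.comp φ))
    {δ δ' : R →ₗ[ℂ] MvPolynomial (Fin 2) κ} (h1 : IsDer φ δ) (h2 : IsDer φ δ')
    {N : ℕ} (x : Fin N → R) (g : R) (hg : j (φ g) ≠ 0)
    (h : ∀ r, ∃ c : Fin N → R, g • KaehlerDifferential.D ℂ R r =
        ∑ i, c i • KaehlerDifferential.D ℂ R (x i)) :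
    j (φ (Matrix.det (Matrix.of fun i j => P (x i) (x j)))) *
      om P (j.comp φ) (j.toLinearMap ∘ₗ δ) (j.toLinearMap ∘ₗ δ') =
      j (∑ i, ∑ j, δ (x i) * φ (Matrix.adjugate (Matrix.of fun i j => P (x i) (x j)) i j) *
        δ' (x j)) := by
  have := c1_chart_om hX hj (c1_isDer_comp h1 j) (c1_isDer_comp h2 j) x g hg h
  rw [AlgHom.comp_apply] at this
  rw [this, map_sum]
  refine Finset.sum_congr rfl fun i _ => ?_
  rw [map_sum]
  refine Finset.sum_congr rfl fun i _ => ?_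
  rw [map_mul, map_mul]
  rfl

theorem omC_frac (hX : IsContactFano 𝒜 P) (hφ : IsCurve 𝒜 d φ)
    {δ δ' : R →ₗ[ℂ] MvPolynomial (Fin 2) κ} (h1 : IsDer φ δ) (h2 : IsDer φ δ') :
    algebraMap _ (FractionRing (MvPolynomial (Fin 2) κ)) (omC P φ δ δ') =
    om P ((IsScalarTower.toAlgHom ℂ (MvPolynomial (Fin 2) κ)
        (FractionRing (MvPolynomial (Fin 2) κ))).comp φ)
      ((IsScalarTower.toAlgHom ℂ (MvPolynomial (Fin 2) κ)
        (FractionRing (MvPolynomial (Fin 2) κ))).toLinearMap ∘ₗ δ)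
      ((IsScalarTower.toAlgHom ℂ (MvPolynomial (Fin 2) κ)
        (FractionRing (MvPolynomial (Fin 2) κ))).toLinearMap ∘ₗ δ') := by
  refine Classical.epsilon_spec (p := fun c =>
    algebraMap _ (FractionRing (MvPolynomial (Fin 2) κ)) c =
    om P ((IsScalarTower.toAlgHom ℂ (MvPolynomial (Fin 2) κ)
        (FractionRing (MvPolynomial (Fin 2) κ))).comp φ)
      ((IsScalarTower.toAlgHom ℂ (MvPolynomial (Fin 2) κ)
        (FractionRing (MvPolynomial (Fin 2) κ))).toLinearMap ∘ₗ δ)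
      ((IsScalarTower.toAlgHom ℂ (MvPolynomial (Fin 2) κ)
        (FractionRing (MvPolynomial (Fin 2) κ))).toLinearMap ∘ₗ δ')) (c1_exists_poly _ ?_)
  intro a ha
  obtain ⟨N, x, k, g, l, -, -, hg, hdet, hc⟩ := exists_chart_kd hX (pt φ a) (c1_isNV_pt hφ a ha)
  have hφg : φ g ≠ 0 := fun h0 => hg (by rw [pt_apply, h0, map_zero])
  have hinj : Function.Injective (IsScalarTower.toAlgHom ℂ (MvPolynomial (Fin 2) κ)
        (FractionRing (MvPolynomial (Fin 2) κ))) :=
    IsFractionRing.injective (MvPolynomial (Fin 2) κ) (FractionRing (MvPolynomial (Fin 2) κ))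
  have := c1_chart_comp hX (IsScalarTower.toAlgHom ℂ (MvPolynomial (Fin 2) κ)
        (FractionRing (MvPolynomial (Fin 2) κ))) (c1_isNV_gen hφ _ hinj) h1 h2 x g
        (fun h0 => hφg (hinj (h0.trans (map_zero _).symm))) hc
  exact ⟨_, _, by rwa [pt_apply] at hdet, this⟩

/-- C3 without homogeneity. -/
theorem c1_omC_chart (hX : IsContactFano 𝒜 P) (hφ : IsCurve 𝒜 d φ)
    {δ δ' : R →ₗ[ℂ] MvPolynomial (Fin 2) κ} (h1 : IsDer φ δ) (h2 : IsDer φ δ')
    {N : ℕ} (x : Fin N → R) (g : R) (hg : φ g ≠ 0)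
    (h : ∀ r, ∃ c : Fin N → R, g • KaehlerDifferential.D ℂ R r =
        ∑ i, c i • KaehlerDifferential.D ℂ R (x i)) :
    φ (Matrix.det (Matrix.of fun i j => P (x i) (x j))) * omC P φ δ δ' =
      ∑ i, ∑ j, δ (x i) * φ (Matrix.adjugate (Matrix.of fun i j => P (x i) (x j)) i j) *
        δ' (x j) := by
  have hinj : Function.Injective (IsScalarTower.toAlgHom ℂ (MvPolynomial (Fin 2) κ)
        (FractionRing (MvPolynomial (Fin 2) κ))) :=
    IsFractionRing.injective (MvPolynomial (Fin 2) κ) (FractionRing (MvPolynomial (Fin 2) κ))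
  apply hinj
  rw [← c1_chart_comp hX (IsScalarTower.toAlgHom ℂ (MvPolynomial (Fin 2) κ)
        (FractionRing (MvPolynomial (Fin 2) κ))) (c1_isNV_gen hφ _ hinj) h1 h2 x g
        (fun h0 => hg (hinj (h0.trans (map_zero _).symm))) h, map_mul, ← omC_frac hX hφ h1 h2]
  rfl

theorem c1_omC_spec (hX : IsContactFano 𝒜 P) (hφ : IsCurve 𝒜 d φ)
    {δ δ' : R →ₗ[ℂ] MvPolynomial (Fin 2) κ} (h1 : IsDer φ δ) (h2 : IsDer φ δ')
    {F : Type w} [Field F] [Algebra ℂ F] (j : MvPolynomial (Fin 2) κ →ₐ[ℂ] F)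
    (hj : IsNV 𝒜 (j.comp φ)) :
    om P (j.comp φ) (j.toLinearMap ∘ₗ δ) (j.toLinearMap ∘ₗ δ') = j (omC P φ δ δ') := by
  obtain ⟨N, x, k, g, l, -, -, hg, hdet, hc⟩ := exists_chart_kd hX (j.comp φ) hj
  rw [AlgHom.comp_apply] at hg hdet
  have hφg : φ g ≠ 0 := fun h0 => hg (by rw [h0, map_zero])
  have h3 := c1_chart_comp hX j hj h1 h2 x g hg hc
  rw [← c1_omC_chart hX hφ h1 h2 x g hφg hc, map_mul] at h3
  exact mul_left_cancel₀ hdet h3

/-- C1: `omC` computes `om` at every field valued point of the curve, not over the vertex. -/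
theorem omC_spec (hX : IsContactFano 𝒜 P) (hφ : IsCurve 𝒜 d φ) {e e' : ℤ}
    {δ δ' : R →ₗ[ℂ] MvPolynomial (Fin 2) κ} (h1 : IsHDer 𝒜 d φ e δ) (h2 : IsHDer 𝒜 d φ e' δ')
    {F : Type w} [Field F] [Algebra ℂ F] (j : MvPolynomial (Fin 2) κ →ₐ[ℂ] F)
    (hj : IsNV 𝒜 (j.comp φ)) :
    om P (j.comp φ) (j.toLinearMap ∘ₗ δ) (j.toLinearMap ∘ₗ δ') = j (omC P φ δ δ') :=
  c1_omC_spec hX hφ h1.der h2.der j hj

theorem omC_eval (hX : IsContactFano 𝒜 P) (hφ : IsCurve 𝒜 d φ) {e e' : ℤ}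
    {δ δ' : R →ₗ[ℂ] MvPolynomial (Fin 2) κ} (h1 : IsHDer 𝒜 d φ e δ) (h2 : IsHDer 𝒜 d φ e' δ')
    (a : Fin 2 → κ) (ha : a ≠ 0) :
    om P (pt φ a) (evL a δ) (evL a δ') = eval a (omC P φ δ δ') := by
  have := c1_omC_spec hX hφ h1.der h2.der
    ((aeval a : MvPolynomial (Fin 2) κ →ₐ[κ] κ).restrictScalars ℂ) (c1_isNV_pt hφ a ha)
  refine this.trans ?_
  rw [AlgHom.restrictScalars_apply, aeval_eq_eval]

/-- C3: chart formula along the curve. -/
theorem omC_chart (hX : IsContactFano 𝒜 P) (hφ : IsCurve 𝒜 d φ) {e e' : ℤ}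
    {δ δ' : R →ₗ[ℂ] MvPolynomial (Fin 2) κ} (h1 : IsHDer 𝒜 d φ e δ) (h2 : IsHDer 𝒜 d φ e' δ')
    {N : ℕ} (x : Fin N → R) (g : R) (hg : φ g ≠ 0)
    (h : ∀ r, ∃ c : Fin N → R, g • KaehlerDifferential.D ℂ R r =
        ∑ i, c i • KaehlerDifferential.D ℂ R (x i)) :
    φ (Matrix.det (Matrix.of fun i j => P (x i) (x j))) * omC P φ δ δ' =
      ∑ i, ∑ j, δ (x i) * φ (Matrix.adjugate (Matrix.of fun i j => P (x i) (x j)) i j) *
        δ' (x j) :=
  c1_omC_chart hX hφ h1.der h2.der x g hg h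

end omC

end Vale.Agent.P292
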