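import Vale.Agent.P292.K.Basic
import Vale.Agent.P292.LS.Bound
import Vale.Agent.P292.Fr.A
import Vale.Agent.P292.K.C1
import Vale.Agent.P292.K.C4

/-! # N1: the bound for every valuation ring. -/

namespace Vale.Agent.P292

open MvPolynomial

universe u v

variable {R : Type u} [CommRing R] [Algebra ℂ R] {𝒜 : ℕ → Submodule ℂ R} [GradedAlgebra 𝒜]
  {P : R →ₗ[ℂ] R →ₗ[ℂ] R}

/-- N1, with the chart formula `omC_chart` as a hypothesis. The strong form: there is `γ` with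
`v b ≤ v γ` and `γ ^ min (i, j)` times the coefficient of `s ^ i t ^ j` integral. -/
theorem bound_strong_aux {Ω : Type v} [Field Ω] [IsAlgClosed Ω] [Algebra ℂ Ω]
    {φ : R →ₐ[ℂ] MvPolynomial (Fin 2) Ω} (hX : IsContactFano 𝒜 P) (hφ : IsCurve 𝒜 2 φ) {b : Ω}
    (hstar : ∀ (N : ℕ) (x : Fin N → R) (g : R), φ g ≠ 0 →
      (∀ r, ∃ c : Fin N → R, g • KaehlerDifferential.D ℂ R r =
        ∑ i, c i • KaehlerDifferential.D ℂ R (x i)) →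
      φ (Matrix.det (Matrix.of fun i j => P (x i) (x j))) * C b =
        ∑ i, ∑ j, pd φ 0 (x i) * φ (Matrix.adjugate (Matrix.of fun i j => P (x i) (x j)) i j) *
          pd φ 1 (x j))
    {Γ : Type*} [LinearOrderedCommGroupWithZero Γ] (v : Valuation Ω Γ)
    (hv : ∀ c : ℂ, v (algebraMap ℂ Ω c) ≤ 1)
    (h10 : ∀ r, v (pt φ ![1, 0] r) ≤ 1) (h01 : ∀ r, v (pt φ ![0, 1] r) ≤ 1)
    (n01 : ∃ k : ℕ, 0 < k ∧ ∃ r ∈ 𝒜 k, v (pt φ ![0, 1] r) = 1) :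
    ∃ γ : Ω, γ ≠ 0 ∧ v γ ≤ 1 ∧ v b ≤ v γ ∧
      ∀ r m, v (coeff m (φ r)) * v γ ^ min (m 0) (m 1) ≤ 1 := by
  refine LS.bound v hX hv φ hφ.degree h10 h01 n01 b ?_
  intro p hp hker ⟨k, hk, r, hr, hrp⟩
  obtain ⟨N, x, g, h, hF, hg⟩ := exists_frame_of_prime hX p hp hk hr hrp
  refine ⟨N, x, fun hmem => hg (Ideal.mul_mem_left _ _ hmem), ?_⟩
  have hg0 : φ g ≠ 0 := fun h0 => hg (Ideal.mul_mem_right _ _ (hker g h0))
  rw [mul_comm]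
  exact hstar N x g hg0 fun r => ⟨h r, hF.smul_D r⟩

/-- N1, with the chart formula `omC_chart` as a hypothesis. -/
theorem bound_aux {Ω : Type v} [Field Ω] [IsAlgClosed Ω] [Algebra ℂ Ω]
    {φ : R →ₐ[ℂ] MvPolynomial (Fin 2) Ω} (hX : IsContactFano 𝒜 P) (hφ : IsCurve 𝒜 2 φ) {b : Ω}
    (hstar : ∀ (N : ℕ) (x : Fin N → R) (g : R), φ g ≠ 0 →
      (∀ r, ∃ c : Fin N → R, g • KaehlerDifferential.D ℂ R r =
        ∑ i, c i • KaehlerDifferential.D ℂ R (x i)) →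
      φ (Matrix.det (Matrix.of fun i j => P (x i) (x j))) * C b =
        ∑ i, ∑ j, pd φ 0 (x i) * φ (Matrix.adjugate (Matrix.of fun i j => P (x i) (x j)) i j) *
          pd φ 1 (x j))
    (v : ValuationSubring Ω) (hv : ∀ c : ℂ, algebraMap ℂ Ω c ∈ v)
    (h10 : ∀ r, pt φ ![1, 0] r ∈ v) (h01 : ∀ r, pt φ ![0, 1] r ∈ v)
    (n01 : ∃ k : ℕ, 0 < k ∧ ∃ r ∈ 𝒜 k, v.valuation (pt φ ![0, 1] r) = 1) :
    b ∈ v ∧ ∀ k : ℕ, 0 < k → ∀ r ∈ 𝒜 k, b * cf (φ r) 1 (2 * k - 1) ∈ v ∧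
      b * cf (φ r) (2 * k - 1) 1 ∈ v := by
  obtain ⟨γ, hγ0, hγ1, hb, h⟩ := bound_strong_aux hX hφ hstar v.valuation
    (fun c => (v.valuation_le_one_iff _).mpr (hv c))
    (fun r => (v.valuation_le_one_iff _).mpr (h10 r))
    (fun r => (v.valuation_le_one_iff _).mpr (h01 r)) n01
  have key : ∀ (r : R) (m : Fin 2 →₀ ℕ), min (m 0) (m 1) ≤ 1 → b * coeff m (φ r) ∈ v := by
    intro r m hm
    rw [← v.valuation_le_one_iff, map_mul, mul_comm]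
    have h1 := h r m
    rcases Nat.eq_zero_or_pos (min (m 0) (m 1)) with h0 | h0
    · rw [h0, pow_zero, mul_one] at h1
      exact mul_le_one' h1 (hb.trans hγ1)
    · rw [show min (m 0) (m 1) = 1 by omega, pow_one] at h1
      exact le_trans (mul_le_mul' le_rfl hb) h1
  refine ⟨(v.valuation_le_one_iff _).mp (hb.trans hγ1), fun k _ r _ => ⟨?_, ?_⟩⟩
  · refine key r _ ?_
    simp only [Finsupp.add_apply, Finsupp.single_eq_same, Finsupp.single_apply]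
    norm_num
  · refine key r _ ?_
    simp only [Finsupp.add_apply, Finsupp.single_eq_same, Finsupp.single_apply]
    norm_num

/-- N1: the bound, for every valuation ring. -/
theorem bound {Ω : Type v} [Field Ω] [IsAlgClosed Ω] [Algebra ℂ Ω]
    {φ : R →ₐ[ℂ] MvPolynomial (Fin 2) Ω} (hX : IsContactFano 𝒜 P) (hφ : IsCurve 𝒜 2 φ) {b : Ω}
    (hb : omC P φ (pd φ 0) (pd φ 1) = C b) (v : ValuationSubring Ω)
    (hv : ∀ c : ℂ, algebraMap ℂ Ω c ∈ v)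
    (h10 : ∀ r, pt φ ![1, 0] r ∈ v) (h01 : ∀ r, pt φ ![0, 1] r ∈ v)
    (_n10 : ∃ k : ℕ, 0 < k ∧ ∃ r ∈ 𝒜 k, v.valuation (pt φ ![1, 0] r) = 1)
    (n01 : ∃ k : ℕ, 0 < k ∧ ∃ r ∈ 𝒜 k, v.valuation (pt φ ![0, 1] r) = 1) :
    b ∈ v ∧ ∀ k : ℕ, 0 < k → ∀ r ∈ 𝒜 k, b * cf (φ r) 1 (2 * k - 1) ∈ v ∧
      b * cf (φ r) (2 * k - 1) 1 ∈ v := by
  refine bound_aux hX hφ (fun N x g hg h => ?_) v hv h10 h01 n01
  rw [← hb]
  exact omC_chart hX hφ (isHDer_pd hφ 0) (isHDer_pd hφ 1) x g hg h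

/-- The strong form of N1: there is `γ` with `v b ≤ v γ ≤ 1` and `γ ^ min (i, j)` times the
coefficient of `s ^ i t ^ j` integral. -/
theorem bound_strong {Ω : Type v} [Field Ω] [IsAlgClosed Ω] [Algebra ℂ Ω]
    {φ : R →ₐ[ℂ] MvPolynomial (Fin 2) Ω} (hX : IsContactFano 𝒜 P) (hφ : IsCurve 𝒜 2 φ) {b : Ω}
    (hb : omC P φ (pd φ 0) (pd φ 1) = C b)
    {Γ : Type*} [LinearOrderedCommGroupWithZero Γ] (v : Valuation Ω Γ)
    (hv : ∀ c : ℂ, v (algebraMap ℂ Ω c) ≤ 1)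
    (h10 : ∀ r, v (pt φ ![1, 0] r) ≤ 1) (h01 : ∀ r, v (pt φ ![0, 1] r) ≤ 1)
    (n01 : ∃ k : ℕ, 0 < k ∧ ∃ r ∈ 𝒜 k, v (pt φ ![0, 1] r) = 1) :
    ∃ γ : Ω, γ ≠ 0 ∧ v γ ≤ 1 ∧ v b ≤ v γ ∧
      ∀ r m, v (coeff m (φ r)) * v γ ^ min (m 0) (m 1) ≤ 1 := by
  refine bound_strong_aux hX hφ (fun N x g hg h => ?_) v hv h10 h01 n01
  rw [← hb]
  exact omC_chart hX hφ (isHDer_pd hφ 0) (isHDer_pd hφ 1) x g hg h

end Vale.Agent.P292
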