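import Vale.Agent.P292.K.V3
import Vale.Agent.P292.K.V1

/-! # P292 K-plan, V4, V5, V6: `b ≠ 0`, algebraicity of the generic conic, flow of `b ^ 2`.

The versions with the suffix `_gen` are for conics with two arbitrary ends; `hgen` says that the
second end moves freely while the first one is fixed. -/

namespace Vale.Agent.P292

open MvPolynomial TensorProduct

universe u v w

section
variable {R : Type u} [CommRing R] [Algebra ℂ R] {𝒜 : ℕ → Submodule ℂ R} [GradedAlgebra 𝒜]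
  {P : R →ₗ[ℂ] R →ₗ[ℂ] R}

section hder
variable {κ : Type v} [Field κ] [Algebra ℂ κ] {d : ℕ} {φ : R →ₐ[ℂ] MvPolynomial (Fin 2) κ}

omit [GradedAlgebra 𝒜] in
/-- `c X_i` times a derivation over `φ`. -/
theorem IsHDer.v4_mulX {e : ℤ} {δ : R →ₗ[ℂ] MvPolynomial (Fin 2) κ} (h : IsHDer 𝒜 d φ e δ)
    (c : κ) (i : Fin 2) {δ' : R →ₗ[ℂ] MvPolynomial (Fin 2) κ}
    (h' : ∀ r, δ' r = C c * X i * δ r) : IsHDer 𝒜 d φ (e + 1) δ' := by
  have hX : (C c * X i : MvPolynomial (Fin 2) κ).IsHomogeneous 1 := by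
    have h1 := (isHomogeneous_C (Fin 2) c).mul (isHomogeneous_X κ i)
    rwa [zero_add] at h1
  refine ⟨fun r s => ?_, fun k r hr m hm => ?_, fun k hk r hr => ?_⟩
  · rw [h', h', h', h.der r s]
    ring
  · rw [h']
    rcases Nat.eq_zero_or_pos m with hm0 | hm0
    · subst hm0
      rw [h.neg k (by push_cast at hm; linarith) r hr, mul_zero]
      exact isHomogeneous_zero _ _ _
    · have h1 := hX.mul (h.homog k r hr (m - 1) (by push_cast [hm0]; linarith))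
      rwa [Nat.add_sub_cancel' hm0] at h1
  · rw [h', h.neg k (by linarith) r hr, mul_zero]

omit [GradedAlgebra 𝒜] in
theorem IsHDer.v4_sub {e : ℤ} {δ δ' : R →ₗ[ℂ] MvPolynomial (Fin 2) κ} (h : IsHDer 𝒜 d φ e δ)
    (h' : IsHDer 𝒜 d φ e δ') : IsHDer 𝒜 d φ e (δ - δ') := by
  refine ⟨fun r s => ?_, fun k r hr m hm => ?_, fun k hk r hr => ?_⟩
  · rw [LinearMap.sub_apply, LinearMap.sub_apply, LinearMap.sub_apply, h.der r s, h'.der r s]
    ring
  · exact (h.homog k r hr m hm).sub (h'.homog k r hr m hm)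
  · rw [LinearMap.sub_apply, h.neg k hk r hr, h'.neg k hk r hr, sub_zero]

end hder

section conic
variable {Ω : Type v} [Field Ω] [IsAlgClosed Ω] [Algebra ℂ Ω] {w : R →ₐ[ℂ] ℂ}
  {φ : R →ₐ[ℂ] MvPolynomial (Fin 2) Ω}

/-- V4, two arbitrary ends: `b ≠ 0`. -/
theorem b_ne_zero_gen (hX : IsContactFano 𝒜 P) (hcur : IsCurve 𝒜 2 φ)
    (hgen : ∀ δ, IsDer (pt φ ![0, 1]) δ → ∃ D : Derivation ℂ Ω Ω,
      (∀ r, D (pt φ ![1, 0] r) = 0) ∧ ∀ r, D (pt φ ![0, 1] r) = δ r) {b : Ω}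
    (hb : omC P φ (pd φ 0) (pd φ 1) = C b) : b ≠ 0 := by
  rintro rfl
  have h0 := isHDer_pd hcur 0
  have h1 : evL ![0, 1] (pd φ 0) = 0 := by
    refine eq_zero_of_om_gen hX hcur hgen (h0.der.evL _) fun D hD => ?_
    rw [← first_variation' hX hcur hb D hD, map_zero]
  obtain ⟨δ', hδ', h2⟩ := exists_div_X_zero hcur h0 fun r => by
    rw [← evL_apply, h1, LinearMap.zero_apply]
  have h3 : δ' = 0 := core_gen hX hcur hgen hδ' (by norm_num)
  obtain ⟨k, hk, r, hr, h4⟩ := hcur.bpf ![1, 0] vec10_ne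
  refine h4 ?_
  have h5 : pderiv 0 (φ r) = 0 := by
    rw [← pd_apply, h2, h3, LinearMap.zero_apply, mul_zero]
  have hE := (hcur.degree k r hr).sum_X_mul_pderiv
  rw [Fin.sum_univ_two, h5, mul_zero, zero_add] at hE
  have h6 := congrArg (aeval (![1, 0] : Fin 2 → Ω)) hE
  have : CharZero Ω := charZero_of_injective_algebraMap (algebraMap ℂ Ω).injective
  simp only [map_mul, aeval_X, Matrix.cons_val_one, Matrix.cons_val_fin_one, zero_mul,
    map_nsmul] at h6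
  rw [eq_comm, smul_eq_zero] at h6
  rcases h6 with h6 | h6
  · omega
  · exact h6

/-- V5, two arbitrary ends. -/
theorem apply_eq_zero_gen (hX : IsContactFano 𝒜 P) (hcur : IsCurve 𝒜 2 φ)
    (hgen : ∀ δ, IsDer (pt φ ![0, 1]) δ → ∃ D : Derivation ℂ Ω Ω,
      (∀ r, D (pt φ ![1, 0] r) = 0) ∧ ∀ r, D (pt φ ![0, 1] r) = δ r) {b : Ω}
    (hb : omC P φ (pd φ 0) (pd φ 1) = C b) (D : Derivation ℂ Ω Ω)
    (hD0 : ∀ s, D (pt φ ![1, 0] s) = 0) (hD : ∀ s, D (pt φ ![0, 1] s) = 0) :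
    D b = 0 ∧ ∀ r m, D (coeff m (φ r)) = 0 := by
  constructor
  · have h1 : alongAt (pt φ ![0, 1]) D = 0 := by
      ext s
      exact hD s
    rw [first_variation' hX hcur hb D hD0, h1,
      om_zero_right hX (hcur.isNV_pt vec01_ne) ((isHDer_pd hcur 0).der.evL _)]
  · intro r m
    have h1 : ((mapD D : Derivation ℂ _ _).toLinearMap ∘ₗ φ.toLinearMap) = 0 := by
      refine free_conic_gen hX hcur hgen (isHDer_mapD hcur D) (fun r => ?_) fun r => ?_
      · have := eval_mapD_10 D (φ r)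
        rw [← pt_apply, hD0] at this
        exact this
      · have := eval_mapD_01 D (φ r)
        rw [← pt_apply, hD] at this
        exact this
    have h2 : mapD D (φ r) = 0 := LinearMap.congr_fun h1 r
    rw [← coeff_mapD, h2, coeff_zero]

/-- V6, two arbitrary ends: the flow of `b ^ 2`. -/
theorem flow_gen (hX : IsContactFano 𝒜 P) (hcur : IsCurve 𝒜 2 φ)
    (hgen : ∀ δ, IsDer (pt φ ![0, 1]) δ → ∃ D : Derivation ℂ Ω Ω,
      (∀ r, D (pt φ ![1, 0] r) = 0) ∧ ∀ r, D (pt φ ![0, 1] r) = δ r) {b : Ω}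
    (hb : omC P φ (pd φ 0) (pd φ 1) = C b) (D : Derivation ℂ Ω Ω)
    (hD0 : ∀ s, D (pt φ ![1, 0] s) = 0)
    (hD : ∀ s, D (pt φ ![0, 1] s) = 2 * b * eval ![0, 1] (pderiv 0 (φ s))) :
    D b = 0 ∧ ∀ r, mapD D (φ r) = C (2 * b) * X 1 * pderiv 0 (φ r) := by
  have h0 := isHDer_pd hcur 0
  have hnv : IsNV 𝒜 (pt φ ![0, 1]) := hcur.isNV_pt vec01_ne
  constructor
  · have h1 : alongAt (pt φ ![0, 1]) D = (2 * b) • evL ![0, 1] (pd φ 0) := by
      ext s
      rw [alongAt_apply, hD, LinearMap.smul_apply, evL_apply, pd_apply, smul_eq_mul]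
    have hd : IsDer (pt φ ![0, 1]) ((2 * b) • evL ![0, 1] (pd φ 0)) := h1 ▸ isDer_alongAt _ D
    rw [first_variation' hX hcur hb D hD0, h1, om_antisymm hX hnv (h0.der.evL _) hd,
      om_smul_left hX hnv (h0.der.evL _) (h0.der.evL _), om_self hX hnv (h0.der.evL _), mul_zero,
      neg_zero]
  · let δ' : R →ₗ[ℂ] MvPolynomial (Fin 2) Ω :=
      (LinearMap.mulLeft ℂ (C (2 * b) * X 1 : MvPolynomial (Fin 2) Ω)) ∘ₗ pd φ 0
    have hδ' : IsHDer 𝒜 2 φ 0 δ' := h0.v4_mulX (2 * b) 1 fun r => rfl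
    have h1 : ((mapD D : Derivation ℂ _ _).toLinearMap ∘ₗ φ.toLinearMap) - δ' = 0 := by
      refine free_conic_gen hX hcur hgen ((isHDer_mapD hcur D).v4_sub hδ') (fun r => ?_) fun r => ?_
      · have h2 : ((mapD D : Derivation ℂ _ _).toLinearMap ∘ₗ φ.toLinearMap - δ') r =
            mapD D (φ r) - C (2 * b) * X 1 * pderiv 0 (φ r) := rfl
        rw [h2, map_sub, eval_mapD_10, ← pt_apply, hD0]
        simp
      · have h2 : ((mapD D : Derivation ℂ _ _).toLinearMap ∘ₗ φ.toLinearMap - δ') r =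
            mapD D (φ r) - C (2 * b) * X 1 * pderiv 0 (φ r) := rfl
        rw [h2, map_sub, eval_mapD_01, ← pt_apply, hD]
        simp
    intro r
    have h2 := LinearMap.congr_fun h1 r
    exact sub_eq_zero.1 h2

/-- V4: `b ≠ 0`. -/
theorem b_ne_zero (hX : IsContactFano 𝒜 P) (hφ : GenConicAt 𝒜 w φ) {b : Ω}
    (hb : omC P φ (pd φ 0) (pd φ 1) = C b) : b ≠ 0 :=
  b_ne_zero_gen hX hφ.curve hφ.gen hb

/-- V5: coefficients of the conic, and `b`, are algebraic over `Frac R`. -/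
theorem apply_eq_zero (hX : IsContactFano 𝒜 P) (hφ : GenConicAt 𝒜 w φ) {b : Ω}
    (hb : omC P φ (pd φ 0) (pd φ 1) = C b) (D : Derivation ℂ Ω Ω)
    (hD : ∀ s, D (pt φ ![0, 1] s) = 0) : D b = 0 ∧ ∀ r m, D (coeff m (φ r)) = 0 :=
  apply_eq_zero_gen hX hφ.curve hφ.gen hb D (hφ.kill_left D) hD

/-- V6: the flow of `B = b²`. -/
theorem flow (hX : IsContactFano 𝒜 P) (hφ : GenConicAt 𝒜 w φ) {b : Ω}
    (hb : omC P φ (pd φ 0) (pd φ 1) = C b) (D : Derivation ℂ Ω Ω)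
    (hD : ∀ s, D (pt φ ![0, 1] s) = 2 * b * eval ![0, 1] (pderiv 0 (φ s))) :
    D b = 0 ∧ ∀ r, mapD D (φ r) = C (2 * b) * X 1 * pderiv 0 (φ r) :=
  flow_gen hX hφ.curve hφ.gen hb D (hφ.kill_left D) hD

end conic

end

end Vale.Agent.P292
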