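import Vale.Agent.P292.K.F1
import Vale.Agent.P292.K.F2
import Vale.Agent.P292.K.V1
import Vale.Agent.P292.K.V4
import Vale.Agent.P292.K.N1
import Vale.Agent.P292.K.I0

/-! # Block F: a generic conic and a good polynomial with unramified splitting field give an
adjoint variety. -/

namespace Vale.Agent.P292

open MvPolynomial

universe u

variable {R : Type u} [CommRing R] [Algebra ℂ R] {𝒜 : ℕ → Submodule ℂ R} [GradedAlgebra 𝒜]
  {P : R →ₗ[ℂ] R →ₗ[ℂ] R}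

/-- `J(r) = b a_{2k-1}(r)` is integral over `R`. -/
theorem f_isIntegral_J (hX : IsContactFano 𝒜 P) {Ω : Type u} [Field Ω] [IsAlgClosed Ω]
    [Algebra ℂ Ω] {w : R →ₐ[ℂ] ℂ} {φ : R →ₐ[ℂ] MvPolynomial (Fin 2) Ω} (hφ : GenConicAt 𝒜 w φ)
    {b : Ω} (hb : omC P φ (pd φ 0) (pd φ 1) = C b) {k : ℕ} (hk : 0 < k) {r : R} (hr : r ∈ 𝒜 k) :
    ∃ Q : Polynomial R, Q.Monic ∧
      Q.eval₂ (pt φ ![0, 1] : R →+* Ω) (b * cf (φ r) (2 * k - 1) 1) = 0 := by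
  refine isIntegral_of_valuationSubring hX (pt φ ![0, 1]) hφ.inj _ fun v hv h01 n01 => ?_
  obtain ⟨k₀, hk₀, r₀, hr₀, hw⟩ := f1_exists_ne hφ
  have h10 : ∀ r, pt φ ![1, 0] r ∈ v := fun r => by rw [hφ.left]; exact hv _
  have n10 : ∃ k : ℕ, 0 < k ∧ ∃ r ∈ 𝒜 k, v.valuation (pt φ ![1, 0] r) = 1 := by
    refine ⟨k₀, hk₀, r₀, hr₀, ?_⟩
    rw [hφ.left]
    have h1 : v.valuation (algebraMap ℂ Ω (w r₀)) ≤ 1 := (v.valuation_le_one_iff _).2 (hv _)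
    have h2 : v.valuation (algebraMap ℂ Ω (w r₀)⁻¹) ≤ 1 := (v.valuation_le_one_iff _).2 (hv _)
    have h3 : v.valuation (algebraMap ℂ Ω (w r₀)) * v.valuation (algebraMap ℂ Ω (w r₀)⁻¹) = 1 := by
      rw [← map_mul, ← map_mul, mul_inv_cancel₀ hw, map_one, map_one]
    refine le_antisymm h1 ?_
    rw [← h3]
    exact mul_le_of_le_one_right' h2
  exact ((bound hX hφ.curve hb v hv h10 h01 n10 n01).2 k hk r hr).2

/-- **Block F.** -/
theorem isAdjointVariety_of_genConic (hX : IsContactFano 𝒜 P) [IsDomain R]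
    {Ω : Type u} [Field Ω] [IsAlgClosed Ω] [Algebra ℂ Ω] {w : R →ₐ[ℂ] ℂ}
    {φ : R →ₐ[ℂ] MvPolynomial (Fin 2) Ω} (hφ : GenConicAt 𝒜 w φ) {b : Ω}
    (hb : omC P φ (pd φ 0) (pd φ 1) = C b) {Q : Polynomial R} (hQ : IsGood 𝒜 P 1 Q)
    (hroot : Q.eval₂ (pt φ ![0, 1] : R →+* Ω) (b ^ 2) = 0)
    (hU : ∀ (M : Type u) [Field M] [Algebra R M] [Algebra (FractionRing R) M]
      [IsScalarTower R (FractionRing R) M]
      [(Q.map (algebraMap R (FractionRing R))).IsSplittingField (FractionRing R) M],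
      IsUnram R M) : IsAdjointVariety 𝒜 P := by
  obtain ⟨k, hk, r, hr, hw⟩ := f1_exists_ne hφ
  have hb0 : b ≠ 0 := b_ne_zero hX hφ hb
  refine isAdjointVariety_of_flow hX (pt φ ![0, 1]) hφ.inj hQ (pow_ne_zero 2 hb0) hroot hU hk hr
    (J := b * cf (φ r) (2 * k - 1) 1) (c₁ := ((2 * k - 1).factorial : ℂ) * 2 ^ (2 * k - 1))
    (c₂ := 4 * (k : ℂ) * w r) (f_isIntegral_J hX hφ hb hk hr) ?_ ?_ ?_
  · exact mul_ne_zero (Nat.cast_ne_zero.2 (Nat.factorial_ne_zero _)) (pow_ne_zero _ two_ne_zero)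
  · exact mul_ne_zero (mul_ne_zero (by norm_num) (Nat.cast_ne_zero.2 hk.ne')) hw
  · intro D hD
    exact f1_hflow hφ hX.leibniz (fun D' s h => first_variation_ham hX hφ hb D' s h)
      (fun D' h => flow hX hφ hb D' h) hk hr D hD

end Vale.Agent.P292
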