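import Vale.Agent.P292.K.Basic

/-! # Extension of derivations from `R` to a field containing `R`. -/

namespace Vale.Agent.P292

open MvPolynomial TensorProduct

universe u v w

/-- Lifting of ring homomorphisms along square zero extensions. -/
theorem exists_lift_of_formallySmooth {R : Type u} {K : Type v} {B : Type w} [CommRing R]
    [CommRing K] [CommRing B] [Algebra R K] [Algebra.FormallySmooth R K] (g : B →+* K)
    (hg : Function.Surjective g) (hker : RingHom.ker g ^ 2 = ⊥) (h : R →+* B)
    (hgh : g.comp h = algebraMap R K) :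
    ∃ ψ : K →+* B, g.comp ψ = RingHom.id K ∧ ψ.comp (algebraMap R K) = h := by
  let _ : Algebra R B := h.toAlgebra
  obtain ⟨g', hg'⟩ : ∃ g' : B →ₐ[R] K, ∀ b, g' b = g b :=
    ⟨{ g with commutes' := fun p => RingHom.congr_fun hgh p }, fun b => rfl⟩
  have hsurj : Function.Surjective g' := fun k => by
    obtain ⟨b, hb⟩ := hg k
    exact ⟨b, (hg' b).trans hb⟩
  have hnil : IsNilpotent (RingHom.ker (g' : B →+* K)) := by
    refine ⟨2, ?_⟩
    have : RingHom.ker (g' : B →+* K) = RingHom.ker g := by
      ext b
      rw [RingHom.mem_ker, RingHom.mem_ker]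
      change g' b = 0 ↔ g b = 0
      rw [hg']
    rw [this, hker]
    rfl
  refine ⟨(Algebra.FormallySmooth.liftOfSurjective (AlgHom.id R K) g' hsurj hnil :
    K →ₐ[R] B), ?_, ?_⟩
  · ext k
    have := Algebra.FormallySmooth.liftOfSurjective_apply (AlgHom.id R K) g' hsurj hnil k
    rw [hg'] at this
    exact this
  · ext p
    exact (Algebra.FormallySmooth.liftOfSurjective (AlgHom.id R K) g' hsurj hnil).commutes p

/-- A field of characteristic zero is formally smooth over its subrings. -/
theorem formallySmooth_of_faithful {R : Type u} {K : Type v} [CommRing R] [IsDomain R]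
    [Field K] [CharZero K] [Algebra R K] [FaithfulSMul R K] : Algebra.FormallySmooth R K := by
  let _ : Algebra (FractionRing R) K := FractionRing.liftAlgebra R K
  have h0 : IsScalarTower R (FractionRing R) K := FractionRing.isScalarTower_liftAlgebra R K
  have h1 : Algebra.FormallyEtale R (FractionRing R) :=
    Algebra.FormallyEtale.of_isLocalization (nonZeroDivisors R)
  have h2 : CharZero (FractionRing R) := (algebraMap (FractionRing R) K).charZero
  obtain ⟨s, hs⟩ := exists_isTranscendenceBasis (FractionRing R) K
  have h3 : Algebra.IsAlgebraic (IntermediateField.adjoin (FractionRing R)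
      (Set.range ((↑) : s → K))) K := by
    exact hs.isAlgebraic_field
  have h4 : CharZero (IntermediateField.adjoin (FractionRing R) (Set.range ((↑) : s → K))) :=
    (algebraMap (IntermediateField.adjoin (FractionRing R) (Set.range ((↑) : s → K)))
      K).charZero
  have h5 : Algebra.FormallySmooth (FractionRing R) K :=
    Algebra.FormallySmooth.of_algebraicIndependent_of_isSeparable hs.1
  exact Algebra.FormallySmooth.comp R (FractionRing R) K

variable {R : Type u} [CommRing R] [Algebra ℂ R]

/-- Derivations over an injective point extend to derivations of the field. -/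
theorem exists_derivation_of_isDer {E : Type v} [Field E] [Algebra ℂ E] {q : R →ₐ[ℂ] E}
    (hq : Function.Injective q) {δ : R →ₗ[ℂ] E} (hδ : IsDer q δ) :
    ∃ D : Derivation ℂ E E, alongAt q D = δ := by
  have hdom : IsDomain R := Function.Injective.isDomain q.toRingHom hq
  have hch : CharZero E := charZero_of_injective_algebraMap (algebraMap ℂ E).injective
  let _ : Algebra R E := q.toRingHom.toAlgebra
  have hmap : ∀ r, algebraMap R E r = q r := fun r => rfl
  have hfaith : FaithfulSMul R E := (faithfulSMul_iff_algebraMap_injective R E).2 hq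
  have hsm : Algebra.FormallySmooth R E := formallySmooth_of_faithful
  have h10 : δ 1 = 0 := by
    have := hδ 1 1
    rw [mul_one, map_one q, one_mul] at this
    have h2 : δ 1 + 0 = δ 1 + δ 1 := by rw [add_zero]; exact this
    exact (add_left_cancel h2).symm
  obtain ⟨h, hh⟩ : ∃ h : R →+* TrivSqZeroExt E E,
      ∀ r, h r = TrivSqZeroExt.inl (q r) + TrivSqZeroExt.inr (δ r) := by
    refine ⟨{ toFun := fun r => TrivSqZeroExt.inl (q r) + TrivSqZeroExt.inr (δ r)
              map_one' := ?_
              map_mul' := ?_
              map_zero' := ?_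
              map_add' := ?_ }, fun r => rfl⟩
    · rw [map_one, h10, TrivSqZeroExt.inr_zero, add_zero, TrivSqZeroExt.inl_one]
    · intro a b
      ext
      · simp
      · simp only [hδ a b, TrivSqZeroExt.snd_add, TrivSqZeroExt.snd_inl, TrivSqZeroExt.snd_inr,
          zero_add, TrivSqZeroExt.snd_mul, TrivSqZeroExt.fst_add, TrivSqZeroExt.fst_inl,
          TrivSqZeroExt.fst_inr, add_zero, smul_eq_mul, MulOpposite.smul_eq_mul_unop,
          MulOpposite.unop_op]
        ring
    · simp
    · intro a b
      ext
      · simp
      · simp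
  obtain ⟨g, hg⟩ : ∃ g : TrivSqZeroExt E E →+* E, ∀ x, g x = x.fst :=
    ⟨{ toFun := fun x => x.fst
       map_one' := TrivSqZeroExt.fst_one
       map_mul' := fun x y => TrivSqZeroExt.fst_mul x y
       map_zero' := TrivSqZeroExt.fst_zero
       map_add' := fun x y => TrivSqZeroExt.fst_add x y }, fun x => rfl⟩
  have hsurj : Function.Surjective g := fun x => ⟨TrivSqZeroExt.inl x, by
    rw [hg, TrivSqZeroExt.fst_inl]⟩
  have hker : RingHom.ker g ^ 2 = ⊥ := by
    rw [sq, eq_bot_iff, Ideal.mul_le]
    intro x hx y hy
    rw [RingHom.mem_ker, hg] at hx hy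
    rw [Ideal.mem_bot]
    ext
    · rw [TrivSqZeroExt.fst_mul, hx, zero_mul, TrivSqZeroExt.fst_zero]
    · rw [TrivSqZeroExt.snd_mul, hx, hy]
      simp
  have hgh : g.comp h = algebraMap R E := by
    ext r
    rw [RingHom.comp_apply, hh, hg, hmap]
    simp
  obtain ⟨ψ, hψ1, hψ2⟩ := exists_lift_of_formallySmooth g hsurj hker h hgh
  have hfst : ∀ x, (ψ x).fst = x := fun x => by
    rw [← hg]
    exact RingHom.congr_fun hψ1 x
  have hsnd : ∀ r, (ψ (q r)).snd = δ r := fun r => by
    have h2 := RingHom.congr_fun hψ2 r
    rw [RingHom.comp_apply, hmap] at h2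
    rw [h2, hh]
    simp
  have hmul : ∀ x y, (ψ (x * y)).snd = x * (ψ y).snd + y * (ψ x).snd := fun x y => by
    rw [map_mul, TrivSqZeroExt.snd_mul, hfst, hfst]
    simp only [smul_eq_mul, MulOpposite.smul_eq_mul_unop, MulOpposite.unop_op]
    ring
  have hC : ∀ c : ℂ, (ψ (algebraMap ℂ E c)).snd = 0 := fun c => by
    have h1 : algebraMap ℂ E c = q (algebraMap ℂ R c) := (q.commutes c).symm
    rw [h1, hsnd, Algebra.algebraMap_eq_smul_one, map_smul, h10, smul_zero]
  refine ⟨Derivation.mk' { toFun := fun x => (ψ x).snd
                           map_add' := fun x y => by rw [map_add, TrivSqZeroExt.snd_add]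
                           map_smul' := fun c x => ?_ } (fun x y => ?_), ?_⟩
  · rw [Algebra.smul_def, hmul, hC, mul_zero, add_zero, RingHom.id_apply, Algebra.smul_def]
  · exact hmul x y
  · ext r
    exact hsnd r

end Vale.Agent.P292
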