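import Vale.Agent.P292.K.V1
import Vale.Agent.P292.K.C1
import Vale.Agent.P292.K.N1
import Vale.Agent.P292.K.I0
import Vale.Agent.P292.K.B
import Vale.Agent.P292.K.C4
import Vale.Agent.P292.K.DerExt

/-! # Block I: the square of `b` is a root of a good polynomial (I1), and `b a_{2k-1}(r)` is
integral (I3). -/

namespace Vale.Agent.P292

open MvPolynomial

universe u v

set_option linter.unusedSectionVars false

variable {R : Type u} [CommRing R] [Algebra ℂ R] {𝒜 : ℕ → Submodule ℂ R} [GradedAlgebra 𝒜]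
  {P : R →ₗ[ℂ] R →ₗ[ℂ] R}

/-! ### values of forms at `(0, 1)` -/

/-- The value of a form of degree `n` at `(0, 1)` is its last coefficient. -/
theorem i1_eval_last {κ : Type v} [Field κ] {p : MvPolynomial (Fin 2) κ} {n : ℕ}
    (hp : p.IsHomogeneous n) : eval ![0, 1] p = coeff (Finsupp.single 1 n) p := by
  classical
  rw [eval_eq', Finset.sum_eq_single (Finsupp.single 1 n)]
  · rw [Fin.prod_univ_two]
    simp
  · intro m hm hne
    rw [Fin.prod_univ_two]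
    simp only [Matrix.cons_val_zero, Matrix.cons_val_one]
    have hm0 : m 0 ≠ 0 := by
      intro h0
      apply hne
      have h1 := hp.degree_eq_sum_deg_support hm
      have h2 : m 0 + m 1 = n := by
        rw [h1, Finset.sum_subset (Finset.subset_univ m.support)
          (fun i _ hi => Finsupp.notMem_support_iff.1 hi), Fin.sum_univ_two]
      ext i
      fin_cases i
      · simp [h0]
      · simp only [h0, zero_add] at h2
        simp [h2]
    rw [zero_pow hm0, zero_mul, mul_zero]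
  · intro h0
    rw [notMem_support_iff.1 h0, zero_mul]

/-- The value of `∂₀ p` at `(0, 1)`. -/
theorem i1_eval_pderiv_zero {κ : Type v} [Field κ] {p : MvPolynomial (Fin 2) κ} {n : ℕ}
    (hp : p.IsHomogeneous n) : eval ![0, 1] (pderiv 0 p) = cf p 1 (n - 1) := by
  rw [i1_eval_last hp.pderiv, coeff_pderiv, cf, add_comm]
  simp

/-- The value of `∂₁ p` at `(0, 1)`. -/
theorem i1_eval_pderiv_one {κ : Type v} [Field κ] {p : MvPolynomial (Fin 2) κ} {n : ℕ}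
    (hp : p.IsHomogeneous n) : eval ![0, 1] (pderiv 1 p) = n * eval ![0, 1] p := by
  have h := congrArg (eval ![0, 1]) hp.sum_X_mul_pderiv
  rw [Fin.sum_univ_two] at h
  simpa using h

section
variable {Ω : Type v} [Field Ω] [IsAlgClosed Ω] [Algebra ℂ Ω] {w : R →ₐ[ℂ] ℂ}
  {φ : R →ₐ[ℂ] MvPolynomial (Fin 2) Ω}

/-- The point `w` is not the vertex. -/
theorem GenConicAt.i1_notVertex (hφ : GenConicAt 𝒜 w φ) : ¬ IsVertex 𝒜 w := by
  obtain ⟨k, hk, r, hr, h⟩ := hφ.curve.bpf ![1, 0] (by simp)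
  intro hw
  apply h
  have h1 := hφ.left r
  rw [hw k hk r hr, map_zero, pt_apply] at h1
  rw [aeval_eq_eval]
  exact h1

/-- The end point `(0, 1)` is not the vertex. -/
theorem GenConicAt.i1_isNV (hφ : GenConicAt 𝒜 w φ) : IsNV 𝒜 (pt φ ![0, 1]) := by
  obtain ⟨k, hk, r, hr, h⟩ := hφ.curve.bpf ![0, 1] (by simp)
  refine ⟨k, hk, r, hr, ?_⟩
  rw [pt_apply]
  rwa [aeval_eq_eval] at h

/-- The bound N1 for a generic conic at `w`. -/
theorem GenConicAt.i1_bound (hX : IsContactFano 𝒜 P) (hφ : GenConicAt 𝒜 w φ) {b : Ω}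
    (hb : omC P φ (pd φ 0) (pd φ 1) = C b) (v : ValuationSubring Ω)
    (hv : ∀ c : ℂ, algebraMap ℂ Ω c ∈ v) (h01 : ∀ r, pt φ ![0, 1] r ∈ v)
    (n01 : ∃ k : ℕ, 0 < k ∧ ∃ r ∈ 𝒜 k, v.valuation (pt φ ![0, 1] r) = 1) :
    b ∈ v ∧ ∀ k : ℕ, 0 < k → ∀ r ∈ 𝒜 k, b * cf (φ r) 1 (2 * k - 1) ∈ v ∧
      b * cf (φ r) (2 * k - 1) 1 ∈ v := by
  refine bound hX hφ.curve hb v hv (fun r => ?_) h01 ?_ n01
  · rw [hφ.left]
    exact hv _
  · have h1 := hφ.i1_notVertex
    unfold IsVertex at h1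
    push Not at h1
    obtain ⟨k, hk, r, hr, hw⟩ := h1
    refine ⟨k, hk, r, hr, ?_⟩
    rw [hφ.left]
    refine i0_valuation_eq_one v (hv _) (hv (w r)⁻¹) ?_
    rw [← map_mul, mul_inv_cancel₀ hw, map_one]

/-- The derivation of `Ω` extending the Euler derivation. -/
theorem GenConicAt.exists_euler (hX : IsContactFano 𝒜 P) (hφ : GenConicAt 𝒜 w φ) {b : Ω}
    (hb : omC P φ (pd φ 0) (pd φ 1) = C b) :
    ∃ D : Derivation ℂ Ω Ω, (∀ k, ∀ r ∈ 𝒜 k,
      D (pt φ ![0, 1] r) = (k : ℂ) • pt φ ![0, 1] r) ∧ (2 : ℂ) • D b = b := by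
  obtain ⟨D, hD⟩ := exists_derivation_of_isDer hφ.inj
    (δ := (pt φ ![0, 1]).toLinearMap ∘ₗ euler 𝒜) (fun r s => by
      simp only [LinearMap.comp_apply, AlgHom.toLinearMap_apply, euler_mul, map_add, map_mul]
      ring)
  have hD' : ∀ r, D (pt φ ![0, 1] r) = pt φ ![0, 1] (euler 𝒜 r) := fun r =>
    LinearMap.congr_fun hD r
  have hDk : ∀ k, ∀ r ∈ 𝒜 k, D (pt φ ![0, 1] r) = (k : ℂ) • pt φ ![0, 1] r := by
    intro k r hr
    rw [hD', euler_apply k r hr, map_smul]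
  refine ⟨D, hDk, ?_⟩
  have h0 : IsHDer 𝒜 2 φ (-1) (pd φ 0) := isHDer_pd hφ.curve 0
  have h1 : IsHDer 𝒜 2 φ (-1) (pd φ 1) := isHDer_pd hφ.curve 1
  have hd0 : IsDer (pt φ ![0, 1]) (evL ![0, 1] (pd φ 0)) := fun r s => by
    rw [evL_apply, evL_apply, evL_apply, h0.der r s, map_add, map_mul, map_mul, pt_apply,
      pt_apply]
  have hd1 : IsDer (pt φ ![0, 1]) (evL ![0, 1] (pd φ 1)) := fun r s => by
    rw [evL_apply, evL_apply, evL_apply, h1.der r s, map_add, map_mul, map_mul, pt_apply,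
      pt_apply]
  have hal : evL ![0, 1] (pd φ 1) = (2 : Ω) • alongAt (pt φ ![0, 1]) D := by
    refine LinearMap.ext fun r => ?_
    refine forall_of_homogeneous' (𝒜 := 𝒜) (evL ![0, 1] (pd φ 1))
      ((2 : Ω) • alongAt (pt φ ![0, 1]) D) (fun k s hs => ?_) r
    rw [evL_apply, pd_apply, i1_eval_pderiv_one (hφ.curve.degree k s hs), LinearMap.smul_apply,
      alongAt_apply, hDk k s hs, pt_apply, smul_eq_mul, Algebra.smul_def, map_natCast]
    push_cast
    ring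
  have h2 := first_variation hX hφ hb D
  have h3 := omC_eval hX hφ.curve h0 h1 ![0, 1] (by simp)
  rw [hb, eval_C, hal, om_smul_right hX hφ.i1_isNV hd0 (isDer_alongAt _ _), ← h2] at h3
  rw [Algebra.smul_def, map_ofNat]
  exact h3

end

section integral
variable {Ω : Type u} [Field Ω] [IsAlgClosed Ω] [Algebra ℂ Ω] {w : R →ₐ[ℂ] ℂ}
  {φ : R →ₐ[ℂ] MvPolynomial (Fin 2) Ω}

/-- Hamiltonian derivations of `Ω`. -/
theorem GenConicAt.exists_ham (hX : IsContactFano 𝒜 P) (hφ : GenConicAt 𝒜 w φ) {b : Ω}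
    (hb : omC P φ (pd φ 0) (pd φ 1) = C b) {k : ℕ} {r : R} (hr : r ∈ 𝒜 k) :
    ∃ D : Derivation ℂ Ω Ω, (∀ s, D (pt φ ![0, 1] s) = pt φ ![0, 1] (P r s)) ∧
      D b = - cf (φ r) 1 (2 * k - 1) := by
  obtain ⟨D, hD⟩ := exists_derivation_of_isDer hφ.inj
    (isDer_hamAt hX (pt φ ![0, 1]) r)
  have hD' : ∀ s, D (pt φ ![0, 1] s) = pt φ ![0, 1] (P r s) := fun s =>
    LinearMap.congr_fun hD s
  refine ⟨D, hD', ?_⟩
  rw [first_variation_ham hX hφ hb D r hD', i1_eval_pderiv_zero (hφ.curve.degree k r hr)]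

/-- I3: `J(r) = b a_{2k-1}(r)` is integral over `R`. -/
theorem isIntegral_J (hX : IsContactFano 𝒜 P) (hφ : GenConicAt 𝒜 w φ) {b : Ω}
    (hb : omC P φ (pd φ 0) (pd φ 1) = C b) {k : ℕ} (hk : 0 < k) {r : R} (hr : r ∈ 𝒜 k) :
    ∃ Q : Polynomial R, Q.Monic ∧
      Q.eval₂ (pt φ ![0, 1] : R →+* Ω) (b * cf (φ r) (2 * k - 1) 1) = 0 :=
  isIntegral_of_valuationSubring hX (pt φ ![0, 1]) hφ.inj _ fun v hv h01 n01 =>
    ((hφ.i1_bound hX hb v hv h01 n01).2 k hk r hr).2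

/-- I1: `B = b²` is a root of a good polynomial. -/
theorem exists_isGood_one (hX : IsContactFano 𝒜 P) (hφ : GenConicAt 𝒜 w φ) {b : Ω}
    (hb : omC P φ (pd φ 0) (pd φ 1) = C b) :
    ∃ Q : Polynomial R, IsGood 𝒜 P 1 Q ∧
      Q.eval₂ (pt φ ![0, 1] : R →+* Ω) (b ^ 2) = 0 := by
  refine exists_isGood_of hX (pt φ ![0, 1]) hφ.inj one_pos (b ^ 2) ?_ ?_ ?_
  · refine isIntegral_of_valuationSubring hX (pt φ ![0, 1]) hφ.inj _ fun v hv h01 n01 => ?_
    exact pow_mem (hφ.i1_bound hX hb v hv h01 n01).1 2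
  · obtain ⟨D, hD, hDb⟩ := hφ.exists_euler hX hb
    refine ⟨D, hD, ?_⟩
    rw [Algebra.smul_def, map_ofNat] at hDb
    rw [Nat.cast_one, one_smul, Derivation.leibniz_pow]
    simp only [smul_eq_mul, nsmul_eq_mul, Nat.cast_ofNat]
    linear_combination b * hDb
  · intro k hk r hr
    obtain ⟨D, hD, hDb⟩ := hφ.exists_ham hX hb hr
    refine ⟨D, hD, ?_⟩
    refine isIntegral_of_valuationSubring hX (pt φ ![0, 1]) hφ.inj _ fun v hv h01 n01 => ?_
    have h1 := ((hφ.i1_bound hX hb v hv h01 n01).2 k hk r hr).1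
    have h2 : D (b ^ 2) = -(b * cf (φ r) 1 (2 * k - 1) + b * cf (φ r) 1 (2 * k - 1)) := by
      rw [Derivation.leibniz_pow, hDb]
      simp only [smul_eq_mul, nsmul_eq_mul, Nat.cast_ofNat]
      ring
    rw [h2]
    exact neg_mem (add_mem h1 h1)

end integral

end Vale.Agent.P292
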