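import Vale.Agent.P292.K.Basic
import Vale.Agent.P292.Fr.A

/-! # The ray through a closed point does not have codimension one. -/

namespace Vale.Agent.P292

open Matrix

universe u v

variable {R : Type u} [CommRing R] [Algebra ℂ R] {𝒜 : ℕ → Submodule ℂ R} [GradedAlgebra 𝒜]
  {P : R →ₗ[ℂ] R →ₗ[ℂ] R}

omit [GradedAlgebra 𝒜] in
/-- The dimension of the cone is at most the number of elements of a frame. -/
theorem cdim_le_of_isFrame [IsDomain R] {N : ℕ} {x : Fin N → R} {g : R} {h : R → Fin N → R}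
    (hF : IsFrame 𝒜 x g h) (hg : g ≠ 0) : cdim R ≤ N := by
  let K := FractionRing R
  let y : R →ₐ[ℂ] K := IsScalarTower.toAlgHom ℂ R K
  have hy : ∀ r, y r = algebraMap R K r := fun r => rfl
  let f : DerAt y →ₗ[K] (Fin N → K) :=
    { toFun := fun δ i => (δ : R →ₗ[ℂ] K) (x i)
      map_add' := fun a b => by ext i; rfl
      map_smul' := fun c a => by ext i; rfl }
  have hf : Function.Injective f := by
    intro δ δ' hδ
    have hδ' : ∀ i, (δ : R →ₗ[ℂ] K) (x i) = (δ' : R →ₗ[ℂ] K) (x i) := fun i => congrFun hδ i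
    have mk : ∀ ε : DerAt y, ∃ D : Derivation ℂ R K, ∀ r, D r = (ε : R →ₗ[ℂ] K) r := fun ε =>
      ⟨Derivation.mk' (ε : R →ₗ[ℂ] K) (fun a b => by
        rw [(ε.2 : IsDer y _) a b, Algebra.smul_def, Algebra.smul_def, hy, hy]), fun r => rfl⟩
    obtain ⟨D, hD⟩ := mk δ
    obtain ⟨D', hD'⟩ := mk δ'
    apply Subtype.ext
    ext r
    have h1 := hF.smul_derivation D r
    have h2 := hF.smul_derivation D' r
    have h3 : g • D r = g • D' r := by
      rw [h1, h2]
      refine Finset.sum_congr rfl fun i _ => ?_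
      rw [hD, hD', hδ']
    rw [Algebra.smul_def, Algebra.smul_def] at h3
    have h4 := mul_left_cancel₀ (fun h0 => hg (IsFractionRing.injective R K (by
      rw [h0, map_zero]))) h3
    rw [← hD, ← hD', h4]
  have h1 := LinearMap.finrank_le_finrank_of_injective hf
  rw [Module.finrank_fin_fun] at h1
  exact h1

/-- A height one prime is stable under brackets. -/
theorem P_mem_of_dvr [IsDomain R] (hX : IsContactFano 𝒜 P) (p : Ideal R) [p.IsPrime]
    (hdvr : IsDiscreteValuationRing (Localization.AtPrime p)) {a b : R} (ha : a ∈ p)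
    (hb : b ∈ p) : P a b ∈ p := by
  let L := Localization.AtPrime p
  obtain ⟨ϖ, hϖ⟩ := IsDiscreteValuationRing.exists_irreducible L
  have hmax := (IsDiscreteValuationRing.irreducible_iff_uniformizer ϖ).mp hϖ
  obtain ⟨⟨π, s⟩, hπ⟩ := IsLocalization.surj p.primeCompl ϖ
  have hinj : Function.Injective (algebraMap R L) :=
    IsLocalization.injective L (Ideal.primeCompl_le_nonZeroDivisors p)
  have hπp : π ∈ p := by
    have h1 : algebraMap R L π ∈ IsLocalRing.maximalIdeal L := by
      rw [← hπ]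
      refine Ideal.mul_mem_right _ _ ?_
      rw [hmax]
      exact Ideal.mem_span_singleton_self _
    have h2 := IsLocalization.AtPrime.to_map_mem_maximal_iff L p π
    exact h2.mp h1
  have key : ∀ c ∈ p, ∃ v u, v ∉ p ∧ v * c = π * u := by
    intro c hc
    have h1 : algebraMap R L c ∈ IsLocalRing.maximalIdeal L :=
      (IsLocalization.AtPrime.to_map_mem_maximal_iff L p c).mpr hc
    rw [hmax, Ideal.mem_span_singleton'] at h1
    obtain ⟨z, hz⟩ := h1
    obtain ⟨⟨u, t⟩, hu⟩ := IsLocalization.surj p.primeCompl z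
    refine ⟨s * t, u, ?_, ?_⟩
    · intro h2
      rcases (inferInstance : p.IsPrime).mem_or_mem h2 with h3 | h3
      · exact s.2 h3
      · exact t.2 h3
    · apply hinj
      rw [map_mul, map_mul, map_mul, ← hz, ← hu, ← hπ]
      ring
  obtain ⟨v, u, hv, hvu⟩ := key a ha
  obtain ⟨v', u', hv', hvu'⟩ := key b hb
  have e1 : P (v * a) (v' * b) ∈ p := by
    rw [hvu, hvu', hX.leibniz]
    refine Ideal.add_mem _ ?_ (Ideal.mul_mem_right _ _ hπp)
    refine Ideal.mul_mem_right _ _ ?_
    rw [hX.skew, hX.leibniz, hX.alternating, zero_mul, zero_add]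
    exact p.neg_mem (Ideal.mul_mem_right _ _ hπp)
  have e2 : P (v * a) (v' * b) = v * v' * P a b
      + (a * (P v (v' * b)) + b * (v * P a v')) := by
    have h1 : P (v * a) (v' * b) = v * P a (v' * b) + a * P v (v' * b) := by
      rw [hX.skew, hX.leibniz, hX.skew (v' * b) v, hX.skew (v' * b) a]
      ring
    rw [h1, hX.leibniz a v' b]
    ring
  rw [e2] at e1
  have e3 : v * v' * P a b ∈ p := by
    have h1 : a * (P v (v' * b)) + b * (v * P a v') ∈ p :=
      p.add_mem (Ideal.mul_mem_right _ _ ha) (Ideal.mul_mem_right _ _ hb)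
    exact (Ideal.add_mem_iff_left p h1).mp e1
  rcases (inferInstance : p.IsPrime).mem_or_mem e3 with h3 | h3
  · rcases (inferInstance : p.IsPrime).mem_or_mem h3 with h4 | h4
    · exact absurd h4 hv
    · exact absurd h4 hv'
  · exact h3

omit [Algebra ℂ R] in
/-- A prime contained in a height one prime. -/
theorem eq_bot_or_eq_of_dvr [IsDomain R] (p : Ideal R) [p.IsPrime]
    (hdvr : IsDiscreteValuationRing (Localization.AtPrime p)) (q : Ideal R) [hq : q.IsPrime]
    (hqp : q ≤ p) : q = ⊥ ∨ q = p := by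
  let L := Localization.AtPrime p
  have hdisj : Disjoint (p.primeCompl : Set R) q := by
    rw [Set.disjoint_left]
    intro a ha ha'
    exact ha (hqp ha')
  have hprime : (q.map (algebraMap R L)).IsPrime :=
    IsLocalization.isPrime_of_isPrime_disjoint p.primeCompl L q hq hdisj
  have hcomap : (q.map (algebraMap R L)).comap (algebraMap R L) = q :=
    IsLocalization.under_map_of_isPrime_disjoint p.primeCompl L hq hdisj
  by_cases h0 : q.map (algebraMap R L) = ⊥
  · left
    rw [eq_bot_iff]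
    intro a ha
    have h1 : algebraMap R L a ∈ q.map (algebraMap R L) := Ideal.mem_map_of_mem _ ha
    rw [h0, Ideal.mem_bot] at h1
    rw [Ideal.mem_bot]
    exact (IsLocalization.injective L (Ideal.primeCompl_le_nonZeroDivisors p))
      (by rw [h1, map_zero])
  · right
    have hmax : (q.map (algebraMap R L)).IsMaximal := hprime.isMaximal h0
    have h1 : q.map (algebraMap R L) = IsLocalRing.maximalIdeal L :=
      IsLocalRing.eq_maximalIdeal hmax
    rw [← hcomap, h1]
    exact IsLocalization.AtPrime.under_maximalIdeal L p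

/-- The ray through a closed point does not have codimension one. -/
theorem not_le_of_dvr [IsDomain R] (hX : IsContactFano 𝒜 P) (hdim : 3 ≤ cdim R)
    (w : R →ₐ[ℂ] ℂ) (hw : ¬ IsVertex 𝒜 w) (p : Ideal R) [p.IsPrime]
    (hdvr : IsDiscreteValuationRing (Localization.AtPrime p))
    (h : ∀ k, ∀ r ∈ 𝒜 k, w r = 0 → r ∈ p) : False := by
  classical
  -- brackets of homogeneous elements vanishing at `w`
  have hkerp : (RingHom.ker w).IsPrime := RingHom.ker_isPrime _
  set q : Ideal R := ((RingHom.ker w).homogeneousCore 𝒜).toIdeal with hqdef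
  have hqprime : q.IsPrime := hkerp.homogeneousCore
  have hqker : q ≤ RingHom.ker w := Ideal.toIdeal_homogeneousCore_le 𝒜 _
  have hqmem : ∀ k, ∀ r ∈ 𝒜 k, w r = 0 → r ∈ q := fun k r hr hwr =>
    Ideal.mem_homogeneousCore_of_homogeneous_of_mem ⟨k, hr⟩ hwr
  have hqp : q ≤ p := by
    rw [hqdef]
    change Ideal.span _ ≤ p
    rw [Ideal.span_le]
    rintro r ⟨⟨r', k, hk⟩, hr', rfl⟩
    exact h k r' hk hr'
  have hbr : ∀ a b, (∃ k, a ∈ 𝒜 k) → (∃ k, b ∈ 𝒜 k) → w a = 0 → w b = 0 → w (P a b) = 0 := by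
    rintro a b ⟨k, ha⟩ ⟨l, hb⟩ hwa hwb
    have ha' := hqmem k a ha hwa
    have hb' := hqmem l b hb hwb
    rcases eq_bot_or_eq_of_dvr p hdvr q hqp with h0 | h0
    · rw [h0, Ideal.mem_bot] at ha'
      rw [ha', map_zero, LinearMap.zero_apply, map_zero]
    · have h1 : P a b ∈ p := P_mem_of_dvr hX p hdvr (hqp ha') (hqp hb')
      rw [← h0] at h1
      exact hqker h1
  -- the frame
  obtain ⟨N, x, g, c₀, hF, hdet⟩ := exists_frame hX hw
  rw [map_mul] at hdet
  have hg : g ≠ 0 := by
    rintro rfl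
    rw [map_zero, zero_mul] at hdet
    exact hdet rfl
  have hN : 3 ≤ N := hdim.trans (cdim_le_of_isFrame hF hg)
  have hdet' : w (brMat P x).det ≠ 0 := right_ne_zero_of_mul hdet
  -- a homogeneous element which does not vanish
  unfold IsVertex at hw
  push Not at hw
  obtain ⟨k₀, hk₀, t, ht, hwt⟩ := hw
  have hPpow : ∀ (a v : R) (n : ℕ), P (a ^ n) v = n * a ^ (n - 1) * P a v :=
    fun a v n => hX.P_pow_left a v n
  have hdec : ∀ i, ∃ (y : R) (s c : ℂ), (∃ k, y ∈ 𝒜 k) ∧ w y = 0 ∧
      ∀ v, w (P (x i) v) = s * w (P y v) + c * w (P t v) := by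
    intro i
    obtain ⟨d, hd⟩ := hF.homogeneous i
    by_cases ha : w (x i) = 0
    · exact ⟨x i, 1, 0, ⟨d, hd⟩, ha, fun v => by ring⟩
    · set a := w (x i) with hadef
      set b := w t with hbdef
      refine ⟨algebraMap ℂ R (b ^ d) * x i ^ k₀ - algebraMap ℂ R (a ^ k₀) * t ^ d,
        (b ^ d * k₀ * a ^ (k₀ - 1))⁻¹, (b ^ d * k₀ * a ^ (k₀ - 1))⁻¹ * (a ^ k₀ * d * b ^ (d - 1)),
        ⟨d * k₀, ?_⟩, ?_, fun v => ?_⟩
      · refine sub_mem ?_ ?_
        · rw [← Algebra.smul_def]
          refine Submodule.smul_mem _ _ ?_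
          have := SetLike.pow_mem_graded k₀ hd
          rwa [smul_eq_mul, mul_comm] at this
        · rw [← Algebra.smul_def]
          refine Submodule.smul_mem _ _ ?_
          have := SetLike.pow_mem_graded d ht
          rwa [smul_eq_mul] at this
      · simp only [map_sub, map_mul, map_pow, AlgHom.commutes]
        rw [← hadef, ← hbdef]
        simp only [Algebra.algebraMap_self, RingHom.id_apply]
        ring
      · have hk' : (k₀ : ℂ) ≠ 0 := by exact_mod_cast hk₀.ne'
        have hcoef : b ^ d * k₀ * a ^ (k₀ - 1) ≠ 0 :=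
          mul_ne_zero (mul_ne_zero (pow_ne_zero _ hwt) hk') (pow_ne_zero _ ha)
        have h1 : w (P (algebraMap ℂ R (b ^ d) * x i ^ k₀ - algebraMap ℂ R (a ^ k₀) * t ^ d) v)
            = b ^ d * k₀ * a ^ (k₀ - 1) * w (P (x i) v)
              - a ^ k₀ * d * b ^ (d - 1) * w (P t v) := by
          rw [← Algebra.smul_def, ← Algebra.smul_def, map_sub, map_smul, map_smul,
            LinearMap.sub_apply, LinearMap.smul_apply, LinearMap.smul_apply, map_sub, map_smul,
            map_smul, hPpow, hPpow]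
          simp only [map_mul, map_pow, map_natCast, smul_eq_mul]
          rw [← hadef, ← hbdef]
          ring
        rw [h1]
        field_simp
        ring
  choose y s c hyh hy0 hdec using hdec
  -- the matrix has rank at most two
  let M : Matrix (Fin N) (Fin N) ℂ := Matrix.of fun i j => w (P (x i) (x j))
  have hM : M = vecMulVec (fun i => - s i * w (P t (y i))) c
      + vecMulVec c (fun j => w (P t (x j))) := by
    ext i j
    rw [Matrix.add_apply, vecMulVec_apply, vecMulVec_apply]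
    change w (P (x i) (x j)) = _
    rw [hdec i (x j), hX.skew (y i) (x j), map_neg, hdec j (y i),
      hbr (y j) (y i) (hyh j) (hyh i) (hy0 j) (hy0 i)]
    ring
  have hMdet : M.det ≠ 0 := by
    have : M = (w : R →+* ℂ).mapMatrix (brMat P x) := by
      ext i j; rfl
    rw [this, ← RingHom.map_det]
    exact hdet'
  obtain ⟨z, hz0, hz⟩ : ∃ z : Fin N → ℂ, z ≠ 0 ∧
      (Matrix.of ![c, fun j => w (P t (x j))]).mulVec z = 0 := by
    have h1 : LinearMap.ker (Matrix.of ![c, fun j => w (P t (x j))]).mulVecLin ≠ ⊥ :=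
      LinearMap.ker_ne_bot_of_finrank_lt (by simp; omega)
    obtain ⟨z, hz, hz0⟩ := Submodule.exists_mem_ne_zero_of_ne_bot h1
    exact ⟨z, hz0, hz⟩
  have hz1 : c ⬝ᵥ z = 0 := congrFun hz 0
  have hz2 : (fun j => w (P t (x j))) ⬝ᵥ z = 0 := congrFun hz 1
  apply hz0
  refine Matrix.eq_zero_of_mulVec_eq_zero hMdet ?_
  rw [hM, Matrix.add_mulVec]
  ext i
  rw [Pi.add_apply, vecMulVec_mulVec, vecMulVec_mulVec, hz1, hz2]
  simp

end Vale.Agent.P292
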