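import Vale.Agent.P292.K.N2b
import Vale.Agent.P292.K.N2c

/-! # Block N2: a conic which breaks over a divisor gives a line through `w`. -/

namespace Vale.Agent.P292

universe u v w

set_option linter.all false

variable {R : Type u} [CommRing R] [Algebra ℂ R] {𝒜 : ℕ → Submodule ℂ R} [GradedAlgebra 𝒜]
  {P : R →ₗ[ℂ] R →ₗ[ℂ] R}

/-- N2: a chain gives a line through `w` (over the residue field), if the centre of the valuation
has codimension at most one and the dimension is at least four. -/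
theorem exists_line_of_not_mem [IsDomain R] {Ω : Type u} [Field Ω] [IsAlgClosed Ω] [Algebra ℂ Ω]
    {w : R →ₐ[ℂ] ℂ} {φ : R →ₐ[ℂ] MvPolynomial (Fin 2) Ω} (hX : IsContactFano 𝒜 P)
    (hdim : 4 ≤ cdim R)
    (hφ : GenConicAt 𝒜 w φ) (v : ValuationSubring Ω)
    (hv : ∀ c : ℂ, algebraMap ℂ Ω c ∈ v) (h01 : ∀ r, pt φ ![0, 1] r ∈ v)
    (𝔭 : Ideal R) [𝔭.IsPrime] (h𝔭 : ∀ r, r ∈ 𝔭 ↔ v.valuation (pt φ ![0, 1] r) < 1)
    (hdvr : IsDiscreteValuationRing (Localization.AtPrime 𝔭))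
    (k : ℕ) (r : R) (hr : r ∈ 𝒜 k) (i : ℕ) (hi : i ≤ 2 * k) (hn : cf (φ r) i (2 * k - i) ∉ v) :
    ∃ (κ : Type u) (_ : Field κ) (_ : IsAlgClosed κ) (_ : Algebra ℂ κ)
      (Ψ : R →ₐ[ℂ] MvPolynomial (Fin 2) κ), IsCurve 𝒜 1 Ψ ∧
      ∀ r, pt Ψ ![1, 0] r = algebraMap ℂ κ (w r) := by
  rcases exists_line_or_le hX hφ.curve hφ.left v hv h01 k r hr i hi hn with h | h
  · exact h
  · have hwv : ¬ IsVertex 𝒜 w := by
      intro hw
      obtain ⟨k, hk, r, hr, h⟩ := hφ.curve.bpf ![1, 0] (by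
        intro h
        have := congrFun h 0
        simp at this)
      apply h
      rw [MvPolynomial.aeval_eq_eval, ← pt_apply, hφ.left, hw k hk r hr, map_zero]
    exact (not_le_of_dvr hX (le_trans (by norm_num) hdim) w hwv 𝔭 hdvr
      fun k r hr hwr => (h𝔭 r).mpr (h k r hr hwr)).elim

end Vale.Agent.P292
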