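import Vale.Agent.P292.K.Basic
import Vale.Agent.P292.Bdl.B1

/-! Closed specialisations of curves. -/

namespace Vale.Agent.P292

open MvPolynomial

universe u v

section

variable {R : Type u} [CommRing R] [Algebra ℂ R] {𝒜 : ℕ → Submodule ℂ R} {d : ℕ}
  {E : Type v} [Field E] [Algebra ℂ E] {φ : R →ₐ[ℂ] MvPolynomial (Fin 2) E}

/-- A power of each variable lies in the ideal generated by the image of the irrelevant ideal. -/
theorem IsCurve.exists_pow [IsAlgClosed E] (hφ : IsCurve 𝒜 d φ) (i : Fin 2) :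
    ∃ (N n : ℕ) (c : Fin n → MvPolynomial (Fin 2) E) (r : Fin n → R) (k : Fin n → ℕ),
      (∀ j, 0 < k j) ∧ (∀ j, r j ∈ 𝒜 (k j)) ∧
      ∑ j, c j * φ (r j) = (X i : MvPolynomial (Fin 2) E) ^ N := by
  set I : Ideal (MvPolynomial (Fin 2) E) :=
    Ideal.span {p | ∃ k, 0 < k ∧ ∃ r ∈ 𝒜 k, φ r = p} with hI
  have h : (X i : MvPolynomial (Fin 2) E) ∈ I.radical := by
    rw [← vanishingIdeal_zeroLocus_eq_radical (K := E), mem_vanishingIdeal_iff]
    intro x hx
    by_contra hne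
    have hx0 : x ≠ 0 := by
      rintro rfl
      simp at hne
    obtain ⟨k, hk, r, hr, h⟩ := hφ.bpf x hx0
    exact h (mem_zeroLocus_iff.mp hx _ (Ideal.subset_span ⟨k, hk, r, hr, rfl⟩))
  obtain ⟨N, hN⟩ := h
  obtain ⟨n, c, g, hg⟩ := Submodule.mem_span_set'.mp hN
  choose k hk r hr hrg using fun j => (g j).2
  refine ⟨N, n, c, r, k, hk, hr, ?_⟩
  rw [← hg]
  exact Finset.sum_congr rfl fun j _ => by rw [hrg j, smul_eq_mul]

/-- Closed specialisation of a curve. Every curve over an algebraically closed field `E` is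
defined over a finitely generated complex algebra `A₀ ⊆ E`, and specialises, by a complex point
`σ` of `A₀`, to a curve over the complex numbers. -/
theorem IsCurve.exists_spec [Algebra.FiniteType ℂ R] [IsAlgClosed E] (hφ : IsCurve 𝒜 d φ)
    (F : Finset E) :
    ∃ (A₀ : Subalgebra ℂ E) (σ : A₀ →ₐ[ℂ] ℂ) (φ₀ : R →ₐ[ℂ] MvPolynomial (Fin 2) A₀),
      (↑F : Set E) ⊆ A₀ ∧ (∀ r, map (algebraMap A₀ E) (φ₀ r) = φ r) ∧
      IsCurve 𝒜 d ((mapAlgHom σ).comp φ₀) := by
  classical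
  obtain ⟨G, hG⟩ := Algebra.FiniteType.out (R := ℂ) (A := R)
  obtain ⟨N0, n0, c0, r0, k0, hk0, hr0, h0⟩ := hφ.exists_pow 0
  obtain ⟨N1, n1, c1, r1, k1, hk1, hr1, h1⟩ := hφ.exists_pow 1
  set S : Finset E := F ∪ G.biUnion (fun g => (φ g).coeffs) ∪
    (Finset.univ.biUnion fun j => (c0 j).coeffs) ∪
    (Finset.univ.biUnion fun j => (c1 j).coeffs) with hS
  set A₀ : Subalgebra ℂ E := Algebra.adjoin ℂ (S : Set E) with hA
  have hSA : (S : Set E) ⊆ A₀ := Algebra.subset_adjoin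
  have : Algebra.FiniteType ℂ A₀ :=
    (Subalgebra.fg_iff_finiteType A₀).mp (Subalgebra.fg_adjoin_finset _)
  obtain ⟨σ, -⟩ := exists_point_ne_zero (1 : A₀) one_ne_zero
  set M : MvPolynomial (Fin 2) A₀ →ₐ[ℂ] MvPolynomial (Fin 2) E := mapAlgHom A₀.val with hMdef
  have hMapp : ∀ p, M p = map (algebraMap A₀ E) p := fun p => rfl
  have hM : Function.Injective M := map_injective _ Subtype.val_injective
  have hmem : ∀ p : MvPolynomial (Fin 2) E, (p.coeffs : Set E) ⊆ A₀ → ∃ q, M q = p := by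
    intro p hp
    have : p ∈ Set.range (MvPolynomial.map (algebraMap A₀ E)) := by
      rw [mem_range_map_iff_coeffs_subset]
      intro e he
      exact ⟨⟨e, hp he⟩, rfl⟩
    exact this
  have hrange : ∀ r, φ r ∈ M.range := by
    intro r
    have h2 : φ.range ≤ M.range := by
      rw [← Algebra.map_top, ← hG, AlgHom.map_adjoin, Algebra.adjoin_le_iff]
      rintro _ ⟨g, hg, rfl⟩
      obtain ⟨q, hq⟩ := hmem (φ g) (by
        refine subset_trans ?_ hSA
        rw [hS]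
        intro e he
        simp only [Finset.coe_union, Set.mem_union, Finset.mem_coe, Finset.mem_biUnion]
        exact Or.inl (Or.inl (Or.inr ⟨g, hg, he⟩)))
      exact ⟨q, hq⟩
    exact h2 ⟨r, rfl⟩
  set e := AlgEquiv.ofInjective M hM with he
  set φ₀ : R →ₐ[ℂ] MvPolynomial (Fin 2) A₀ :=
    (e.symm : M.range →ₐ[ℂ] MvPolynomial (Fin 2) A₀).comp (φ.codRestrict M.range hrange) with hφ₀
  have hφ₀M : ∀ r, M (φ₀ r) = φ r := by
    intro r
    have : (e (φ₀ r) : MvPolynomial (Fin 2) E) = φ r := by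
      rw [hφ₀]
      simp
    rw [← this]
    rfl
  refine ⟨A₀, σ, φ₀, ?_, hφ₀M, ?_, ?_⟩
  · refine subset_trans ?_ hSA
    rw [hS]
    intro e he
    simp only [Finset.coe_union, Set.mem_union]
    exact Or.inl (Or.inl (Or.inl he))
  · intro k r hr m hm
    have hm' : coeff m (φ₀ r) ≠ 0 := by
      intro h
      apply hm
      change coeff m (map (σ : A₀ →+* ℂ) (φ₀ r)) = 0
      rw [coeff_map, h, map_zero]
    have h3 : coeff m (φ r) ≠ 0 := by
      rw [← hφ₀M r, hMapp, coeff_map]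
      intro h
      apply hm'
      exact Subtype.val_injective (h.trans (map_zero (algebraMap A₀ E)).symm)
    exact hφ.degree k r hr h3
  · intro x hx
    have key : ∀ (i : Fin 2) (N n : ℕ) (c : Fin n → MvPolynomial (Fin 2) E) (r : Fin n → R)
        (k : Fin n → ℕ), (∀ j, 0 < k j) → (∀ j, r j ∈ 𝒜 (k j)) →
        ∑ j, c j * φ (r j) = (X i : MvPolynomial (Fin 2) E) ^ N →
        (∀ j, ((c j).coeffs : Set E) ⊆ A₀) → x i ≠ 0 →
        ∃ k, 0 < k ∧ ∃ r ∈ 𝒜 k, aeval x (((mapAlgHom σ).comp φ₀) r) ≠ 0 := by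
      intro i N n c r k hk hr hsum hc hxi
      choose q hq using fun j => hmem (c j) (hc j)
      have h5 : ∑ j, q j * φ₀ (r j) = X i ^ N := by
        apply hM
        rw [map_sum, map_pow]
        have : M (X i) = X i := by rw [hMapp, map_X]
        rw [this, ← hsum]
        exact Finset.sum_congr rfl fun j _ => by rw [map_mul, hq, hφ₀M]
      by_contra hcon
      push Not at hcon
      have h6 : aeval x ((mapAlgHom σ : MvPolynomial (Fin 2) A₀ →ₐ[ℂ] _)
          (∑ j, q j * φ₀ (r j))) = 0 := by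
        rw [map_sum, map_sum]
        refine Finset.sum_eq_zero fun j _ => ?_
        rw [map_mul, map_mul]
        have := hcon (k j) (hk j) (r j) (hr j)
        change aeval x ((mapAlgHom σ : MvPolynomial (Fin 2) A₀ →ₐ[ℂ] _) (φ₀ (r j))) = 0 at this
        rw [this, mul_zero]
      rw [h5, map_pow, map_pow] at h6
      have h7 : (mapAlgHom σ : MvPolynomial (Fin 2) A₀ →ₐ[ℂ] _) (X i) = X i := by
        change map (σ : A₀ →+* ℂ) (X i) = X i
        rw [map_X]
      rw [h7, aeval_X] at h6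
      exact pow_ne_zero N hxi h6
    have hx' : x 0 ≠ 0 ∨ x 1 ≠ 0 := by
      by_contra h
      push Not at h
      apply hx
      funext i
      fin_cases i
      · exact h.1
      · exact h.2
    rcases hx' with h | h
    · refine key 0 N0 n0 c0 r0 k0 hk0 hr0 h0 (fun j => ?_) h
      refine subset_trans ?_ hSA
      rw [hS]
      intro e he
      simp only [Finset.coe_union, Set.mem_union, Finset.mem_coe, Finset.mem_biUnion]
      exact Or.inl (Or.inr ⟨j, Finset.mem_univ _, he⟩)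
    · refine key 1 N1 n1 c1 r1 k1 hk1 hr1 h1 (fun j => ?_) h
      refine subset_trans ?_ hSA
      rw [hS]
      intro e he
      simp only [Finset.coe_union, Set.mem_union, Finset.mem_coe, Finset.mem_biUnion]
      exact Or.inr ⟨j, Finset.mem_univ _, he⟩

/-- Closed specialisation keeps the complex values at complex points, and a given finite set of
nonzero elements stays nonzero. -/
theorem IsCurve.exists_closed' [Algebra.FiniteType ℂ R] [IsAlgClosed E] (hφ : IsCurve 𝒜 d φ)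
    (F : Finset E) (hF : ∀ e ∈ F, e ≠ 0) :
    ∃ (A₀ : Subalgebra ℂ E) (σ : A₀ →ₐ[ℂ] ℂ) (ψ : R →ₐ[ℂ] MvPolynomial (Fin 2) ℂ),
      IsCurve 𝒜 d ψ ∧
      (∀ r m, ∃ h : coeff m (φ r) ∈ A₀, coeff m (ψ r) = σ ⟨coeff m (φ r), h⟩) ∧
      (∀ (x : Fin 2 → ℂ) (r : R) (c : ℂ),
        aeval (fun i => algebraMap ℂ E (x i)) (φ r) = algebraMap ℂ E c → aeval x (ψ r) = c) ∧
      (∀ e ∈ F, ∃ h : e ∈ A₀, σ ⟨e, h⟩ ≠ 0) := by
  classical
  obtain ⟨A₀, σ, φ₀, hFA, hφ₀, hψ⟩ := hφ.exists_spec (F ∪ F.image (fun e => e⁻¹))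
  have hcf : ∀ r m, ((coeff m (φ₀ r) : A₀) : E) = coeff m (φ r) := by
    intro r m
    rw [← hφ₀ r, coeff_map]
    rfl
  have hmap : ∀ r, ((mapAlgHom σ).comp φ₀) r = map (σ : A₀ →+* ℂ) (φ₀ r) := fun r => rfl
  refine ⟨A₀, σ, (mapAlgHom σ).comp φ₀, hψ, ?_, ?_, ?_⟩
  · intro r m
    refine ⟨by rw [← hcf r m]; exact (coeff m (φ₀ r)).2, ?_⟩
    rw [hmap, coeff_map]
    change σ _ = σ _
    congr 1
    exact Subtype.ext (hcf r m)
  · intro x r c hc
    have h1 : aeval (fun i => algebraMap ℂ A₀ (x i)) (φ₀ r) = algebraMap ℂ A₀ c := by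
      apply Subtype.val_injective
      have h2 : (aeval (fun i => algebraMap ℂ A₀ (x i)) (φ₀ r) : A₀).1 =
          aeval (fun i => algebraMap ℂ E (x i)) (φ r) := by
        rw [← hφ₀ r]
        change (algebraMap A₀ E) _ = _
        rw [aeval_def, aeval_def, eval₂_map, hom_eval₂]
        rfl
      rw [h2, hc]
      rfl
    have h3 : aeval x (((mapAlgHom σ).comp φ₀) r) =
        σ (aeval (fun i => algebraMap ℂ A₀ (x i)) (φ₀ r)) := by
      rw [hmap, aeval_def, eval₂_map, aeval_def]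
      change _ = (σ : A₀ →+* ℂ) _
      rw [hom_eval₂]
      congr 1
      funext i
      exact (σ.commutes (x i)).symm
    rw [h3, h1, σ.commutes]
    rfl
  · intro e he
    have h1 : e ∈ A₀ := hFA (by simp [he])
    have h2 : e⁻¹ ∈ A₀ := hFA (by simp [he])
    refine ⟨h1, fun h => ?_⟩
    have h3 : (⟨e, h1⟩ : A₀) * ⟨e⁻¹, h2⟩ = 1 := Subtype.ext (mul_inv_cancel₀ (hF e he))
    have h4 := congrArg σ h3
    rw [map_mul, h, zero_mul, map_one] at h4
    exact zero_ne_one h4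

/-- Closed specialisation of a curve: the points with complex parameters which are complex
points are kept. -/
theorem IsCurve.exists_closed_pt [Algebra.FiniteType ℂ R] [IsAlgClosed E] (hφ : IsCurve 𝒜 d φ) :
    ∃ ψ : R →ₐ[ℂ] MvPolynomial (Fin 2) ℂ, IsCurve 𝒜 d ψ ∧
      ∀ (x : Fin 2 → ℂ) (w : R →ₐ[ℂ] ℂ),
        (∀ r, pt φ (fun i => algebraMap ℂ E (x i)) r = algebraMap ℂ E (w r)) → pt ψ x = w := by
  obtain ⟨A₀, σ, ψ, hψ, -, h, -⟩ := hφ.exists_closed' ∅ (by simp)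
  refine ⟨ψ, hψ, fun x w hw => AlgHom.ext fun r => ?_⟩
  have := h x r (w r) (by rw [← hw r, pt_apply, aeval_eq_eval])
  rw [pt_apply, ← this, aeval_eq_eval]

/-- Closed specialisation of a curve with two given complex end points. -/
theorem IsCurve.exists_closed_two [Algebra.FiniteType ℂ R] [IsAlgClosed E] (hφ : IsCurve 𝒜 d φ)
    {w q : R →ₐ[ℂ] ℂ} (hw : ∀ r, pt φ ![1, 0] r = algebraMap ℂ E (w r))
    (hq : ∀ r, pt φ ![0, 1] r = algebraMap ℂ E (q r)) :
    ∃ ψ : R →ₐ[ℂ] MvPolynomial (Fin 2) ℂ, IsCurve 𝒜 d ψ ∧ pt ψ ![1, 0] = w ∧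
      pt ψ ![0, 1] = q := by
  obtain ⟨ψ, hψ, h⟩ := hφ.exists_closed_pt
  have h1 : (fun i => algebraMap ℂ E (![1, 0] i)) = (![1, 0] : Fin 2 → E) := by
    funext i; fin_cases i <;> simp
  have h2 : (fun i => algebraMap ℂ E (![0, 1] i)) = (![0, 1] : Fin 2 → E) := by
    funext i; fin_cases i <;> simp
  exact ⟨ψ, hψ, h _ _ (by rw [h1]; exact hw), h _ _ (by rw [h2]; exact hq)⟩

/-- Closed specialisation of a curve with a given complex end point at `(1, 0)`. -/
theorem IsCurve.exists_closed_fst [Algebra.FiniteType ℂ R] [IsAlgClosed E] (hφ : IsCurve 𝒜 d φ)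
    {w : R →ₐ[ℂ] ℂ} (hw : ∀ r, pt φ ![1, 0] r = algebraMap ℂ E (w r)) :
    ∃ ψ : R →ₐ[ℂ] MvPolynomial (Fin 2) ℂ, IsCurve 𝒜 d ψ ∧ pt ψ ![1, 0] = w := by
  obtain ⟨ψ, hψ, h⟩ := hφ.exists_closed_pt
  have h1 : (fun i => algebraMap ℂ E (![1, 0] i)) = (![1, 0] : Fin 2 → E) := by
    funext i; fin_cases i <;> simp
  exact ⟨ψ, hψ, h _ _ (by rw [h1]; exact hw)⟩

end

section

variable {R : Type u} [CommRing R] [Algebra ℂ R] {𝒜 : ℕ → Submodule ℂ R} [GradedAlgebra 𝒜]
  {P : R →ₗ[ℂ] R →ₗ[ℂ] R}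

/-- N3: lines through a closed point over fields specialise to closed lines. -/
theorem exists_closed_line (hX : IsContactFano 𝒜 P) {κ : Type v} [Field κ] [IsAlgClosed κ]
    [Algebra ℂ κ] {w : R →ₐ[ℂ] ℂ} (Ψ : R →ₐ[ℂ] MvPolynomial (Fin 2) κ) (hΨ : IsCurve 𝒜 1 Ψ)
    (h10 : ∀ r, pt Ψ ![1, 0] r = algebraMap ℂ κ (w r)) :
    ∃ ψ : R →ₐ[ℂ] MvPolynomial (Fin 2) ℂ, IsCurve 𝒜 1 ψ ∧ pt ψ ![1, 0] = w := by
  have := hX.finiteType
  exact hΨ.exists_closed_fst h10

end

end Vale.Agent.P292
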