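import Mathlib

/-! # Homogeneous polynomials with degrees in `ℤ` (negative degree: zero). -/

namespace Vale.Agent.P292

open MvPolynomial

universe v

variable {κ : Type v} [Field κ]

/-- `p` is homogeneous of the (possibly negative) degree `n`. -/
structure ZHom (p : MvPolynomial (Fin 2) κ) (n : ℤ) : Prop where
  nat : ∀ m : ℕ, (m : ℤ) = n → p.IsHomogeneous m
  neg : n < 0 → p = 0

theorem ZHom.zero (n : ℤ) : ZHom (0 : MvPolynomial (Fin 2) κ) n :=
  ⟨fun m _ => isHomogeneous_zero _ _ m, fun _ => rfl⟩

theorem ZHom.one : ZHom (1 : MvPolynomial (Fin 2) κ) 0 :=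
  ⟨fun m hm => by
    obtain rfl : m = 0 := by exact_mod_cast hm
    exact isHomogeneous_one _ _, fun h => absurd h (lt_irrefl _)⟩

theorem ZHom.of_nat {p : MvPolynomial (Fin 2) κ} {m : ℕ} (h : p.IsHomogeneous m) :
    ZHom p (m : ℤ) :=
  ⟨fun m' hm' => by
    obtain rfl : m' = m := by exact_mod_cast hm'
    exact h, fun h => absurd h (by omega)⟩

theorem ZHom.nonneg {p : MvPolynomial (Fin 2) κ} {n : ℤ} (h : ZHom p n) (hp : p ≠ 0) : 0 ≤ n := by
  by_contra hn
  exact hp (h.neg (by omega))

theorem ZHom.mul {p q : MvPolynomial (Fin 2) κ} {n n' : ℤ} (hp : ZHom p n) (hq : ZHom q n') :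
    ZHom (p * q) (n + n') := by
  rcases lt_or_ge n 0 with h | h
  · rw [hp.neg h, zero_mul]; exact ZHom.zero _
  rcases lt_or_ge n' 0 with h' | h'
  · rw [hq.neg h', mul_zero]; exact ZHom.zero _
  lift n to ℕ using h
  lift n' to ℕ using h'
  have := ZHom.of_nat ((hp.nat n rfl).mul (hq.nat n' rfl))
  simpa using this

theorem ZHom.add {p q : MvPolynomial (Fin 2) κ} {n : ℤ} (hp : ZHom p n) (hq : ZHom q n) :
    ZHom (p + q) n :=
  ⟨fun m hm => (hp.nat m hm).add (hq.nat m hm), fun h => by rw [hp.neg h, hq.neg h, add_zero]⟩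

theorem ZHom.neg' {p : MvPolynomial (Fin 2) κ} {n : ℤ} (hp : ZHom p n) : ZHom (-p) n :=
  ⟨fun m hm => (hp.nat m hm).neg, fun h => by rw [hp.neg h, neg_zero]⟩

theorem ZHom.sum {ι : Type*} (s : Finset ι) {p : ι → MvPolynomial (Fin 2) κ} {n : ℤ}
    (hp : ∀ i ∈ s, ZHom (p i) n) : ZHom (∑ i ∈ s, p i) n := by
  classical
  induction s using Finset.induction_on with
  | empty => simpa using ZHom.zero n
  | insert a s ha ih =>
    rw [Finset.sum_insert ha]
    exact (hp a (Finset.mem_insert_self _ _)).add
      (ih fun i hi => hp i (Finset.mem_insert_of_mem hi))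

theorem ZHom.prod {ι : Type*} (s : Finset ι) {p : ι → MvPolynomial (Fin 2) κ} {n : ι → ℤ}
    (hp : ∀ i ∈ s, ZHom (p i) (n i)) : ZHom (∏ i ∈ s, p i) (∑ i ∈ s, n i) := by
  classical
  induction s using Finset.induction_on with
  | empty => simpa using ZHom.one
  | insert a s ha ih =>
    rw [Finset.prod_insert ha, Finset.sum_insert ha]
    exact (hp a (Finset.mem_insert_self _ _)).mul
      (ih fun i hi => hp i (Finset.mem_insert_of_mem hi))

theorem ZHom.congr {p : MvPolynomial (Fin 2) κ} {n n' : ℤ} (hp : ZHom p n) (h : n = n') :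
    ZHom p n' := h ▸ hp

/-- The determinant of a matrix whose entries are homogeneous of degrees `ρ i + c j`. -/
theorem ZHom.det {N : ℕ} {M : Matrix (Fin N) (Fin N) (MvPolynomial (Fin 2) κ)} (ρ c : Fin N → ℤ)
    (hM : ∀ i j, ZHom (M i j) (ρ i + c j)) : ZHom M.det (∑ i, ρ i + ∑ i, c i) := by
  rw [Matrix.det_apply]
  refine ZHom.sum _ fun σ _ => ?_
  have h : ZHom (∏ i, M (σ i) i) (∑ i, ρ i + ∑ i, c i) := by
    refine (ZHom.prod Finset.univ (n := fun i => ρ (σ i) + c i) fun i _ => hM (σ i) i).congr ?_
    rw [Finset.sum_add_distrib, Equiv.sum_comp σ ρ]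
  rcases Int.units_eq_one_or (Equiv.Perm.sign σ) with hs | hs
  · rw [hs, one_smul]; exact h
  · rw [hs, Units.neg_smul, one_smul]; exact h.neg'

/-- The adjugate of a matrix whose entries are homogeneous of degrees `ρ i + c j`. -/
theorem ZHom.adjugate {N : ℕ} {M : Matrix (Fin N) (Fin N) (MvPolynomial (Fin 2) κ)}
    (ρ c : Fin N → ℤ) (hM : ∀ i j, ZHom (M i j) (ρ i + c j)) (i j : Fin N) :
    ZHom (M.adjugate i j) (∑ i, ρ i + ∑ i, c i - ρ j - c i) := by
  classical
  rw [Matrix.adjugate_apply]
  refine (ZHom.det (Function.update ρ j (-c i)) c fun l m => ?_).congr ?_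
  · rw [Matrix.updateRow_apply]
    by_cases hl : l = j
    · rw [if_pos hl, hl, Function.update_self]
      by_cases hm : m = i
      · rw [hm, Pi.single_eq_same]
        exact ZHom.one.congr (by ring)
      · rw [Pi.single_eq_of_ne hm]
        exact ZHom.zero _
    · rw [if_neg hl, Function.update_of_ne hl]
      exact hM l m
  · rw [Finset.sum_update_of_mem (Finset.mem_univ j)]
    have := Finset.add_sum_erase Finset.univ ρ (Finset.mem_univ j)
    rw [← Finset.sdiff_singleton_eq_erase] at this
    linarith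

theorem ZHom.of_mul_left {p q : MvPolynomial (Fin 2) κ} {n n' : ℤ} (hp : ZHom p n) (h0 : p ≠ 0)
    (h : ZHom (p * q) (n + n')) : ZHom q n' := by
  by_cases hq : q = 0
  · rw [hq]; exact ZHom.zero _
  have hpq : p * q ≠ 0 := mul_ne_zero h0 hq
  have hn := hp.nonneg h0
  have hn2 := h.nonneg hpq
  lift n to ℕ using hn
  obtain ⟨N, hN⟩ := Int.eq_ofNat_of_zero_le hn2
  have hpn := hp.nat n rfl
  have hN' := h.nat N hN.symm
  -- every homogeneous component of `q` in a wrong degree vanishes
  have key : ∀ i : ℕ, n + i ≠ N → homogeneousComponent i q = 0 := by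
    intro i hi
    have h1 : homogeneousComponent (n + i) (p * q) = p * homogeneousComponent i q := by
      conv_lhs => rw [← sum_homogeneousComponent q, Finset.mul_sum, map_sum]
      have h2 : ∀ m ∈ Finset.range (q.totalDegree + 1),
          homogeneousComponent (n + i) (p * homogeneousComponent m q) =
            if i = m then p * homogeneousComponent i q else 0 := by
        intro m _
        rw [homogeneousComponent_of_mem (hpn.mul (homogeneousComponent_isHomogeneous m q))]
        by_cases him : i = m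
        · rw [if_pos (by omega), if_pos him, him]
        · rw [if_neg (by omega), if_neg him]
      rw [Finset.sum_congr rfl h2, Finset.sum_ite_eq]
      split_ifs with h3
      · rfl
      · rw [homogeneousComponent_eq_zero, mul_zero]
        simpa using h3
    rw [homogeneousComponent_of_mem hN', if_neg hi] at h1
    exact (mul_eq_zero.1 h1.symm).resolve_left h0
  have key2 : ∀ i : ℕ, n + i = N → q.IsHomogeneous i := by
    intro i hi
    have : q = homogeneousComponent i q := by
      conv_lhs => rw [← sum_homogeneousComponent q]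
      rw [Finset.sum_eq_single i]
      · intro m _ hm
        exact key m (by omega)
      · intro hm
        rw [homogeneousComponent_eq_zero]
        simpa using hm
    rw [this]
    exact homogeneousComponent_isHomogeneous i q
  refine ⟨fun m hm => key2 m (by omega), fun hneg => ?_⟩
  exfalso
  apply hq
  rw [← sum_homogeneousComponent q]
  exact Finset.sum_eq_zero fun m _ => key m (by omega)

end Vale.Agent.P292
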