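import Vale.Agent.P292.K.C1
import Vale.Agent.P292.K.ZHom

/-! # LeBrun-Salamon: homogeneity of the symplectic form along curves. -/

namespace Vale.Agent.P292

open MvPolynomial

universe u v w

variable {R : Type u} [CommRing R] [Algebra ℂ R] {𝒜 : ℕ → Submodule ℂ R} [GradedAlgebra 𝒜]
  {P : R →ₗ[ℂ] R →ₗ[ℂ] R}

omit [GradedAlgebra 𝒜] in
theorem IsCurve.isNV {κ : Type v} [Field κ] [Algebra ℂ κ] {d : ℕ}
    {φ : R →ₐ[ℂ] MvPolynomial (Fin 2) κ} (hφ : IsCurve 𝒜 d φ) : IsNV 𝒜 φ := by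
  obtain ⟨k, hk, r, hr, h⟩ := hφ.bpf ![1, 0] (fun h => by simpa using congrFun h 0)
  exact ⟨k, hk, r, hr, fun h0 => h (by rw [h0, map_zero])⟩

theorem IsContactFano.P_zero_left (hX : IsContactFano 𝒜 P) {a : R} (ha : a ∈ 𝒜 0) (b : R) :
    P a b = 0 := by
  obtain ⟨c, rfl⟩ := hX.connected a ha
  have hb1 : P b 1 = 0 := by
    have := hX.leibniz b 1 1
    simpa using this
  have h1b : P 1 b = 0 := by
    have h := hX.alternating (1 + b)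
    rw [map_add, map_add, LinearMap.add_apply, LinearMap.add_apply, hX.alternating 1,
      hX.alternating b, hb1] at h
    simpa using h
  rw [Algebra.algebraMap_eq_smul_one, map_smul, LinearMap.smul_apply, h1b, smul_zero]

section

variable {κ : Type v} [Field κ] [Algebra ℂ κ] {d : ℕ} {φ : R →ₐ[ℂ] MvPolynomial (Fin 2) κ}

/-- The entries of the bracket matrix along a curve. -/
theorem IsCurve.zhom_P (hX : IsContactFano 𝒜 P) (hφ : IsCurve 𝒜 d φ) {k l : ℕ} {a b : R}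
    (ha : a ∈ 𝒜 k) (hb : b ∈ 𝒜 l) : ZHom (φ (P a b)) ((d * k - d : ℤ) + (d * l : ℤ)) := by
  by_cases hkl : k + l = 0
  · obtain rfl : k = 0 := by omega
    rw [hX.P_zero_left ha, map_zero]
    exact ZHom.zero _
  · obtain ⟨n, hn⟩ := Nat.exists_eq_succ_of_ne_zero hkl
    refine (ZHom.of_nat (hφ.degree n _ (hX.degree k l n hn a ha b hb))).congr ?_
    have : (k : ℤ) + l = n + 1 := by exact_mod_cast hn
    push_cast
    have h2 : (n : ℤ) = k + l - 1 := by omega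
    rw [h2]
    ring

omit [GradedAlgebra 𝒜] in
theorem IsHDer.zhom {e : ℤ} {δ : R →ₗ[ℂ] MvPolynomial (Fin 2) κ} (h : IsHDer 𝒜 d φ e δ)
    {k : ℕ} {r : R} (hr : r ∈ 𝒜 k) : ZHom (δ r) (d * k + e : ℤ) :=
  ⟨fun m hm => h.homog k r hr m hm, fun hneg => h.neg k hneg r hr⟩

end

variable {κ : Type v} [Field κ] [IsAlgClosed κ] [Algebra ℂ κ] {d : ℕ}
  {φ : R →ₐ[ℂ] MvPolynomial (Fin 2) κ}

theorem omC_zhom (hX : IsContactFano 𝒜 P) (hφ : IsCurve 𝒜 d φ) {e e' : ℤ}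
    {δ δ' : R →ₗ[ℂ] MvPolynomial (Fin 2) κ} (h1 : IsHDer 𝒜 d φ e δ) (h2 : IsHDer 𝒜 d φ e' δ') :
    ZHom (omC P φ δ δ') (e + e' + d) := by
  obtain ⟨N, x, k, g, l, hx, hg, hg0, hdet, hc⟩ := exists_chart_kd hX φ hφ.isNV
  have hcr := omC_chart hX hφ h1 h2 x g hg0 hc
  set M : Matrix (Fin N) (Fin N) R := Matrix.of fun i j => P (x i) (x j) with hM
  have hMφ : ∀ i j, ZHom (φ.mapMatrix M i j) ((d * k i - d : ℤ) + (d * k j : ℤ)) := fun i j => by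
    simpa [hM] using hφ.zhom_P hX (hx i) (hx j)
  have hdetZ := ZHom.det (fun i => (d * k i - d : ℤ)) (fun j => (d * k j : ℤ)) hMφ
  rw [← AlgHom.map_det] at hdetZ
  refine hdetZ.of_mul_left hdet ?_
  rw [hcr]
  refine ZHom.sum _ fun i _ => ZHom.sum _ fun j _ => ?_
  have hadj := ZHom.adjugate (fun i => (d * k i - d : ℤ)) (fun j => (d * k j : ℤ)) hMφ i j
  rw [← AlgHom.map_adjugate] at hadj
  refine (((h1.zhom (hx i)).mul hadj).mul (h2.zhom (hx j))).congr ?_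
  ring

theorem omC_homog (hX : IsContactFano 𝒜 P) (hφ : IsCurve 𝒜 d φ) {e e' : ℤ}
    {δ δ' : R →ₗ[ℂ] MvPolynomial (Fin 2) κ} (h1 : IsHDer 𝒜 d φ e δ) (h2 : IsHDer 𝒜 d φ e' δ')
    {m : ℕ} (hm : (m : ℤ) = e + e' + d) : (omC P φ δ δ').IsHomogeneous m :=
  (omC_zhom hX hφ h1 h2).nat m hm

theorem omC_eq_zero (hX : IsContactFano 𝒜 P) (hφ : IsCurve 𝒜 d φ) {e e' : ℤ}
    {δ δ' : R →ₗ[ℂ] MvPolynomial (Fin 2) κ} (h1 : IsHDer 𝒜 d φ e δ) (h2 : IsHDer 𝒜 d φ e' δ')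
    (hm : e + e' + d < 0) : omC P φ δ δ' = 0 :=
  (omC_zhom hX hφ h1 h2).neg hm

end Vale.Agent.P292
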