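import Vale.Agent.P292.K.DerExt
import Vale.Agent.P292.K.C1
import Vale.Agent.P292.K.C1H
import Vale.Agent.P292.K.C4

/-! # Freeness: derivations of degree `≤ -2` along a conic with a generic end point vanish. -/

namespace Vale.Agent.P292

open MvPolynomial TensorProduct

universe u v w

variable {R : Type u} [CommRing R] [Algebra ℂ R] {𝒜 : ℕ → Submodule ℂ R}
  {P : R →ₗ[ℂ] R →ₗ[ℂ] R}

theorem v3_vec10_ne {κ : Type v} [Field κ] : (![1, 0] : Fin 2 → κ) ≠ 0 := fun h => by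
  have := congrFun h 0
  simp at this

theorem v3_vec01_ne {κ : Type v} [Field κ] : (![0, 1] : Fin 2 → κ) ≠ 0 := fun h => by
  have := congrFun h 1
  simp at this

theorem v3_isNV {κ : Type v} [Field κ] [Algebra ℂ κ] {d : ℕ}
    {φ : R →ₐ[ℂ] MvPolynomial (Fin 2) κ} (hφ : IsCurve 𝒜 d φ) {a : Fin 2 → κ} (ha : a ≠ 0) :
    IsNV 𝒜 (pt φ a) := by
  obtain ⟨k, hk, r, hr, h⟩ := hφ.bpf a ha
  exact ⟨k, hk, r, hr, h⟩

theorem v3_isDer_evL {κ : Type v} [Field κ] [Algebra ℂ κ]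
    {φ : R →ₐ[ℂ] MvPolynomial (Fin 2) κ} {δ : R →ₗ[ℂ] MvPolynomial (Fin 2) κ}
    (hδ : IsDer φ δ) (a : Fin 2 → κ) : IsDer (pt φ a) (evL a δ) := fun r s => by
  rw [evL_apply, evL_apply, evL_apply, hδ r s, map_add, map_mul, map_mul, pt_apply, pt_apply]

theorem v3_eval_mapD {κ : Type v} [Field κ] [Algebra ℂ κ] (D : Derivation ℂ κ κ) {a : Fin 2 → κ}
    (ha : ∀ i, D (a i) = 0) (p : MvPolynomial (Fin 2) κ) : eval a (mapD D p) = D (eval a p) := by
  have hC : ∀ c : κ, mapD D (C c : MvPolynomial (Fin 2) κ) = C (D c) := fun c => by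
    classical
    ext m
    rw [coeff_mapD, coeff_C, coeff_C]
    split_ifs <;> simp
  have hXi : ∀ i, mapD D (X i : MvPolynomial (Fin 2) κ) = 0 := fun i => by
    classical
    ext m
    rw [coeff_mapD, coeff_X, coeff_zero]
    split_ifs
    · exact D.map_one_eq_zero
    · exact D.map_zero
  induction p using MvPolynomial.induction_on with
  | C c => rw [hC, eval_C, eval_C]
  | add p q hp hq => rw [map_add, map_add, hp, hq, map_add, map_add]
  | mul_X p i hp =>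
    rw [Derivation.leibniz, hXi, smul_zero, zero_add, smul_eq_mul, map_mul, hp, map_mul,
      eval_X, Derivation.leibniz, ha, smul_zero, zero_add, smul_eq_mul]

theorem v3_evL_mapD {κ : Type v} [Field κ] [Algebra ℂ κ] {φ : R →ₐ[ℂ] MvPolynomial (Fin 2) κ}
    {D : Derivation ℂ κ κ} (a : Fin 2 → κ) (ha : ∀ i, D (a i) = 0) :
    evL a ((mapD D : Derivation ℂ _ _).toLinearMap ∘ₗ φ.toLinearMap) = alongAt (pt φ a) D := by
  refine LinearMap.ext fun r => ?_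
  rw [evL_apply, alongAt_apply, pt_apply]
  exact v3_eval_mapD D ha (φ r)

variable {Ω : Type v} [Field Ω] [Algebra ℂ Ω] {w : R →ₐ[ℂ] ℂ}
  {φ : R →ₐ[ℂ] MvPolynomial (Fin 2) Ω}

/-- Derivations at the generic end point extend to derivations of the field. -/
theorem GenConicAt.gen (hφ : GenConicAt 𝒜 w φ) (δ : R →ₗ[ℂ] Ω) (hδ : IsDer (pt φ ![0, 1]) δ) :
    ∃ D : Derivation ℂ Ω Ω, (∀ r, D (pt φ ![1, 0] r) = 0) ∧ ∀ r, D (pt φ ![0, 1] r) = δ r := by
  obtain ⟨D, hD⟩ := exists_derivation_of_isDer hφ.inj hδ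
  refine ⟨D, fun r => ?_, fun r => ?_⟩
  · rw [hφ.left, D.map_algebraMap]
  · rw [← hD, alongAt_apply]

variable [GradedAlgebra 𝒜]

/-- A derivation at the generic end point which pairs to zero with everything vanishes. -/
theorem eq_zero_of_om_gen (hX : IsContactFano 𝒜 P) (hcur : IsCurve 𝒜 2 φ)
    (hgen : ∀ δ : R →ₗ[ℂ] Ω, IsDer (pt φ ![0, 1]) δ → ∃ D : Derivation ℂ Ω Ω,
      (∀ r, D (pt φ ![1, 0] r) = 0) ∧ ∀ r, D (pt φ ![0, 1] r) = δ r)
    {δ : R →ₗ[ℂ] Ω} (hδ : IsDer (pt φ ![0, 1]) δ)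
    (h : ∀ D : Derivation ℂ Ω Ω, (∀ r, D (pt φ ![1, 0] r) = 0) →
      om P (pt φ ![0, 1]) δ (alongAt (pt φ ![0, 1]) D) = 0) : δ = 0 := by
  refine eq_zero_of_om hX (v3_isNV hcur v3_vec01_ne) hδ fun δ' hδ' => ?_
  obtain ⟨D, hD0, hD⟩ := hgen δ' hδ'
  have : δ' = alongAt (pt φ ![0, 1]) D := LinearMap.ext fun r => (hD r).symm
  rw [this]
  exact h D hD0

variable [IsAlgClosed Ω]

/-- Derivations of degree `≤ -2` along the conic vanish. -/
theorem core_gen (hX : IsContactFano 𝒜 P) (hcur : IsCurve 𝒜 2 φ)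
    (hgen : ∀ δ : R →ₗ[ℂ] Ω, IsDer (pt φ ![0, 1]) δ → ∃ D : Derivation ℂ Ω Ω,
      (∀ r, D (pt φ ![1, 0] r) = 0) ∧ ∀ r, D (pt φ ![0, 1] r) = δ r)
    {e : ℤ} {δ : R →ₗ[ℂ] MvPolynomial (Fin 2) Ω} (hδ : IsHDer 𝒜 2 φ e δ) (he : e ≤ -2) :
    δ = 0 := by
  -- step 1: vanishing at `(0, 1)`
  have step : ∀ (e : ℤ) (δ : R →ₗ[ℂ] MvPolynomial (Fin 2) Ω), IsHDer 𝒜 2 φ e δ → e ≤ -2 →
      ∀ r, eval ![0, 1] (δ r) = 0 := by
    intro e δ hδ he
    have hder : IsDer (pt φ ![0, 1]) (evL ![0, 1] δ) := v3_isDer_evL hδ.der _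
    have h0 : evL ![0, 1] δ = 0 := by
      refine eq_zero_of_om_gen hX hcur hgen hder fun D hD0 => ?_
      have hmap := isHDer_mapD (𝒜 := 𝒜) (d := 2) hcur D
      have hom : omC P φ δ ((mapD D : Derivation ℂ _ _).toLinearMap ∘ₗ φ.toLinearMap) = 0 := by
        rcases he.lt_or_eq with he | he
        · exact omC_eq_zero hX hcur hδ hmap (by push_cast; linarith)
        · have hh := omC_homog hX hcur hδ hmap (m := 0) (by rw [he]; norm_num)
          have h10 := omC_eval hX hcur hδ hmap ![1, 0] v3_vec10_ne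
          rw [v3_evL_mapD ![1, 0] (by simp [Fin.forall_fin_two])] at h10
          have h2 : alongAt (pt φ ![1, 0]) D = 0 := LinearMap.ext fun r => hD0 r
          rw [h2, om_zero_right hX (v3_isNV hcur v3_vec10_ne) (v3_isDer_evL hδ.der _)] at h10
          rw [← totalDegree_zero_iff_isHomogeneous, totalDegree_eq_zero_iff_eq_C] at hh
          rw [hh, eval_C] at h10
          rw [hh, ← h10, map_zero]
      have h01 := omC_eval hX hcur hδ hmap ![0, 1] v3_vec01_ne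
      rw [v3_evL_mapD ![0, 1] (by simp [Fin.forall_fin_two]), hom, map_zero] at h01
      exact h01
    intro r
    rw [← evL_apply, h0, LinearMap.zero_apply]
  -- step 2: divisibility by all powers of `X 0`
  have hdvd : ∀ (n : ℕ) (e : ℤ) (δ : R →ₗ[ℂ] MvPolynomial (Fin 2) Ω), IsHDer 𝒜 2 φ e δ →
      e ≤ -2 → ∀ r, (X 0 : MvPolynomial (Fin 2) Ω) ^ n ∣ δ r := by
    intro n
    induction n with
    | zero => intro e δ _ _ r; rw [pow_zero]; exact one_dvd _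
    | succ n ih =>
      intro e δ hδ he r
      obtain ⟨δ', h1, h2⟩ := exists_div_X_zero hcur hδ (step e δ hδ he)
      rw [h2 r, pow_succ']
      exact mul_dvd_mul_left _ (ih _ δ' h1 (by linarith) r)
  refine LinearMap.ext fun r => ?_
  rw [LinearMap.zero_apply]
  by_contra hne
  obtain ⟨q, hq⟩ := hdvd ((δ r).totalDegree + 1) e δ hδ he r
  have hq0 : q ≠ 0 := fun h => hne (by rw [hq, h, mul_zero])
  have hX0 : (X 0 : MvPolynomial (Fin 2) Ω) ^ ((δ r).totalDegree + 1) ≠ 0 :=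
    pow_ne_zero _ (X_ne_zero 0)
  have := totalDegree_mul_of_isDomain hX0 hq0
  rw [← hq, totalDegree_X_pow] at this
  omega

/-- V3: freeness, general form. -/
theorem free_conic_gen (hX : IsContactFano 𝒜 P) (hcur : IsCurve 𝒜 2 φ)
    (hgen : ∀ δ : R →ₗ[ℂ] Ω, IsDer (pt φ ![0, 1]) δ → ∃ D : Derivation ℂ Ω Ω,
      (∀ r, D (pt φ ![1, 0] r) = 0) ∧ ∀ r, D (pt φ ![0, 1] r) = δ r)
    {δ : R →ₗ[ℂ] MvPolynomial (Fin 2) Ω} (hδ : IsHDer 𝒜 2 φ 0 δ)
    (h0 : ∀ r, eval ![1, 0] (δ r) = 0) (h1 : ∀ r, eval ![0, 1] (δ r) = 0) : δ = 0 := by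
  obtain ⟨δ₁, h2, h3⟩ := exists_div_X_one hcur hδ h0
  have h4 : ∀ r, eval ![0, 1] (δ₁ r) = 0 := fun r => by
    have := h1 r
    rw [h3 r, map_mul, eval_X] at this
    simpa using this
  obtain ⟨δ₂, h5, h6⟩ := exists_div_X_zero hcur h2 h4
  have h7 : δ₂ = 0 := core_gen hX hcur hgen h5 (by norm_num)
  refine LinearMap.ext fun r => ?_
  rw [h3, h6, h7, LinearMap.zero_apply, mul_zero, mul_zero]

/-- V3: freeness: a derivation along the conic of degree `0` vanishing at both end points is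
zero. -/
theorem free_conic (hX : IsContactFano 𝒜 P) (hφ : GenConicAt 𝒜 w φ)
    {δ : R →ₗ[ℂ] MvPolynomial (Fin 2) Ω} (hδ : IsHDer 𝒜 2 φ 0 δ)
    (h0 : ∀ r, eval ![1, 0] (δ r) = 0) (h1 : ∀ r, eval ![0, 1] (δ r) = 0) : δ = 0 :=
  free_conic_gen hX hφ.curve hφ.gen hδ h0 h1

end Vale.Agent.P292
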