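import Vale.Agent.P292.K.I2A
import Vale.Agent.P292.K.N1
import Vale.Agent.P292.K.N2
import Vale.Agent.P292.K.N3
import Vale.Agent.P292.K.V1
import Vale.Agent.P292.K.V3

/-! # Block I2: if no line passes through `w` then `b` itself is a root of a good polynomial. -/

namespace Vale.Agent.P292

open MvPolynomial TensorProduct

universe u v

variable {R : Type u} [CommRing R] [Algebra ℂ R] {𝒜 : ℕ → Submodule ℂ R} [GradedAlgebra 𝒜]
  {P : R →ₗ[ℂ] R →ₗ[ℂ] R}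

/-- The coefficients of a generic conic are killed by all derivations over `R`. -/
theorem i2_apply_coeff {Ω : Type v} [Field Ω] [IsAlgClosed Ω] [Algebra ℂ Ω]
    {w : R →ₐ[ℂ] ℂ} {φ : R →ₐ[ℂ] MvPolynomial (Fin 2) Ω} (hX : IsContactFano 𝒜 P)
    (hφ : GenConicAt 𝒜 w φ) (D : Derivation ℂ Ω Ω) (hD : ∀ s, D (pt φ ![0, 1] s) = 0)
    (r : R) (m : Fin 2 →₀ ℕ) : D (coeff m (φ r)) = 0 := by
  have h10 : ∀ i : Fin 2, D ((![1, 0] : Fin 2 → Ω) i) = 0 := by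
    intro i
    fin_cases i <;> simp
  have h01 : ∀ i : Fin 2, D ((![0, 1] : Fin 2 → Ω) i) = 0 := by
    intro i
    fin_cases i <;> simp
  have h := free_conic hX hφ (isHDer_mapD hφ.curve D) (fun s => ?_) fun s => ?_
  · have h1 := LinearMap.congr_fun h r
    have h2 : mapD D (φ r) = 0 := h1
    rw [← coeff_mapD, h2, coeff_zero]
  · refine (v3_eval_mapD D h10 (φ s)).trans ?_
    rw [← pt_apply, hφ.left, D.map_algebraMap]
  · refine (v3_eval_mapD D h01 (φ s)).trans ?_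
    rw [← pt_apply, hD]

variable {Ω : Type u} [Field Ω] [IsAlgClosed Ω] [Algebra ℂ Ω]
  {w : R →ₐ[ℂ] ℂ} {φ : R →ₐ[ℂ] MvPolynomial (Fin 2) Ω}

/-- I2, general form: if the coefficients of the generic conic are integral in codimension one
then `b` itself is a root of a good polynomial. -/
theorem exists_isGood_two_of_mem [IsDomain R] (hX : IsContactFano 𝒜 P) (hφ : GenConicAt 𝒜 w φ)
    {b : Ω} (hb : omC P φ (pd φ 0) (pd φ 1) = C b)
    (hmem : ∀ v : ValuationSubring Ω, (∀ c : ℂ, algebraMap ℂ Ω c ∈ v) →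
      (∀ r, pt φ ![0, 1] r ∈ v) →
      ∀ (𝔭 : Ideal R) [𝔭.IsPrime], (∀ r, r ∈ 𝔭 ↔ v.valuation (pt φ ![0, 1] r) < 1) →
      IsDiscreteValuationRing (Localization.AtPrime 𝔭) →
      ∀ k : ℕ, 0 < k → ∀ r ∈ 𝒜 k, cf (φ r) 1 (2 * k - 1) ∈ v) :
    ∃ Q : Polynomial R, IsGood 𝒜 P 2 Q ∧ Q.eval₂ (pt φ ![0, 1] : R →+* Ω) b = 0 := by
  have h01 : (![0, 1] : Fin 2 → Ω) ≠ 0 := fun h => one_ne_zero (congrFun h 1)
  refine i2_exists_isGood hX hφ ?_ (first_variation hX hφ hb) (fun v hv hR hu => ?_)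
    fun k hk r hr => ?_
  · rw [omC_eval hX hφ.curve (isHDer_pd hφ.curve 0) (isHDer_pd hφ.curve 1) _ h01, hb, eval_C]
  · obtain ⟨h1, h2⟩ := i2_left_unit (𝒜 := 𝒜) hφ v hv
    exact (bound hX hφ.curve hb v hv h1 hR h2 hu).1
  · exact i2_exists_monic hX hφ _ (fun D hD => i2_apply_coeff hX hφ D hD r _)
      fun v hv hR 𝔭 _ h𝔭 hdvr => hmem v hv hR 𝔭 h𝔭 hdvr k hk r hr

/-- I2: if no line passes through `w` then `b` itself is a root of a good polynomial. -/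
theorem exists_isGood_two (hX : IsContactFano 𝒜 P) (hdim : 4 ≤ cdim R) (hφ : GenConicAt 𝒜 w φ)
    {b : Ω} (hb : omC P φ (pd φ 0) (pd φ 1) = C b)
    (hno : ¬ ∃ ψ : R →ₐ[ℂ] MvPolynomial (Fin 2) ℂ, IsCurve 𝒜 1 ψ ∧ pt ψ ![1, 0] = w) :
    ∃ Q : Polynomial R, IsGood 𝒜 P 2 Q ∧ Q.eval₂ (pt φ ![0, 1] : R →+* Ω) b = 0 := by
  have := hX.domain
  refine exists_isGood_two_of_mem hX hφ hb fun v hv hR 𝔭 _ h𝔭 hdvr k hk r hr => ?_
  by_contra hn
  obtain ⟨κ, _, _, _, Ψ, hΨ, h10⟩ := exists_line_of_not_mem hX hdim hφ v hv hR 𝔭 h𝔭 hdvr k r hr 1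
    (by omega) hn
  exact hno (exists_closed_line hX Ψ hΨ h10)

end Vale.Agent.P292
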