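import Vale.Agent.P292.K.Basic

/-! # The meeting property. -/

namespace Vale.Agent.P292

open MvPolynomial

universe u v

variable {R : Type u} [CommRing R] [Algebra ℂ R]

/-- `V(𝔭)` is met by the curve `φ`. -/
def Meets {κ : Type v} [Field κ] [Algebra ℂ κ] (φ : R →ₐ[ℂ] MvPolynomial (Fin 2) κ)
    (𝔭 : Ideal R) : Prop := ∃ a : Fin 2 → κ, a ≠ 0 ∧ ∀ r ∈ 𝔭, pt φ a r = 0

/-- All homogeneous divisors are met by closed curves of degree `d` along which a given function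
does not vanish. -/
def MeetsAll [IsDomain R] (𝒜 : ℕ → Submodule ℂ R) [GradedAlgebra 𝒜] (d : ℕ) : Prop :=
  ∀ D : R, D ≠ 0 → ∀ (𝔭 : Ideal R) [𝔭.IsPrime],
    IsDiscreteValuationRing (Localization.AtPrime 𝔭) → 𝔭.IsHomogeneous 𝒜 →
    ∃ ψ : R →ₐ[ℂ] MvPolynomial (Fin 2) ℂ, IsCurve 𝒜 d ψ ∧ ψ D ≠ 0 ∧ Meets ψ 𝔭

/-- The closed points of a dense set lie on no (closed) line. -/
def NoLines (𝒜 : ℕ → Submodule ℂ R) : Prop :=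
  ∃ g : R, g ≠ 0 ∧ ∀ w : R →ₐ[ℂ] ℂ, w g ≠ 0 →
    ¬ ∃ ψ : R →ₐ[ℂ] MvPolynomial (Fin 2) ℂ, IsCurve 𝒜 1 ψ ∧ pt ψ ![1, 0] = w

end Vale.Agent.P292
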