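import Vale.Agent.P292.K.Basic
import Vale.Agent.P292.G.Final

/-! # Assembly: auxiliary lemmas. -/

namespace Vale.Agent.P292

open MvPolynomial TensorProduct

universe u v w

section
variable {R : Type u} [CommRing R] [Algebra ℂ R] {𝒜 : ℕ → Submodule ℂ R} [GradedAlgebra 𝒜]
  {P : R →ₗ[ℂ] R →ₗ[ℂ] R}

/-- closed points avoid proper closed subsets -/
theorem exists_closed_ne (hX : IsContactFano 𝒜 P) (g : R) (hg : g ≠ 0) :
    ∃ w : R →ₐ[ℂ] ℂ, w g ≠ 0 := by
  have := hX.domain
  obtain ⟨w, -, h⟩ := exists_closed_of_prime hX (⊥ : Ideal R) (fun r n h => by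
    rw [Ideal.mem_bot] at h ⊢
    exact eq_zero_of_pow_eq_zero h) g (by simpa using hg)
  exact ⟨w, h⟩

/-- partial evaluation in the first factor -/
noncomputable def evLeft (F : R ⊗[ℂ] R) (w : R →ₐ[ℂ] ℂ) : R :=
  TensorProduct.lid ℂ R (LinearMap.rTensor R w.toLinearMap F)

theorem apply_evLeft (F : R ⊗[ℂ] R) (w q : R →ₐ[ℂ] ℂ) :
    q (evLeft F w) = Algebra.TensorProduct.lift w q (fun _ _ => Commute.all _ _) F := by
  have h : (q.toLinearMap ∘ₗ (TensorProduct.lid ℂ R).toLinearMap ∘ₗ
      LinearMap.rTensor R w.toLinearMap) =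
      (Algebra.TensorProduct.lift w q (fun _ _ => Commute.all _ _)).toLinearMap := by
    apply TensorProduct.ext'
    intro a b
    simp
  exact LinearMap.congr_fun h F

theorem exists_evLeft_ne_zero (F : R ⊗[ℂ] R) (hF : F ≠ 0) :
    ∃ g₁ : R, g₁ ≠ 0 ∧ ∀ w : R →ₐ[ℂ] ℂ, w g₁ ≠ 0 → evLeft F w ≠ 0 := by
  classical
  let ℬ := Module.Free.chooseBasis ℂ R
  let e := TensorProduct.equivFinsuppOfBasisRight (M := R) ℬ
  have he : e F ≠ 0 := by simpa using hF
  obtain ⟨i, hi⟩ := Finsupp.ne_iff.mp he
  rw [Finsupp.zero_apply] at hi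
  refine ⟨e F i, hi, fun w hw h0 => hw ?_⟩
  have h1 : F = (e F).sum fun i m => m ⊗ₜ ℬ i := by
    rw [← TensorProduct.equivFinsuppOfBasisRight_symm_apply]
    exact (LinearEquiv.symm_apply_apply _ _).symm
  have h2 : evLeft F w = (e F).sum fun i m => w m • ℬ i := by
    conv_lhs => rw [evLeft, h1]
    rw [Finsupp.sum, Finsupp.sum, map_sum, map_sum]
    refine Finset.sum_congr rfl fun j _ => ?_
    simp
  have h3 := ℬ.linearIndependent
  rw [linearIndependent_iff'] at h3
  have h4 := h3 (e F).support (fun j => w (e F j)) (by rw [← h0, h2]; rfl) i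
  by_cases his : i ∈ (e F).support
  · exact h4 his
  · rw [Finsupp.notMem_support_iff] at his
    rw [his, map_zero]

/-- the discriminant of a monic irreducible polynomial is nonzero -/
theorem discr_ne_zero_of_irreducible [IsDomain R] [IsIntegrallyClosed R] {Q : Polynomial R}
    (hm : Q.Monic) (hi : Irreducible Q) : Q.discr ≠ 0 := by
  have : CharZero R := charZero_of_injective_algebraMap (algebraMap ℂ R).injective
  have : CharZero (FractionRing R) := charZero_of_injective_algebraMap
    (IsFractionRing.injective R (FractionRing R))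
  set K := FractionRing R
  set f := Q.map (algebraMap R K) with hf
  have hfi : Irreducible f := (hm.irreducible_iff_irreducible_map_fraction_map (K := K)).1 hi
  have hfm : f.Monic := hm.map _
  have hdeg : f.natDegree = Q.natDegree := hm.natDegree_map _
  have hpos : 0 < f.natDegree := hfi.natDegree_pos
  have hQpos : 0 < Q.natDegree := hdeg ▸ hpos
  intro h0
  have h1 := Polynomial.resultant_deriv (f := Q) (Polynomial.natDegree_pos_iff_degree_pos.1 hQpos)
  rw [h0, mul_zero] at h1
  have h2 : Polynomial.resultant f f.derivative Q.natDegree (Q.natDegree - 1) = 0 := by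
    rw [hf, Polynomial.derivative_map, Polynomial.resultant_map_map, h1, map_zero]
  have h3 : f.derivative.natDegree = Q.natDegree - 1 := by
    rw [← hdeg]; exact Polynomial.natDegree_eq_of_degree_eq_some
      (Polynomial.degree_derivative_eq f hpos)
  rw [← hdeg, show f.natDegree - 1 = f.derivative.natDegree by rw [h3, hdeg]] at h2
  rw [Polynomial.resultant_eq_zero_iff] at h2
  exact h2.2 hfi.separable

omit [Algebra ℂ R] in
/-- `IsUnram` passes to subextensions. -/
theorem IsUnram.of_algHom {M₁ M₂ : Type u} [Field M₁]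
    [Field M₂] [Algebra R M₁] [Algebra R M₂] (f : M₁ →ₐ[R] M₂) (h : IsUnram R M₂) :
    IsUnram R M₁ := by
  intro 𝔭 _ V _ _ _ _ _ _ _ _ ϖ hϖ s hs
  let f' : M₁ →+* M₂ := f.toRingHom
  let _ : Algebra V M₂ := (f'.comp (algebraMap V M₁)).toAlgebra
  have hVM : ∀ x : V, algebraMap V M₂ x = f (algebraMap V M₁ x) := fun _ => rfl
  have : IsScalarTower R V M₂ := IsScalarTower.of_algebraMap_eq fun r => by
    rw [hVM, ← IsScalarTower.algebraMap_apply R V M₁, f.commutes]
  have : FaithfulSMul V M₂ := (faithfulSMul_iff_algebraMap_injective V M₂).2 fun a b hab => by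
    rw [hVM, hVM] at hab
    exact FaithfulSMul.algebraMap_injective V M₁ (f'.injective hab)
  let g : M₁ →ₐ[V] M₂ := { f' with commutes' := fun x => rfl }
  have hg : ∀ x, g x = f x := fun _ => rfl
  have hgi : Function.Injective g := f'.injective
  have h1 := h 𝔭 V ϖ hϖ (f s) (by
    have := (isIntegral_algHom_iff g hgi).2 hs
    rwa [map_div₀, map_pow, g.commutes] at this)
  rw [← isIntegral_algHom_iff g hgi, map_div₀, g.commutes]
  exact h1

end

end Vale.Agent.P292
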