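import Vale.Agent.P292.K.Basic
import Vale.Agent.P292.LS.Stable

/-! # Block U, part 0: the discriminant of a good polynomial is homogeneous; height one primes
containing it are homogeneous. -/

namespace Vale.Agent.P292

open Polynomial

universe u v

section discr

variable {A : Type u} [CommRing A] [IsDomain A] [CharZero A]

theorem u0_derivative_scaleRoots (f : A[X]) (s : A) :
    derivative (f.scaleRoots s) = (derivative f).scaleRoots s := by
  ext i
  rw [coeff_derivative, coeff_scaleRoots, coeff_scaleRoots, coeff_derivative, natDegree_derivative]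
  have h : f.natDegree - (i + 1) = f.natDegree - 1 - i := by omega
  rw [h]
  ring

/-- the discriminant of a monic polynomial is a resultant. -/
theorem u0_discr_eq {f : A[X]} (hf : f.Monic) (hn : f.natDegree ≠ 0) :
    f.discr = (-1) ^ (f.natDegree * (f.natDegree - 1) / 2) *
      resultant f (derivative f) := by
  have h := resultant_deriv (f := f) (natDegree_pos_iff_degree_pos.1 (Nat.pos_of_ne_zero hn))
  rw [hf.leadingCoeff, mul_one] at h
  have h2 : resultant f (derivative f) = resultant f (derivative f) f.natDegree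
      (f.natDegree - 1) := by
    rw [natDegree_derivative]
  rw [h2, h, ← mul_assoc, ← mul_pow, neg_mul_neg, one_mul, one_pow, one_mul]

theorem u0_discr_scaleRoots {f : A[X]} (hf : f.Monic) (hn : f.natDegree ≠ 0) (s : A) :
    (f.scaleRoots s).discr = s ^ (f.natDegree * (f.natDegree - 1)) * f.discr := by
  rw [u0_discr_eq hf hn, u0_discr_eq ((monic_scaleRoots_iff s).2 hf)
    (by rwa [natDegree_scaleRoots]), u0_derivative_scaleRoots, resultant_scaleRoots,
    natDegree_scaleRoots, natDegree_derivative]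
  ring

/-- the discriminant of a monic polynomial commutes with ring homomorphisms. -/
theorem u0_discr_map {B : Type v} [CommRing B] [IsDomain B] [CharZero B] {f : A[X]}
    (hf : f.Monic) (hn : f.natDegree ≠ 0) (φ : A →+* B) : (f.map φ).discr = φ f.discr := by
  have h1 : (f.map φ).natDegree = f.natDegree := hf.natDegree_map φ
  have h2 : (derivative (f.map φ)).natDegree = (derivative f).natDegree := by
    rw [natDegree_derivative, natDegree_derivative, h1]
  rw [u0_discr_eq hf hn, u0_discr_eq (hf.map φ) (by rwa [h1]), map_mul, map_pow, map_neg, map_one,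
    h1, h2, derivative_map, resultant_map_map]

end discr

variable {R : Type u} [CommRing R] [Algebra ℂ R] {𝒜 : ℕ → Submodule ℂ R} [GradedAlgebra 𝒜]
  {P : R →ₗ[ℂ] R →ₗ[ℂ] R}

/-- The grading as a homomorphism to `R[X]`. -/
theorem exists_scaling (𝒜 : ℕ → Submodule ℂ R) [GradedAlgebra 𝒜] (d : ℕ) :
    ∃ c : R →ₐ[ℂ] R[X], ∀ k, ∀ r ∈ 𝒜 k, c r = C r * X ^ (d * k) := by
  classical
  let F : ∀ k, (𝒜 k) →ₗ[ℂ] R[X] := fun k =>
    (LinearMap.mulRight ℂ ((X : R[X]) ^ (d * k))) ∘ₗ
      (Polynomial.CAlgHom (R := ℂ) (A := R)).toLinearMap ∘ₗ (𝒜 k).subtype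
  have hF : ∀ k (r : 𝒜 k), F k r = C (r : R) * X ^ (d * k) := fun k r => rfl
  let c₀ : (DirectSum ℕ fun k => 𝒜 k) →ₐ[ℂ] R[X] := DirectSum.toAlgebra ℂ (fun k => 𝒜 k) F (by
      rw [hF]
      change C (1 : R) * X ^ (d * 0) = 1
      rw [mul_zero, pow_zero, map_one, mul_one]) (by
      intro i j a b
      rw [hF, hF, hF]
      change C ((a : R) * (b : R)) * X ^ (d * (i + j)) = _
      rw [map_mul, mul_add, pow_add]; ring)
  refine ⟨c₀.comp (DirectSum.decomposeAlgEquiv 𝒜).toAlgHom, fun k r hr => ?_⟩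
  have e2 : (DirectSum.decomposeAlgEquiv 𝒜) r = DirectSum.of (fun k => 𝒜 k) k ⟨r, hr⟩ := by
    rw [DirectSum.decomposeAlgEquiv_apply, DirectSum.decompose_of_mem 𝒜 hr]
  change c₀ ((DirectSum.decomposeAlgEquiv 𝒜) r) = _
  rw [e2]
  change DirectSum.toModule ℂ ℕ R[X] F (DirectSum.lof ℂ ℕ (fun k => 𝒜 k) k ⟨r, hr⟩) = _
  rw [DirectSum.toModule_lof]
  rfl

/-- An element with `c r = C r * X ^ m` is homogeneous. -/
theorem exists_mem_of_scaling {d : ℕ} (hd : 0 < d) (c : R →ₐ[ℂ] R[X])
    (hc : ∀ k, ∀ r ∈ 𝒜 k, c r = C r * X ^ (d * k)) {x : R} {m : ℕ} (hx : c x = C x * X ^ m) :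
    ∃ k, x ∈ 𝒜 k := by
  classical
  have hcomp : ∀ k : ℕ, (c x).coeff (d * k) = (DirectSum.decompose 𝒜 x k : R) := by
    intro k
    conv_lhs => rw [← DirectSum.sum_support_decompose 𝒜 x]
    rw [map_sum, finsetSum_coeff]
    rw [Finset.sum_eq_single k]
    · rw [hc k _ (SetLike.coe_mem _), coeff_C_mul_X_pow, if_pos rfl]
    · intro j _ hj
      rw [hc j _ (SetLike.coe_mem _), coeff_C_mul_X_pow, if_neg]
      intro h
      exact hj (Nat.eq_of_mul_eq_mul_left hd h).symm
    · intro hk
      rw [DFinsupp.notMem_support_iff.1 hk, ZeroMemClass.coe_zero, map_zero, coeff_zero]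
  by_cases hdm : d ∣ m
  · obtain ⟨k, rfl⟩ := hdm
    refine ⟨k, ?_⟩
    have h := hcomp k
    rw [hx, coeff_C_mul_X_pow, if_pos rfl] at h
    rw [h]
    exact SetLike.coe_mem _
  · refine ⟨0, ?_⟩
    have h : x = 0 := by
      rw [← DirectSum.sum_support_decompose 𝒜 x]
      refine Finset.sum_eq_zero fun k _ => ?_
      rw [← hcomp k, hx, coeff_C_mul_X_pow, if_neg]
      intro h
      exact hdm ⟨k, h.symm⟩
    rw [h]
    exact zero_mem _

/-- **The discriminant of a good polynomial is homogeneous.** -/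
theorem IsGood.discr_mem [IsDomain R] {d : ℕ} (hd : 0 < d) {Q : R[X]} (hQ : IsGood 𝒜 P d Q) :
    ∃ m, Q.discr ∈ 𝒜 m := by
  have : CharZero R := charZero_of_injective_algebraMap (algebraMap ℂ R).injective
  have hn : Q.natDegree ≠ 0 := by
    intro h0
    have h1 : Q = 1 := hQ.monic.natDegree_eq_zero.1 h0
    exact hQ.irr.not_isUnit (by rw [h1]; exact isUnit_one)
  obtain ⟨c, hc⟩ := exists_scaling 𝒜 d
  have hmap : Q.map (c : R →+* R[X]) = (Q.map (C : R →+* R[X])).scaleRoots X := by
    ext1 i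
    rw [coeff_map, coeff_scaleRoots, coeff_map, hQ.monic.natDegree_map]
    change c (Q.coeff i) = _
    by_cases hi : i ≤ Q.natDegree
    · by_cases hdv : d ∣ Q.natDegree - i
      · obtain ⟨j, hj⟩ := hdv
        rw [hc j _ (hQ.homog i hi j hj), hj]
      · rw [hQ.homog0 i hi hdv, map_zero, map_zero, zero_mul]
    · rw [coeff_eq_zero_of_natDegree_lt (not_le.1 hi), map_zero, map_zero, zero_mul]
  refine exists_mem_of_scaling hd c hc (m := Q.natDegree * (Q.natDegree - 1)) ?_
  have h1 := u0_discr_map hQ.monic hn (c : R →+* R[X])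
  have h2 := u0_discr_map hQ.monic hn (C : R →+* R[X])
  have h3 := u0_discr_scaleRoots (hQ.monic.map (C : R →+* R[X]))
    (by rwa [hQ.monic.natDegree_map]) (X : R[X])
  rw [hQ.monic.natDegree_map] at h3
  change (c : R →+* R[X]) Q.discr = _
  rw [← h1, hmap, h3, h2]
  ring

/-- Height one primes containing a nonzero homogeneous element are homogeneous. -/
theorem isHomogeneous_of_htOne {𝔭 : Ideal R} [h𝔭 : 𝔭.IsPrime]
    (hp : Inertia.HtOne 𝔭) {m : ℕ} {x : R} (hx : x ∈ 𝒜 m) (hx0 : x ≠ 0) (hxp : x ∈ 𝔭) :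
    𝔭.IsHomogeneous 𝒜 := by
  classical
  have h1 : (𝔭.homogeneousCore 𝒜).toIdeal.IsPrime := h𝔭.homogeneousCore
  have h2 : (𝔭.homogeneousCore 𝒜).toIdeal ≤ 𝔭 := Ideal.toIdeal_homogeneousCore_le 𝒜 𝔭
  have h3 : x ∈ (𝔭.homogeneousCore 𝒜).toIdeal :=
    Ideal.mem_homogeneousCore_of_homogeneous_of_mem ⟨m, hx⟩ hxp
  have h4 : (𝔭.homogeneousCore 𝒜).toIdeal = 𝔭 := by
    by_contra hne
    have h5 := hp _ h1 (lt_of_le_of_ne h2 hne)
    rw [h5, Ideal.mem_bot] at h3
    exact hx0 h3
  rw [← h4]
  exact (𝔭.homogeneousCore 𝒜).isHomogeneous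

omit [Algebra ℂ R] in
/-- A prime with a discrete valuation ring as localization has height one. -/
theorem htOne_of_dvr [IsDomain R] {𝔭 : Ideal R} [𝔭.IsPrime]
    (V : Type v) [CommRing V] [IsDomain V] [IsDiscreteValuationRing V] [Algebra R V]
    [IsLocalization.AtPrime V 𝔭] : Inertia.HtOne 𝔭 := by
  intro P' hP' hlt
  by_contra hne
  have hdisj : Disjoint (𝔭.primeCompl : Set R) (P' : Set R) := by
    rw [Set.disjoint_left]
    intro x hx hx'
    exact hx (hlt.le hx')
  have h1 : (P'.map (algebraMap R V)).IsPrime :=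
    IsLocalization.isPrime_of_isPrime_disjoint 𝔭.primeCompl V P' hP' hdisj
  have h2 : (P'.map (algebraMap R V)).comap (algebraMap R V) = P' :=
    IsLocalization.under_map_of_isPrime_disjoint 𝔭.primeCompl V hP' hdisj
  have h3 : P'.map (algebraMap R V) ≠ ⊥ := by
    intro h0
    obtain ⟨x, hx, hx0⟩ := Submodule.exists_mem_ne_zero_of_ne_bot hne
    have h4 : algebraMap R V x ∈ P'.map (algebraMap R V) := Ideal.mem_map_of_mem _ hx
    rw [h0, Ideal.mem_bot] at h4
    have hinj : Function.Injective (algebraMap R V) :=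
      IsLocalization.injective V 𝔭.primeCompl_le_nonZeroDivisors
    exact hx0 (hinj (by rw [h4, map_zero]))
  have h5 : P'.map (algebraMap R V) = IsLocalRing.maximalIdeal V :=
    IsLocalRing.eq_maximalIdeal (h1.isMaximal h3)
  have h6 : (IsLocalRing.maximalIdeal V).comap (algebraMap R V) = 𝔭 :=
    IsLocalization.AtPrime.under_maximalIdeal V 𝔭
  rw [h5, h6] at h2
  exact hlt.ne h2.symm

omit [Algebra ℂ R] in
/-- A height one prime of a normal noetherian domain has a discrete valuation ring as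
localization. -/
theorem dvr_of_htOne [IsDomain R] [IsNoetherianRing R] [IsIntegrallyClosed R] {𝔭 : Ideal R}
    [𝔭.IsPrime] (hp : Inertia.HtOne 𝔭) (hp0 : 𝔭 ≠ ⊥) :
    IsDiscreteValuationRing (Localization.AtPrime 𝔭) := by
  have hinj : Function.Injective (algebraMap R (Localization.AtPrime 𝔭)) :=
    IsLocalization.injective _ 𝔭.primeCompl_le_nonZeroDivisors
  have hmax : (IsLocalRing.maximalIdeal (Localization.AtPrime 𝔭)).comap
      (algebraMap R (Localization.AtPrime 𝔭)) = 𝔭 :=
    IsLocalization.AtPrime.under_maximalIdeal _ 𝔭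
  have hnoeth : IsNoetherianRing (Localization.AtPrime 𝔭) :=
    IsLocalization.isNoetherianRing 𝔭.primeCompl _ inferInstance
  have hic : IsIntegrallyClosed (Localization.AtPrime 𝔭) :=
    isIntegrallyClosed_of_isLocalization _ 𝔭.primeCompl 𝔭.primeCompl_le_nonZeroDivisors
  have hnf : ¬ IsField (Localization.AtPrime 𝔭) := by
    intro hf
    have h0 := IsLocalRing.isField_iff_maximalIdeal_eq.1 hf
    apply hp0
    rw [← hmax, h0]
    exact Ideal.comap_bot_of_injective _ hinj
  have key : IsIntegrallyClosed (Localization.AtPrime 𝔭) ∧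
      ∃! P : Ideal (Localization.AtPrime 𝔭), P ≠ ⊥ ∧ P.IsPrime := by
    refine ⟨hic, IsLocalRing.maximalIdeal _, ⟨?_, inferInstance⟩, ?_⟩
    · exact IsLocalRing.isField_iff_maximalIdeal_eq.not.1 hnf
    · rintro P' ⟨hP'0, hP'⟩
      have h1 : P'.comap (algebraMap R (Localization.AtPrime 𝔭)) = 𝔭 := by
        by_contra hne
        have hle : P'.comap (algebraMap R (Localization.AtPrime 𝔭)) ≤ 𝔭 :=
          (Ideal.comap_mono (IsLocalRing.le_maximalIdeal hP'.ne_top)).trans (le_of_eq hmax)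
        have h2 := hp _ (hP'.comap _) (lt_of_le_of_ne hle hne)
        apply hP'0
        rw [← IsLocalization.map_under 𝔭.primeCompl (Localization.AtPrime 𝔭) P']
        rw [Ideal.under, h2, Ideal.map_bot]
      rw [← IsLocalization.map_under 𝔭.primeCompl (Localization.AtPrime 𝔭) P',
        ← IsLocalization.map_under 𝔭.primeCompl (Localization.AtPrime 𝔭)
          (IsLocalRing.maximalIdeal _), Ideal.under, Ideal.under, h1, hmax]
  exact ((IsDiscreteValuationRing.TFAE (Localization.AtPrime 𝔭) hnf).out 0 3).2 key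

end Vale.Agent.P292
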