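import Mathlib

/-!
# P292, block U, part 1: extension of a curve to the integral closure

`φ : R → A` a homomorphism of integrally closed domains, `Q` a monic polynomial over `R` with
`φ (disc Q) ≠ 0` all of whose roots over `A` lie in `A`, `M` a splitting field of `Q`.  Then `φ`
extends to the integral closure of `R` in `M`, and every extension separates the roots of `Q`.
-/

namespace Vale.Agent.P292

open Polynomial TensorProduct

/-- an injective homomorphism from a domain to an algebraically closed field extends to an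
integral extension. -/
theorem u1_extend_inj {R T F : Type*} [CommRing R] [IsDomain R] [CommRing T] [IsDomain T]
    [Algebra R T] [Algebra.IsIntegral R T] [FaithfulSMul R T]
    [Field F] [IsAlgClosed F] (ψ : R →+* F) (hψ : Function.Injective ψ) :
    ∃ Λ : T →+* F, ∀ r, Λ (algebraMap R T r) = ψ r := by
  let : Algebra R F := ψ.toAlgebra
  have : FaithfulSMul R F := (faithfulSMul_iff_algebraMap_injective _ _).2 hψ
  let ℓ : T →ₐ[R] F := IsAlgClosed.lift
  exact ⟨ℓ.toRingHom, fun r => ℓ.commutes r⟩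

/-- a homomorphism from a domain to an algebraically closed field extends to an integral
extension. -/
theorem u1_extend {R T F : Type*} [CommRing R] [IsDomain R] [CommRing T] [IsDomain T]
    [Algebra R T] [Algebra.IsIntegral R T] (hinj : Function.Injective (algebraMap R T))
    [Field F] [IsAlgClosed F] (ψ : R →+* F) : ∃ Λ : T →+* F, ∀ r, Λ (algebraMap R T r) = ψ r := by
  have : (RingHom.ker ψ).IsPrime := RingHom.ker_isPrime ψ
  obtain ⟨Q, hQ, hQP⟩ := Ideal.exists_ideal_over_prime_of_isIntegral_of_isDomain (S := T)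
    (RingHom.ker ψ) (by rw [(RingHom.injective_iff_ker_eq_bot _).1 hinj]; exact bot_le)
  have := hQ
  have : Q.LiesOver (RingHom.ker ψ) := ⟨hQP.symm⟩
  obtain ⟨ℓ, hℓ⟩ := u1_extend_inj (R := R ⧸ RingHom.ker ψ) (T := T ⧸ Q) (RingHom.kerLift ψ)
    (RingHom.kerLift_injective ψ)
  exact ⟨ℓ.comp (Ideal.Quotient.mk Q), fun r => hℓ (Ideal.Quotient.mk _ r)⟩

/-- the discriminant of a monic polynomial is a combination of it and its derivative. -/
theorem u1_disc {R : Type*} [CommRing R] {Q : R[X]} (hQ : Q.Monic) (hd : 0 < Q.natDegree) :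
    ∃ p q : R[X], Q * p + derivative Q * q = C Q.discr := by
  nontriviality R
  obtain ⟨p, q, -, -, h⟩ := exists_mul_add_mul_eq_C_resultant (m := Q.natDegree)
    (n := Q.natDegree - 1) Q (derivative Q) le_rfl (natDegree_derivative_le Q)
    (Or.inl (by omega))
  rw [resultant_deriv (natDegree_pos_iff_degree_pos.1 hd), hQ.leadingCoeff, mul_one] at h
  have h2 : ((-1 : R) ^ (Q.natDegree * (Q.natDegree - 1) / 2)) *
      ((-1 : R) ^ (Q.natDegree * (Q.natDegree - 1) / 2)) = 1 := by
    rw [← mul_pow]; simp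
  refine ⟨C ((-1 : R) ^ (Q.natDegree * (Q.natDegree - 1) / 2)) * p,
    C ((-1 : R) ^ (Q.natDegree * (Q.natDegree - 1) / 2)) * q, ?_⟩
  calc _ = C ((-1 : R) ^ (Q.natDegree * (Q.natDegree - 1) / 2)) *
        (Q * p + derivative Q * q) := by ring
    _ = _ := by rw [h, ← C_mul, ← mul_assoc, h2, one_mul]

/-- a homomorphism that does not kill the discriminant does not kill `Q'` at a root of `Q`. -/
theorem u1_deriv_ne {R T F : Type*} [CommRing R] [CommRing T] [Algebra R T] [CommRing F]
    (Λ : T →+* F) {Q : R[X]} (hQ : Q.Monic) (hdisc : Λ (algebraMap R T Q.discr) ≠ 0) {b : T}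
    (hb : aeval b Q = 0) : Λ (aeval b (derivative Q)) ≠ 0 := by
  rcases Nat.eq_zero_or_pos Q.natDegree with h0 | h0
  · have h1 := eq_one_of_monic_natDegree_zero hQ h0
    subst h1
    rw [map_one] at hb
    exact absurd (by rw [← mul_one (algebraMap R T _), hb, mul_zero, map_zero]) hdisc
  · obtain ⟨p, q, h⟩ := u1_disc hQ h0
    intro hc
    apply hdisc
    have h1 := congrArg (aeval b) h
    rw [map_add, map_mul, map_mul, hb, zero_mul, zero_add, aeval_C] at h1
    rw [← h1, map_mul, hc, zero_mul]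

/-- such a homomorphism separates the roots of `Q`. -/
theorem u1_root_ne {R T F : Type*} [CommRing R] [CommRing T] [IsDomain T] [Algebra R T]
    [CommRing F] (Λ : T →+* F) {Q : R[X]} (hQ : Q.Monic)
    (hdisc : Λ (algebraMap R T Q.discr) ≠ 0) {b₁ b₂ : T} (h1 : aeval b₁ Q = 0)
    (h2 : aeval b₂ Q = 0) (hne : b₁ ≠ b₂) : Λ b₁ ≠ Λ b₂ := by
  intro hc
  have hr : IsRoot (Q.map (algebraMap R T)) b₁ := by
    rw [IsRoot, eval_map_algebraMap, h1]
  obtain ⟨Q₁, hQ₁⟩ := dvd_iff_isRoot.2 hr
  have e2 : Q₁.eval b₂ = 0 := by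
    have h3 : (Q.map (algebraMap R T)).eval b₂ = 0 := by rw [eval_map_algebraMap, h2]
    rw [hQ₁, eval_mul, eval_sub, eval_X, eval_C] at h3
    exact (mul_eq_zero.1 h3).resolve_left (sub_ne_zero.2 hne.symm)
  have e1 : aeval b₁ (derivative Q) = Q₁.eval b₁ := by
    rw [← eval_map_algebraMap, ← derivative_map, hQ₁, derivative_mul]
    simp
  apply u1_deriv_ne Λ hQ hdisc h1
  rw [e1]
  have e3 : Λ (Q₁.eval b₁) = Λ (Q₁.eval b₂) := by
    rw [← eval₂_hom, ← eval₂_hom, hc]
  rw [e3, e2, map_zero]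

/-- the trace of an integral element, as a sum over the Galois group. -/
theorem u1_sum_range {R K M : Type*} [CommRing R] [IsDomain R] [IsIntegrallyClosed R]
    [Field K] [Algebra R K] [IsFractionRing R K]
    [Field M] [Algebra R M] [Algebra K M] [IsScalarTower R K M] [FiniteDimensional K M]
    [IsGalois K M] {x : M} (hx : IsIntegral R x) :
    ∃ r : R, algebraMap R M r = ∑ τ : M ≃ₐ[K] M, τ x := by
  have h1 : IsIntegral R (Algebra.trace K M x) := Algebra.isIntegral_trace hx
  obtain ⟨r, hr⟩ := IsIntegrallyClosed.isIntegral_iff.1 h1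
  refine ⟨r, ?_⟩
  rw [← trace_eq_sum_automorphisms, ← hr, ← IsScalarTower.algebraMap_apply]

/-- the main induction. -/
theorem u1_sum_mem {R K M : Type*} [CommRing R] [IsDomain R] [IsIntegrallyClosed R]
    [Field K] [Algebra R K] [IsFractionRing R K]
    [Field M] [Algebra R M] [Algebra K M] [IsScalarTower R K M] [FiniteDimensional K M]
    [IsGalois K M] (C : Subalgebra R M) (hC : ∀ x ∈ C, IsIntegral R x)
    (β γ : (M ≃ₐ[K] M) → M) (hβ : ∀ σ, β σ ∈ C) (hγ : ∀ σ, γ σ ∈ C)
    (s : Finset (M ≃ₐ[K] M)) : ∀ x : M, IsIntegral R x →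
    ∑ τ : M ≃ₐ[K] M, (∏ σ ∈ s, (β σ - τ (γ σ))) * τ x ∈ C := by
  classical
  induction s using Finset.induction_on with
  | empty =>
    intro x hx
    obtain ⟨r, hr⟩ := u1_sum_range (K := K) hx
    simp only [Finset.prod_empty, one_mul]
    rw [← hr]
    exact C.algebraMap_mem r
  | insert σ₀ s hσ ih =>
    intro x hx
    have e : ∑ τ : M ≃ₐ[K] M, (∏ σ ∈ insert σ₀ s, (β σ - τ (γ σ))) * τ x =
        β σ₀ * ∑ τ : M ≃ₐ[K] M, (∏ σ ∈ s, (β σ - τ (γ σ))) * τ x -
          ∑ τ : M ≃ₐ[K] M, (∏ σ ∈ s, (β σ - τ (γ σ))) * τ (γ σ₀ * x) := by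
      rw [Finset.mul_sum, ← Finset.sum_sub_distrib]
      refine Finset.sum_congr rfl fun τ _ => ?_
      rw [Finset.prod_insert hσ, map_mul]
      ring
    rw [e]
    exact C.sub_mem (C.mul_mem (hβ _) (ih x hx)) (ih _ ((hC _ (hγ _)).mul hx))

/-- a multiple of every integral element lies in `C`. -/
theorem u1_conductor {R K M : Type*} [CommRing R] [IsDomain R] [IsIntegrallyClosed R]
    [Field K] [Algebra R K] [IsFractionRing R K]
    [Field M] [Algebra R M] [Algebra K M] [IsScalarTower R K M] [FiniteDimensional K M]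
    [IsGalois K M] (C : Subalgebra R M) (hC : ∀ x ∈ C, IsIntegral R x)
    (hG : ∀ (σ : M ≃ₐ[K] M), ∀ x ∈ C, σ x ∈ C)
    [DecidableEq (M ≃ₐ[K] M)]
    (β : (M ≃ₐ[K] M) → M) (hβ : ∀ σ, β σ ∈ C) (x : M) (hx : IsIntegral R x) :
    (∏ σ ∈ Finset.univ.erase (1 : M ≃ₐ[K] M), (β σ - σ⁻¹ (β σ))) * x ∈ C := by
  have h := u1_sum_mem C hC β (fun σ => σ⁻¹ (β σ)) hβ (fun σ => hG _ _ (hβ σ))
    (Finset.univ.erase (1 : M ≃ₐ[K] M)) x hx
  rw [Finset.sum_eq_single_of_mem (1 : M ≃ₐ[K] M) (Finset.mem_univ _)] at h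
  · exact h
  · intro τ _ hτ
    rw [Finset.prod_eq_zero (Finset.mem_erase.2 ⟨hτ, Finset.mem_univ τ⟩), zero_mul]
    have : τ (τ⁻¹ (β τ)) = (τ * τ⁻¹) (β τ) := rfl
    rw [this, mul_inv_cancel]
    exact sub_self _

/-- a nontrivial automorphism of a splitting field moves a root. -/
theorem u1_exists_root_ne {K M : Type*} [Field K] [Field M] [Algebra K M] (Q : K[X])
    [Q.IsSplittingField K M] {σ : M ≃ₐ[K] M} (hσ : σ ≠ 1) :
    ∃ β ∈ Q.rootSet M, σ β ≠ β := by
  by_contra! h
  apply hσ
  have h1 : (σ : M →ₐ[K] M) = AlgHom.id K M :=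
    AlgHom.ext_of_adjoin_eq_top (IsSplittingField.adjoin_rootSet M Q) (fun x hx => h x hx)
  ext x
  exact DFunLike.congr_fun h1 x

/-- a polynomial with non zero discriminant is separable over the fraction field. -/
theorem u1_separable {R K : Type*} [CommRing R] [IsDomain R] [Field K] [Algebra R K]
    [IsFractionRing R K] {Q : R[X]} (hQ : Q.Monic) (hdisc : Q.discr ≠ 0) :
    (Q.map (algebraMap R K)).Separable := by
  rcases Nat.eq_zero_or_pos Q.natDegree with h0 | h0
  · have h1 := eq_one_of_monic_natDegree_zero hQ h0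
    subst h1
    rw [Polynomial.map_one]
    exact separable_one
  · obtain ⟨p, q, h⟩ := u1_disc hQ h0
    have hd : algebraMap R K Q.discr ≠ 0 := by
      rwa [Ne, IsFractionRing.to_map_eq_zero_iff]
    refine ⟨C (algebraMap R K Q.discr)⁻¹ * p.map (algebraMap R K),
      C (algebraMap R K Q.discr)⁻¹ * q.map (algebraMap R K), ?_⟩
    have h2 := congrArg (Polynomial.map (algebraMap R K)) h
    rw [Polynomial.map_add, Polynomial.map_mul, Polynomial.map_mul, map_C, ← derivative_map] at h2
    calc _ = C (algebraMap R K Q.discr)⁻¹ * (Q.map (algebraMap R K) * p.map (algebraMap R K) +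
          derivative (Q.map (algebraMap R K)) * q.map (algebraMap R K)) := by ring
      _ = _ := by rw [h2, ← C_mul, inv_mul_cancel₀ hd, C_1]

/-- an element of `F` that is integral over `A` and has a non zero multiple by an element of `A`
in `A` lies in `A`. -/
theorem u1_mem_range {A F : Type*} [CommRing A] [IsDomain A] [IsIntegrallyClosed A] [Field F]
    [Algebra A F] [FaithfulSMul A F] {x : F} (hx : IsIntegral A x) {a b : A} (ha : a ≠ 0)
    (h : algebraMap A F a * x = algebraMap A F b) : ∃ y : A, algebraMap A F y = x := by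
  have hinj : Function.Injective (algebraMap A F) := FaithfulSMul.algebraMap_injective A F
  let j : FractionRing A →ₐ[A] F := IsFractionRing.liftAlgHom (g := Algebra.ofId A F) hinj
  have hj : Function.Injective j := j.toRingHom.injective
  have ha' : algebraMap A F a ≠ 0 := fun hc => ha (hinj (by rw [hc, map_zero]))
  have e : j (algebraMap A (FractionRing A) b / algebraMap A (FractionRing A) a) = x := by
    rw [map_div₀, j.commutes, j.commutes, ← h, mul_div_cancel_left₀ _ ha']
  rw [← e] at hx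
  obtain ⟨y, hy⟩ := IsIntegrallyClosed.isIntegral_iff.1 ((isIntegral_algHom_iff j hj).1 hx)
  exact ⟨y, by rw [← e, ← hy, j.commutes]⟩

/-- values on the algebra generated by a set. -/
theorem u1_adjoin_range {R A F M : Type*} [CommRing R] [CommRing A] [Field F] [Algebra A F]
    [Field M] [Algebra R M] (φ : R →+* A) (Λ : integralClosure R M →+* F)
    (hΛ : ∀ r, Λ (algebraMap R _ r) = algebraMap A F (φ r)) (S : Set M)
    (hSint : ∀ b ∈ S, IsIntegral R b)
    (hS : ∀ b : integralClosure R M, (b : M) ∈ S → ∃ a, algebraMap A F a = Λ b)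
    (c : integralClosure R M) (hc : (c : M) ∈ Algebra.adjoin R S) :
    ∃ a, algebraMap A F a = Λ c := by
  let D : Subalgebra R (integralClosure R M) :=
    { (algebraMap A F).range.comap Λ with
      algebraMap_mem' := fun r => ⟨φ r, (hΛ r).symm⟩ }
  have hD : ∀ t, t ∈ D ↔ ∃ a, algebraMap A F a = Λ t := fun t => Iff.rfl
  have h1 : Algebra.adjoin R S ≤ D.map (integralClosure R M).val := by
    refine Algebra.adjoin_le fun b hb => ?_
    exact ⟨⟨b, hSint b hb⟩, (hD _).2 (hS ⟨b, hSint b hb⟩ hb), rfl⟩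
  obtain ⟨d, hd, hdc⟩ := h1 hc
  have h2 : d = c := Subtype.ext hdc
  rw [← h2]
  exact (hD d).1 hd

/-- **extension of `φ` to the integral closure**, with a general fraction field. -/
theorem exists_lam' {R A F : Type*} (K : Type*) {M : Type*} [CommRing R] [IsDomain R]
    [IsIntegrallyClosed R] [CommRing A] [IsDomain A] [IsIntegrallyClosed A] [Field F]
    [IsAlgClosed F] [Algebra A F] [FaithfulSMul A F] [Field K] [Algebra R K] [IsFractionRing R K]
    [Field M] [Algebra R M] [Algebra K M] [IsScalarTower R K M] (φ : R →+* A) {Q : R[X]}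
    (hQ : Q.Monic) [(Q.map (algebraMap R K)).IsSplittingField K M] (hdisc : φ Q.discr ≠ 0)
    (hroots : ∀ x : F, Q.eval₂ ((algebraMap A F).comp φ) x = 0 → ∃ a, algebraMap A F a = x) :
    ∃ lam : integralClosure R M →+* A, ∀ r, lam (algebraMap R _ r) = φ r := by
  classical
  have hinjA : Function.Injective (algebraMap A F) := FaithfulSMul.algebraMap_injective A F
  have hdisc0 : Q.discr ≠ 0 := fun h => hdisc (by rw [h, map_zero])
  have hsep : (Q.map (algebraMap R K)).Separable := u1_separable hQ hdisc0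
  have : FiniteDimensional K M := IsSplittingField.finiteDimensional M (Q.map (algebraMap R K))
  have : IsGalois K M := IsGalois.of_separable_splitting_field hsep
  have hinjRM : Function.Injective (algebraMap R M) := by
    rw [IsScalarTower.algebraMap_eq R K M]
    exact (algebraMap K M).injective.comp (IsFractionRing.injective R K)
  have hinjT : Function.Injective (algebraMap R (integralClosure R M)) := by
    intro a b hab
    exact hinjRM (congrArg (fun t : integralClosure R M => (t : M)) hab)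
  obtain ⟨Λ, hΛ⟩ := u1_extend (T := integralClosure R M) hinjT ((algebraMap A F).comp φ)
  have hΛd : Λ (algebraMap R _ Q.discr) ≠ 0 := by
    rw [hΛ, RingHom.comp_apply]
    exact fun hc => hdisc (hinjA (by rw [hc, map_zero]))
  have hcomp : Λ.comp (algebraMap R (integralClosure R M)) = (algebraMap A F).comp φ :=
    RingHom.ext hΛ
  -- the roots
  have hQT : ∀ b : integralClosure R M, aeval (b : M) Q = 0 → aeval b Q = 0 := by
    intro b hb
    apply Subtype.ext
    have := aeval_algHom_apply (integralClosure R M).val b Q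
    exact this.symm.trans hb
  let S : Set M := {b : M | aeval b Q = 0}
  have hSint : ∀ b ∈ S, IsIntegral R b := fun b hb => ⟨Q, hQ, hb⟩
  have hS : ∀ b : integralClosure R M, (b : M) ∈ S → ∃ a, algebraMap A F a = Λ b := by
    intro b hb
    apply hroots
    rw [← hcomp, ← hom_eval₂, ← aeval_def, hQT b hb, map_zero]
  let C := Algebra.adjoin R S
  have hC : ∀ x ∈ C, IsIntegral R x := by
    have h1 : C ≤ integralClosure R M := Algebra.adjoin_le fun b hb => hSint b hb
    exact fun x hx => h1 hx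
  have hSG : ∀ (σ : M ≃ₐ[K] M), ∀ b ∈ S, σ b ∈ S := by
    intro σ b hb
    have h1 := aeval_algHom_apply ((σ : M →ₐ[K] M).restrictScalars R) b Q
    have hb' : aeval b Q = 0 := hb
    rw [hb', map_zero] at h1
    exact h1
  have hG : ∀ (σ : M ≃ₐ[K] M), ∀ x ∈ C, σ x ∈ C := by
    intro σ x hx
    have h1 : C ≤ C.comap ((σ : M →ₐ[K] M).restrictScalars R) :=
      Algebra.adjoin_le fun b hb => Algebra.subset_adjoin (hSG σ b hb)
    exact h1 hx
  have hβ : ∀ σ : M ≃ₐ[K] M, ∃ β ∈ C, σ ≠ 1 → β ∈ S ∧ σ⁻¹ β ≠ β := by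
    intro σ
    by_cases hσ : σ = 1
    · exact ⟨0, C.zero_mem, fun h => absurd hσ h⟩
    · obtain ⟨β, hβ, hne⟩ := u1_exists_root_ne (Q.map (algebraMap R K)) hσ
      have hβS : β ∈ S := by
        have h1 := (mem_rootSet.1 hβ).2
        rwa [aeval_map_algebraMap] at h1
      refine ⟨β, Algebra.subset_adjoin hβS, fun _ => ⟨hβS, fun hc => hne ?_⟩⟩
      have h2 : σ (σ⁻¹ β) = β := by
        have : σ (σ⁻¹ β) = (σ * σ⁻¹) β := rfl
        rw [this, mul_inv_cancel]
        rfl
      rw [hc] at h2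
      exact h2
  choose β hβC hβ' using hβ
  -- the multiplier
  let bT : (M ≃ₐ[K] M) → integralClosure R M := fun σ => ⟨β σ, hC _ (hβC σ)⟩
  let gT : (M ≃ₐ[K] M) → integralClosure R M := fun σ => ⟨σ⁻¹ (β σ), hC _ (hG _ _ (hβC σ))⟩
  let cT : integralClosure R M := ∏ σ ∈ Finset.univ.erase (1 : M ≃ₐ[K] M), (bT σ - gT σ)
  have hcT : (cT : M) = ∏ σ ∈ Finset.univ.erase (1 : M ≃ₐ[K] M), (β σ - σ⁻¹ (β σ)) := by
    have : (cT : M) = (integralClosure R M).val cT := rfl
    rw [this, map_prod]
    rfl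
  have hΛc : Λ cT ≠ 0 := by
    rw [map_prod]
    refine Finset.prod_ne_zero_iff.2 fun σ hσ => ?_
    have hσ1 := (Finset.mem_erase.1 hσ).1
    rw [map_sub, sub_ne_zero]
    refine u1_root_ne Λ hQ hΛd (hQT _ (hβ' σ hσ1).1) (hQT _ (hSG _ _ (hβ' σ hσ1).1)) fun hc => ?_
    exact (hβ' σ hσ1).2 (congrArg (fun t : integralClosure R M => (t : M)) hc).symm
  have hmul : ∀ x : integralClosure R M, ((cT * x : integralClosure R M) : M) ∈ C := by
    intro x
    have h1 := u1_conductor (K := K) C hC hG β hβC (x : M) x.2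
    rw [← hcT] at h1
    exact h1
  obtain ⟨a, ha⟩ := u1_adjoin_range φ Λ hΛ S hSint hS cT (by
    have := hmul 1
    rwa [mul_one] at this)
  have ha0 : a ≠ 0 := by
    intro h
    rw [h, map_zero] at ha
    exact hΛc ha.symm
  have hrange : ∀ x : integralClosure R M, ∃ y : A, algebraMap A F y = Λ x := by
    intro x
    obtain ⟨b, hb⟩ := u1_adjoin_range φ Λ hΛ S hSint hS (cT * x) (hmul x)
    refine u1_mem_range ?_ ha0 (b := b) (by rw [ha, hb, map_mul])
    obtain ⟨p, hp, hpx⟩ := integralClosure.isIntegral x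
    refine ⟨p.map φ, hp.map φ, ?_⟩
    rw [eval₂_map, ← hcomp, ← hom_eval₂, hpx, map_zero]
  let e : A ≃+* (algebraMap A F).range :=
    RingEquiv.ofBijective (algebraMap A F).rangeRestrict
      ⟨fun x y h => hinjA (congrArg Subtype.val h), (algebraMap A F).rangeRestrict_surjective⟩
  refine ⟨e.symm.toRingHom.comp (Λ.codRestrict (algebraMap A F).range fun x => hrange x),
    fun r => ?_⟩
  have h1 : Λ.codRestrict (algebraMap A F).range (fun x => hrange x) (algebraMap R _ r) =
      e (φ r) := Subtype.ext (hΛ r)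
  rw [RingHom.comp_apply, h1]
  exact e.symm_apply_apply _

/-- **extension of `φ` to the integral closure**. -/
theorem exists_lam {R A F M : Type*} [CommRing R] [IsDomain R]
    [IsIntegrallyClosed R] [CommRing A] [IsDomain A] [IsIntegrallyClosed A] [Field F]
    [IsAlgClosed F] [Algebra A F] [FaithfulSMul A F]
    [Field M] [Algebra R M] [Algebra (FractionRing R) M] [IsScalarTower R (FractionRing R) M]
    (φ : R →+* A) {Q : R[X]} (hQ : Q.Monic)
    [(Q.map (algebraMap R (FractionRing R))).IsSplittingField (FractionRing R) M]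
    (hdisc : φ Q.discr ≠ 0)
    (hroots : ∀ x : F, Q.eval₂ ((algebraMap A F).comp φ) x = 0 → ∃ a, algebraMap A F a = x) :
    ∃ lam : integralClosure R M →+* A, ∀ r, lam (algebraMap R _ r) = φ r :=
  exists_lam' (FractionRing R) φ hQ hdisc hroots

/-- every extension of `φ` separates the roots of `Q`. -/
theorem lam_root_ne {R A T : Type*} [CommRing R] [CommRing A] [CommRing T] [IsDomain T]
    [Algebra R T] (φ : R →+* A) {Q : R[X]} (hQ : Q.Monic) (hdisc : φ Q.discr ≠ 0) (lam : T →+* A)
    (hlam : ∀ r, lam (algebraMap R T r) = φ r) {b₁ b₂ : T} (h1 : aeval b₁ Q = 0)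
    (h2 : aeval b₂ Q = 0) (hne : b₁ ≠ b₂) : lam b₁ ≠ lam b₂ :=
  u1_root_ne lam hQ (by rwa [hlam]) h1 h2 hne

/-- no extension of `φ` kills the derivative of `Q` at a root. -/
theorem lam_deriv_ne {R A T : Type*} [CommRing R] [CommRing A] [CommRing T]
    [Algebra R T] (φ : R →+* A) {Q : R[X]} (hQ : Q.Monic) (hdisc : φ Q.discr ≠ 0) (lam : T →+* A)
    (hlam : ∀ r, lam (algebraMap R T r) = φ r) {b : T} (h1 : aeval b Q = 0) :
    lam (aeval b (derivative Q)) ≠ 0 :=
  u1_deriv_ne lam hQ (by rwa [hlam]) h1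

end Vale.Agent.P292
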