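import Vale.Agent.P292.K.Defs

/-! # Internal definitions for the proof: derivations over points, the symplectic form `om`,
good polynomials, generic curves. -/

namespace Vale.Agent.P292

open MvPolynomial TensorProduct

universe u v w

variable {R : Type u} [CommRing R] [Algebra ℂ R]

@[simp] theorem pt_apply {κ : Type v} [Field κ] [Algebra ℂ κ]
    (φ : R →ₐ[ℂ] MvPolynomial (Fin 2) κ) (a : Fin 2 → κ) (r : R) : pt φ a r = eval a (φ r) := by
  simp [pt, aeval_eq_eval]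

/-- `x` is not (a generalisation of) the vertex. -/
def IsNV {E : Type v} [CommRing E] [Algebra ℂ E] (𝒜 : ℕ → Submodule ℂ R) (x : R →ₐ[ℂ] E) : Prop :=
  ∃ k : ℕ, 0 < k ∧ ∃ r ∈ 𝒜 k, x r ≠ 0

/-- `δ` is a derivation over the point `x`. -/
def IsDer {E : Type v} [CommRing E] [Algebra ℂ E] (x : R →ₐ[ℂ] E) (δ : R →ₗ[ℂ] E) : Prop :=
  ∀ r s, δ (r * s) = x r * δ s + x s * δ r

/-- The space of derivations over `x` (the tangent space of the cone at `x`). -/
def DerAt {E : Type v} [CommRing E] [Algebra ℂ E] (x : R →ₐ[ℂ] E) : Submodule E (R →ₗ[ℂ] E) where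
  carrier := {δ | IsDer x δ}
  add_mem' := fun {a b} ha hb r s => by
    simp only [LinearMap.add_apply, ha r s, hb r s]; ring
  zero_mem' := fun r s => by simp
  smul_mem' := fun c a ha r s => by
    simp only [LinearMap.smul_apply, ha r s, smul_eq_mul]; ring

@[simp] theorem mem_DerAt {E : Type v} [CommRing E] [Algebra ℂ E] {x : R →ₐ[ℂ] E}
    {δ : R →ₗ[ℂ] E} : δ ∈ DerAt x ↔ IsDer x δ := Iff.rfl

/-- The Hamiltonian vector field of `r` at the point `x`. -/
def hamAt {E : Type v} [CommRing E] [Algebra ℂ E] (P : R →ₗ[ℂ] R →ₗ[ℂ] R) (x : R →ₐ[ℂ] E)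
    (r : R) : R →ₗ[ℂ] E := x.toLinearMap ∘ₗ P r

@[simp] theorem hamAt_apply {E : Type v} [CommRing E] [Algebra ℂ E] (P : R →ₗ[ℂ] R →ₗ[ℂ] R)
    (x : R →ₐ[ℂ] E) (r s : R) : hamAt P x r s = x (P r s) := rfl

/-- The derivation `D ∘ x` over `x`, for a derivation `D` of `E`. -/
def alongAt {E : Type v} [CommRing E] [Algebra ℂ E] (x : R →ₐ[ℂ] E) (D : Derivation ℂ E E) :
    R →ₗ[ℂ] E := (D : E →ₗ[ℂ] E) ∘ₗ x.toLinearMap

@[simp] theorem alongAt_apply {E : Type v} [CommRing E] [Algebra ℂ E] (x : R →ₐ[ℂ] E)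
    (D : Derivation ℂ E E) (r : R) : alongAt x D r = D (x r) := rfl

theorem isDer_alongAt {E : Type v} [CommRing E] [Algebra ℂ E] (x : R →ₐ[ℂ] E)
    (D : Derivation ℂ E E) : IsDer x (alongAt x D) := fun r s => by
  simp [smul_eq_mul]

/-- `c` is the value of the symplectic form at `δ`, `δ'`. -/
def IsOm {E : Type v} [CommRing E] [Algebra ℂ E] (P : R →ₗ[ℂ] R →ₗ[ℂ] R) (x : R →ₐ[ℂ] E)
    (δ δ' : R →ₗ[ℂ] E) (c : E) : Prop :=
  ∃ (N : ℕ) (a : Fin N → E) (r : Fin N → R), (∀ s, δ s = ∑ i, a i * x (P (r i) s)) ∧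
    c = ∑ i, a i * δ' (r i)

open Classical in
/-- The symplectic form at the point `x`. -/
noncomputable def om {E : Type v} [CommRing E] [Algebra ℂ E] (P : R →ₗ[ℂ] R →ₗ[ℂ] R)
    (x : R →ₐ[ℂ] E) (δ δ' : R →ₗ[ℂ] E) : E :=
  if h : ∃ c, IsOm P x δ δ' c then h.choose else 0

/-- The dimension of the cone. -/
noncomputable def cdim (R : Type u) [CommRing R] [Algebra ℂ R] : ℕ :=
  Module.finrank (FractionRing R)
    (DerAt (IsScalarTower.toAlgHom ℂ R (FractionRing R)))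

/-! ### curves -/

section curves

variable {κ : Type v} [Field κ] [Algebra ℂ κ]

/-- `∂_i φ`. -/
noncomputable def pd (φ : R →ₐ[ℂ] MvPolynomial (Fin 2) κ) (i : Fin 2) :
    R →ₗ[ℂ] MvPolynomial (Fin 2) κ :=
  ((pderiv i : Derivation κ _ _).toLinearMap.restrictScalars ℂ) ∘ₗ φ.toLinearMap

@[simp] theorem pd_apply (φ : R →ₐ[ℂ] MvPolynomial (Fin 2) κ) (i : Fin 2) (r : R) :
    pd φ i r = pderiv i (φ r) := rfl

/-- The value of a derivation over `φ` at the parameter `a`. -/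
noncomputable def evL (a : Fin 2 → κ) (δ : R →ₗ[ℂ] MvPolynomial (Fin 2) κ) : R →ₗ[ℂ] κ :=
  ((aeval a : MvPolynomial (Fin 2) κ →ₐ[κ] κ).restrictScalars ℂ).toLinearMap ∘ₗ δ

@[simp] theorem evL_apply (a : Fin 2 → κ) (δ : R →ₗ[ℂ] MvPolynomial (Fin 2) κ) (r : R) :
    evL a δ r = eval a (δ r) := by
  simp [evL, aeval_eq_eval]

/-- `δ` is a derivation over `φ` which shifts degrees by `e` (`φ` a curve of degree `d`). -/
structure IsHDer (𝒜 : ℕ → Submodule ℂ R) (d : ℕ) (φ : R →ₐ[ℂ] MvPolynomial (Fin 2) κ) (e : ℤ)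
    (δ : R →ₗ[ℂ] MvPolynomial (Fin 2) κ) : Prop where
  der : IsDer φ δ
  homog : ∀ k, ∀ r ∈ 𝒜 k, ∀ m : ℕ, (m : ℤ) = d * k + e → (δ r).IsHomogeneous m
  neg : ∀ k : ℕ, (d * k + e : ℤ) < 0 → ∀ r ∈ 𝒜 k, δ r = 0

/-- The derivation `D` of `κ` applied to all coefficients. -/
noncomputable def mapDF (D : Derivation ℂ κ κ) (p : MvPolynomial (Fin 2) κ) :
    MvPolynomial (Fin 2) κ := ∑ m ∈ p.support, monomial m (D (coeff m p))

theorem coeff_mapDF (D : Derivation ℂ κ κ) (p : MvPolynomial (Fin 2) κ) (m : Fin 2 →₀ ℕ) :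
    coeff m (mapDF D p) = D (coeff m p) := by
  classical
  rw [mapDF, coeff_sum]
  simp only [coeff_monomial, Finset.sum_ite_eq', mem_support_iff]
  by_cases hm : coeff m p = 0
  · simp [hm]
  · simp [hm]

/-- The derivation `D` of `κ` applied to all coefficients. -/
noncomputable def mapDL (D : Derivation ℂ κ κ) :
    MvPolynomial (Fin 2) κ →ₗ[ℂ] MvPolynomial (Fin 2) κ where
  toFun := mapDF D
  map_add' p q := by
    ext m
    rw [coeff_add, coeff_mapDF, coeff_mapDF, coeff_mapDF, coeff_add, map_add]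
  map_smul' c p := by
    ext m
    rw [RingHom.id_apply, coeff_smul, coeff_mapDF, coeff_mapDF, coeff_smul, Derivation.map_smul]

theorem coeff_mapDL (D : Derivation ℂ κ κ) (p : MvPolynomial (Fin 2) κ) (m : Fin 2 →₀ ℕ) :
    coeff m (mapDL D p) = D (coeff m p) := coeff_mapDF D p m

/-- The derivation of `κ[s, t]` which acts coefficientwise by the derivation `D` of `κ`. -/
noncomputable def mapD (D : Derivation ℂ κ κ) :
    Derivation ℂ (MvPolynomial (Fin 2) κ) (MvPolynomial (Fin 2) κ) :=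
  Derivation.mk' (mapDL D) (fun p q => by
    classical
    ext m
    rw [coeff_mapDL, coeff_mul, map_sum, smul_eq_mul, smul_eq_mul, coeff_add, coeff_mul,
      mul_comm q, coeff_mul, ← Finset.sum_add_distrib]
    refine Finset.sum_congr rfl fun x _ => ?_
    rw [Derivation.leibniz, coeff_mapDL, coeff_mapDL, smul_eq_mul, smul_eq_mul]
    ring)

@[simp] theorem coeff_mapD (D : Derivation ℂ κ κ) (p : MvPolynomial (Fin 2) κ)
    (m : Fin 2 →₀ ℕ) : coeff m (mapD D p) = D (coeff m p) := coeff_mapDL D p m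

/-- The value of the symplectic form on derivations over a curve, as a polynomial. -/
noncomputable def omC (P : R →ₗ[ℂ] R →ₗ[ℂ] R) (φ : R →ₐ[ℂ] MvPolynomial (Fin 2) κ)
    (δ δ' : R →ₗ[ℂ] MvPolynomial (Fin 2) κ) : MvPolynomial (Fin 2) κ :=
  Classical.epsilon fun c => algebraMap _ (FractionRing (MvPolynomial (Fin 2) κ)) c =
    om P ((IsScalarTower.toAlgHom ℂ (MvPolynomial (Fin 2) κ)
        (FractionRing (MvPolynomial (Fin 2) κ))).comp φ)
      ((IsScalarTower.toAlgHom ℂ (MvPolynomial (Fin 2) κ)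
        (FractionRing (MvPolynomial (Fin 2) κ))).toLinearMap ∘ₗ δ)
      ((IsScalarTower.toAlgHom ℂ (MvPolynomial (Fin 2) κ)
        (FractionRing (MvPolynomial (Fin 2) κ))).toLinearMap ∘ₗ δ')

/-- The coefficient of `s ^ i t ^ j`. -/
noncomputable def cf (p : MvPolynomial (Fin 2) κ) (i j : ℕ) : κ :=
  coeff (Finsupp.single 0 i + Finsupp.single 1 j) p

end curves

/-! ### good polynomials -/

/-- `P r` acts on the coefficients of `Q`. -/
noncomputable def brP (P : R →ₗ[ℂ] R →ₗ[ℂ] R) (r : R) (Q : Polynomial R) : Polynomial R :=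
  Q.sum fun i c => Polynomial.monomial i (P r c)

/-- `Q` is the minimal polynomial of an integral function `β` of degree `1 / d`, such that all
brackets `{r, β}` are integral. -/
structure IsGood (𝒜 : ℕ → Submodule ℂ R) (P : R →ₗ[ℂ] R →ₗ[ℂ] R) (d : ℕ) (Q : Polynomial R) :
    Prop where
  monic : Q.Monic
  irr : Irreducible Q
  homog : ∀ i ≤ Q.natDegree, ∀ j, Q.natDegree - i = d * j → Q.coeff i ∈ 𝒜 j
  homog0 : ∀ i ≤ Q.natDegree, ¬ d ∣ Q.natDegree - i → Q.coeff i = 0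
  bracket : ∃ (M : Type u) (_ : Field M) (_ : Algebra R M), Function.Injective (algebraMap R M) ∧
    ∃ β : M, Polynomial.aeval β Q = 0 ∧ ∀ r, IsIntegral R
      (Polynomial.aeval β (brP P r Q) / Polynomial.aeval β (Polynomial.derivative Q))

/-- There is a generic conic through the point `w`: the other end point is generic. -/
structure GenConicAt (𝒜 : ℕ → Submodule ℂ R) (w : R →ₐ[ℂ] ℂ) {Ω : Type v} [Field Ω] [Algebra ℂ Ω]
    (φ : R →ₐ[ℂ] MvPolynomial (Fin 2) Ω) : Prop where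
  curve : IsCurve 𝒜 2 φ
  left : ∀ r, pt φ ![1, 0] r = algebraMap ℂ Ω (w r)
  inj : Function.Injective (pt φ ![0, 1])

end Vale.Agent.P292
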