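import Vale.Agent.P292.LS.LineSplit
import Vale.Agent.P292.K.Basic

/-! # Block U2: along a curve on which its discriminant does not vanish, a good polynomial splits
into linear forms. -/

namespace Vale.Agent.P292

open Module Polynomial

universe u v w

/-- Bézout identity for the discriminant. -/
theorem exists_bezout_discr {R : Type*} [CommRing R] {Q : R[X]} (hQ : Q.Monic)
    (hd : 0 < Q.natDegree) : ∃ a b : R[X], Q * a + derivative Q * b = C Q.discr := by
  obtain ⟨a, b, -, -, h⟩ := exists_mul_add_mul_eq_C_resultant (m := Q.natDegree)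
    (n := Q.natDegree - 1) Q (derivative Q) le_rfl (natDegree_derivative_le _) (Or.inl hd.ne')
  rw [resultant_deriv (natDegree_pos_iff_degree_pos.1 hd), hQ.leadingCoeff, mul_one] at h
  have h1 : ((-1 : R) ^ (Q.natDegree * (Q.natDegree - 1) / 2)) *
      (-1) ^ (Q.natDegree * (Q.natDegree - 1) / 2) = 1 := by
    rw [← mul_pow]
    simp
  refine ⟨a * C ((-1) ^ (Q.natDegree * (Q.natDegree - 1) / 2)),
    b * C ((-1) ^ (Q.natDegree * (Q.natDegree - 1) / 2)), ?_⟩
  rw [← mul_assoc, ← mul_assoc, ← add_mul, h, ← C_mul]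
  congr 1
  rw [mul_right_comm, h1, one_mul]

/-- If the discriminant does not vanish then the roots are simple. -/
theorem eval₂_derivative_ne_zero {R F : Type*} [CommRing R] [Field F] {Q : R[X]} (hQ : Q.Monic)
    (hd : 0 < Q.natDegree) (x : R →+* F) (hx : x Q.discr ≠ 0) {ρ : F} (hρ : Q.eval₂ x ρ = 0) :
    (derivative Q).eval₂ x ρ ≠ 0 := by
  obtain ⟨a, b, h⟩ := exists_bezout_discr hQ hd
  intro h0
  apply hx
  have h1 := congrArg (fun p => eval₂ x ρ p) h
  simp only [eval₂_add, eval₂_mul, hρ, h0, zero_mul, add_zero, eval₂_C] at h1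
  exact h1.symm

/-- A homomorphism into an algebraically closed field extends to an integral extension. -/
theorem exists_ext_of_isIntegral {A : Type u} {S : Type v} {Ω : Type w} [CommRing A]
    [CommRing S] [Algebra A S] [Algebra.IsIntegral A S]
    (hinj : Function.Injective (algebraMap A S)) [Field Ω] [IsAlgClosed Ω] (x : A →+* Ω) :
    ∃ y : S →+* Ω, ∀ a, y (algebraMap A S a) = x a := by
  classical
  have hp : (RingHom.ker x).IsPrime := RingHom.ker_isPrime x
  obtain ⟨Q, -, hQ, hQp⟩ := Ideal.exists_ideal_over_prime_of_isIntegral (RingHom.ker x)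
    (⊥ : Ideal S) (by
      rw [Ideal.comap_bot_of_injective _ hinj]
      exact bot_le)
  have : Q.LiesOver (RingHom.ker x) := ⟨hQp.symm⟩
  let _ : Algebra (A ⧸ RingHom.ker x) Ω := (RingHom.kerLift x).toAlgebra
  have h1 : Function.Injective (algebraMap (A ⧸ RingHom.ker x) Ω) := RingHom.kerLift_injective x
  have : FaithfulSMul (A ⧸ RingHom.ker x) Ω := (faithfulSMul_iff_algebraMap_injective _ _).2 h1
  have h2 : Algebra.IsIntegral (A ⧸ RingHom.ker x) (S ⧸ Q) := inferInstance
  have h3 : Function.Injective (algebraMap (A ⧸ RingHom.ker x) (S ⧸ Q)) := by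
    rw [injective_iff_map_eq_zero]
    intro a ha
    obtain ⟨a, rfl⟩ := Ideal.Quotient.mk_surjective a
    change Ideal.Quotient.mk Q (algebraMap A S a) = 0 at ha
    rw [Ideal.Quotient.eq_zero_iff_mem] at ha ⊢
    rw [← hQp]
    exact ha
  have : FaithfulSMul (A ⧸ RingHom.ker x) (S ⧸ Q) := (faithfulSMul_iff_algebraMap_injective _ _).2 h3
  have : IsDomain (A ⧸ RingHom.ker x) := Ideal.Quotient.isDomain _
  have : IsDomain (S ⧸ Q) := Ideal.Quotient.isDomain _
  have : Algebra.IsAlgebraic (A ⧸ RingHom.ker x) (S ⧸ Q) := inferInstance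
  have : Module.IsTorsionFree (A ⧸ RingHom.ker x) (S ⧸ Q) :=
    Module.isTorsionFree_iff_algebraMap_injective.2 h3
  have : Module.IsTorsionFree (A ⧸ RingHom.ker x) Ω :=
    Module.isTorsionFree_iff_algebraMap_injective.2 h1
  let f : (S ⧸ Q) →ₐ[A ⧸ RingHom.ker x] Ω := IsAlgClosed.lift
  refine ⟨(f : (S ⧸ Q) →+* Ω).comp (Ideal.Quotient.mk Q), fun a => ?_⟩
  change f (algebraMap (A ⧸ RingHom.ker x) (S ⧸ Q) (Ideal.Quotient.mk _ a)) = _
  rw [f.commutes]
  rfl

/-- Specialisation of a root of an irreducible monic polynomial. -/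
theorem exists_specialisation {R : Type u} [CommRing R] [IsDomain R] [IsIntegrallyClosed R]
    {Q : R[X]} (hm : Q.Monic) (hirr : Irreducible Q) {M : Type v} [Field M] [Algebra R M]
    (hinj : Function.Injective (algebraMap R M)) {β : M} (hβ : aeval β Q = 0) {Ω : Type w}
    [Field Ω] [IsAlgClosed Ω] (x : R →+* Ω) {ρ : Ω} (hρ : Q.eval₂ x ρ = 0) :
    ∃ Λ : integralClosure R M →+* Ω, (∀ r, Λ (algebraMap R _ r) = x r) ∧
      ∀ b : integralClosure R M, (b : M) = β → Λ b = ρ := by
  classical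
  have hβi : IsIntegral R β := ⟨Q, hm, by rw [← aeval_def]; exact hβ⟩
  have hfs : FaithfulSMul R M := (faithfulSMul_iff_algebraMap_injective R M).2 hinj
  have htf : Module.IsTorsionFree R M := Module.isTorsionFree_iff_algebraMap_injective.2 hinj
  have hmin : Q = minpoly R β := by
    have h1 : minpoly R β ∣ Q := minpoly.isIntegrallyClosed_dvd hβi hβ
    have h2 : Associated (minpoly R β) Q :=
      ((hirr.dvd_iff).1 h1).resolve_left (minpoly.not_isUnit R β) |>.symm
    exact (eq_of_monic_of_associated (minpoly.monic hβi) hm h2).symm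
  let βS : integralClosure R M := ⟨β, hβi⟩
  have hβS : Q.eval₂ (algebraMap R (integralClosure R M)) βS = 0 := by
    apply Subtype.ext
    have h1 : ((Q.eval₂ (algebraMap R (integralClosure R M)) βS : integralClosure R M) : M) =
        aeval β Q := by
      change (integralClosure R M).val.toRingHom _ = _
      rw [hom_eval₂]
      rfl
    rw [h1, hβ]
    rfl
  let _ : Algebra (AdjoinRoot Q) (integralClosure R M) :=
    (AdjoinRoot.lift (algebraMap R (integralClosure R M)) βS hβS).toAlgebra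
  have hal : ∀ p : R[X], algebraMap (AdjoinRoot Q) (integralClosure R M) (AdjoinRoot.mk Q p) =
      aeval βS p := fun p => AdjoinRoot.lift_mk hβS p
  have htower : IsScalarTower R (AdjoinRoot Q) (integralClosure R M) :=
    IsScalarTower.of_algebraMap_eq fun r => by
      change _ = AdjoinRoot.lift (algebraMap R (integralClosure R M)) βS hβS (AdjoinRoot.of Q r)
      rw [AdjoinRoot.lift_of]
  have hinjA : Function.Injective (algebraMap (AdjoinRoot Q) (integralClosure R M)) := by
    rw [injective_iff_map_eq_zero]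
    intro a ha
    obtain ⟨p, rfl⟩ := AdjoinRoot.mk_surjective a
    rw [hal] at ha
    rw [AdjoinRoot.mk_eq_zero, hmin]
    apply minpoly.isIntegrallyClosed_dvd hβi
    have h1 : (((aeval βS p : integralClosure R M)) : M) = aeval β p := by
      change (integralClosure R M).val (aeval βS p) = _
      rw [← aeval_algHom_apply]
      rfl
    rw [← h1, ha]
    rfl
  have hint : Algebra.IsIntegral (AdjoinRoot Q) (integralClosure R M) :=
    ⟨fun s => (Algebra.IsIntegral.isIntegral (R := R) s).tower_top⟩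
  obtain ⟨Λ, hΛ⟩ := exists_ext_of_isIntegral hinjA (AdjoinRoot.lift x ρ hρ)
  refine ⟨Λ, fun r => ?_, fun b hb => ?_⟩
  · rw [IsScalarTower.algebraMap_apply R (AdjoinRoot Q) (integralClosure R M), hΛ]
    exact AdjoinRoot.lift_of hρ
  · have h1 : b = algebraMap (AdjoinRoot Q) (integralClosure R M) (AdjoinRoot.root Q) := by
      have h2 := hal X
      rw [AdjoinRoot.mk_X, aeval_X] at h2
      rw [h2]
      exact Subtype.ext hb
    rw [h1, hΛ, AdjoinRoot.lift_root]

variable {R : Type u} [CommRing R] [Algebra ℂ R] {𝒜 : ℕ → Submodule ℂ R} [GradedAlgebra 𝒜]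
  {P : R →ₗ[ℂ] R →ₗ[ℂ] R}

/-- Euler's identity for a root. -/
theorem mul_eval₂_derivative {A B : Type*} [CommRing A] [CommRing B] (x : A →+* B) (ρ : B)
    (Q : A[X]) : ρ * (derivative Q).eval₂ x ρ = Q.sum fun k a => (k : B) * (x a * ρ ^ k) := by
  rw [derivative_apply, Polynomial.sum_def, Polynomial.sum_def, eval₂_finsetSum, Finset.mul_sum]
  refine Finset.sum_congr rfl fun k _ => ?_
  rw [eval₂_mul, eval₂_C, eval₂_pow, eval₂_X, map_mul, map_natCast]
  rcases k with _ | k
  · simp
  · rw [Nat.add_sub_cancel]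
    ring

theorem IsGood.root_linear (hX : IsContactFano 𝒜 P) [IsDomain R] {d : ℕ} {Q : R[X]}
    (hQ : IsGood 𝒜 P d Q) {E : Type v} [Field E] [IsAlgClosed E] [Algebra ℂ E] {Ω : Type v}
    [Field Ω] [IsAlgClosed Ω] [Algebra E Ω] [Algebra ℂ Ω] [IsScalarTower ℂ E Ω]
    {φ : R →ₐ[ℂ] MvPolynomial (Fin 2) E} (hφ : IsCurve 𝒜 d φ) (hdisc : φ Q.discr ≠ 0)
    (ι : MvPolynomial (Fin 2) E →ₐ[E] Ω) (hι : Function.Injective ι)
    (D : Fin 2 → Derivation E Ω Ω) (hD : ∀ j p, D j (ι p) = ι (MvPolynomial.pderiv j p))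
    (huniq : ∀ d : Derivation E Ω Ω, (∀ i, d (ι (MvPolynomial.X i)) = 0) → ∀ f, d f = 0)
    (ρ : Ω) (hρ : Q.eval₂ ((ι : MvPolynomial (Fin 2) E →+* Ω).comp
      (φ : R →+* MvPolynomial (Fin 2) E)) ρ = 0) :
    ∃ q : MvPolynomial (Fin 2) E, q.IsHomogeneous 1 ∧ ι q = ρ := by
  classical
  have hic : IsIntegrallyClosed R := hX.normal
  have hpos : 0 < Q.natDegree := by
    rw [Nat.pos_iff_ne_zero]
    intro h0
    exact hQ.irr.not_isUnit (by rw [hQ.monic.natDegree_eq_zero.1 h0]; exact isUnit_one)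
  set x : R →+* Ω := (ι : MvPolynomial (Fin 2) E →+* Ω).comp
    (φ : R →+* MvPolynomial (Fin 2) E) with hx
  have hxr : ∀ r, x r = ι (φ r) := fun _ => rfl
  obtain ⟨M, iM, iRM, hinjM, β, hβ, hbr⟩ := hQ.bracket
  -- nonvanishing of derivatives
  have hdisc0 : Q.discr ≠ 0 := fun h => hdisc (by rw [h, map_zero])
  have hxdisc : x Q.discr ≠ 0 := fun h => hdisc (hι (by rw [← hxr, h, map_zero]))
  have hQ'β : aeval β (derivative Q) ≠ 0 := by
    have h1 : algebraMap R M Q.discr ≠ 0 := fun h => hdisc0 (hinjM (by rw [h, map_zero]))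
    have := eval₂_derivative_ne_zero hQ.monic hpos (algebraMap R M) h1 (ρ := β)
      (by rw [← aeval_def]; exact hβ)
    rwa [aeval_def]
  have hQ'ρ : (derivative Q).eval₂ x ρ ≠ 0 :=
    eval₂_derivative_ne_zero hQ.monic hpos x hxdisc hρ
  obtain ⟨Λ, hΛ, hΛβ⟩ := exists_specialisation hQ.monic hQ.irr hinjM hβ x hρ
  have hβi : IsIntegral R β := ⟨Q, hQ.monic, by rw [← aeval_def]; exact hβ⟩
  let βS : integralClosure R M := ⟨β, hβi⟩
  have hΛβ' : Λ βS = ρ := hΛβ βS rfl
  have hcomp : Λ.comp (algebraMap R (integralClosure R M)) = x := by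
    ext r
    exact hΛ r
  have hΛp : ∀ p : R[X], Λ (aeval βS p) = p.eval₂ x ρ := by
    intro p
    rw [aeval_def, hom_eval₂, hΛβ', hcomp]
  have hβp : ∀ p : R[X], (((aeval βS p : integralClosure R M)) : M) = aeval β p := by
    intro p
    change (integralClosure R M).val (aeval βS p) = _
    rw [← aeval_algHom_apply]
    rfl
  let e : R → integralClosure R M := fun r => ⟨_, hbr r⟩
  have he : ∀ r, (brP P r Q).eval₂ x ρ = (derivative Q).eval₂ x ρ * Λ (e r) := by
    intro r
    have h1 : aeval βS (brP P r Q) = aeval βS (derivative Q) * e r := by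
      apply Subtype.ext
      rw [MulMemClass.coe_mul, hβp, hβp]
      change _ = _ * (aeval β (brP P r Q) / aeval β (derivative Q))
      rw [mul_div_cancel₀ _ hQ'β]
    rw [← hΛp, h1, map_mul, hΛp]
  have hbrP : ∀ r, (brP P r Q).eval₂ x ρ = Q.sum fun k a => x (P r a) * ρ ^ k := by
    intro r
    rw [brP, Polynomial.sum_def, Polynomial.sum_def, eval₂_finsetSum]
    refine Finset.sum_congr rfl fun k _ => ?_
    rw [eval₂_monomial]
  -- integrality of the values
  have hint : ∀ z : integralClosure R M, IsIntegral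
      (Algebra.adjoin E (Set.range fun i => ι (MvPolynomial.X i))) (Λ z) := by
    intro z
    let g : R →+* Algebra.adjoin E (Set.range fun i => ι (MvPolynomial.X i)) :=
      { toFun := fun r => ⟨ι (φ r), li9_range ι _⟩
        map_one' := by ext; simp
        map_mul' := fun a b => by ext; simp
        map_zero' := by ext; simp
        map_add' := fun a b => by ext; simp }
    exact IsIntegral.map_of_comp_eq g Λ (by
      ext r
      exact (hΛ r).symm) (Algebra.IsIntegral.isIntegral (R := R) z)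
  refine exists_linear_form ι D hD huniq ρ (fun j => ?_) ?_
  · refine hφ.isIntegral_of_isChart hX ι hι _ fun n y δ hc => ?_
    obtain ⟨g, hg⟩ := hc.formula φ (((MvPolynomial.pderiv j : Derivation E _ _) :
        MvPolynomial (Fin 2) E →ₗ[E] MvPolynomial (Fin 2) E).restrictScalars ℂ ∘ₗ φ.toLinearMap)
      (fun a b => by
        change MvPolynomial.pderiv j (φ (a * b)) = φ a * MvPolynomial.pderiv j (φ b) +
          φ b * MvPolynomial.pderiv j (φ a)
        rw [map_mul, Derivation.leibniz, smul_eq_mul, smul_eq_mul])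
    have hg' : ∀ r, φ δ * MvPolynomial.pderiv j (φ r) = ∑ k, g k * φ (P (y k) r) := hg
    have hg2 : ∀ r, ι (φ δ) * D j (x r) = ∑ k, ι (g k) * x (P (y k) r) := by
      intro r
      rw [hxr, hD, ← map_mul, hg', map_sum]
      exact Finset.sum_congr rfl fun k _ => by rw [map_mul, hxr]
    have h1 := Inertia.d_eval₂ x ρ ((D j : Ω →ₗ[E] Ω).toAddMonoidHom) (fun a b => by
      change D j (a * b) = a * D j b + b * D j a
      rw [Derivation.leibniz, smul_eq_mul, smul_eq_mul]) Q
    rw [hρ, map_zero] at h1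
    have h2 : (0 : Ω) = Q.sum (fun k a => ρ ^ k * D j (x a)) +
      (derivative Q).eval₂ x ρ * D j ρ := h1
    have h3 : ι (φ δ) * Q.sum (fun k a => ρ ^ k * D j (x a)) =
        ∑ k, ι (g k) * ((derivative Q).eval₂ x ρ * Λ (e (y k))) := by
      rw [Polynomial.sum_def, Finset.mul_sum]
      have h4 : ∀ k, ι (g k) * ((derivative Q).eval₂ x ρ * Λ (e (y k))) =
          ∑ m ∈ Q.support, ι (g k) * (x (P (y k) (Q.coeff m)) * ρ ^ m) := by
        intro k
        rw [← he, hbrP, Polynomial.sum_def, Finset.mul_sum]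
      rw [Finset.sum_congr rfl fun k _ => h4 k, Finset.sum_comm]
      refine Finset.sum_congr rfl fun m _ => ?_
      calc ι (φ δ) * (ρ ^ m * D j (x (Q.coeff m)))
          = (ι (φ δ) * D j (x (Q.coeff m))) * ρ ^ m := by ring
        _ = _ := by
          rw [hg2, Finset.sum_mul]
          exact Finset.sum_congr rfl fun k _ => by ring
    have h5 : ι (φ δ) * D j ρ = - ∑ k, ι (g k) * Λ (e (y k)) := by
      apply mul_left_cancel₀ hQ'ρ
      have h6 : ∑ k, ι (g k) * ((derivative Q).eval₂ x ρ * Λ (e (y k))) =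
          (derivative Q).eval₂ x ρ * ∑ k, ι (g k) * Λ (e (y k)) := by
        rw [Finset.mul_sum]
        exact Finset.sum_congr rfl fun k _ => by ring
      rw [h6] at h3
      have h7 := congrArg (fun z => ι (φ δ) * z) h2
      simp only [mul_zero, mul_add] at h7
      rw [h3] at h7
      linear_combination -h7
    rw [h5]
    refine (IsIntegral.sum _ fun k _ => ?_).neg
    exact (li9_isIntegral_of_mem _ (li9_range ι _)).mul (hint _)
  · let EE : Derivation E Ω Ω := ι (MvPolynomial.X 0) • D 0 + ι (MvPolynomial.X 1) • D 1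
    change EE ρ = ρ
    have h1 := Inertia.d_eval₂ x ρ ((EE : Ω →ₗ[E] Ω).toAddMonoidHom) (fun a b => by
      change EE (a * b) = a * EE b + b * EE a
      rw [Derivation.leibniz, smul_eq_mul, smul_eq_mul]) Q
    rw [hρ, map_zero] at h1
    have h2 : (0 : Ω) = Q.sum (fun k a => ρ ^ k * EE (x a)) +
      (derivative Q).eval₂ x ρ * EE ρ := h1
    have h3 : ∀ k ∈ Q.support, EE (x (Q.coeff k)) =
        ((Q.natDegree : Ω) - (k : Ω)) * x (Q.coeff k) := by
      intro k hk
      have hkn : k ≤ Q.natDegree := le_natDegree_of_mem_supp k hk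
      by_cases hdvd : d ∣ Q.natDegree - k
      · obtain ⟨j, hj⟩ := hdvd
        have h4 := euler_homogeneous ι D hD (hφ.degree j _ (hQ.homog k hkn j hj))
        change ι (MvPolynomial.X 0) * D 0 (x (Q.coeff k)) +
          ι (MvPolynomial.X 1) * D 1 (x (Q.coeff k)) = _
        rw [hxr, h4, ← hj, Nat.cast_sub hkn]
      · rw [hQ.homog0 k hkn hdvd, map_zero, map_zero, mul_zero]
    have h4 : Q.sum (fun k a => ρ ^ k * EE (x a)) = - (ρ * (derivative Q).eval₂ x ρ) := by
      have h5 : Q.sum (fun k a => ρ ^ k * EE (x a)) =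
          (Q.natDegree : Ω) * Q.eval₂ x ρ - ρ * (derivative Q).eval₂ x ρ := by
        rw [mul_eval₂_derivative, eval₂_eq_sum, Polynomial.sum_def, Polynomial.sum_def,
          Polynomial.sum_def, Finset.mul_sum, ← Finset.sum_sub_distrib]
        refine Finset.sum_congr rfl fun k hk => ?_
        rw [h3 k hk]
        ring
      rw [h5, hρ, mul_zero, zero_sub]
    rw [h4] at h2
    apply mul_left_cancel₀ hQ'ρ
    linear_combination -h2

/-- **Good polynomials split into linear forms along curves.** -/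
theorem IsGood.curve_split (hX : IsContactFano 𝒜 P) [IsDomain R] {d : ℕ} {Q : R[X]}
    (hQ : IsGood 𝒜 P d Q) {E : Type v} [Field E] [IsAlgClosed E] [Algebra ℂ E]
    {φ : R →ₐ[ℂ] MvPolynomial (Fin 2) E} (hφ : IsCurve 𝒜 d φ) (hdisc : φ Q.discr ≠ 0) :
    ∃ s : Multiset (MvPolynomial (Fin 2) E), (∀ q ∈ s, q.IsHomogeneous 1) ∧
      Q.map (φ : R →+* MvPolynomial (Fin 2) E) = (s.map fun q => X - C q).prod := by
  classical
  have hchar : CharZero E := charZero_of_injective_algebraMap (algebraMap ℂ E).injective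
  obtain ⟨Ω, i1, i2, i3, i4, i5, ι, D, hι, hD, huniq⟩ := li9_exists_Omega E
  set Q' := (Q.map (φ : R →+* MvPolynomial (Fin 2) E)).map
    (ι : MvPolynomial (Fin 2) E →+* Ω) with hQ'
  have hmon : Q'.Monic := (hQ.monic.map _).map _
  have hsplit := (IsAlgClosed.splits Q').eq_prod_roots_of_monic hmon
  have hroot' : ∀ ρ : Ω, ∃ q : MvPolynomial (Fin 2) E,
      ρ ∈ Q'.roots → q.IsHomogeneous 1 ∧ ι q = ρ := by
    intro ρ
    by_cases h : ρ ∈ Q'.roots
    · obtain ⟨q, hq⟩ := hQ.root_linear hX hφ hdisc ι hι D hD huniq ρ (by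
        have h1 := (Polynomial.mem_roots hmon.ne_zero).1 h
        rw [IsRoot.def, hQ', Polynomial.map_map, eval_map] at h1
        exact h1)
      exact ⟨q, fun _ => hq⟩
    · exact ⟨0, fun h' => absurd h' h⟩
  choose g hg using hroot'
  refine ⟨Q'.roots.map g, ?_, ?_⟩
  · intro q hq
    obtain ⟨ρ, hρ, rfl⟩ := Multiset.mem_map.1 hq
    exact (hg ρ hρ).1
  · refine Polynomial.map_injective (ι : MvPolynomial (Fin 2) E →+* Ω) hι ?_
    rw [← hQ', Polynomial.map_multiset_prod, Multiset.map_map, Multiset.map_map]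
    conv_lhs => rw [hsplit]
    congr 1
    refine Multiset.map_congr rfl fun ρ hρ => ?_
    have h1 : ι (g ρ) = ρ := (hg ρ hρ).2
    simp [h1]

/-- All roots are linear forms, in any field. -/
theorem IsGood.curve_root (hX : IsContactFano 𝒜 P) [IsDomain R] {d : ℕ} {Q : R[X]}
    (hQ : IsGood 𝒜 P d Q) {E : Type v} [Field E] [IsAlgClosed E] [Algebra ℂ E]
    {φ : R →ₐ[ℂ] MvPolynomial (Fin 2) E} (hφ : IsCurve 𝒜 d φ) (hdisc : φ Q.discr ≠ 0)
    {F : Type w} [CommRing F] [IsDomain F] [Algebra (MvPolynomial (Fin 2) E) F] (x : F)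
    (hx : Q.eval₂ ((algebraMap (MvPolynomial (Fin 2) E) F).comp
      (φ : R →+* MvPolynomial (Fin 2) E)) x = 0) :
    ∃ l : MvPolynomial (Fin 2) E, l.IsHomogeneous 1 ∧
      algebraMap (MvPolynomial (Fin 2) E) F l = x := by
  classical
  obtain ⟨s, hs, hprod⟩ := hQ.curve_split hX hφ hdisc
  have h1 : (s.map fun q => x - algebraMap (MvPolynomial (Fin 2) E) F q).prod = 0 := by
    have h2 : (Q.map (φ : R →+* MvPolynomial (Fin 2) E)).eval₂
        (algebraMap (MvPolynomial (Fin 2) E) F) x = 0 := by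
      rw [eval₂_map]
      exact hx
    rw [hprod] at h2
    have h3 := map_multiset_prod (eval₂RingHom (algebraMap (MvPolynomial (Fin 2) E) F) x)
      (s.map fun q => X - C q)
    rw [Multiset.map_map] at h3
    rw [← h2]
    change _ = (eval₂RingHom (algebraMap (MvPolynomial (Fin 2) E) F) x) _
    rw [h3]
    congr 1
    refine Multiset.map_congr rfl fun q _ => ?_
    simp
  rw [Multiset.prod_eq_zero_iff, Multiset.mem_map] at h1
  obtain ⟨q, hq, h2⟩ := h1
  exact ⟨q, hs q hq, (sub_eq_zero.1 h2).symm⟩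

/-- U2. -/
theorem closed_split (hX : IsContactFano 𝒜 P) [IsDomain R] {d : ℕ} (_hd : 0 < d)
    {Q : Polynomial R} (hQ : IsGood 𝒜 P d Q) {φ : R →ₐ[ℂ] MvPolynomial (Fin 2) ℂ}
    (hφ : IsCurve 𝒜 d φ) (hdisc : φ Q.discr ≠ 0) {F : Type v} [Field F] [IsAlgClosed F]
    [Algebra (MvPolynomial (Fin 2) ℂ) F] [FaithfulSMul (MvPolynomial (Fin 2) ℂ) F] (x : F)
    (hx : Q.eval₂ ((algebraMap (MvPolynomial (Fin 2) ℂ) F).comp
      (φ : R →+* MvPolynomial (Fin 2) ℂ)) x = 0) :
    ∃ l : MvPolynomial (Fin 2) ℂ, l.IsHomogeneous 1 ∧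
      algebraMap (MvPolynomial (Fin 2) ℂ) F l = x :=
  hQ.curve_root hX hφ hdisc x hx

end Vale.Agent.P292
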