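import Vale.Agent.P292.K.Basic
import Vale.Agent.P292.LS.Stable

/-! # Block U, part 3: general lemmas on roots of monic polynomials and derivations. -/

namespace Vale.Agent.P292

open Polynomial

universe u v

/-- A linear form whose derivatives vanish at a point is zero. -/
theorem u3_linear_eq_zero {l : MvPolynomial (Fin 2) ℂ} (hl : l.IsHomogeneous 1) (a : Fin 2 → ℂ)
    (h : ∀ k, MvPolynomial.eval a (MvPolynomial.pderiv k l) = 0) : l = 0 := by
  have h1 : ∀ k, MvPolynomial.pderiv k l = 0 := by
    intro k
    have h2 : (MvPolynomial.pderiv k l).IsHomogeneous 0 := hl.pderiv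
    obtain ⟨c, hc⟩ : ∃ c, MvPolynomial.pderiv k l = MvPolynomial.C c :=
      ⟨_, MvPolynomial.totalDegree_eq_zero_iff_eq_C.1 (by
        have := h2.totalDegree_le
        omega)⟩
    have h3 := h k
    rw [hc, MvPolynomial.eval_C] at h3
    rw [hc, h3, map_zero]
  have h4 := hl.sum_X_mul_pderiv
  rw [one_smul] at h4
  rw [← h4]
  exact Finset.sum_eq_zero fun k _ => by rw [h1, mul_zero]

/-- Two different roots which are congruent modulo an ideal: the derivative lies in the ideal. -/
theorem u3_deriv_mem {R : Type*} {S : Type*} [CommRing R] [CommRing S] [IsDomain S] [Algebra R S]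
    {Q : R[X]} {b b' : S} (hb : aeval b Q = 0) (hb' : aeval b' Q = 0) (hne : b' ≠ b)
    {P : Ideal S} (hP : b' - b ∈ P) : aeval b (derivative Q) ∈ P := by
  have h0 : (Q.map (algebraMap R S)).eval b = 0 := by rwa [eval_map_algebraMap]
  obtain ⟨q, hq⟩ := dvd_iff_isRoot.2 h0
  have h1 : q.eval b' = 0 := by
    have h2 : (Q.map (algebraMap R S)).eval b' = 0 := by rwa [eval_map_algebraMap]
    rw [hq, eval_mul, eval_sub, eval_X, eval_C] at h2
    exact (mul_eq_zero.1 h2).resolve_left (sub_ne_zero.2 hne)
  have h3 : aeval b (derivative Q) = q.eval b := by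
    rw [← eval_map_algebraMap, ← derivative_map, hq, derivative_mul, eval_add, eval_mul, eval_mul,
      derivative_sub, derivative_X, derivative_C, sub_zero, eval_one, one_mul, eval_sub, eval_X,
      eval_C, sub_self, zero_mul, add_zero]
  have h4 : b' - b ∣ q.eval b' - q.eval b := sub_dvd_eval_sub b' b q
  rw [h3]
  have h5 : q.eval b' - q.eval b ∈ P := Ideal.mem_of_dvd _ h4 hP
  rw [h1, zero_sub] at h5
  exact neg_mem_iff.1 h5

/-- The discriminant is a combination of `Q` and its derivative. -/
theorem u3_exists_discr {A : Type*} [CommRing A] {f : A[X]} (hf : f.Monic)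
    (hn : f.natDegree ≠ 0) : ∃ p q : A[X], f * p + derivative f * q = C f.discr := by
  have h := resultant_deriv (f := f) (natDegree_pos_iff_degree_pos.1 (Nat.pos_of_ne_zero hn))
  rw [hf.leadingCoeff, mul_one] at h
  obtain ⟨p, q, -, -, hpq⟩ := exists_mul_add_mul_eq_C_resultant (m := f.natDegree)
    (n := f.natDegree - 1) f (derivative f) le_rfl (natDegree_derivative_le f) (Or.inl hn)
  refine ⟨C ((-1) ^ (f.natDegree * (f.natDegree - 1) / 2)) * p,
    C ((-1) ^ (f.natDegree * (f.natDegree - 1) / 2)) * q, ?_⟩
  have h2 : C f.discr = C ((-1) ^ (f.natDegree * (f.natDegree - 1) / 2)) *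
      C (f.resultant (derivative f) f.natDegree (f.natDegree - 1)) := by
    rw [h, ← C_mul, ← mul_assoc, ← mul_pow, neg_mul_neg, one_mul, one_pow, one_mul]
  rw [h2, ← hpq]
  ring

theorem u3_discr_mem {R : Type*} {S : Type*} [CommRing R] [CommRing S] [IsDomain S] [Algebra R S]
    {Q : R[X]} (hQ : Q.Monic) {b b' : S} (hb : aeval b Q = 0) (hb' : aeval b' Q = 0)
    (hne : b' ≠ b) {P : Ideal S} (hP : b' - b ∈ P) : algebraMap R S Q.discr ∈ P := by
  have hn : Q.natDegree ≠ 0 := by
    intro h0
    have h1 : Q = 1 := hQ.natDegree_eq_zero.1 h0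
    rw [h1, map_one] at hb
    exact one_ne_zero hb
  obtain ⟨p, q, hpq⟩ := u3_exists_discr hQ hn
  have h1 := congrArg (aeval b) hpq
  rw [map_add, map_mul, map_mul, hb, zero_mul, zero_add, aeval_C] at h1
  rw [← h1]
  exact P.mul_mem_right _ (u3_deriv_mem hb hb' hne hP)

/-- The values of derivations at the roots of a polynomial. -/
theorem u3_der_root {R : Type*} {L : Type*} [CommRing R] [Field L] [Algebra R L] (D : L →+ L)
    (hD : ∀ x y, D (x * y) = x * D y + y * D x) (DR : R → R)
    (hDR : ∀ r, D (algebraMap R L r) = algebraMap R L (DR r)) {Q : R[X]} {b : L}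
    (hb : aeval b Q = 0) (hb' : aeval b (derivative Q) ≠ 0) :
    D b = - (Q.sum fun k a => b ^ k * algebraMap R L (DR a)) / aeval b (derivative Q) := by
  have h := Inertia.d_eval₂ (algebraMap R L) b D hD Q
  rw [← aeval_def, hb, map_zero, ← aeval_def] at h
  rw [eq_div_iff hb']
  simp only [hDR] at h
  linear_combination -h

/-- Integrality of a quotient does not depend on the root. -/
theorem u3_isIntegral_of_root {R : Type u} [CommRing R] [IsDomain R]
    {K : Type*} [Field K] [Algebra R K] [IsFractionRing R K] {Q : R[X]}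
    (hirr : Irreducible (Q.map (algebraMap R K)))
    {M : Type*} [Field M] [Algebra R M] [Algebra K M] [IsScalarTower R K M]
    {M' : Type*} [Field M'] [Algebra R M'] (hinj : Function.Injective (algebraMap R M'))
    {b : M} (hb : aeval b Q = 0) {b' : M'} (hb' : aeval b' Q = 0) (p q : R[X])
    (h : IsIntegral R (aeval b' p / aeval b' q)) : IsIntegral R (aeval b p / aeval b q) := by
  let i : K →+* M' := IsFractionRing.lift hinj
  have hi : ∀ r : R, i (algebraMap R K r) = algebraMap R M' r := fun r =>
    IsFractionRing.lift_algebraMap hinj r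
  have hfact : Fact (Irreducible (Q.map (algebraMap R K))) := ⟨hirr⟩
  let L := AdjoinRoot (Q.map (algebraMap R K))
  have hL : ∀ r : R, algebraMap R L r = AdjoinRoot.of _ (algebraMap R K r) := fun r => by
    rw [IsScalarTower.algebraMap_apply R K L]
    rfl
  have hroot : aeval (AdjoinRoot.root (Q.map (algebraMap R K))) Q = 0 := by
    have h1 : aeval (AdjoinRoot.root (Q.map (algebraMap R K))) (Q.map (algebraMap R K)) =
      AdjoinRoot.mk (Q.map (algebraMap R K)) (Q.map (algebraMap R K)) := AdjoinRoot.aeval_eq _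
    rw [aeval_map_algebraMap, AdjoinRoot.mk_self] at h1
    exact h1
  have hf : (Q.map (algebraMap R K)).eval₂ (algebraMap K M) b = 0 := by
    rw [eval₂_map, ← IsScalarTower.algebraMap_eq, ← aeval_def, hb]
  have hf' : (Q.map (algebraMap R K)).eval₂ i b' = 0 := by
    rw [eval₂_map]
    have h1 : i.comp (algebraMap R K) = algebraMap R M' := RingHom.ext hi
    rw [h1, ← aeval_def, hb']
  let f : L →+* M := AdjoinRoot.lift (algebraMap K M) b hf
  let f' : L →+* M' := AdjoinRoot.lift i b' hf'
  let g : L →ₐ[R] M := { f with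
    commutes' := fun r => by
      change f (algebraMap R L r) = _
      rw [hL]
      exact (AdjoinRoot.lift_of hf).trans (IsScalarTower.algebraMap_apply R K M r).symm }
  let g' : L →ₐ[R] M' := { f' with
    commutes' := fun r => by
      change f' (algebraMap R L r) = _
      rw [hL]
      exact (AdjoinRoot.lift_of hf').trans (hi r) }
  have hg : g (AdjoinRoot.root (Q.map (algebraMap R K))) = b := AdjoinRoot.lift_root hf
  have hg' : g' (AdjoinRoot.root (Q.map (algebraMap R K))) = b' := AdjoinRoot.lift_root hf'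
  set z : L := aeval (AdjoinRoot.root (Q.map (algebraMap R K))) p /
    aeval (AdjoinRoot.root (Q.map (algebraMap R K))) q with hz
  have h1 : g z = aeval b p / aeval b q := by
    rw [hz, map_div₀, ← aeval_algHom_apply, ← aeval_algHom_apply, hg]
  have h2 : g' z = aeval b' p / aeval b' q := by
    rw [hz, map_div₀, ← aeval_algHom_apply, ← aeval_algHom_apply, hg']
  rw [← h1]
  refine IsIntegral.map g ?_
  rw [← isIntegral_algHom_iff g' g'.toRingHom.injective, h2]
  exact h

end Vale.Agent.P292
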