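import Vale.Agent.P292.G.Main
import Vale.Agent.P292.LS.Stable
import Vale.Agent.P292.LS.Frame
import Vale.Agent.P292.K.U0
import Vale.Agent.P292.K.U1
import Vale.Agent.P292.K.U2
import Vale.Agent.P292.K.U3
import Vale.Agent.P292.K.Main1

/-! # Block U: extensions generated by good polynomials are unramified. -/

namespace Vale.Agent.P292

open Polynomial

universe u v

variable {R : Type u} [CommRing R] [Algebra ℂ R] {𝒜 : ℕ → Submodule ℂ R} [GradedAlgebra 𝒜]
  {P : R →ₗ[ℂ] R →ₗ[ℂ] R}

/-- The 1-jets along a curve of degree `d`. -/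
theorem exists_jetLine (hX : IsContactFano 𝒜 P) [IsDomain R] {d : ℕ} (hd : 0 < d)
    {Q : Polynomial R} (hQ : IsGood 𝒜 P d Q)
    {φ : R →ₐ[ℂ] MvPolynomial (Fin 2) ℂ} (hφ : IsCurve 𝒜 d φ) (hdisc : φ Q.discr ≠ 0)
    {a : Fin 2 → ℂ} (ha : a ≠ 0) {𝔭 : Ideal R} (h𝔭 : ∀ r ∈ 𝔭, pt φ a r = 0)
    {M : Type u} [Field M] [Algebra R M] [Algebra (FractionRing R) M]
    [IsScalarTower R (FractionRing R) M]
    [(Q.map (algebraMap R (FractionRing R))).IsSplittingField (FractionRing R) M] :
    Nonempty (Inertia.JetLine.{0} (fun r s => P r s)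
      {b : integralClosure R M | aeval b Q = 0} 𝔭) := by
  have hic : IsIntegrallyClosed R := hX.normal
  let A := MvPolynomial (Fin 2) ℂ
  let F := AlgebraicClosure (FractionRing A)
  have hAF : Function.Injective (algebraMap A F) := by
    rw [IsScalarTower.algebraMap_eq A (FractionRing A) F]
    exact (algebraMap (FractionRing A) F).injective.comp (IsFractionRing.injective A _)
  have hfs : FaithfulSMul A F := (faithfulSMul_iff_algebraMap_injective _ _).2 hAF
  have hsplit : ∀ x : F, Q.eval₂ ((algebraMap A F).comp (φ : R →+* A)) x = 0 →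
      ∃ l : A, l.IsHomogeneous 1 ∧ algebraMap A F l = x := fun x hx =>
    closed_split hX hd hQ hφ hdisc x hx
  obtain ⟨lam, hlam⟩ := exists_lam (M := M) (F := F) (φ : R →+* A) hQ.monic hdisc
    (fun x hx => (hsplit x hx).imp fun l h => h.2)
  have hlin : ∀ b : integralClosure R M, aeval b Q = 0 → (lam b).IsHomogeneous 1 := by
    intro b hb
    have hcomp : lam.comp (algebraMap R (integralClosure R M)) = (φ : R →+* A) :=
      RingHom.ext hlam
    obtain ⟨l, hl, hl'⟩ := hsplit (algebraMap A F (lam b)) (by
      rw [← hcomp, ← hom_eval₂, ← hom_eval₂, ← aeval_def, hb, map_zero, map_zero])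
    rwa [← hAF hl']
  have hnv : ¬ IsVertex 𝒜 (pt φ a) := by
    obtain ⟨k, hk, r, hr, hne⟩ := hφ.bpf a ha
    intro hv
    exact hne (hv k hk r hr)
  obtain ⟨N, y, δ, hδ, hch⟩ := exists_isChart_at hX hnv
  have hform := fun k : Fin 2 => hch.formula φ (pd φ k) (fun r s => by
    rw [pd_apply, pd_apply, pd_apply, map_mul, Derivation.leibniz, smul_eq_mul, smul_eq_mul])
  choose g hg using hform
  refine ⟨{
    A := A
    lam := lam
    root := fun b hb => ⟨Q, hb, lam_deriv_ne (φ : R →+* A) hQ.monic hdisc lam hlam hb⟩
    κ := Fin 2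
    d := fun k => ((MvPolynomial.pderiv k : Derivation ℂ A A) : A →ₗ[ℂ] A).toAddMonoidHom
    leib := fun k x y => by
      change MvPolynomial.pderiv k (x * y) = _
      rw [Derivation.leibniz, smul_eq_mul, smul_eq_mul]
      rfl
    q := RingHom.ker (MvPolynomial.eval a)
    prime := RingHom.ker_isPrime _
    mem_q := fun r hr => by
      rw [RingHom.mem_ker, hlam]
      have := h𝔭 r hr
      rwa [pt_apply] at this
    δ := φ δ
    hδ := by
      rw [RingHom.mem_ker, ← pt_apply]
      exact hδ
    N := N
    y := y
    g := g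
    chart := fun k r => by
      have := hg k r
      simp only [hlam]
      exact this
    jet := fun b hb b' hb' h => by
      by_contra hne
      refine lam_root_ne (φ : R →+* A) hQ.monic hdisc lam hlam hb hb' hne ?_
      rw [← sub_eq_zero]
      refine u3_linear_eq_zero ((hlin b hb).sub (hlin b' hb')) a fun k => ?_
      exact h k }⟩

/-- **Block U.** The splitting field of a good polynomial is unramified if all homogeneous height
one primes are met by a curve of degree `d` on which the discriminant does not vanish. -/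
theorem isUnram_of_curves (hX : IsContactFano 𝒜 P) [IsDomain R] {d : ℕ} (hd : 0 < d)
    {Q : Polynomial R} (hQ : IsGood 𝒜 P d Q)
    (hcur : ∀ (𝔭 : Ideal R) [𝔭.IsPrime], IsDiscreteValuationRing (Localization.AtPrime 𝔭) →
      𝔭.IsHomogeneous 𝒜 → ∃ φ : R →ₐ[ℂ] MvPolynomial (Fin 2) ℂ, IsCurve 𝒜 d φ ∧
        φ Q.discr ≠ 0 ∧ ∃ a : Fin 2 → ℂ, a ≠ 0 ∧ ∀ r ∈ 𝔭, pt φ a r = 0)
    {M : Type u} [Field M] [Algebra R M] [Algebra (FractionRing R) M]
    [IsScalarTower R (FractionRing R) M]
    [(Q.map (algebraMap R (FractionRing R))).IsSplittingField (FractionRing R) M] :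
    IsUnram R M := by
  classical
  have hic : IsIntegrallyClosed R := hX.normal
  have hft : Algebra.FiniteType ℂ R := hX.finiteType
  have hno : IsNoetherianRing R := Algebra.FiniteType.isNoetherianRing ℂ R
  have : CharZero R := charZero_of_injective_algebraMap (algebraMap ℂ R).injective
  have : CharZero (FractionRing R) :=
    charZero_of_injective_algebraMap (IsFractionRing.injective R (FractionRing R))
  have hfd : FiniteDimensional (FractionRing R) M :=
    IsSplittingField.finiteDimensional M (Q.map (algebraMap R (FractionRing R)))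
  have hdisc : Q.discr ≠ 0 := discr_ne_zero_of_irreducible hQ.monic hQ.irr
  have hsep : (Q.map (algebraMap R (FractionRing R))).Separable := u1_separable hQ.monic hdisc
  have hgal : IsGalois (FractionRing R) M := IsGalois.of_separable_splitting_field hsep
  have hinj : Function.Injective (algebraMap R M) := by
    rw [IsScalarTower.algebraMap_eq R (FractionRing R) M]
    exact (algebraMap (FractionRing R) M).injective.comp
      (IsFractionRing.injective R (FractionRing R))
  have hfs : FaithfulSMul R M := (faithfulSMul_iff_algebraMap_injective _ _).2 hinj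
  have halg : Algebra.IsAlgebraic R M := by
    exact (IsFractionRing.comap_isAlgebraic_iff (A := R) (K := FractionRing R) (C := M)).2
      inferInstance
  let : Algebra ℂ M := ((algebraMap R M).comp (algebraMap ℂ R)).toAlgebra
  have htow : IsScalarTower ℂ R M := IsScalarTower.of_algebraMap_eq fun _ => rfl
  obtain ⟨P', hP1, hP2, hP3, hP4⟩ := exists_bracket_ext (R := R) (M := M) P hX.alternating
    hX.leibniz hX.jacobi
  let S := integralClosure R M
  have hfr : IsFractionRing S M :=
    IsIntegralClosure.isFractionRing_of_finite_extension R (FractionRing R) M S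
  have hSno : IsNoetherianRing S := IsIntegralClosure.isNoetherianRing R (FractionRing R) M S
  have hSic : IsIntegrallyClosed S :=
    integralClosure.isIntegrallyClosedOfFiniteExtension (FractionRing R)
  let : MulSemiringAction Gal(M/FractionRing R) S :=
    IsIntegralClosure.MulSemiringAction R (FractionRing R) M S
  have hinv : Algebra.IsInvariant R S Gal(M/FractionRing R) :=
    Algebra.isInvariant_of_isGalois R (FractionRing R) M S
  have hG : ∀ (g : Gal(M/FractionRing R)) (x : S),
      algebraMap S M (g • x) = g • algebraMap S M x :=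
    fun g x => algebraMap_galRestrict_apply R g x
  have hcR : SMulCommClass Gal(M/FractionRing R) R S := ⟨fun g r x =>
    map_smul (galRestrict R (FractionRing R) M S g) r x⟩
  have hcC : SMulCommClass Gal(M/FractionRing R) ℂ S := ⟨fun g c x => by
    rw [← algebraMap_smul R c x, ← algebraMap_smul R c (g • x)]
    exact map_smul (galRestrict R (FractionRing R) M S g) (algebraMap ℂ R c) x⟩
  have hSM : Function.Injective (algebraMap S M) := Subtype.val_injective
  have hRS : FaithfulSMul R S := inferInstance
  have hint : Algebra.IsIntegral R S := inferInstance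
  -- roots in `S`
  have hroot : ∀ b : S, aeval b Q = 0 ↔ aeval (algebraMap S M b) Q = 0 := fun b =>
    (aeval_algebraMap_eq_zero_iff_of_injective hSM).symm
  let E : R → M →+ M := fun r => (P' (algebraMap R M r)).toAddMonoidHom
  have hEdef : ∀ r x, E r x = P' (algebraMap R M r) x := fun _ _ => rfl
  have hE : ∀ j x y, E j (x * y) = x * E j y + y * E j x := fun j x y => by
    rw [hEdef, hEdef, hEdef, hP3]
    ring
  have hER : ∀ j r, E j (algebraMap R M r) = algebraMap R M (P j r) := fun j r => hP1 j r
  have hEG : ∀ j (g : Gal(M/FractionRing R)) x, E j (g • x) = g • E j x := by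
    intro j g x
    have h := eq_zero_of_restrict (R := R) (fun x => g.symm (E j (g x)) - E j x)
      (fun a b => by simp only [map_add]; ring)
      (fun a b => by
        simp only [map_mul, hE, map_add, AlgEquiv.symm_apply_apply]
        ring)
      (fun r => by
        have h1 : ∀ r : R, g (algebraMap R M r) = algebraMap R M r := fun r => by
          rw [IsScalarTower.algebraMap_apply R (FractionRing R) M, AlgEquiv.commutes]
        have h2 : ∀ r : R, g.symm (algebraMap R M r) = algebraMap R M r := fun r => by
          rw [IsScalarTower.algebraMap_apply R (FractionRing R) M, AlgEquiv.commutes]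
        rw [h1, hER, h2, sub_self]) x
    rw [sub_eq_zero, AlgEquiv.symm_apply_eq] at h
    exact h
  have hB : ∀ (g : Gal(M/FractionRing R)), ∀ b ∈ {b : S | aeval b Q = 0},
      g • b ∈ {b : S | aeval b Q = 0} := by
    intro g b hb
    have h1 := aeval_algHom_apply (galRestrict R (FractionRing R) M S g).toAlgHom b Q
    have hb' : aeval b Q = 0 := hb
    rw [hb', map_zero] at h1
    exact h1
  have hirr : Irreducible (Q.map (algebraMap R (FractionRing R))) :=
    (hQ.monic.irreducible_iff_irreducible_map_fraction_map (K := FractionRing R)).1 hQ.irr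
  have hBE : ∀ b ∈ {b : S | aeval b Q = 0}, ∀ j, ∃ e : S,
      E j (algebraMap S M b) = algebraMap S M e := by
    intro b hb j
    obtain ⟨M', _, _, hinj', β, hβ, hβint⟩ := hQ.bracket
    have hbM := (hroot b).1 hb
    have h1 := u3_isIntegral_of_root hirr hinj' hbM hβ _ _ (hβint j)
    have hne : aeval (algebraMap S M b) (derivative Q) ≠ 0 := by
      intro h0
      have h2 := hsep.aeval_derivative_ne_zero (x := algebraMap S M b)
        (by rwa [aeval_map_algebraMap])
      rw [derivative_map, aeval_map_algebraMap] at h2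
      exact h2 h0
    have h2 := u3_der_root (E j) (hE j) (P j) (hER j) hbM hne
    have h3 : aeval (algebraMap S M b) (brP P j Q) =
        Q.sum fun k a => algebraMap S M b ^ k * algebraMap R M (P j a) := by
      rw [brP, Polynomial.sum_def, Polynomial.sum_def, map_sum]
      exact Finset.sum_congr rfl fun k _ => by rw [aeval_monomial, mul_comm]
    rw [← h3, neg_div] at h2
    refine ⟨⟨E j (algebraMap S M b), ?_⟩, rfl⟩
    rw [h2]
    exact h1.neg
  have hgen : ∀ g : Gal(M/FractionRing R), (∀ b ∈ {b : S | aeval b Q = 0}, g • b = b) →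
      g = 1 := by
    intro g hg
    by_contra hne
    obtain ⟨β, hβ, hβne⟩ := u1_exists_root_ne (Q.map (algebraMap R (FractionRing R))) hne
    have h1 := (mem_rootSet.1 hβ).2
    rw [aeval_map_algebraMap] at h1
    have h2 := hg ⟨β, Q, hQ.monic, h1⟩ ((hroot _).2 h1)
    apply hβne
    have h3 := congrArg (algebraMap S M) h2
    rw [hG] at h3
    exact h3
  have hline : ∀ I : Ideal S, I.IsPrime → I ≠ ⊥ → Inertia.HtOne I →
      (∀ g : Gal(M/FractionRing R), g ≠ 1 → ∃ x : S, g • x - x ∉ I) ∨
        Nonempty (Inertia.JetLine.{0} (fun r s => P r s) {b : S | aeval b Q = 0}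
          (I.comap (algebraMap R S))) := by
    intro I hI hI0 hht
    by_cases hmem : Q.discr ∈ I.comap (algebraMap R S)
    · right
      have hht' : Inertia.HtOne (I.comap (algebraMap R S)) :=
        Inertia.htOne_comap (G := Gal(M/FractionRing R)) I hht
      have hp0 : I.comap (algebraMap R S) ≠ ⊥ := by
        intro h0
        rw [h0, Ideal.mem_bot] at hmem
        exact hdisc hmem
      have hpr : (I.comap (algebraMap R S)).IsPrime := hI.comap _
      obtain ⟨m, hm⟩ := hQ.discr_mem hd
      obtain ⟨φ, hφ, hφd, a, ha, hap⟩ := hcur (I.comap (algebraMap R S))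
        (dvr_of_htOne hht' hp0) (isHomogeneous_of_htOne hht' hm hdisc hmem)
      exact exists_jetLine hX hd hQ hφ hφd ha hap
    · left
      intro g hg
      obtain ⟨b, hb, hbg⟩ : ∃ b ∈ {b : S | aeval b Q = 0}, g • b ≠ b := by
        by_contra hcon
        push Not at hcon
        exact hg (hgen g hcon)
      exact ⟨b, fun h => hmem (u3_discr_mem hQ.monic hb (hB g b hb) hbg h)⟩
  refine isUnram_of_stable hX (fun r x => P' (algebraMap R M r) x)
    (fun r x y => map_add _ _ _) (fun r x y => hP3 _ _ _) (fun r s => hP1 r s) ?_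
  intro r x hx
  obtain ⟨y, hy⟩ := Inertia.stable_of_jetLine (k := ℂ) hG E hE hEG (fun r s => P r s) hER hB hBE
    hgen hline (E r) (hE r) (P r) (hER r) ⟨x, hx⟩
  have hy' : P' (algebraMap R M r) x = algebraMap S M y := hy
  change IsIntegral R (P' (algebraMap R M r) x)
  rw [hy']
  exact y.2

end Vale.Agent.P292
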