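import Vale.Agent.P292.K.Basic
import Vale.Agent.P292.Bdl.B1

/-! # Ultraproducts of curves: transfer of families of closed curves to curves over an
algebraically closed field. -/

namespace Vale.Agent.P292

open Filter

universe u

/-- `Ω` is the ultrapower of `ℂ` over the ultrafilter `U`, with quotient map `g`. -/
structure IsUP {S : Type u} (U : Ultrafilter S) {Ω : Type u} [Field Ω] [Algebra ℂ Ω]
    (g : (S → ℂ) →+* Ω) : Prop where
  surj : Function.Surjective g
  zero : ∀ f, g f = 0 ↔ ∀ᶠ s in (U : Filter S), f s = 0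
  const : ∀ c : ℂ, g (fun _ => c) = algebraMap ℂ Ω c

theorem exists_isUP {S : Type u} (U : Ultrafilter S) :
    ∃ (Ω : Type u) (_ : Field Ω) (_ : Algebra ℂ Ω) (g : (S → ℂ) →+* Ω), IsUP U g := by
  let g : (S → ℂ) →+* Germ (U : Filter S) ℂ := Germ.coeRingHom _
  refine ⟨Germ (U : Filter S) ℂ, inferInstance, (g.comp (Pi.constRingHom S ℂ)).toAlgebra, g, ?_⟩
  refine @IsUP.mk _ _ _ _ (_) _ ?_ ?_ ?_
  · intro x
    induction x using Filter.Germ.inductionOn with
    | _ f => exact ⟨f, rfl⟩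
  · intro f
    change ((f : Germ (U : Filter S) ℂ) = ((0 : S → ℂ) : Germ (U : Filter S) ℂ)) ↔ _
    rw [Germ.coe_eq]
    rfl
  · intro c
    rfl

namespace IsUP

variable {S : Type u} {U : Ultrafilter S} {Ω : Type u} [Field Ω] [Algebra ℂ Ω]
  {g : (S → ℂ) →+* Ω} (h : IsUP U g)
include h

theorem ne_zero {f : S → ℂ} : g f ≠ 0 ↔ ∀ᶠ s in (U : Filter S), f s ≠ 0 := by
  rw [Ne, h.zero, Ultrafilter.eventually_not]

theorem congr {f f' : S → ℂ} (hf : ∀ᶠ s in (U : Filter S), f s = f' s) : g f = g f' := by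
  rw [← sub_eq_zero, ← map_sub, h.zero]
  filter_upwards [hf] with s hs
  rw [Pi.sub_apply, hs, sub_self]

theorem isAlgClosed : IsAlgClosed Ω := by
  refine IsAlgClosed.of_exists_root Ω fun p hp hirr => ?_
  choose f hf using fun i => h.surj (p.coeff i)
  have hn : 0 < p.natDegree := hirr.natDegree_pos
  have hx : ∀ s : S, ∃ x : ℂ, x ^ p.natDegree +
      ∑ i ∈ Finset.range p.natDegree, f i s * x ^ i = 0 := by
    intro s
    let q : Polynomial ℂ := Polynomial.X ^ p.natDegree +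
      ∑ i ∈ Finset.range p.natDegree, Polynomial.C (f i s) * Polynomial.X ^ i
    have hlt : (∑ i ∈ Finset.range p.natDegree,
        Polynomial.C (f i s) * Polynomial.X ^ i).degree < (p.natDegree : WithBot ℕ) := by
      refine lt_of_le_of_lt (Polynomial.degree_sum_le _ _) ?_
      rw [Finset.sup_lt_iff (by exact_mod_cast WithBot.bot_lt_coe p.natDegree)]
      intro i hi
      rw [Finset.mem_range] at hi
      refine lt_of_le_of_lt (Polynomial.degree_C_mul_X_pow_le _ _) ?_
      exact_mod_cast hi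
    have hq : q.degree ≠ 0 := by
      have h1 : q.degree = (p.natDegree : WithBot ℕ) := by
        rw [Polynomial.degree_add_eq_left_of_degree_lt, Polynomial.degree_X_pow]
        rw [Polynomial.degree_X_pow]; exact hlt
      rw [h1]
      exact_mod_cast hn.ne'
    obtain ⟨x, hx⟩ := IsAlgClosed.exists_root q hq
    refine ⟨x, ?_⟩
    have := hx
    simpa [q, Polynomial.IsRoot, Polynomial.eval_finsetSum] using this
  choose x hx using hx
  refine ⟨g x, ?_⟩
  have h1 : p.eval (g x) = g (x ^ p.natDegree +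
      ∑ i ∈ Finset.range p.natDegree, f i * x ^ i) := by
    rw [Polynomial.eval_eq_sum_range, Finset.sum_range_succ, hp.coeff_natDegree, one_mul,
      map_add, map_pow, map_sum, add_comm]
    congr 1
    refine Finset.sum_congr rfl fun i _ => ?_
    rw [map_mul, map_pow, hf]
  rw [h1, h.zero]
  refine Filter.Eventually.of_forall fun s => ?_
  have := hx s
  simpa using this

end IsUP

section curve

open MvPolynomial

/-- The box of exponents. -/
noncomputable def box (N : ℕ) : Finset (Fin 2 →₀ ℕ) := by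
  classical
  exact (Finset.range (N + 1) ×ˢ Finset.range (N + 1)).image fun ij =>
    Finsupp.single 0 ij.1 + Finsupp.single 1 ij.2

theorem mem_box {N : ℕ} {m : Fin 2 →₀ ℕ} (h0 : m 0 ≤ N) (h1 : m 1 ≤ N) : m ∈ box N := by
  classical
  rw [box, Finset.mem_image]
  refine ⟨(m 0, m 1), by simp; omega, ?_⟩
  ext i
  fin_cases i <;> simp

theorem eq_sum_box {K : Type*} [CommSemiring K] {N : ℕ} {p : MvPolynomial (Fin 2) K}
    (hp : ∀ m, m ∉ box N → coeff m p = 0) : p = ∑ m ∈ box N, monomial m (coeff m p) := by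
  classical
  ext m
  rw [coeff_sum]
  simp only [coeff_monomial]
  rw [Finset.sum_ite_eq']
  split_ifs with hm
  · rfl
  · exact hp m hm

theorem eval_box {K : Type*} [CommSemiring K] {N : ℕ} {p : MvPolynomial (Fin 2) K}
    (hp : ∀ m, m ∉ box N → coeff m p = 0) (a : Fin 2 → K) :
    eval a p = ∑ m ∈ box N, coeff m p * (a 0 ^ m 0 * a 1 ^ m 1) := by
  conv_lhs => rw [eq_sum_box hp]
  rw [map_sum]
  refine Finset.sum_congr rfl fun m _ => ?_
  rw [eval_monomial]
  congr 1
  rw [Finsupp.prod_fintype _ _ (fun i => by simp), Fin.prod_univ_two]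

variable {R : Type u} [CommRing R] [Algebra ℂ R] {𝒜 : ℕ → Submodule ℂ R} [GradedAlgebra 𝒜]

variable (𝒜) in
/-- A bound for the degrees of the homogeneous components. -/
noncomputable def dbd (d : ℕ) (r : R) : ℕ := by
  classical
  exact d * (DirectSum.decompose 𝒜 r).support.sup id

theorem coeff_eq_zero_of_notMem_box {d : ℕ} {K : Type*} [Field K] [Algebra ℂ K]
    {φ : R →ₐ[ℂ] MvPolynomial (Fin 2) K}
    (hφ : ∀ k, ∀ r ∈ 𝒜 k, (φ r).IsHomogeneous (d * k)) (r : R) (m : Fin 2 →₀ ℕ)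
    (hm : m ∉ box (dbd 𝒜 d r)) : coeff m (φ r) = 0 := by
  classical
  rw [← DirectSum.sum_support_decompose 𝒜 r, map_sum, coeff_sum]
  refine Finset.sum_eq_zero fun k hk => ?_
  by_contra hne
  have h1 := hφ k _ (DirectSum.decompose 𝒜 r k).2 hne
  apply hm
  have h2 : m 0 + m 1 = d * k := by
    rw [← h1, Finsupp.weight_apply, Finsupp.sum_fintype _ _ (fun i => by simp), Fin.sum_univ_two]
    simp
  have h3 : d * k ≤ dbd 𝒜 d r := by
    rw [dbd]
    exact Nat.mul_le_mul_left _ (Finset.le_sup (f := id) hk)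
  exact mem_box (by omega) (by omega)

theorem apply_eq_zero_of_generators {K : Type*} [CommRing K] [Algebra ℂ K] (p : R →ₐ[ℂ] K)
    {t : Set R} (ht : Algebra.adjoin ℂ t = ⊤) (hn : ∀ x ∈ t, ∃ n ≠ 0, x ∈ 𝒜 n)
    (hp : ∀ x ∈ t, p x = 0) : ∀ k, 0 < k → ∀ r ∈ 𝒜 k, p r = 0 := by
  have key : ∀ r : R, p r = p (GradedRing.projZeroRingHom 𝒜 r) := by
    intro r
    have hr : r ∈ Algebra.adjoin ℂ t := by rw [ht]; trivial
    induction hr using Algebra.adjoin_induction with
    | mem x hx =>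
      obtain ⟨n, hn0, hxn⟩ := hn x hx
      rw [GradedRing.projZeroRingHom_apply, DirectSum.decompose_of_mem_ne 𝒜 hxn hn0, map_zero,
        hp x hx]
    | algebraMap c =>
      rw [GradedRing.projZeroRingHom_apply, DirectSum.decompose_of_mem_same 𝒜]
      rw [Algebra.algebraMap_eq_smul_one]
      exact Submodule.smul_mem _ _ SetLike.GradedOne.one_mem
    | add x y _ _ hx hy => rw [map_add, map_add, map_add, hx, hy]
    | mul x y _ _ hx hy => rw [map_mul, map_mul, map_mul, hx, hy]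
  intro k hk r hr
  rw [key, GradedRing.projZeroRingHom_apply, DirectSum.decompose_of_mem_ne 𝒜 hr hk.ne', map_zero]

/-- The ultraproduct of curves. -/
theorem IsUP.exists_curve {S : Type u} {U : Ultrafilter S} {Ω : Type u} [Field Ω] [Algebra ℂ Ω]
    {g : (S → ℂ) →+* Ω} (h : IsUP U g) [Algebra.FiniteType ℂ R]
    (h0 : ∀ r ∈ 𝒜 0, ∃ c : ℂ, r = algebraMap ℂ R c) {d : ℕ}
    (φ : S → R →ₐ[ℂ] MvPolynomial (Fin 2) ℂ) (hφ : ∀ s, IsCurve 𝒜 d (φ s)) :
    ∃ Φ : R →ₐ[ℂ] MvPolynomial (Fin 2) Ω, IsCurve 𝒜 d Φ ∧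
      (∀ r m, coeff m (Φ r) = g fun s => coeff m (φ s r)) ∧
      ∀ (r : R) (a : Fin 2 → S → ℂ), eval (fun i => g (a i)) (Φ r) =
        g fun s => eval (fun i => a i s) (φ s r) := by
  classical
  let F : R → MvPolynomial (Fin 2) Ω := fun r =>
    ∑ m ∈ box (dbd 𝒜 d r), monomial m (g fun s => coeff m (φ s r))
  have hF : ∀ r m, coeff m (F r) = g fun s => coeff m (φ s r) := by
    intro r m
    change coeff m (∑ m ∈ box (dbd 𝒜 d r), monomial m (g fun s => coeff m (φ s r))) = _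
    rw [coeff_sum]
    simp only [coeff_monomial]
    rw [Finset.sum_ite_eq']
    split_ifs with hm
    · rfl
    · have : (fun s => coeff m (φ s r)) = 0 := by
        funext s
        exact coeff_eq_zero_of_notMem_box (hφ s).degree r m hm
      rw [this, map_zero]
  let Φ : R →ₐ[ℂ] MvPolynomial (Fin 2) Ω :=
    { toFun := F
      map_one' := by
        ext m
        rw [hF, coeff_one]
        simp only [map_one, coeff_one]
        split_ifs
        · exact map_one g
        · exact map_zero g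
      map_mul' := fun r r' => by
        ext m
        rw [hF, coeff_mul]
        simp only [map_mul, coeff_mul]
        have : (fun s => ∑ x ∈ Finset.HasAntidiagonal.antidiagonal m, coeff x.1 (φ s r) * coeff x.2 (φ s r')) =
            ∑ x ∈ Finset.HasAntidiagonal.antidiagonal m,
              (fun s => coeff x.1 (φ s r)) * (fun s => coeff x.2 (φ s r')) := by
          funext s
          simp
        rw [this, map_sum]
        refine Finset.sum_congr rfl fun x _ => ?_
        rw [map_mul, hF, hF]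
      map_zero' := by
        ext m
        rw [hF]
        simp only [map_zero, coeff_zero]
        exact map_zero g
      map_add' := fun r r' => by
        ext m
        rw [hF, coeff_add, hF, hF]
        simp only [map_add, coeff_add]
        exact map_add g _ _
      commutes' := fun c => by
        ext m
        rw [hF]
        simp only [AlgHom.commutes, MvPolynomial.algebraMap_apply, coeff_C]
        split_ifs
        · exact h.const c
        · exact map_zero g }
  have hΦ : ∀ r m, coeff m (Φ r) = g fun s => coeff m (φ s r) := hF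
  have hdeg : ∀ k, ∀ r ∈ 𝒜 k, (Φ r).IsHomogeneous (d * k) := by
    intro k r hr m hm
    by_contra hne
    apply hm
    rw [hΦ]
    have : (fun s => coeff m (φ s r)) = 0 := by
      funext s
      by_contra h1
      exact hne ((hφ s).degree k r hr h1)
    rw [this, map_zero]
  have heval : ∀ (r : R) (a : Fin 2 → S → ℂ), eval (fun i => g (a i)) (Φ r) =
        g fun s => eval (fun i => a i s) (φ s r) := by
    intro r a
    rw [eval_box (fun m hm => coeff_eq_zero_of_notMem_box hdeg r m hm)]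
    have : (fun s => eval (fun i => a i s) (φ s r)) = ∑ m ∈ box (dbd 𝒜 d r),
        (fun s => coeff m (φ s r)) * (a 0 ^ m 0 * a 1 ^ m 1) := by
      funext s
      rw [eval_box (fun m hm => coeff_eq_zero_of_notMem_box (hφ s).degree r m hm)]
      simp
    rw [this, map_sum]
    refine Finset.sum_congr rfl fun m _ => ?_
    rw [map_mul, map_mul, map_pow, map_pow, hΦ]
  refine ⟨Φ, ⟨hdeg, ?_⟩, hΦ, heval⟩
  intro x hx
  choose a ha using fun i => h.surj (x i)
  obtain ⟨t, ht, htn⟩ := exists_generators 𝒜 h0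
  have hx' : ∀ᶠ s in (U : Filter S), (fun i => a i s) ≠ 0 := by
    obtain ⟨i, hi⟩ := Function.ne_iff.1 hx
    rw [Pi.zero_apply, ← ha i, h.ne_zero] at hi
    filter_upwards [hi] with s hs h1
    exact hs (congrFun h1 i)
  have h2 : ∀ᶠ s in (U : Filter S), ∃ r ∈ t, eval (fun i => a i s) (φ s r) ≠ 0 := by
    filter_upwards [hx'] with s hs
    by_contra hcon
    push Not at hcon
    obtain ⟨k, hk, r, hr, hrs⟩ := (hφ s).bpf _ hs
    apply hrs
    rw [aeval_eq_eval]
    have key : ∀ k, 0 < k → ∀ r ∈ 𝒜 k, pt (φ s) (fun i => a i s) r = 0 :=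
      apply_eq_zero_of_generators _ ht htn fun x hx => by
        rw [pt_apply]; exact hcon x hx
    have := key k hk r hr
    rwa [pt_apply] at this
  have h3 : ∃ r ∈ t, ∀ᶠ s in (U : Filter S), eval (fun i => a i s) (φ s r) ≠ 0 := by
    by_contra hcon
    push Not at hcon
    have h4 : ∀ᶠ s in (U : Filter S), ∀ r ∈ t, ¬ eval (fun i => a i s) (φ s r) ≠ 0 := by
      rw [Filter.eventually_all_finset]
      intro r hr
      filter_upwards [hcon r hr] with s hs
      exact not_not.2 hs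
    obtain ⟨s, hs1, r, hr, hs2⟩ := (h4.and h2).exists
    exact hs1 r hr hs2
  obtain ⟨r, hr, h4⟩ := h3
  obtain ⟨n, hn, hrn⟩ := htn r hr
  refine ⟨n, Nat.pos_of_ne_zero hn, r, hrn, ?_⟩
  have h5 : x = fun i => g (a i) := by
    funext i
    rw [ha]
  rw [aeval_eq_eval, h5]
  change eval _ _ ≠ 0
  rw [heval, h.ne_zero]
  exact h4

/-- The ultrafilter of a generic closed point. -/
theorem exists_generic_ultrafilter (A : Type u) [CommRing A] [Algebra ℂ A] [IsDomain A]
    [Algebra.FiniteType ℂ A] :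
    ∃ U : Ultrafilter (A →ₐ[ℂ] ℂ), ∀ a : A, a ≠ 0 →
      ∀ᶠ s in (U : Filter (A →ₐ[ℂ] ℂ)), s a ≠ 0 := by
  classical
  let F : Filter (A →ₐ[ℂ] ℂ) := Filter.generate {V | ∃ a : A, a ≠ 0 ∧ V = {s | s a ≠ 0}}
  have hne : F.NeBot := by
    rw [Filter.generate_neBot_iff]
    intro t ht htf
    have key : ∀ t : Set (Set (A →ₐ[ℂ] ℂ)), t.Finite →
        t ⊆ {V | ∃ a : A, a ≠ 0 ∧ V = {s | s a ≠ 0}} →
        ∃ a : A, a ≠ 0 ∧ ∀ s : A →ₐ[ℂ] ℂ, s a ≠ 0 → s ∈ ⋂₀ t := by
      intro t htf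
      induction t, htf using Set.Finite.induction_on with
      | empty => intro _; exact ⟨1, one_ne_zero, fun s _ => by simp⟩
      | insert _ _ ih =>
        intro ht
        obtain ⟨a, ha, h1⟩ := ih fun x hx => ht (Set.mem_insert_of_mem _ hx)
        obtain ⟨b, hb, h2⟩ := ht (Set.mem_insert _ _)
        refine ⟨a * b, mul_ne_zero ha hb, fun s hs => ?_⟩
        rw [map_mul] at hs
        rw [Set.sInter_insert, h2]
        exact ⟨right_ne_zero_of_mul hs, h1 s (left_ne_zero_of_mul hs)⟩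
    obtain ⟨a, ha, h1⟩ := key t htf ht
    obtain ⟨s, hs⟩ := exists_point_ne_zero a ha
    exact ⟨s, h1 s hs⟩
  refine ⟨Ultrafilter.of F, fun a ha => ?_⟩
  exact Ultrafilter.of_le F (Filter.mem_generate_of_mem ⟨a, ha, rfl⟩)

/-- Transfer with two end points in a finitely generated domain. -/
theorem exists_curve_of_forall_point [Algebra.FiniteType ℂ R]
    (h0 : ∀ r ∈ 𝒜 0, ∃ c : ℂ, r = algebraMap ℂ R c) {A : Type u} [CommRing A] [Algebra ℂ A]
    [IsDomain A] [Algebra.FiniteType ℂ A] {a : A} (ha : a ≠ 0) {d : ℕ} (p q : R →ₐ[ℂ] A)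
    (H : ∀ s : A →ₐ[ℂ] ℂ, s a ≠ 0 → ∃ φ : R →ₐ[ℂ] MvPolynomial (Fin 2) ℂ, IsCurve 𝒜 d φ ∧
      pt φ ![1, 0] = s.comp p ∧ pt φ ![0, 1] = s.comp q) :
    ∃ (Ω : Type u) (_ : Field Ω) (_ : IsAlgClosed Ω) (_ : Algebra ℂ Ω) (i : A →ₐ[ℂ] Ω)
      (φ : R →ₐ[ℂ] MvPolynomial (Fin 2) Ω), Function.Injective i ∧ IsCurve 𝒜 d φ ∧
      pt φ ![1, 0] = i.comp p ∧ pt φ ![0, 1] = i.comp q := by
  classical
  obtain ⟨U, hU⟩ := exists_generic_ultrafilter A
  obtain ⟨Ω, _, _, g, hg⟩ := exists_isUP U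
  obtain ⟨s₀, hs₀⟩ := exists_point_ne_zero a ha
  obtain ⟨φ₀, hφ₀, -⟩ := H s₀ hs₀
  have : Nonempty (R →ₐ[ℂ] MvPolynomial (Fin 2) ℂ) := ⟨φ₀⟩
  choose! φ hφ using H
  let φ' : (A →ₐ[ℂ] ℂ) → R →ₐ[ℂ] MvPolynomial (Fin 2) ℂ := fun s =>
    if s a ≠ 0 then φ s else φ₀
  have hφ' : ∀ s, IsCurve 𝒜 d (φ' s) := by
    intro s
    change IsCurve 𝒜 d (if s a ≠ 0 then φ s else φ₀)
    split_ifs with hs
    · exact (hφ s hs).1
    · exact hφ₀
  obtain ⟨Φ, hΦ, -, heval⟩ := hg.exists_curve h0 φ' hφ'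
  let i : A →ₐ[ℂ] Ω :=
    { toFun := fun x => g fun s => s x
      map_one' := by simp only [map_one]; exact map_one g
      map_zero' := by simp only [map_zero]; exact map_zero g
      map_mul' := fun x y => by simp only [map_mul]; exact map_mul g _ _
      map_add' := fun x y => by simp only [map_add]; exact map_add g _ _
      commutes' := fun c => by
        simp only [AlgHom.commutes]
        exact hg.const c }
  have hi : ∀ x, i x = g fun s => s x := fun x => rfl
  refine ⟨Ω, inferInstance, hg.isAlgClosed, inferInstance, i, Φ, ?_, hΦ, ?_, ?_⟩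
  · rw [injective_iff_map_eq_zero]
    intro x hx
    by_contra hx0
    rw [hi, hg.zero] at hx
    obtain ⟨s, h1, h2⟩ := (hx.and (hU x hx0)).exists
    exact h2 h1
  · ext r
    rw [pt_apply, AlgHom.comp_apply, hi]
    have h1 : (![1, 0] : Fin 2 → Ω) = fun j => g ((![1, 0] : Fin 2 → (A →ₐ[ℂ] ℂ) → ℂ) j) := by
      funext j
      fin_cases j
      · simp
      · simp
    rw [h1, heval]
    apply hg.congr
    filter_upwards [hU a ha] with s hs
    have h2 : φ' s = φ s := if_pos hs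
    have h3 : (fun j => (![1, 0] : Fin 2 → (A →ₐ[ℂ] ℂ) → ℂ) j s) = ![1, 0] := by
      funext j
      fin_cases j <;> simp
    rw [h2, h3, ← pt_apply, (hφ s hs).2.1, AlgHom.comp_apply]
  · ext r
    rw [pt_apply, AlgHom.comp_apply, hi]
    have h1 : (![0, 1] : Fin 2 → Ω) = fun j => g ((![0, 1] : Fin 2 → (A →ₐ[ℂ] ℂ) → ℂ) j) := by
      funext j
      fin_cases j
      · simp
      · simp
    rw [h1, heval]
    apply hg.congr
    filter_upwards [hU a ha] with s hs
    have h2 : φ' s = φ s := if_pos hs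
    have h3 : (fun j => (![0, 1] : Fin 2 → (A →ₐ[ℂ] ℂ) → ℂ) j s) = ![0, 1] := by
      funext j
      fin_cases j <;> simp
    rw [h2, h3, ← pt_apply, (hφ s hs).2.2, AlgHom.comp_apply]

/-- Block G: the generic conic at a closed point. -/
theorem exists_genConicAt {P : R →ₗ[ℂ] R →ₗ[ℂ] R} (hX : IsContactFano 𝒜 P) (w : R →ₐ[ℂ] ℂ)
    (g : R) (hg : g ≠ 0)
    (h : ∀ q : R →ₐ[ℂ] ℂ, q g ≠ 0 → ∃ φ : R →ₐ[ℂ] MvPolynomial (Fin 2) ℂ, IsCurve 𝒜 2 φ ∧
      pt φ ![1, 0] = w ∧ pt φ ![0, 1] = q) :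
    ∃ (Ω : Type u) (_ : Field Ω) (_ : IsAlgClosed Ω) (_ : Algebra ℂ Ω)
      (φ : R →ₐ[ℂ] MvPolynomial (Fin 2) Ω), GenConicAt 𝒜 w φ := by
  have := hX.domain
  have := hX.finiteType
  obtain ⟨Ω, h1, h2, h3, i, φ, hi, hφ, hl, hr⟩ := exists_curve_of_forall_point hX.connected hg
    ((Algebra.ofId ℂ R).comp w) (AlgHom.id ℂ R) (fun s hs => by
      obtain ⟨φ, h1, h2, h3⟩ := h s hs
      refine ⟨φ, h1, ?_, ?_⟩
      · rw [h2]
        ext r
        simp [Algebra.ofId_apply]
      · rw [h3]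
        rfl)
  refine ⟨Ω, h1, h2, h3, φ, hφ, fun r => ?_, ?_⟩
  · rw [hl]
    simp [Algebra.ofId_apply]
  · rw [hr]
    exact hi

/-- The general two point version for conic connected contact Fano manifolds. -/
theorem exists_conic_of_isConicConnected {P : R →ₗ[ℂ] R →ₗ[ℂ] R} (hX : IsContactFano 𝒜 P)
    {F : TensorProduct ℂ R R}
    (hF : ∀ p q : R →ₐ[ℂ] ℂ, Algebra.TensorProduct.lift p q (fun _ _ => Commute.all _ _) F ≠ 0 →
      ∃ φ : R →ₐ[ℂ] MvPolynomial (Fin 2) ℂ, IsCurve 𝒜 2 φ ∧ pt φ ![1, 0] = p ∧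
        pt φ ![0, 1] = q)
    {A : Type u} [CommRing A] [Algebra ℂ A] [IsDomain A] [Algebra.FiniteType ℂ A]
    (p q : R →ₐ[ℂ] A)
    (hpq : Algebra.TensorProduct.lift p q (fun _ _ => Commute.all _ _) F ≠ 0) :
    ∃ (Ω : Type u) (_ : Field Ω) (_ : IsAlgClosed Ω) (_ : Algebra ℂ Ω) (i : A →ₐ[ℂ] Ω)
      (φ : R →ₐ[ℂ] MvPolynomial (Fin 2) Ω), Function.Injective i ∧ IsCurve 𝒜 2 φ ∧
      pt φ ![1, 0] = i.comp p ∧ pt φ ![0, 1] = i.comp q := by
  have := hX.finiteType
  refine exists_curve_of_forall_point hX.connected hpq p q fun s hs => ?_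
  apply hF
  have h1 : (Algebra.TensorProduct.lift (s.comp p) (s.comp q) (fun _ _ => Commute.all _ _)) =
      s.comp (Algebra.TensorProduct.lift p q (fun _ _ => Commute.all _ _)) := by
    apply Algebra.TensorProduct.ext
    · ext r
      simp
    · ext r
      simp
  rw [h1]
  exact hs

end curve

end Vale.Agent.P292
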