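import Vale.Agent.P292.K.Main1
import Vale.Agent.P292.K.MeetDefs
import Vale.Agent.P292.K.Ultra
import Vale.Agent.P292.K.V1
import Vale.Agent.P292.K.I1
import Vale.Agent.P292.K.I2
import Vale.Agent.P292.K.U
import Vale.Agent.P292.K.F

/-! # Assembly. -/

namespace Vale.Agent.P292

open MvPolynomial TensorProduct

universe u v w

variable {R : Type u} [CommRing R] [Algebra ℂ R] {𝒜 : ℕ → Submodule ℂ R} [GradedAlgebra 𝒜]
  {P : R →ₗ[ℂ] R →ₗ[ℂ] R}

/-- Generic conics through the closed points of a dense open set. -/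
theorem asm_exists_genConicAt (hX : IsContactFano 𝒜 P) (hc : IsConicConnected 𝒜) :
    ∃ g : R, g ≠ 0 ∧ ∀ w : R →ₐ[ℂ] ℂ, w g ≠ 0 →
      ∃ (Ω : Type u) (_ : Field Ω) (_ : IsAlgClosed Ω) (_ : Algebra ℂ Ω)
        (φ : R →ₐ[ℂ] MvPolynomial (Fin 2) Ω), GenConicAt 𝒜 w φ := by
  obtain ⟨F, hF, hcon⟩ := hc
  obtain ⟨g, hg, hg'⟩ := exists_evLeft_ne_zero F hF
  refine ⟨g, hg, fun w hw => exists_genConicAt hX w (evLeft F w) (hg' w hw) fun q hq => ?_⟩
  rw [apply_evLeft] at hq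
  exact hcon w q hq

/-- The first case: closed lines meet all divisors. -/
theorem asm_one (hX : IsContactFano 𝒜 P) [IsDomain R] (hc : IsConicConnected 𝒜)
    (hm : MeetsAll 𝒜 1) : IsAdjointVariety 𝒜 P := by
  have := hX.normal
  obtain ⟨g, hg, hgen⟩ := asm_exists_genConicAt hX hc
  obtain ⟨w, hw⟩ := exists_closed_ne hX g hg
  obtain ⟨Ω, _, _, _, φ, hφ⟩ := hgen w hw
  obtain ⟨b, hb⟩ := exists_b hX hφ.curve
  obtain ⟨Q, hQ, hroot⟩ := exists_isGood_one hX hφ hb
  refine isAdjointVariety_of_genConic hX hφ hb hQ hroot fun M _ _ _ _ _ => ?_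
  exact isUnram_of_curves hX one_pos hQ fun 𝔭 _ hdvr hh =>
    hm Q.discr (discr_ne_zero_of_irreducible hQ.monic hQ.irr) 𝔭 hdvr hh

/-- The polynomial of `b ^ 2` splits in the splitting field of the polynomial of `b`. -/
theorem asm_exists_embedding [IsDomain R] [IsIntegrallyClosed R] {Ω : Type u} [Field Ω]
    [Algebra ℂ Ω] (ι : R →ₐ[ℂ] Ω) (hι : Function.Injective ι) {Q q : Polynomial R}
    (hQm : Q.Monic) (hQi : Irreducible Q) (hqm : q.Monic) (hqi : Irreducible q) {b : Ω}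
    (hQ : Q.eval₂ (ι : R →+* Ω) (b ^ 2) = 0) (hq : q.eval₂ (ι : R →+* Ω) b = 0)
    (M M₂ : Type u) [Field M] [Algebra R M] [Algebra (FractionRing R) M]
    [IsScalarTower R (FractionRing R) M]
    [(Q.map (algebraMap R (FractionRing R))).IsSplittingField (FractionRing R) M]
    [Field M₂] [Algebra R M₂] [Algebra (FractionRing R) M₂]
    [IsScalarTower R (FractionRing R) M₂]
    [(q.map (algebraMap R (FractionRing R))).IsSplittingField (FractionRing R) M₂] :
    Nonempty (M →ₐ[R] M₂) := by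
  have : CharZero R := charZero_of_injective_algebraMap (algebraMap ℂ R).injective
  have : CharZero (FractionRing R) := charZero_of_injective_algebraMap
    (IsFractionRing.injective R (FractionRing R))
  let K := FractionRing R
  have hQK : Irreducible (Q.map (algebraMap R K)) :=
    (hQm.irreducible_iff_irreducible_map_fraction_map (K := K)).1 hQi
  have hqK : Irreducible (q.map (algebraMap R K)) :=
    (hqm.irreducible_iff_irreducible_map_fraction_map (K := K)).1 hqi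
  let _ : Algebra R Ω := (ι : R →+* Ω).toAlgebra
  have hιa : ∀ r, algebraMap R Ω r = ι r := fun r => rfl
  let _ : Algebra K Ω := (IsFractionRing.lift (K := K) (g := (ι : R →+* Ω)) hι).toAlgebra
  have hst : IsScalarTower R K Ω := IsScalarTower.of_algebraMap_eq fun r =>
    (IsFractionRing.lift_algebraMap (K := K) (g := (ι : R →+* Ω)) hι r).symm
  have hq1 : Polynomial.aeval b (q.map (algebraMap R K)) = 0 := by
    rw [Polynomial.aeval_map_algebraMap, Polynomial.aeval_def]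
    exact hq
  have hQ1 : Polynomial.aeval b ((Q.map (algebraMap R K)).comp (Polynomial.X ^ 2)) = 0 := by
    rw [Polynomial.aeval_comp, map_pow, Polynomial.aeval_X, Polynomial.aeval_map_algebraMap,
      Polynomial.aeval_def]
    exact hQ
  have hmin : minpoly K b = q.map (algebraMap R K) :=
    (minpoly.eq_of_irreducible_of_monic hqK hq1 (hqm.map _)).symm
  have hdvd : q.map (algebraMap R K) ∣ (Q.map (algebraMap R K)).comp (Polynomial.X ^ 2) := by
    rw [← hmin]
    exact minpoly.dvd K b hQ1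
  -- a root of `q` in `M₂`
  have hsp : ((q.map (algebraMap R K)).map (algebraMap K M₂)).Splits :=
    Polynomial.IsSplittingField.splits M₂ (q.map (algebraMap R K))
  have hdeg : ((q.map (algebraMap R K)).map (algebraMap K M₂)).degree ≠ 0 := by
    rw [Polynomial.degree_map]
    exact hqK.degree_pos.ne'
  obtain ⟨β, hβ⟩ := hsp.exists_eval_eq_zero hdeg
  have hβ1 : Polynomial.aeval β (q.map (algebraMap R K)) = 0 := by
    rw [Polynomial.aeval_def, ← Polynomial.eval_map]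
    exact hβ
  have hβ2 : Polynomial.aeval (β ^ 2) (Q.map (algebraMap R K)) = 0 := by
    obtain ⟨c, hc⟩ := hdvd
    have h1 := congrArg (Polynomial.aeval β) hc
    rw [map_mul, hβ1, zero_mul, Polynomial.aeval_comp, map_pow, Polynomial.aeval_X] at h1
    exact h1
  have hmin2 : minpoly K (β ^ 2) = Q.map (algebraMap R K) :=
    (minpoly.eq_of_irreducible_of_monic hQK hβ2 (hQm.map _)).symm
  have hnorm : Normal K M₂ := Normal.of_isSplittingField (q.map (algebraMap R K))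
  have hs2 : ((Q.map (algebraMap R K)).map (algebraMap K M₂)).Splits := by
    rw [← hmin2]
    exact hnorm.splits (β ^ 2)
  exact ⟨(Polynomial.IsSplittingField.lift M (Q.map (algebraMap R K)) hs2).restrictScalars R⟩

/-- The second case: `b` is integral with integral brackets and closed conics meet all
divisors. -/
theorem asm_two (hX : IsContactFano 𝒜 P) [IsDomain R] {Ω : Type u} [Field Ω] [IsAlgClosed Ω]
    [Algebra ℂ Ω] {w : R →ₐ[ℂ] ℂ} {φ : R →ₐ[ℂ] MvPolynomial (Fin 2) Ω} (hφ : GenConicAt 𝒜 w φ)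
    {b : Ω} (hb : omC P φ (pd φ 0) (pd φ 1) = C b) {q : Polynomial R} (hq : IsGood 𝒜 P 2 q)
    (hqr : q.eval₂ (pt φ ![0, 1] : R →+* Ω) b = 0) (hm : MeetsAll 𝒜 2) :
    IsAdjointVariety 𝒜 P := by
  have := hX.normal
  obtain ⟨Q, hQ, hroot⟩ := exists_isGood_one hX hφ hb
  refine isAdjointVariety_of_genConic hX hφ hb hQ hroot fun M _ _ _ _ _ => ?_
  let M₂ := (q.map (algebraMap R (FractionRing R))).SplittingField
  have h2 : IsUnram R M₂ := isUnram_of_curves hX two_pos hq fun 𝔭 _ hdvr hh =>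
    hm q.discr (discr_ne_zero_of_irreducible hq.monic hq.irr) 𝔭 hdvr hh
  obtain ⟨f⟩ := asm_exists_embedding (pt φ ![0, 1]) hφ.inj hQ.monic hQ.irr hq.monic hq.irr
    hroot hqr M M₂
  exact h2.of_algHom f

/-- **Assembly.** -/
theorem asm_main (hX : IsContactFano 𝒜 P) [IsDomain R] (hdim : 4 ≤ cdim R)
    (hc : IsConicConnected 𝒜) (hmeet : MeetsAll 𝒜 1 ∨ NoLines 𝒜 ∧ MeetsAll 𝒜 2) :
    IsAdjointVariety 𝒜 P := by
  rcases hmeet with h1 | ⟨⟨g', hg', hno⟩, h2⟩
  · exact asm_one hX hc h1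
  · obtain ⟨g, hg, hgen⟩ := asm_exists_genConicAt hX hc
    obtain ⟨w, hw⟩ := exists_closed_ne hX (g * g') (mul_ne_zero hg hg')
    rw [map_mul] at hw
    obtain ⟨Ω, _, _, _, φ, hφ⟩ := hgen w (left_ne_zero_of_mul hw)
    obtain ⟨b, hb⟩ := exists_b hX hφ.curve
    obtain ⟨q, hq, hqr⟩ := exists_isGood_two hX hdim hφ hb (hno w (right_ne_zero_of_mul hw))
    exact asm_two hX hφ hb hq hqr h2

/-- If all closed curves meet all homogeneous divisors then the meeting property holds. -/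
theorem asm_meets (hX : IsContactFano 𝒜 P) [IsDomain R] (hc : IsConicConnected 𝒜)
    (hM : ∀ (d : ℕ), 0 < d → ∀ φ : R →ₐ[ℂ] MvPolynomial (Fin 2) ℂ, IsCurve 𝒜 d φ →
      ∀ (𝔭 : Ideal R) [𝔭.IsPrime], IsDiscreteValuationRing (Localization.AtPrime 𝔭) →
      𝔭.IsHomogeneous 𝒜 → ∃ a : Fin 2 → ℂ, a ≠ 0 ∧ ∀ r ∈ 𝔭, pt φ a r = 0) :
    MeetsAll 𝒜 1 ∨ NoLines 𝒜 ∧ MeetsAll 𝒜 2 := by
  by_cases hno : NoLines 𝒜
  · refine Or.inr ⟨hno, fun D hD 𝔭 _ hdvr hh => ?_⟩
    obtain ⟨F, hF, hcon⟩ := hc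
    obtain ⟨g, hg, hg'⟩ := exists_evLeft_ne_zero F hF
    obtain ⟨w, hw⟩ := exists_closed_ne hX (g * D) (mul_ne_zero hg hD)
    rw [map_mul] at hw
    obtain ⟨q, hq⟩ := exists_closed_ne hX (evLeft F w) (hg' w (left_ne_zero_of_mul hw))
    rw [apply_evLeft] at hq
    obtain ⟨φ, hφ, h10, -⟩ := hcon w q hq
    refine ⟨φ, hφ, fun h0 => ?_, hM 2 two_pos φ hφ 𝔭 hdvr hh⟩
    apply right_ne_zero_of_mul hw
    rw [← h10, pt_apply, h0, map_zero]
  · refine Or.inl fun D hD 𝔭 _ hdvr hh => ?_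
    unfold NoLines at hno
    push Not at hno
    obtain ⟨w, hw, ψ, hψ, h10⟩ := hno D hD
    refine ⟨ψ, hψ, fun h0 => hw ?_, hM 1 one_pos ψ hψ 𝔭 hdvr hh⟩
    rw [← h10, pt_apply, h0, map_zero]

end Vale.Agent.P292
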