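import Vale.Agent.P292.K.Basic
import Vale.Agent.P292.K.Ext
import Vale.Agent.P292.Fr.A

/-! # The dimension of the cone. -/

namespace Vale.Agent.P292

open MvPolynomial

universe u v

variable {R : Type u} [CommRing R] [Algebra ℂ R] {𝒜 : ℕ → Submodule ℂ R} [GradedAlgebra 𝒜]
  {P : R →ₗ[ℂ] R →ₗ[ℂ] R}

/-- The values on a frame determine a derivation with values in the fraction field, and are
arbitrary. -/
theorem dim_exists_equiv (hX : IsContactFano 𝒜 P) [IsDomain R] :
    ∃ N : ℕ, Even N ∧ Nonempty (DerAt (IsScalarTower.toAlgHom ℂ R (FractionRing R)) ≃ₗ[FractionRing R]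
      (Fin N → FractionRing R)) := by
  classical
  set ι : R →ₐ[ℂ] FractionRing R := IsScalarTower.toAlgHom ℂ R (FractionRing R) with hι
  have hιinj : Function.Injective ι := IsFractionRing.injective R (FractionRing R)
  have hιa : ∀ r, ι r = algebraMap R (FractionRing R) r := fun r => rfl
  obtain ⟨p, hp⟩ := hX.nonempty
  obtain ⟨k, hk, r, hr, hpr⟩ : ∃ k, 0 < k ∧ ∃ r ∈ 𝒜 k, p r ≠ 0 := by
    unfold IsVertex at hp
    push Not at hp
    obtain ⟨k, hk, r, hr, h⟩ := hp
    exact ⟨k, hk, r, hr, h⟩
  have hr0 : ι r ≠ 0 := by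
    intro h0
    have h1 : r = 0 := hιinj (by rw [h0, map_zero])
    rw [h1, map_zero] at hpr
    exact hpr rfl
  obtain ⟨N, y, g, h, hF, hg⟩ := exists_frame_of_point hX ι hk hr hr0
  rw [map_mul] at hg
  have hg0 : ι g ≠ 0 := left_ne_zero_of_mul hg
  have hdet : ι (brMat P y).det ≠ 0 := right_ne_zero_of_mul hg
  have hdet0 : (brMat P y).det ≠ 0 := fun h0 => hdet (by rw [h0, map_zero])
  refine ⟨N, even_of_det_ne_zero hX y hdet0, ?_⟩
  let f : DerAt ι →ₗ[FractionRing R] (Fin N → FractionRing R) :=
    { toFun := fun δ i => (δ : R →ₗ[ℂ] FractionRing R) (y i)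
      map_add' := fun a b => rfl
      map_smul' := fun c a => rfl }
  have hf : ∀ δ i, f δ i = (δ : R →ₗ[ℂ] FractionRing R) (y i) := fun δ i => rfl
  refine ⟨LinearEquiv.ofBijective f ⟨?_, ?_⟩⟩
  · have key : ∀ (δ : R →ₗ[ℂ] FractionRing R), IsDer ι δ → ∀ r,
        ι g * δ r = ∑ i, ι (h r i) * δ (y i) := by
      intro δ hδ r
      let d : Derivation ℂ R (FractionRing R) := Derivation.mk' δ (fun a b => by
        rw [hδ a b, Algebra.smul_def, Algebra.smul_def]
        rfl)
      have hd : ∀ r, d r = δ r := fun r => rfl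
      have h1 := hF.smul_derivation d r
      rw [Algebra.smul_def, hd] at h1
      rw [hιa, h1]
      refine Finset.sum_congr rfl fun i _ => ?_
      rw [Algebra.smul_def, hd]
      rfl
    rintro ⟨δ₁, h₁⟩ ⟨δ₂, h₂⟩ h0
    apply Subtype.ext
    ext r
    apply mul_left_cancel₀ hg0
    rw [key δ₁ h₁, key δ₂ h₂]
    refine Finset.sum_congr rfl fun i _ => ?_
    have h3 : δ₁ (y i) = δ₂ (y i) := congrFun h0 i
    rw [h3]
  · intro c
    let M : Matrix (Fin N) (Fin N) (FractionRing R) := (brMat P y).map ι
    have hM : IsUnit M.det := by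
      have h1 : M.det = ι (brMat P y).det := by
        rw [AlgHom.map_det]
        rfl
      rw [h1]
      exact isUnit_iff_ne_zero.2 hdet
    let a : Fin N → FractionRing R := Matrix.vecMul c M⁻¹
    have ha : Matrix.vecMul a M = c := by
      rw [Matrix.vecMul_vecMul, Matrix.nonsing_inv_mul _ hM, Matrix.vecMul_one]
    let δ : R →ₗ[ℂ] FractionRing R := ∑ j, a j • hamAt P ι (y j)
    have hδ : δ ∈ DerAt ι := Submodule.sum_mem _ fun j _ => Submodule.smul_mem _ _ (by
      intro r s
      rw [hamAt_apply, hamAt_apply, hamAt_apply, hX.leibniz, map_add, map_mul, map_mul]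
      ring)
    refine ⟨⟨δ, hδ⟩, ?_⟩
    ext i
    rw [hf]
    have h1 := congrFun ha i
    rw [Matrix.vecMul, dotProduct] at h1
    rw [← h1]
    change (∑ j, a j • hamAt P ι (y j)) (y i) = _
    rw [LinearMap.sum_apply]
    exact Finset.sum_congr rfl fun j _ => rfl

/-- If `X` has dimension at least two, then the cone has dimension at least four. -/
theorem four_le_cdim (hX : IsContactFano 𝒜 P) [IsDomain R] {x : Fin 3 → R}
    (hx : AlgebraicIndependent ℂ x) : 4 ≤ cdim R := by
  classical
  obtain ⟨N, hN, ⟨e⟩⟩ := dim_exists_equiv hX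
  set ι : R →ₐ[ℂ] FractionRing R := IsScalarTower.toAlgHom ℂ R (FractionRing R) with hι
  have hιinj : Function.Injective ι := IsFractionRing.injective R (FractionRing R)
  have hfin : Module.Finite (FractionRing R) (DerAt ι) := Module.Finite.equiv e.symm
  have hcd : cdim R = N := by
    rw [cdim, e.finrank_eq, Module.finrank_fin_fun]
  have hchar : CharZero (FractionRing R) :=
    charZero_of_injective_algebraMap (algebraMap ℂ (FractionRing R)).injective
  let A := MvPolynomial (Fin 3) ℂ
  let q : A →ₐ[ℂ] FractionRing R := ι.comp (aeval x)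
  have hq : Function.Injective q := hιinj.comp hx
  let _ : Algebra A (FractionRing R) := q.toRingHom.toAlgebra
  have hqa : ∀ a : A, algebraMap A (FractionRing R) a = q a := fun a => rfl
  have hst : IsScalarTower ℂ A (FractionRing R) := IsScalarTower.of_algebraMap_eq fun c => by
    rw [hqa, AlgHom.commutes]
  have hD : ∀ i : Fin 3, ∃ D : Derivation ℂ (FractionRing R) (FractionRing R),
      ∀ j, D (ι (x j)) = if j = i then 1 else 0 := by
    intro i
    obtain ⟨D, hD⟩ := exists_derivation_extend (k := ℂ) (A := A) (E := FractionRing R)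
      hq (mkDerivation ℂ (fun j => if j = i then (1 : FractionRing R) else 0))
    refine ⟨D, fun j => ?_⟩
    have h1 := hD (X j)
    rw [mkDerivation_X] at h1
    rw [← h1]
    change _ = D (ι (aeval x (X j)))
    rw [aeval_X]
  choose D hD using hD
  let δ : Fin 3 → DerAt ι := fun i => ⟨alongAt ι (D i), isDer_alongAt ι (D i)⟩
  have hli : LinearIndependent (FractionRing R) (fun i => e (δ i)) := by
    rw [Fintype.linearIndependent_iff]
    intro c hc' j
    have hc : ∑ i, c i • δ i = 0 := by
      apply e.injective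
      rw [map_sum, map_zero, ← hc']
      exact Finset.sum_congr rfl fun i _ => map_smul e _ _
    have h1 : ∑ i, c i * D i (ι (x j)) = 0 := by
      have h2 := congrArg (fun z : DerAt ι => (z : R →ₗ[ℂ] FractionRing R) (x j)) hc
      simp only [Submodule.coe_sum, Submodule.coe_smul, LinearMap.sum_apply, LinearMap.smul_apply,
        ZeroMemClass.coe_zero, LinearMap.zero_apply] at h2
      rw [← h2]
      exact Finset.sum_congr rfl fun i _ => rfl
    have h3 : ∑ i, c i * D i (ι (x j)) = c j := by
      rw [Finset.sum_eq_single j]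
      · rw [hD, if_pos rfl, mul_one]
      · intro i _ hij
        rw [hD, if_neg (Ne.symm hij), mul_zero]
      · intro h
        exact absurd (Finset.mem_univ j) h
    rw [← h3, h1]
  have h3 : 3 ≤ N := by
    have := hli.fintype_card_le_finrank
    rw [Fintype.card_fin, Module.finrank_fin_fun] at this
    exact this
  rw [hcd]
  obtain ⟨m, hm⟩ := hN
  omega

end Vale.Agent.P292
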