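import Vale.Agent.P292.K.Basic
import Vale.Agent.P292.K.Ext

/-! # The dimension of the cone and the transcendence degree -/

namespace Vale.Agent.P292

open MvPolynomial Cardinal

universe u v

variable {R : Type u} [CommRing R] [Algebra ℂ R]

theorem IsDer.dim_map_algebraMap {E : Type v} [CommRing E] [Algebra ℂ E] {x : R →ₐ[ℂ] E}
    {δ : R →ₗ[ℂ] E} (h : IsDer x δ) (c : ℂ) : δ (algebraMap ℂ R c) = 0 := by
  have h1 := h 1 1
  have hx : x 1 = 1 := map_one x
  rw [hx, mul_one, one_mul] at h1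
  have h2 : δ 1 = 0 := by
    have h3 : δ 1 + 0 = δ 1 + δ 1 := by rw [add_zero]; exact h1
    exact (add_left_cancel h3).symm
  rw [Algebra.algebraMap_eq_smul_one, map_smul, h2, smul_zero]

theorem IsDer.dim_eq_zero_of_adjoin {E : Type v} [CommRing E] [Algebra ℂ E] {x : R →ₐ[ℂ] E}
    {δ : R →ₗ[ℂ] E} (h : IsDer x δ) {S : Set R} (hS : Algebra.adjoin ℂ S = ⊤)
    (h0 : ∀ s ∈ S, δ s = 0) : δ = 0 := by
  ext r
  have hr : r ∈ Algebra.adjoin ℂ S := by rw [hS]; trivial
  induction hr using Algebra.adjoin_induction with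
  | mem s hs => exact h0 s hs
  | algebraMap c => rw [h.dim_map_algebraMap]; rfl
  | add a b _ _ ha hb => rw [map_add, ha, hb]; simp
  | mul a b _ _ ha hb =>
    rw [h, ha, hb]
    simp

theorem dim_finite_DerAt {E : Type v} [Field E] [Algebra ℂ E] [hft : Algebra.FiniteType ℂ R]
    (x : R →ₐ[ℂ] E) : Module.Finite E (DerAt x) := by
  obtain ⟨S, hS⟩ := hft.out
  let f : DerAt x →ₗ[E] (S → E) :=
    { toFun := fun δ s => δ.1 s.1
      map_add' := fun _ _ => rfl
      map_smul' := fun _ _ => rfl }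
  have hf : Function.Injective f := by
    intro δ δ' h
    have h1 : δ.1 - δ'.1 = 0 := by
      refine IsDer.dim_eq_zero_of_adjoin (x := x) (sub_mem δ.2 δ'.2 : δ.1 - δ'.1 ∈ DerAt x) hS ?_
      intro s hs
      have := congrFun h ⟨s, hs⟩
      change δ.1 s = δ'.1 s at this
      rw [LinearMap.sub_apply, this, sub_self]
    exact Subtype.ext (sub_eq_zero.1 h1)
  exact Module.Finite.of_injective f hf

theorem dim_le_finrank_DerAt [Algebra.FiniteType ℂ R] {K : Type v} [Field K] [Algebra ℂ K]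
    (q : R →ₐ[ℂ] K) (hq : Function.Injective q) {n : ℕ} {x : Fin n → R}
    (hx : AlgebraicIndependent ℂ x) : n ≤ Module.finrank K (DerAt q) := by
  classical
  let ι : MvPolynomial (Fin n) ℂ →ₐ[ℂ] K := q.comp (aeval x)
  have hι : Function.Injective ι := hq.comp hx
  have hch : CharZero K := charZero_of_injective_algebraMap (algebraMap ℂ K).injective
  let _ : Algebra (MvPolynomial (Fin n) ℂ) K := ι.toRingHom.toAlgebra
  have hst : IsScalarTower ℂ (MvPolynomial (Fin n) ℂ) K := IsScalarTower.of_algebraMap_eq fun c => by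
    change _ = ι (algebraMap ℂ _ c)
    rw [ι.commutes]
  have hD : ∀ i : Fin n, ∃ D : Derivation ℂ K K, ∀ p, D (ι p) = ι (pderiv i p) := by
    intro i
    obtain ⟨D, hD⟩ := exists_derivation_extend (k := ℂ) (A := MvPolynomial (Fin n) ℂ) (E := K) hι
      ((Algebra.linearMap (MvPolynomial (Fin n) ℂ) K).compDer (pderiv i : Derivation ℂ _ _))
    exact ⟨D, fun p => hD p⟩
  choose D hD using hD
  have := dim_finite_DerAt q
  let b : Fin n → DerAt q := fun i => ⟨alongAt _ (D i), isDer_alongAt _ (D i)⟩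
  have hxj : ∀ j, q (x j) = ι (X j) := by
    intro j
    change _ = q (aeval x (X j))
    rw [aeval_X]
  let T : DerAt q →ₗ[K] (Fin n → K) :=
    { toFun := fun δ j => δ.1 (x j)
      map_add' := fun _ _ => rfl
      map_smul' := fun _ _ => rfl }
  have hTb : ∀ i, T (b i) = Pi.single i 1 := by
    intro i
    ext j
    change D i (q (x j)) = _
    rw [hxj, hD, pderiv_X]
    rcases eq_or_ne i j with rfl | hij
    · rw [Pi.single_eq_same, Pi.single_eq_same, map_one]
    · rw [Pi.single_eq_of_ne (Ne.symm hij), Pi.single_eq_of_ne (Ne.symm hij), map_zero]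
  have hT : Function.Surjective T := by
    intro g
    refine ⟨∑ i, g i • b i, ?_⟩
    rw [map_sum]
    simp only [map_smul, hTb]
    ext j
    simp [Finset.sum_apply, Pi.single_apply]
  have h2 := LinearMap.finrank_le_finrank_of_surjective hT
  rw [Module.finrank_fin_fun] at h2
  exact h2

theorem le_cdim_of_algebraicIndependent [IsDomain R] [Algebra.FiniteType ℂ R] {n : ℕ}
    {x : Fin n → R} (hx : AlgebraicIndependent ℂ x) : n ≤ cdim R :=
  dim_le_finrank_DerAt (IsScalarTower.toAlgHom ℂ R (FractionRing R))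
    (IsFractionRing.injective R (FractionRing R)) hx

theorem dim_exists_algebraicIndependent [Nontrivial R] {n : ℕ}
    (h : (n : Cardinal.{u}) ≤ Algebra.trdeg ℂ R) : ∃ x : Fin n → R, AlgebraicIndependent ℂ x := by
  by_contra hno
  have hall : ∀ s : Set R, AlgebraicIndepOn ℂ id s → #s < n := by
    intro s hs
    by_contra hlt
    rw [not_lt] at hlt
    rw [← Cardinal.lift_mk_fin, ← Cardinal.lift_id'.{0, u} #s, Cardinal.lift_mk_le'] at hlt
    obtain ⟨e⟩ := hlt
    exact hno ⟨fun i => (e i : R), hs.comp e e.injective⟩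
  rcases Nat.eq_zero_or_pos n with rfl | hn
  · exact hno ⟨Fin.elim0, algebraicIndependent_empty_type_iff.mpr
      (algebraMap ℂ R).injective⟩
  · have h1 : Algebra.trdeg ℂ R ≤ ((n - 1 : ℕ) : Cardinal.{u}) := by
      refine ciSup_le' fun s => ?_
      have h2 := hall s.1 s.2
      obtain ⟨m, hm⟩ := Cardinal.lt_aleph0.1 (h2.trans Cardinal.natCast_lt_aleph0)
      rw [hm] at h2 ⊢
      have h3 : m < n := by exact_mod_cast h2
      exact_mod_cast (by omega : m ≤ n - 1)
    have h2 : n ≤ n - 1 := by exact_mod_cast h.trans h1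
    omega

/-- The dimension of the cone is at least the transcendence degree. -/
theorem le_cdim_of_le_trdeg [IsDomain R] [Algebra.FiniteType ℂ R] {n : ℕ}
    (h : (n : Cardinal.{u}) ≤ Algebra.trdeg ℂ R) : n ≤ cdim R := by
  obtain ⟨x, hx⟩ := dim_exists_algebraicIndependent h
  exact le_cdim_of_algebraicIndependent hx

theorem four_le_cdim_of_trdeg {𝒜 : ℕ → Submodule ℂ R} [GradedAlgebra 𝒜] {P : R →ₗ[ℂ] R →ₗ[ℂ] R}
    (hX : IsContactFano 𝒜 P) [IsDomain R] (h : 4 ≤ Algebra.trdeg ℂ R) : 4 ≤ cdim R := by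
  have := hX.finiteType
  exact le_cdim_of_le_trdeg (n := 4) (by exact_mod_cast h)

end Vale.Agent.P292
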