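import Vale.Agent.P292.K.Dim
import Vale.Agent.P292.K.DimTr

namespace Vale.Agent.P292

open Cardinal

universe u

theorem four_le_cdim_of_three_le_trdeg {R : Type u} [CommRing R] [Algebra ℂ R]
    {𝒜 : ℕ → Submodule ℂ R} [GradedAlgebra 𝒜] {P : R →ₗ[ℂ] R →ₗ[ℂ] R}
    (hX : IsContactFano 𝒜 P) [IsDomain R] (h : 3 ≤ Algebra.trdeg ℂ R) : 4 ≤ cdim R := by
  obtain ⟨x, hx⟩ := dim_exists_algebraicIndependent (R := R) (n := 3) (by exact_mod_cast h)
  exact four_le_cdim hX hx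

end Vale.Agent.P292
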