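import Vale.Agent.P292.K.Basic

/-! # Extension of derivations to arbitrary field extensions in characteristic zero. -/

namespace Vale.Agent.P292

open TensorProduct

universe u v

/-- In characteristic zero every field extension is formally smooth. -/
theorem f0_formallySmooth (K : Type u) (Ω : Type v) [Field K] [Field Ω] [CharZero K]
    [Algebra K Ω] : Algebra.FormallySmooth K Ω := by
  obtain ⟨ι, v, hv⟩ := exists_isTranscendenceBasis' K Ω
  have h1 : Algebra.IsAlgebraic (IntermediateField.adjoin K (Set.range v)) Ω :=
    hv.isAlgebraic_field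
  have h2 : CharZero (IntermediateField.adjoin K (Set.range v)) :=
    charZero_of_injective_algebraMap
      (algebraMap K (IntermediateField.adjoin K (Set.range v))).injective
  have h3 : Algebra.IsSeparable (IntermediateField.adjoin K (Set.range v)) Ω := inferInstance
  exact Algebra.FormallySmooth.of_algebraicIndependent_of_isSeparable hv.1

/-- Derivations extend to arbitrary field extensions in characteristic zero. -/
theorem exists_derivation_extension_field {k : Type*} {K : Type u} {Ω : Type v} [CommRing k]
    [Field K] [Field Ω] [CharZero K] [Algebra k K] [Algebra K Ω] [Algebra k Ω]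
    [IsScalarTower k K Ω] (d : Derivation k K Ω) :
    ∃ D : Derivation k Ω Ω, ∀ x, D (algebraMap K Ω x) = d x := by
  have h1 : Algebra.FormallySmooth K Ω := f0_formallySmooth K Ω
  have h2 : Function.Injective (KaehlerDifferential.mapBaseChange k K Ω) := by
    rw [injective_iff_map_eq_zero]
    intro x hx
    obtain ⟨x, rfl⟩ := (Algebra.H1Cotangent.exact_δ_mapBaseChange k K Ω x).mp hx
    rw [Subsingleton.elim x 0, map_zero]
  obtain ⟨g, hg⟩ := LinearMap.exists_leftInverse_of_injective
    (KaehlerDifferential.mapBaseChange k K Ω) (LinearMap.ker_eq_bot.mpr h2)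
  refine ⟨((LinearMap.liftBaseChange Ω d.liftKaehlerDifferential).comp g).compDer
    (KaehlerDifferential.D k Ω), fun x => ?_⟩
  rw [Derivation.coe_comp]
  change LinearMap.liftBaseChange Ω d.liftKaehlerDifferential
    (g (KaehlerDifferential.D k Ω (algebraMap K Ω x))) = d x
  have h3 : g (KaehlerDifferential.D k Ω (algebraMap K Ω x)) =
      (1 : Ω) ⊗ₜ[K] KaehlerDifferential.D k K x := by
    have h4 := LinearMap.congr_fun hg ((1 : Ω) ⊗ₜ[K] KaehlerDifferential.D k K x)
    rw [LinearMap.comp_apply, KaehlerDifferential.mapBaseChange_tmul, one_smul,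
      KaehlerDifferential.map_D] at h4
    exact h4
  rw [h3, LinearMap.liftBaseChange_tmul, one_smul, Derivation.liftKaehlerDifferential_comp_D]

/-- A derivation over an injective point `ι : R → Ω` with values in a field is induced by a
derivation of the field. -/
theorem exists_der_ext {R : Type u} [CommRing R] [Algebra ℂ R] {Ω : Type v} [Field Ω]
    [Algebra ℂ Ω] (ι : R →ₐ[ℂ] Ω) (hι : Function.Injective ι) (δ : R →ₗ[ℂ] Ω)
    (hδ : IsDer ι δ) : ∃ D : Derivation ℂ Ω Ω, ∀ r, D (ι r) = δ r := by
  have hdom : IsDomain R := hι.isDomain ι.toRingHom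
  let : Algebra R Ω := (ι : R →+* Ω).toAlgebra
  have hmap : ∀ r, algebraMap R Ω r = ι r := fun _ => rfl
  have : IsScalarTower ℂ R Ω := IsScalarTower.of_algebraMap_eq fun c => by
    rw [hmap, AlgHom.commutes]
  have : FaithfulSMul R Ω := (faithfulSMul_iff_algebraMap_injective R Ω).mpr hι
  let : Algebra (FractionRing R) Ω := FractionRing.liftAlgebra R Ω
  have : IsScalarTower R (FractionRing R) Ω := inferInstance
  have : IsScalarTower ℂ (FractionRing R) Ω := IsScalarTower.of_algebraMap_eq fun c => by
    rw [IsScalarTower.algebraMap_apply ℂ R Ω, IsScalarTower.algebraMap_apply ℂ R (FractionRing R),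
      ← IsScalarTower.algebraMap_apply R (FractionRing R) Ω]
  have hch : CharZero (FractionRing R) :=
    charZero_of_injective_algebraMap (algebraMap ℂ (FractionRing R)).injective
  -- first extend to the fraction field
  let d : Derivation ℂ R Ω := Derivation.mk' δ (fun r s => by
    rw [hδ r s, Algebra.smul_def, Algebra.smul_def, hmap, hmap])
  have het : Algebra.FormallyEtale R (FractionRing R) :=
    Algebra.FormallyEtale.of_isLocalization (nonZeroDivisors R)
  obtain ⟨d1, hd1⟩ : ∃ d1 : Derivation ℂ (FractionRing R) Ω,
      ∀ r, d1 (algebraMap R (FractionRing R) r) = d r := by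
    refine ⟨((LinearMap.liftBaseChange (FractionRing R) d.liftKaehlerDifferential).comp
      (KaehlerDifferential.tensorKaehlerEquivOfFormallyEtale ℂ R
        (FractionRing R)).symm.toLinearMap).compDer
      (KaehlerDifferential.D ℂ (FractionRing R)), fun x => ?_⟩
    rw [Derivation.coe_comp]
    change LinearMap.liftBaseChange (FractionRing R) d.liftKaehlerDifferential
      ((KaehlerDifferential.tensorKaehlerEquivOfFormallyEtale ℂ R (FractionRing R)).symm
        (KaehlerDifferential.D ℂ (FractionRing R) (algebraMap R (FractionRing R) x))) = d x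
    rw [KaehlerDifferential.tensorKaehlerEquivOfFormallyEtale_symm_D_algebraMap,
      LinearMap.liftBaseChange_tmul, one_smul, Derivation.liftKaehlerDifferential_comp_D]
  obtain ⟨D, hD⟩ := exists_derivation_extension_field d1
  refine ⟨D, fun r => ?_⟩
  have h5 := hD (algebraMap R (FractionRing R) r)
  rw [hd1, ← IsScalarTower.algebraMap_apply] at h5
  exact h5

end Vale.Agent.P292
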