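import Vale.Agent.P292.K.F0

/-! # Block F, first half: the flow of `B = b²` along a generic conic. -/

namespace Vale.Agent.P292

open MvPolynomial

universe u v

section

variable {Ω : Type v} [Field Ω] [Algebra ℂ Ω]

/-- The recursion for the coefficients under the flow. -/
theorem f1_flow_cf {b : Ω} (D : Derivation ℂ Ω Ω) {p : MvPolynomial (Fin 2) Ω}
    (h : mapD D p = C (2 * b) * X 1 * pderiv 0 p) (i j : ℕ) :
    D (cf p i (j + 1)) = 2 * b * (i + 1) * cf p (i + 1) j := by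
  have h1 := congrArg (coeff (Finsupp.single 0 i + Finsupp.single 1 (j + 1))) h
  rw [coeff_mapD] at h1
  have h2 : (Finsupp.single 0 i + Finsupp.single 1 (j + 1) : Fin 2 →₀ ℕ) =
      (Finsupp.single 0 i + Finsupp.single 1 j) + Finsupp.single 1 1 := by
    rw [Finsupp.single_add, add_assoc]
  rw [cf, h1, mul_assoc, coeff_C_mul, mul_comm (X 1), h2, coeff_mul_X, coeff_pderiv]
  have h3 : (Finsupp.single 0 i + Finsupp.single 1 j + Finsupp.single 0 1 : Fin 2 →₀ ℕ) =
      Finsupp.single 0 (i + 1) + Finsupp.single 1 j := by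
    rw [Finsupp.single_add]
    abel
  rw [h3, cf]
  simp
  ring

theorem f1_flow_iterate {b : Ω} (D : Derivation ℂ Ω Ω) (hb : D b = 0) {p : MvPolynomial (Fin 2) Ω}
    (h : mapD D p = C (2 * b) * X 1 * pderiv 0 p) (i j : ℕ) :
    (⇑D)^[i] (cf p 0 (i + j)) = (i.factorial : Ω) * (2 * b) ^ i * cf p i j := by
  induction i generalizing j with
  | zero => simp
  | succ i ih =>
    have h1 : i + 1 + j = i + (j + 1) := by ring
    rw [Function.iterate_succ_apply', h1, ih, Derivation.leibniz, f1_flow_cf D h]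
    have h2 : D ((i.factorial : Ω) * (2 * b) ^ i) = 0 := by
      rw [Derivation.leibniz, Derivation.leibniz_pow, Derivation.leibniz, hb,
        Derivation.map_natCast]
      have : D (2 : Ω) = 0 := by
        have := D.map_natCast 2
        simpa using this
      rw [this]
      simp
    rw [h2, Nat.factorial_succ]
    push_cast
    simp only [smul_eq_mul]
    ring

omit [Algebra ℂ Ω] in
/-- The value at `(0, 1)` of a homogeneous polynomial. -/
theorem f1_eval_zero_one {p : MvPolynomial (Fin 2) Ω} {n : ℕ} (hp : p.IsHomogeneous n) :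
    eval ![0, 1] p = cf p 0 n := by
  classical
  rw [eval_eq', cf]
  have h1 : ∀ m ∈ p.support, m ≠ Finsupp.single 0 0 + Finsupp.single 1 n →
      coeff m p * ∏ i, (![0, 1] : Fin 2 → Ω) i ^ m i = 0 := by
    intro m hm hne
    have h2 := hp (mem_support_iff.1 hm)
    rw [Finsupp.weight_apply, Finsupp.sum_fintype _ _ (by simp)] at h2
    simp only [Fin.sum_univ_two, Pi.one_apply, smul_eq_mul, mul_one] at h2
    have h3 : m 0 ≠ 0 := by
      intro h3
      apply hne
      ext i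
      fin_cases i
      · simpa using h3
      · simp
        omega
    simp [Fin.prod_univ_two, h3]
  by_cases hc : coeff (Finsupp.single 0 0 + Finsupp.single 1 n) p = 0
  · rw [hc]
    refine Finset.sum_eq_zero fun m hm => h1 m hm ?_
    rintro rfl
    exact mem_support_iff.1 hm hc
  · rw [Finset.sum_eq_single_of_mem _ (mem_support_iff.2 hc) h1]
    simp [Fin.prod_univ_two]

omit [Algebra ℂ Ω] in
/-- The value at `(1, 0)` of a homogeneous polynomial. -/
theorem f1_eval_one_zero {p : MvPolynomial (Fin 2) Ω} {n : ℕ} (hp : p.IsHomogeneous n) :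
    eval ![1, 0] p = cf p n 0 := by
  classical
  rw [eval_eq', cf]
  have h1 : ∀ m ∈ p.support, m ≠ Finsupp.single 0 n + Finsupp.single 1 0 →
      coeff m p * ∏ i, (![1, 0] : Fin 2 → Ω) i ^ m i = 0 := by
    intro m hm hne
    have h2 := hp (mem_support_iff.1 hm)
    rw [Finsupp.weight_apply, Finsupp.sum_fintype _ _ (by simp)] at h2
    simp only [Fin.sum_univ_two, Pi.one_apply, smul_eq_mul, mul_one] at h2
    have h3 : m 1 ≠ 0 := by
      intro h3
      apply hne
      ext i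
      fin_cases i
      · simp
        omega
      · simpa using h3
    simp [Fin.prod_univ_two, h3]
  by_cases hc : coeff (Finsupp.single 0 n + Finsupp.single 1 0) p = 0
  · rw [hc]
    refine Finset.sum_eq_zero fun m hm => h1 m hm ?_
    rintro rfl
    exact mem_support_iff.1 hm hc
  · rw [Finset.sum_eq_single_of_mem _ (mem_support_iff.2 hc) h1]
    simp [Fin.prod_univ_two]

end

section

variable {R : Type u} [CommRing R] [Algebra ℂ R] {𝒜 : ℕ → Submodule ℂ R}
  {P : R →ₗ[ℂ] R →ₗ[ℂ] R} {Ω : Type v} [Field Ω] [Algebra ℂ Ω] {w : R →ₐ[ℂ] ℂ}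
  {φ : R →ₐ[ℂ] MvPolynomial (Fin 2) Ω}

/-- The closed point `w` is not the vertex. -/
theorem f1_exists_ne (hφ : GenConicAt 𝒜 w φ) : ∃ k, 0 < k ∧ ∃ r ∈ 𝒜 k, w r ≠ 0 := by
  obtain ⟨k, hk, r, hr, h⟩ := hφ.curve.bpf ![1, 0] (by
    intro h
    have := congrFun h 0
    simp at this)
  refine ⟨k, hk, r, hr, fun h0 => h ?_⟩
  have h1 := hφ.left r
  rw [pt_apply, h0, map_zero] at h1
  rw [aeval_eq_eval]
  exact h1

/-- **Block F, first half.** The flow of `B = b²`. The hypotheses `V2` and `V6` are the first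
variation formula and the flow theorem. -/
theorem f1_hflow (hφ : GenConicAt 𝒜 w φ) [IsDomain R]
    (hleib : ∀ a b c, P a (b * c) = P a b * c + b * P a c) {b : Ω}
    (V2 : ∀ (D : Derivation ℂ Ω Ω) (r : R),
      (∀ s, D (pt φ ![0, 1] s) = pt φ ![0, 1] (P r s)) →
      D b = - eval ![0, 1] (pderiv 0 (φ r)))
    (V6 : ∀ D : Derivation ℂ Ω Ω,
      (∀ s, D (pt φ ![0, 1] s) = 2 * b * eval ![0, 1] (pderiv 0 (φ s))) →
      D b = 0 ∧ ∀ r, mapD D (φ r) = C (2 * b) * X 1 * pderiv 0 (φ r))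
    {k : ℕ} (hk : 0 < k) {r : R} (hr : r ∈ 𝒜 k) (D : Derivation ℂ Ω Ω)
    (hD : ∀ (s : R) (D' : Derivation ℂ Ω Ω),
      (∀ t, D' (pt φ ![0, 1] t) = pt φ ![0, 1] (P s t)) →
      D' (b ^ 2) = - D (pt φ ![0, 1] s)) :
    (⇑D)^[2 * k - 1] (pt φ ![0, 1] r) =
      (((2 * k - 1).factorial : ℂ) * 2 ^ (2 * k - 1)) •
        ((b ^ 2) ^ (k - 1) * (b * cf (φ r) (2 * k - 1) 1)) ∧
    D (b * cf (φ r) (2 * k - 1) 1) = (4 * (k : ℂ) * w r) • (b ^ 2) := by
  have hD1 : ∀ s, D (pt φ ![0, 1] s) = 2 * b * eval ![0, 1] (pderiv 0 (φ s)) := by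
    intro s
    obtain ⟨D', hD'⟩ := exists_der_ext (pt φ ![0, 1]) hφ.inj
      (hamAt P (pt φ ![0, 1]) s) (fun x y => by
        simp only [hamAt_apply, hleib, map_add, map_mul]
        ring)
    have h1 := hD s D' hD'
    rw [Derivation.leibniz_pow, V2 D' s hD'] at h1
    simp only [Nat.add_one_sub_one, pow_one, smul_eq_mul, nsmul_eq_mul, Nat.cast_ofNat] at h1
    linear_combination h1
  obtain ⟨hDb, hD2⟩ := V6 D hD1
  have hhom : (φ r).IsHomogeneous (2 * k) := hφ.curve.degree k r hr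
  obtain ⟨n, rfl⟩ : ∃ n, k = n + 1 := ⟨k - 1, by omega⟩
  have e1 : 2 * (n + 1) - 1 = 2 * n + 1 := by omega
  have e2 : 2 * (n + 1) = 2 * n + 1 + 1 := by omega
  have e3 : n + 1 - 1 = n := rfl
  rw [e1, e3]
  constructor
  · rw [pt_apply, f1_eval_zero_one hhom, e2, f1_flow_iterate D hDb (hD2 r)]
    rw [Algebra.smul_def, map_mul, map_pow, map_natCast]
    have : algebraMap ℂ Ω 2 = 2 := map_ofNat _ 2
    rw [this]
    ring
  · rw [Derivation.leibniz, hDb, smul_zero, add_zero, smul_eq_mul, f1_flow_cf D (hD2 r)]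
    have h1 := hφ.left r
    rw [pt_apply, f1_eval_one_zero hhom, e2] at h1
    rw [h1, Algebra.smul_def, map_mul, map_mul]
    have h4 : algebraMap ℂ Ω 4 = 4 := map_ofNat _ 4
    have h5 : algebraMap ℂ Ω ((n + 1 : ℕ) : ℂ) = (n : Ω) + 1 := by simp
    rw [h4, h5]
    push_cast
    ring

end

end Vale.Agent.P292
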