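import Vale.Agent.P292.K.V1
import Vale.Agent.P292.K.N1
import Vale.Agent.P292.K.Ext

/-! # A conic which is not tangent to the contact distribution does not move with fixed end
points: its coefficients are algebraic over the field of its end points. -/

namespace Vale.Agent.P292

open MvPolynomial

universe u v w

variable {R : Type u} [CommRing R] [Algebra ℂ R] {𝒜 : ℕ → Submodule ℂ R} [GradedAlgebra 𝒜]
  {P : R →ₗ[ℂ] R →ₗ[ℂ] R}

/-- A linear form which vanishes at two points is zero. -/
theorem fc1_eq_zero {κ : Type v} [Field κ] {p : MvPolynomial (Fin 2) κ} (hp : p.IsHomogeneous 1)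
    (h10 : eval ![1, 0] p = 0) (h01 : eval ![0, 1] p = 0) : p = 0 := by
  obtain ⟨h0, h1⟩ := pderiv_of_homog_one hp
  have he := hp.sum_X_mul_pderiv
  rw [Fin.sum_univ_two, one_nsmul, h0, h1, h10, h01, C_0, mul_zero, mul_zero, add_zero] at he
  exact he.symm

section

variable {Ω : Type v} [Field Ω] [IsAlgClosed Ω] [Algebra ℂ Ω]
  {φ : R →ₐ[ℂ] MvPolynomial (Fin 2) Ω}

/-- A derivation which kills the end points of a conic kills `b`. -/
theorem fc1_apply_b (hX : IsContactFano 𝒜 P) (hφ : IsCurve 𝒜 2 φ) {b : Ω}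
    (hb : omC P φ (pd φ 0) (pd φ 1) = C b) (D : Derivation ℂ Ω Ω)
    (h10 : ∀ r, D (pt φ ![1, 0] r) = 0) (h01 : ∀ r, D (pt φ ![0, 1] r) = 0) : D b = 0 := by
  have hz : ∀ i, omC P φ ((mapD D : Derivation ℂ _ _).toLinearMap ∘ₗ φ.toLinearMap) (pd φ i) =
      0 := by
    intro i
    refine fc1_eq_zero (omC_homog hX hφ (isHDer_mapD hφ D) (isHDer_pd hφ i) (by norm_num)) ?_ ?_
    · rw [← omC_eval hX hφ (isHDer_mapD hφ D) (isHDer_pd hφ i) _ vec10_ne, evL_mapD_10']
      have h0 : alongAt (pt φ ![1, 0]) D = 0 := by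
        ext r
        exact h10 r
      rw [h0]
      exact om_zero_left hX (hφ.isNV_pt vec10_ne) ((isHDer_pd hφ i).der.evL _)
    · rw [← omC_eval hX hφ (isHDer_mapD hφ D) (isHDer_pd hφ i) _ vec01_ne, evL_mapD_01]
      have h0 : alongAt (pt φ ![0, 1]) D = 0 := by
        ext r
        exact h01 r
      rw [h0]
      exact om_zero_left hX (hφ.isNV_pt vec01_ne) ((isHDer_pd hφ i).der.evL _)
  have h := curve_closed hX hφ D
  rw [hz, hz, map_zero, map_zero, sub_zero, hb, mapD_C] at h
  exact C_eq_zero.1 h

/-- The coefficients of a conic with `b ≠ 0` are algebraic over the field of its end points. -/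
theorem fc1_isAlgebraic (hX : IsContactFano 𝒜 P) (hφ : IsCurve 𝒜 2 φ) {b : Ω}
    (hb : omC P φ (pd φ 0) (pd φ 1) = C b) (hb0 : b ≠ 0) (K : Type w) [Field K] [Algebra ℂ K]
    [Algebra K Ω] [IsScalarTower ℂ K Ω] (h10 : ∀ r, ∃ c : K, algebraMap K Ω c = pt φ ![1, 0] r)
    (h01 : ∀ r, ∃ c : K, algebraMap K Ω c = pt φ ![0, 1] r) (r : R) (m : Fin 2 →₀ ℕ) :
    IsAlgebraic K (coeff m (φ r)) := by
  classical
  have hchar : CharZero Ω := charZero_of_injective_algebraMap (algebraMap ℂ Ω).injective
  -- `b` is algebraic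
  have hbalg : IsAlgebraic K b := by
    by_contra hcon
    have htr : Transcendental K b := hcon
    let _ : Algebra (Polynomial K) Ω := (Polynomial.aeval b : Polynomial K →ₐ[K] Ω).toAlgebra
    have hinj : Function.Injective (algebraMap (Polynomial K) Ω) :=
      transcendental_iff_injective.1 htr
    have htower : IsScalarTower K (Polynomial K) Ω := IsScalarTower.of_algebraMap_eq fun c => by
      change _ = Polynomial.aeval b (Polynomial.C c)
      rw [Polynomial.aeval_C]
    obtain ⟨D, hD⟩ := exists_derivation_extend (k := K) (A := Polynomial K) (E := Ω) hinj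
      ((Algebra.linearMap (Polynomial K) Ω).compDer Polynomial.derivative')
    have hDb : D b = 1 := by
      have h1 := hD Polynomial.X
      have h2 : algebraMap (Polynomial K) Ω Polynomial.X = b := Polynomial.aeval_X b
      rw [h2] at h1
      rw [h1]
      change algebraMap (Polynomial K) Ω (Polynomial.derivative Polynomial.X) = 1
      rw [Polynomial.derivative_X, map_one]
    have hK : ∀ c : K, D (algebraMap K Ω c) = 0 := fun c => D.map_algebraMap c
    have h0 : D.restrictScalars ℂ b = 0 := by
      refine fc1_apply_b hX hφ hb _ (fun r => ?_) (fun r => ?_)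
      · obtain ⟨c, hc⟩ := h10 r
        rw [← hc]
        exact hK c
      · obtain ⟨c, hc⟩ := h01 r
        rw [← hc]
        exact hK c
    have h1 : D b = 0 := h0
    rw [hDb] at h1
    exact one_ne_zero h1
  by_contra hcon
  set a := coeff m (φ r) with ha
  have htr : Transcendental K a := hcon
  have ha0 : a ≠ 0 := by
    intro h0
    exact htr (by rw [h0]; exact isAlgebraic_zero)
  have hainv : Transcendental K a⁻¹ := by
    intro h
    exact htr (by simpa using h.inv)
  -- a valuation with `a⁻¹` in the maximal ideal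
  obtain ⟨O, hO⟩ := exists_valuationSubring_prime
    ((Polynomial.aeval a⁻¹ : Polynomial K →ₐ[K] Ω) : Polynomial K →+* Ω)
    (transcendental_iff_injective.1 hainv) (Ideal.span {(Polynomial.X : Polynomial K)})
    (h𝔭 := (Ideal.span_singleton_prime Polynomial.X_ne_zero).2 Polynomial.prime_X)
  have hv1 : O.valuation a⁻¹ < 1 := by
    have h1 := ((hO Polynomial.X).2).1 (Ideal.mem_span_singleton_self _)
    have h2 : ((Polynomial.aeval a⁻¹ : Polynomial K →ₐ[K] Ω) : Polynomial K →+* Ω)
        Polynomial.X = a⁻¹ := Polynomial.aeval_X _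
    rwa [h2] at h1
  have hKO : ∀ c : K, algebraMap K Ω c ∈ O := by
    intro c
    have h1 := (hO (Polynomial.C c)).1
    have h2 : ((Polynomial.aeval a⁻¹ : Polynomial K →ₐ[K] Ω) : Polynomial K →+* Ω)
        (Polynomial.C c) = algebraMap K Ω c := Polynomial.aeval_C _ _
    rwa [h2] at h1
  have hKle : ∀ c : K, O.valuation (algebraMap K Ω c) ≤ 1 := fun c =>
    (O.valuation_le_one_iff _).2 (hKO c)
  have hKeq : ∀ c : K, c ≠ 0 → O.valuation (algebraMap K Ω c) = 1 := by
    intro c hc
    refine le_antisymm (hKle c) ?_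
    have h1 := hKle c⁻¹
    rw [map_inv₀, map_inv₀] at h1
    have h2 : O.valuation (algebraMap K Ω c) ≠ 0 := by
      rw [Ne, Valuation.zero_iff]
      exact fun h => hc ((algebraMap K Ω).injective (by rw [h, map_zero]))
    rwa [inv_le_one₀ (zero_lt_iff.2 h2)] at h1
  -- elements algebraic over `K` are integral over `K`
  have halg : ∀ z : Ω, IsAlgebraic K z → O.valuation z ≤ 1 := by
    intro z hz
    have hzi : IsIntegral K z := hz.isIntegral
    have h1 : IsIntegral O z := by
      let g : K →+* O := (algebraMap K Ω).codRestrict O.toSubring hKO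
      exact IsIntegral.map_of_comp_eq g (RingHom.id Ω) rfl hzi
    obtain ⟨y, hy⟩ := IsIntegrallyClosed.isIntegral_iff.1 h1
    rw [← hy]
    exact (O.valuation_le_one_iff _).2 y.2
  have hvb : O.valuation b = 1 := by
    refine le_antisymm (halg b hbalg) ?_
    have h1 := halg b⁻¹ hbalg.inv
    rw [map_inv₀] at h1
    have h2 : O.valuation b ≠ 0 := by
      rw [Ne, Valuation.zero_iff]
      exact hb0
    rwa [inv_le_one₀ (zero_lt_iff.2 h2)] at h1
  obtain ⟨γ, hγ0, hγ1, hbγ, hc⟩ := bound_strong hX hφ hb O.valuation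
    (fun c => by
      rw [IsScalarTower.algebraMap_apply ℂ K Ω]
      exact hKle _)
    (fun r => by
      obtain ⟨c, hc⟩ := h10 r
      rw [← hc]
      exact hKle c)
    (fun r => by
      obtain ⟨c, hc⟩ := h01 r
      rw [← hc]
      exact hKle c)
    (by
      obtain ⟨k, hk, r, hr, hne⟩ := hφ.bpf ![0, 1] vec01_ne
      refine ⟨k, hk, r, hr, ?_⟩
      obtain ⟨c, hc⟩ := h01 r
      rw [← hc]
      refine hKeq c fun h0 => hne ?_
      have h1 : pt φ ![0, 1] r = 0 := by rw [← hc, h0, map_zero]
      exact h1)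
  have hγ : O.valuation γ = 1 := le_antisymm hγ1 (by rw [← hvb]; exact hbγ)
  have h1 := hc r m
  rw [hγ, one_pow, mul_one, ← ha] at h1
  have h2 : O.valuation a ≠ 0 := by
    rw [Ne, Valuation.zero_iff]
    exact ha0
  rw [map_inv₀, inv_lt_one₀ (zero_lt_iff.2 h2)] at hv1
  exact absurd h1 (not_le.2 hv1)

/-- A derivation which kills the end points of a conic with `b ≠ 0` kills all coefficients. -/
theorem fc1_apply_coeff (hX : IsContactFano 𝒜 P) (hφ : IsCurve 𝒜 2 φ) {b : Ω}
    (hb : omC P φ (pd φ 0) (pd φ 1) = C b) (hb0 : b ≠ 0) (D : Derivation ℂ Ω Ω)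
    (h10 : ∀ r, D (pt φ ![1, 0] r) = 0) (h01 : ∀ r, D (pt φ ![0, 1] r) = 0) (r : R)
    (m : Fin 2 →₀ ℕ) : D (coeff m (φ r)) = 0 := by
  classical
  -- the field of constants of `D`
  let K : IntermediateField ℂ Ω :=
    { carrier := {z | D z = 0}
      mul_mem' := fun {a b} ha hb => by
        change D (a * b) = 0
        have ha' : D a = 0 := ha
        have hb' : D b = 0 := hb
        rw [Derivation.leibniz, ha', hb', smul_zero, smul_zero, add_zero]
      add_mem' := fun {a b} ha hb => by
        change D (a + b) = 0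
        have ha' : D a = 0 := ha
        have hb' : D b = 0 := hb
        rw [map_add, ha', hb', add_zero]
      algebraMap_mem' := fun c => D.map_algebraMap c
      inv_mem' := fun a ha => by
        change D a⁻¹ = 0
        have ha' : D a = 0 := ha
        rw [Derivation.leibniz_inv, ha', smul_zero] }
  have hK : ∀ z, z ∈ K ↔ D z = 0 := fun z => Iff.rfl
  have hchar : CharZero Ω := charZero_of_injective_algebraMap (algebraMap ℂ Ω).injective
  have h1 := fc1_isAlgebraic hX hφ hb hb0 K (fun r => ⟨⟨_, (hK _).2 (h10 r)⟩, rfl⟩)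
    (fun r => ⟨⟨_, (hK _).2 (h01 r)⟩, rfl⟩) r m
  -- a derivation kills elements algebraic over its constants
  have hmin := minpoly.aeval K (coeff m (φ r))
  let DK : Derivation K Ω Ω := Derivation.mk' (R := K)
    { toFun := D
      map_add' := map_add D
      map_smul' := fun c z => by
        have h2 : D (algebraMap K Ω c) = 0 := (hK _).1 c.2
        rw [Algebra.smul_def, Derivation.leibniz, RingHom.id_apply, h2, smul_zero, add_zero,
          smul_eq_mul]
        exact (Algebra.smul_def c (D z)).symm }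
    (fun a b => D.leibniz a b)
  have hsep : Polynomial.aeval (coeff m (φ r)) (Polynomial.derivative
      (minpoly K (coeff m (φ r)))) ≠ 0 := by
    have h2 : (minpoly K (coeff m (φ r))).Separable :=
      (minpoly.irreducible h1.isIntegral).separable
    exact h2.aeval_derivative_ne_zero hmin
  have h3 : DK (Polynomial.aeval (coeff m (φ r)) (minpoly K (coeff m (φ r)))) =
      Polynomial.aeval (coeff m (φ r)) (Polynomial.derivative
        (minpoly K (coeff m (φ r)))) • DK (coeff m (φ r)) := by
    rw [Derivation.map_aeval]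
  rw [hmin, map_zero, smul_eq_mul] at h3
  exact (mul_eq_zero.1 h3.symm).resolve_left hsep

end

end Vale.Agent.P292
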