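import Vale.Agent.P292.K.Q2Defs

/-! # Q2 part I, block LC: linear change of the parameter of a curve. -/

namespace Vale.Agent.P292

open MvPolynomial

universe u v w

/-- The linear substitution `x ↦ x 0 • a + x 1 • c`. -/
noncomputable def lcSub {K : Type v} [Field K] (a c : Fin 2 → K) :
    MvPolynomial (Fin 2) K →ₐ[K] MvPolynomial (Fin 2) K :=
  aeval fun i => C (a i) * X 0 + C (c i) * X 1

theorem lcSub_isHomogeneous {K : Type v} [Field K] (a c : Fin 2 → K) {p : MvPolynomial (Fin 2) K}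
    {n : ℕ} (hp : p.IsHomogeneous n) : (lcSub a c p).IsHomogeneous n := by
  have h := hp.aeval (fun i : Fin 2 => C (a i) * X 0 + C (c i) * X 1) (n := 1)
    (fun i => ((isHomogeneous_C_mul_X (a i) (0 : Fin 2)).add
      (isHomogeneous_C_mul_X (c i) (1 : Fin 2))))
  rwa [one_mul] at h

theorem eval_lcSub {K : Type v} [Field K] (a c x : Fin 2 → K) (p : MvPolynomial (Fin 2) K) :
    eval x (lcSub a c p) = eval (x 0 • a + x 1 • c) p := by
  induction p using MvPolynomial.induction_on with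
  | C r => simp [lcSub]
  | add p q hp hq => rw [map_add, map_add, hp, hq, map_add]
  | mul_X p i hp =>
    rw [map_mul, map_mul, hp, map_mul, eval_X]
    congr 1
    simp [lcSub, mul_comm]

variable {R : Type u} [CommRing R] [Algebra ℂ R] {𝒜 : ℕ → Submodule ℂ R}

/-- LC: linear change of the parameter. -/
theorem exists_reparam {K : Type v} [Field K] [IsAlgClosed K] [Algebra ℂ K] {d : ℕ}
    {φ : R →ₐ[ℂ] MvPolynomial (Fin 2) K} (hφ : IsCurve 𝒜 d φ) (a c : Fin 2 → K)
    (hac : a 0 * c 1 - a 1 * c 0 ≠ 0) :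
    ∃ ψ : R →ₐ[ℂ] MvPolynomial (Fin 2) K, IsCurve 𝒜 d ψ ∧
      (∀ (r : R) (x : Fin 2 → K), eval x (ψ r) = eval (x 0 • a + x 1 • c) (φ r)) ∧
      pt ψ ![1, 0] = pt φ a ∧ pt ψ ![0, 1] = pt φ c := by
  have hev : ∀ (r : R) (x : Fin 2 → K),
      eval x ((((lcSub a c).restrictScalars ℂ).comp φ) r) = eval (x 0 • a + x 1 • c) (φ r) :=
    fun r x => eval_lcSub a c x (φ r)
  refine ⟨((lcSub a c).restrictScalars ℂ).comp φ, ⟨fun k r hr => ?_, fun x hx => ?_⟩, hev, ?_, ?_⟩
  · exact lcSub_isHomogeneous a c (hφ.degree k r hr)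
  · have hy : x 0 • a + x 1 • c ≠ 0 := by
      intro h0
      apply hx
      have e0 : x 0 * a 0 + x 1 * c 0 = 0 := by
        have := congrFun h0 0
        simpa using this
      have e1 : x 0 * a 1 + x 1 * c 1 = 0 := by
        have := congrFun h0 1
        simpa using this
      have f0 : x 0 * (a 0 * c 1 - a 1 * c 0) = 0 := by linear_combination c 1 * e0 - c 0 * e1
      have f1 : x 1 * (a 0 * c 1 - a 1 * c 0) = 0 := by linear_combination a 0 * e1 - a 1 * e0
      funext i
      fin_cases i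
      · exact (mul_eq_zero.mp f0).resolve_right hac
      · exact (mul_eq_zero.mp f1).resolve_right hac
    obtain ⟨k, hk, r, hr, hne⟩ := hφ.bpf _ hy
    refine ⟨k, hk, r, hr, ?_⟩
    rw [aeval_eq_eval] at hne ⊢
    rw [hev]
    exact hne
  · ext r
    rw [pt_apply, pt_apply, hev]
    simp
  · ext r
    rw [pt_apply, pt_apply, hev]
    simp

/-- A binary form of positive degree which does not vanish at `(1, 0)` vanishes at some
`(x, 1)`. -/
theorem lc_exists_zero {K : Type v} [Field K] [IsAlgClosed K] [Algebra ℂ K]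
    {p : MvPolynomial (Fin 2) K} {m : ℕ}
    (hp : p.IsHomogeneous m) (hm : 0 < m) (h1 : eval ![1, 0] p ≠ 0) :
    ∃ x : K, eval ![x, 1] p = 0 := by
  by_contra hcon
  push Not at hcon
  let q : Polynomial K := aeval ![Polynomial.X, 1] p
  have hq : ∀ x, q.eval x = eval ![x, 1] p := by
    intro x
    have h : ((Polynomial.aeval x : Polynomial K →ₐ[K] K).comp
        (aeval ![Polynomial.X, 1] : MvPolynomial (Fin 2) K →ₐ[K] Polynomial K))
        = MvPolynomial.aeval ![x, 1] := by
      refine MvPolynomial.algHom_ext fun j => ?_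
      fin_cases j <;> simp
    have := AlgHom.congr_fun h p
    rw [AlgHom.comp_apply, Polynomial.coe_aeval_eq_eval, MvPolynomial.aeval_eq_eval] at this
    exact this
  have hdeg : q.degree = 0 := by
    by_contra hne
    obtain ⟨x, hx⟩ := IsAlgClosed.exists_root q hne
    exact hcon x (by rw [← hq]; exact hx)
  obtain ⟨b, hb⟩ := Polynomial.natDegree_eq_zero.mp (Polynomial.natDegree_eq_of_degree_eq_some hdeg)
  have hb1 : ∀ x, eval ![x, 1] p = b := by
    intro x
    rw [← hq, ← hb, Polynomial.eval_C]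
  let u : Polynomial K := aeval ![1, Polynomial.X] p
  have hu : ∀ x, u.eval x = eval ![1, x] p := by
    intro x
    have h : ((Polynomial.aeval x : Polynomial K →ₐ[K] K).comp
        (aeval ![1, Polynomial.X] : MvPolynomial (Fin 2) K →ₐ[K] Polynomial K))
        = MvPolynomial.aeval ![1, x] := by
      refine MvPolynomial.algHom_ext fun j => ?_
      fin_cases j <;> simp
    have := AlgHom.congr_fun h p
    rw [AlgHom.comp_apply, Polynomial.coe_aeval_eq_eval, MvPolynomial.aeval_eq_eval] at this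
    exact this
  have hz : Polynomial.X * (u - Polynomial.C b * Polynomial.X ^ m) = 0 := by
    apply Polynomial.funext
    intro s
    rw [Polynomial.eval_mul, Polynomial.eval_X, Polynomial.eval_zero]
    rcases eq_or_ne s 0 with h0 | h0
    · rw [h0, zero_mul]
    · have h2 : (![1, s] : Fin 2 → K) = s • ![s⁻¹, 1] := by
        funext i
        fin_cases i
        · simp [h0]
        · simp
      rw [Polynomial.eval_sub, hu, h2, eval_smul_form hp, hb1, Polynomial.eval_mul,
        Polynomial.eval_C, Polynomial.eval_pow, Polynomial.eval_X]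
      ring
  have hz' : u - Polynomial.C b * Polynomial.X ^ m = 0 :=
    (mul_eq_zero.mp hz).resolve_left Polynomial.X_ne_zero
  apply h1
  rw [← hu, sub_eq_zero.mp hz']
  simp [hm.ne']

/-- LC2: every anchored curve can be reparametrised to have non-proportional ends. -/
theorem exists_nonProp {P : R →ₗ[ℂ] R →ₗ[ℂ] R} [GradedAlgebra 𝒜] (_hX : IsContactFano 𝒜 P)
    {K : Type u} [Field K]
    [IsAlgClosed K] [Algebra ℂ K] {d : ℕ} (hd : 0 < d) {φ : R →ₐ[ℂ] MvPolynomial (Fin 2) K}
    (hφ : IsAnch 𝒜 d φ) :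
    ∃ ψ : R →ₐ[ℂ] MvPolynomial (Fin 2) K, IsAnch 𝒜 d ψ ∧ NonProp 𝒜 ψ := by
  have h10 : (![1, 0] : Fin 2 → K) ≠ 0 := by
    intro h
    have := congrFun h 0
    simp at this
  obtain ⟨k, hk, r, hr, hr1⟩ := hφ.curve.bpf _ h10
  rw [aeval_eq_eval] at hr1
  obtain ⟨x, hx⟩ := lc_exists_zero (hφ.curve.degree k r hr) (Nat.mul_pos hd hk) hr1
  have hx1 : (![x, 1] : Fin 2 → K) ≠ 0 := by
    intro h
    have := congrFun h 1
    simp at this
  obtain ⟨l, hl, s, hs, hs1⟩ := hφ.curve.bpf _ hx1
  rw [aeval_eq_eval] at hs1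
  obtain ⟨ψ, hψ, -, h1, h2⟩ := exists_reparam hφ.curve ![1, 0] ![x, 1] (by simp)
  refine ⟨ψ, ⟨hψ, by rw [h1]; exact hφ.inj⟩, k * l, r ^ l, ?_, s ^ k, ?_, ?_⟩
  · have := SetLike.pow_mem_graded l hr
    rwa [smul_eq_mul, mul_comm] at this
  · have := SetLike.pow_mem_graded k hs
    rwa [smul_eq_mul] at this
  · rw [h1, h2, map_pow, map_pow, map_pow, map_pow, pt_apply, pt_apply, pt_apply, pt_apply, hx,
      zero_pow hl.ne', mul_zero]
    exact mul_ne_zero (pow_ne_zero _ hr1) (pow_ne_zero _ hs1)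

end Vale.Agent.P292
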