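import Vale.Agent.P292.K.Frame0

/-! # Frames along a curve.
If the derivations of degree zero along a curve take all values at `(1, 0)`, then there are
homogeneous derivations `δ_i` of degrees `-d ≤ e_i ≤ 0` with constant nonzero Gram determinant
for the symplectic form: a basis of the derivations along the curve. -/

namespace Vale.Agent.P292

open MvPolynomial

universe u v w

/-- A binary form of positive degree has a zero. -/
theorem fr_exists_zero {κ : Type v} [Field κ] [IsAlgClosed κ] {F : MvPolynomial (Fin 2) κ} {m : ℕ}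
    (hm : 0 < m) (hF : F.IsHomogeneous m) : ∃ a : Fin 2 → κ, a ≠ 0 ∧ eval a F = 0 := by
  by_contra hcon
  push Not at hcon
  have hF0 : F ≠ 0 := fun h => hcon ![1, 0] (fun h => one_ne_zero (congrFun h 0)) (by rw [h, map_zero])
  have hF1 : algebraMap _ (FractionRing (MvPolynomial (Fin 2) κ)) F ≠ 0 := by
    rwa [Ne, FaithfulSMul.algebraMap_eq_zero_iff]
  obtain ⟨c, hc⟩ := c1_exists_poly (algebraMap _ (FractionRing (MvPolynomial (Fin 2) κ)) F)⁻¹
    fun a ha => ⟨F, 1, hcon a ha, by rw [mul_inv_cancel₀ hF1, map_one]⟩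
  have h1 : c * F = 1 := by
    apply IsFractionRing.injective (MvPolynomial (Fin 2) κ) (FractionRing (MvPolynomial (Fin 2) κ))
    rw [map_mul, hc, inv_mul_cancel₀ hF1, map_one]
  have hc0 : c ≠ 0 := fun h => by rw [h, zero_mul] at h1; exact zero_ne_one h1
  have h2 := totalDegree_mul_of_isDomain hc0 hF0
  rw [h1, totalDegree_one, hF.totalDegree hF0] at h2
  omega

variable {R : Type u} [CommRing R] [Algebra ℂ R] {𝒜 : ℕ → Submodule ℂ R} [GradedAlgebra 𝒜]
  {P : R →ₗ[ℂ] R →ₗ[ℂ] R}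

section point

variable {E : Type v} [Field E] [Algebra ℂ E] {y : R →ₐ[ℂ] E}

theorem fr_chart_coord (hX : IsContactFano 𝒜 P) 
    (y : R →ₐ[ℂ] E) {N : ℕ} {x : Fin N → R} {g : R} (hg : y g ≠ 0)
    (hdet : y (Matrix.det (Matrix.of fun i j => P (x i) (x j))) ≠ 0)
    (h : ∀ r, ∃ c : Fin N → R, g • KaehlerDifferential.D ℂ R r =
      ∑ i, c i • KaehlerDifferential.D ℂ R (x i)) :
    (∀ δ : R →ₗ[ℂ] E, IsDer y δ → (∀ i, δ (x i) = 0) → δ = 0) ∧
    (∀ b : Fin N → E, ∃ δ : R →ₗ[ℂ] E, IsDer y δ ∧ ∀ i, δ (x i) = b i) := by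
  classical
  choose c hc using h
  constructor
  · intro δ hδ h0
    ext r
    apply mul_left_cancel₀ hg
    rw [a2_apply y hδ (hc r)]
    rw [LinearMap.zero_apply, mul_zero]
    refine Finset.sum_eq_zero fun i _ => ?_
    rw [h0 i, mul_zero]
  · intro b
    let M : Matrix (Fin N) (Fin N) E := (Matrix.of fun i j => P (x i) (x j)).map y
    have hM : IsUnit M.det := by
      have h1 : M.det = y (Matrix.det (Matrix.of fun i j => P (x i) (x j))) := by
        rw [AlgHom.map_det]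
        rfl
      rw [h1]
      exact isUnit_iff_ne_zero.2 hdet
    let a : Fin N → E := Matrix.vecMul b M⁻¹
    have ha : Matrix.vecMul a M = b := by
      rw [Matrix.vecMul_vecMul, Matrix.nonsing_inv_mul _ hM, Matrix.vecMul_one]
    let δ : R →ₗ[ℂ] E := ∑ j, a j • hamAt P y (x j)
    have hδ : δ ∈ DerAt y := Submodule.sum_mem _ fun j _ => Submodule.smul_mem _ _ (by
      intro r s
      rw [hamAt_apply, hamAt_apply, hamAt_apply, hX.leibniz, map_add, map_mul, map_mul]
      ring)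
    refine ⟨δ, hδ, ?_⟩
    intro i
    have h1 := congrFun ha i
    rw [Matrix.vecMul, dotProduct] at h1
    rw [← h1]
    change (∑ j, a j • hamAt P y (x j)) (x i) = _
    rw [LinearMap.sum_apply]
    exact Finset.sum_congr rfl fun j _ => rfl

/-- Coordinates on the derivations over a field valued point. -/
theorem fr_exists_coord (hX : IsContactFano 𝒜 P) [IsDomain R]
    (y : R →ₐ[ℂ] E) (hy : IsNV 𝒜 y) : ∃ x : Fin (cdim R) → R,
    (∀ δ : R →ₗ[ℂ] E, IsDer y δ → (∀ i, δ (x i) = 0) → δ = 0) ∧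
    (∀ b : Fin (cdim R) → E, ∃ δ : R →ₗ[ℂ] E, IsDer y δ ∧ ∀ i, δ (x i) = b i) := by
  obtain ⟨N, x, k, g, l, -, -, hg, hdet, hc⟩ := exists_chart_kd hX y hy
  have hg0 : g ≠ 0 := fun h => hg (by rw [h, map_zero])
  have hdet0 : Matrix.det (Matrix.of fun i j => P (x i) (x j)) ≠ 0 :=
    fun h => hdet (by rw [h, map_zero])
  set ι : R →ₐ[ℂ] FractionRing R := IsScalarTower.toAlgHom ℂ R (FractionRing R) with hι
  have hιinj : Function.Injective ι := IsFractionRing.injective R (FractionRing R)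
  obtain ⟨e⟩ := fr_chart_equiv hX ι (fun h => hg0 (hιinj (by rw [h, map_zero])))
    (fun h => hdet0 (hιinj (by rw [h, map_zero]))) hc
  have hN : cdim R = N := by
    rw [cdim, e.finrank_eq, Module.finrank_fin_fun]
  rw [hN]
  exact ⟨x, fr_chart_coord hX y hg hdet hc⟩

theorem fr_om_sum_left (hX : IsContactFano 𝒜 P) (hy : IsNV 𝒜 y) {ι : Type*} (s : Finset ι)
    (c : ι → E) {v : ι → R →ₗ[ℂ] E} {w : R →ₗ[ℂ] E} (hv : ∀ i ∈ s, IsDer y (v i))
    (hw : IsDer y w) : om P y (∑ i ∈ s, c i • v i) w = ∑ i ∈ s, c i * om P y (v i) w := by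
  classical
  induction s using Finset.induction_on with
  | empty => simpa using om_zero_left hX hy hw
  | insert a s ha ih =>
    have h2 : ∀ i ∈ s, IsDer y (v i) := fun i hi => hv i (Finset.mem_insert_of_mem hi)
    have h3 := hv a (Finset.mem_insert_self _ _)
    rw [Finset.sum_insert ha, Finset.sum_insert ha, om_add_left hX hy
      ((DerAt y).smul_mem _ h3) ((DerAt y).sum_mem fun i hi => (DerAt y).smul_mem _ (h2 i hi)) hw,
      om_smul_left hX hy h3 hw, ih h2]

omit [GradedAlgebra 𝒜] in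
theorem fr_isDer_sum {S : Type*} [CommRing S] [Algebra ℂ S] {y : R →ₐ[ℂ] S} {ι : Type*}
    (s : Finset ι) (c : ι → S) {v : ι → R →ₗ[ℂ] S}
    (hv : ∀ i ∈ s, IsDer y (v i)) : IsDer y (∑ i ∈ s, c i • v i) :=
  (DerAt y).sum_mem fun i hi => (DerAt y).smul_mem _ (hv i hi)

variable [IsDomain R]

/-- Derivations without nontrivial relations span. -/
theorem fr_span (hX : IsContactFano 𝒜 P) (hy : IsNV 𝒜 y) {v : Fin (cdim R) → R →ₗ[ℂ] E}
    (hv : ∀ i, IsDer y (v i)) (hli : ∀ c : Fin (cdim R) → E, ∑ i, c i • v i = 0 → c = 0)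
    {w : R →ₗ[ℂ] E} (hw : IsDer y w) : ∃ c : Fin (cdim R) → E, w = ∑ i, c i • v i := by
  obtain ⟨x, hx, -⟩ := fr_exists_coord hX y hy
  let V : Matrix (Fin (cdim R)) (Fin (cdim R)) E := Matrix.of fun i j => v i (x j)
  have hV : ∀ (c : Fin (cdim R) → E) j, (∑ i, c i • v i) (x j) = Matrix.vecMul c V j := by
    intro c j
    rw [LinearMap.sum_apply, Matrix.vecMul, dotProduct]
    exact Finset.sum_congr rfl fun i _ => rfl
  have hdet : V.det ≠ 0 := by
    intro h0
    obtain ⟨c, hc0, hc⟩ := Matrix.exists_vecMul_eq_zero_iff.2 h0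
    apply hc0
    apply hli
    refine hx _ (fr_isDer_sum _ _ fun i _ => hv i) fun j => ?_
    rw [hV, hc, Pi.zero_apply]
  refine ⟨Matrix.vecMul (fun j => w (x j)) V⁻¹, ?_⟩
  rw [← sub_eq_zero]
  refine hx _ ((DerAt y).sub_mem hw (fr_isDer_sum _ _ fun i _ => hv i)) fun j => ?_
  rw [LinearMap.sub_apply, hV, Matrix.vecMul_vecMul,
    Matrix.nonsing_inv_mul _ (isUnit_iff_ne_zero.2 hdet), Matrix.vecMul_one, sub_self]

omit [IsDomain R] in
/-- A nonzero Gram determinant gives linear independence. -/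
theorem fr_indep (hX : IsContactFano 𝒜 P) (hy : IsNV 𝒜 y) {v : Fin (cdim R) → R →ₗ[ℂ] E}
    (hv : ∀ i, IsDer y (v i))
    (h : (Matrix.of fun i j => om P y (v i) (v j)).det ≠ 0) (c : Fin (cdim R) → E)
    (hc : ∑ i, c i • v i = 0) : c = 0 := by
  have h1 : Matrix.vecMul c (Matrix.of fun i j => om P y (v i) (v j)) = 0 := by
    ext j
    have h2 := fr_om_sum_left hX hy Finset.univ c (w := v j) (fun i _ => hv i) (hv j)
    rw [hc, om_zero_left hX hy (hv j)] at h2
    rw [Matrix.vecMul, dotProduct, Pi.zero_apply]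
    exact h2.symm
  exact Matrix.eq_zero_of_vecMul_eq_zero h h1

/-- A zero Gram determinant gives linear dependence. -/
theorem fr_dep (hX : IsContactFano 𝒜 P) (hy : IsNV 𝒜 y) {v : Fin (cdim R) → R →ₗ[ℂ] E}
    (hv : ∀ i, IsDer y (v i))
    (h : (Matrix.of fun i j => om P y (v i) (v j)).det = 0) :
    ∃ c : Fin (cdim R) → E, c ≠ 0 ∧ ∑ i, c i • v i = 0 := by
  by_contra hcon
  have hli : ∀ c : Fin (cdim R) → E, ∑ i, c i • v i = 0 → c = 0 := by
    intro c hc
    by_contra hc0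
    exact hcon ⟨c, hc0, hc⟩
  obtain ⟨c, hc0, hc⟩ := Matrix.exists_vecMul_eq_zero_iff.2 h
  apply hc0
  apply hli
  have hs : IsDer y (∑ i, c i • v i) := fr_isDer_sum _ _ fun i _ => hv i
  refine eq_zero_of_om hX hy hs fun δ' hδ' => ?_
  obtain ⟨b, rfl⟩ := fr_span hX hy hv hli hδ'
  rw [om_antisymm hX hy hs hδ', fr_om_sum_left hX hy Finset.univ b (fun i _ => hv i) hs,
    neg_eq_zero]
  refine Finset.sum_eq_zero fun j _ => ?_
  rw [om_antisymm hX hy (hv j) hs, fr_om_sum_left hX hy Finset.univ c (fun i _ => hv i) (hv j)]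
  have h2 := congrFun hc j
  rw [Matrix.vecMul, dotProduct, Pi.zero_apply] at h2
  have h3 : ∑ i, c i * om P y (v i) (v j) = 0 := h2
  rw [h3, neg_zero, mul_zero]

end point

section curve

variable {κ : Type v} [Field κ] [IsAlgClosed κ] [Algebra ℂ κ] {d : ℕ}
  {φ : R →ₐ[ℂ] MvPolynomial (Fin 2) κ}

omit [IsAlgClosed κ] in
theorem fr_isDer_evL {δ : R →ₗ[ℂ] MvPolynomial (Fin 2) κ} (h : IsDer φ δ) (a : Fin 2 → κ) :
    IsDer (pt φ a) (evL a δ) := fun r s => by
  simp [h r s]

theorem fr_omC_eval (hX : IsContactFano 𝒜 P) (hφ : IsCurve 𝒜 d φ)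
    {δ δ' : R →ₗ[ℂ] MvPolynomial (Fin 2) κ} (h1 : IsDer φ δ) (h2 : IsDer φ δ')
    (a : Fin 2 → κ) (ha : a ≠ 0) :
    om P (pt φ a) (evL a δ) (evL a δ') = eval a (omC P φ δ δ') := by
  have := c1_omC_spec hX hφ h1 h2
    ((aeval a : MvPolynomial (Fin 2) κ →ₐ[κ] κ).restrictScalars ℂ) (c1_isNV_pt hφ a ha)
  refine this.trans ?_
  rw [AlgHom.restrictScalars_apply, aeval_eq_eval]

/-- The Gram determinant of linear combinations. -/
theorem fr_gram_det (hX : IsContactFano 𝒜 P) (hφ : IsCurve 𝒜 d φ) {N : ℕ}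
    {δ : Fin N → R →ₗ[ℂ] MvPolynomial (Fin 2) κ} (h : ∀ i, IsDer φ (δ i))
    (Q : Matrix (Fin N) (Fin N) (MvPolynomial (Fin 2) κ)) :
    (Matrix.of fun a b => omC P φ (∑ i, Q a i • δ i) (∑ i, Q b i • δ i)).det =
      Q.det * (Matrix.of fun i j => omC P φ (δ i) (δ j)).det * Q.det := by
  have h1 : (Matrix.of fun a b => omC P φ (∑ i, Q a i • δ i) (∑ i, Q b i • δ i)) =
      Q * (Matrix.of fun i j => omC P φ (δ i) (δ j)) * Q.transpose := by
    ext1 a b
    rw [Matrix.of_apply, fr_omC_sum_left hX hφ _ _ (fun i _ => h i)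
      ((DerAt φ).sum_mem fun i _ => (DerAt φ).smul_mem _ (h i)), Matrix.mul_assoc,
      Matrix.mul_apply]
    refine Finset.sum_congr rfl fun i _ => ?_
    rw [fr_omC_sum_right hX hφ _ _ (fun i _ => h i) (h i), Matrix.mul_apply]
    congr 1
    refine Finset.sum_congr rfl fun j _ => ?_
    rw [Matrix.of_apply, Matrix.transpose_apply, mul_comm]
  rw [h1, Matrix.det_mul, Matrix.det_mul, Matrix.det_transpose]

theorem fr_gram_zhom (hX : IsContactFano 𝒜 P) (hφ : IsCurve 𝒜 d φ) {N : ℕ} {e : Fin N → ℤ}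
    {δ : Fin N → R →ₗ[ℂ] MvPolynomial (Fin 2) κ} (h : ∀ i, IsHDer 𝒜 d φ (e i) (δ i)) :
    ZHom (Matrix.of fun i j => omC P φ (δ i) (δ j)).det (∑ i, (2 * e i + d)) := by
  have h1 := ZHom.det (M := Matrix.of fun i j => omC P φ (δ i) (δ j)) e (fun j => e j + d)
    fun i j => (omC_zhom hX hφ (h i) (h j)).congr (by ring)
  refine h1.congr ?_
  rw [← Finset.sum_add_distrib]
  exact Finset.sum_congr rfl fun i _ => by ring

/-- A frame of homogeneous derivations along a curve. -/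
structure IsHFrame (𝒜 : ℕ → Submodule ℂ R) (P : R →ₗ[ℂ] R →ₗ[ℂ] R) (d : ℕ)
    (φ : R →ₐ[ℂ] MvPolynomial (Fin 2) κ) {N : ℕ} (e : Fin N → ℤ)
    (δ : Fin N → R →ₗ[ℂ] MvPolynomial (Fin 2) κ) (c : κ) : Prop where
  nonpos : ∀ i, e i ≤ 0
  ge : ∀ i, -(d : ℤ) ≤ e i
  hder : ∀ i, IsHDer 𝒜 d φ (e i) (δ i)
  ne : c ≠ 0
  det : (Matrix.of fun i j => omC P φ (δ i) (δ j)).det = C c
  sum : ∑ i, (2 * e i + d) = 0


/-- Replacing one member of the family, the Gram determinant stays nonzero. -/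
theorem fr_gram_update (hX : IsContactFano 𝒜 P) (hφ : IsCurve 𝒜 d φ) {N : ℕ}
    {δ : Fin N → R →ₗ[ℂ] MvPolynomial (Fin 2) κ} (h : ∀ i, IsDer φ (δ i))
    (hdet : (Matrix.of fun i j => omC P φ (δ i) (δ j)).det ≠ 0) (j : Fin N)
    (q : Fin N → MvPolynomial (Fin 2) κ) (hq : q j ≠ 0) (L : MvPolynomial (Fin 2) κ)
    {δj : R →ₗ[ℂ] MvPolynomial (Fin 2) κ} (hδj : IsDer φ δj)
    (hL : ∑ i, q i • δ i = L • δj) :
    (Matrix.of fun a b => omC P φ (Function.update δ j δj a) (Function.update δ j δj b)).det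
      ≠ 0 := by
  classical
  intro h0
  have hδ' : ∀ i, IsDer φ (Function.update δ j δj i) := by
    intro i
    by_cases hij : i = j
    · subst hij
      rw [Function.update_self]
      exact hδj
    · rw [Function.update_of_ne hij]
      exact h i
  have e1 := fr_gram_det hX hφ h
    ((1 : Matrix (Fin N) (Fin N) (MvPolynomial (Fin 2) κ)).updateRow j q)
  have e2 := fr_gram_det hX hφ hδ' (Matrix.diagonal (Function.update 1 j L))
  have e3 : ∀ a, ∑ i, ((1 : Matrix (Fin N) (Fin N)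
      (MvPolynomial (Fin 2) κ)).updateRow j q) a i • δ i = Function.update δ j (L • δj) a := by
    intro a
    by_cases haj : a = j
    · subst haj
      rw [Matrix.updateRow_self, Function.update_self, hL]
    · rw [Matrix.updateRow_ne haj, Function.update_of_ne haj]
      rw [Finset.sum_eq_single a]
      · rw [Matrix.one_apply_eq, one_smul]
      · intro i _ hia
        rw [Matrix.one_apply_ne (Ne.symm hia), zero_smul]
      · intro h'
        exact absurd (Finset.mem_univ a) h'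
  have e4 : ∀ a, ∑ i, (Matrix.diagonal (Function.update (1 : Fin N →
      MvPolynomial (Fin 2) κ) j L)) a i • Function.update δ j δj i =
      Function.update δ j (L • δj) a := by
    intro a
    rw [Finset.sum_eq_single a]
    · rw [Matrix.diagonal_apply_eq]
      by_cases haj : a = j
      · subst haj
        rw [Function.update_self, Function.update_self, Function.update_self]
      · rw [Function.update_of_ne haj, Function.update_of_ne haj, Function.update_of_ne haj,
          Pi.one_apply, one_smul]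
    · intro i _ hia
      rw [Matrix.diagonal_apply_ne _ (Ne.symm hia), zero_smul]
    · intro h'
      exact absurd (Finset.mem_univ a) h'
  have e5 : ((1 : Matrix (Fin N) (Fin N) (MvPolynomial (Fin 2) κ)).updateRow j q).det = q j := by
    rw [← Matrix.cramer_transpose_apply, Matrix.transpose_one, Matrix.cramer_one]
    rfl
  simp only [e3] at e1
  simp only [e4] at e2
  rw [e1, h0, mul_zero, zero_mul, e5] at e2
  exact mul_ne_zero (mul_ne_zero hq hdet) hq e2

variable [IsDomain R]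

/-- At a zero of the Gram determinant the values are linearly dependent. -/
theorem fr_dep_curve (hX : IsContactFano 𝒜 P) (hφ : IsCurve 𝒜 d φ)
    {δ : Fin (cdim R) → R →ₗ[ℂ] MvPolynomial (Fin 2) κ} (h : ∀ i, IsDer φ (δ i))
    {u : Fin 2 → κ} (hu : u ≠ 0)
    (hu0 : eval u (Matrix.of fun i j => omC P φ (δ i) (δ j)).det = 0) :
    ∃ c : Fin (cdim R) → κ, c ≠ 0 ∧ ∀ r, ∑ i, c i * eval u (δ i r) = 0 := by
  have hG : (Matrix.of fun i j => om P (pt φ u) (evL u (δ i)) (evL u (δ j))).det = 0 := by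
    have h1 : (Matrix.of fun i j => om P (pt φ u) (evL u (δ i)) (evL u (δ j))) =
        (eval u).mapMatrix (Matrix.of fun i j => omC P φ (δ i) (δ j)) := by
      ext i j
      rw [RingHom.mapMatrix_apply, Matrix.map_apply, Matrix.of_apply, Matrix.of_apply]
      exact fr_omC_eval hX hφ (h i) (h j) u hu
    rw [h1, ← RingHom.map_det, hu0]
  obtain ⟨c, hc0, hc⟩ := fr_dep hX (c1_isNV_pt hφ u hu) (fun i => fr_isDer_evL (h i) u) hG
  refine ⟨c, hc0, fun r => ?_⟩
  have h2 := congrArg (fun f => f r) hc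
  rw [LinearMap.zero_apply] at h2
  rw [← h2]
  change _ = (∑ i, c i • evL u (δ i)) r
  rw [LinearMap.sum_apply]
  refine Finset.sum_congr rfl fun i _ => ?_
  rw [LinearMap.smul_apply, evL_apply, smul_eq_mul]

/-- The reduction step: if the Gram determinant is not constant, one can divide. -/
theorem fr_step (hX : IsContactFano 𝒜 P) (hφ : IsCurve 𝒜 d φ) {e : Fin (cdim R) → ℤ}
    {δ : Fin (cdim R) → R →ₗ[ℂ] MvPolynomial (Fin 2) κ} (h : ∀ i, IsHDer 𝒜 d φ (e i) (δ i))
    (hle : ∀ i, e i ≤ 0)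
    (hdet : (Matrix.of fun i j => omC P φ (δ i) (δ j)).det ≠ 0)
    (hpos : 0 < ∑ i, (2 * e i + d)) :
    ∃ (e' : Fin (cdim R) → ℤ) (δ' : Fin (cdim R) → R →ₗ[ℂ] MvPolynomial (Fin 2) κ),
      (∀ i, IsHDer 𝒜 d φ (e' i) (δ' i)) ∧ (∀ i, e' i ≤ 0) ∧
      (Matrix.of fun i j => omC P φ (δ' i) (δ' j)).det ≠ 0 ∧
      ∑ i, (2 * e' i + d) = ∑ i, (2 * e i + d) - 2 := by
  classical
  have hz := fr_gram_zhom hX hφ h
  obtain ⟨m, hm⟩ := Int.eq_ofNat_of_zero_le hpos.le
  have hm0 : 0 < m := by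
    rw [hm] at hpos
    exact_mod_cast hpos
  obtain ⟨u, hu, hu0⟩ := fr_exists_zero hm0 (hz.nat m hm.symm)
  obtain ⟨c, hc0, hc'⟩ := fr_dep_curve hX hφ (fun i => (h i).der) hu hu0
  obtain ⟨i₀, hi₀⟩ := Function.ne_iff.1 hc0
  -- choose the index of maximal degree
  obtain ⟨j, hj, hjmax⟩ := Finset.exists_max_image (Finset.univ.filter fun i => c i ≠ 0) e
    ⟨i₀, by simpa using hi₀⟩
  have hcj : c j ≠ 0 := (Finset.mem_filter.1 hj).2
  have hmax : ∀ i, c i ≠ 0 → e i ≤ e j := fun i hi => hjmax i (by simp [hi])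
  obtain ⟨l, hl, hlu⟩ := exists_frU hu
  let q : Fin (cdim R) → MvPolynomial (Fin 2) κ := fun i => C (c i) * l ^ (e j - e i).toNat
  have hqj : q j = C (c j) := by simp [q]
  have hqj0 : q j ≠ 0 := by
    rw [hqj]
    rwa [Ne, C_eq_zero]
  have hq : ∀ i, IsHDer 𝒜 d φ (e j) (q i • δ i) := by
    intro i
    by_cases hci : c i = 0
    · have : q i = 0 := by simp [q, hci]
      rw [this, zero_smul]
      exact IsHDer.fr_zero _
    · have h1 : ZHom (q i) (e j - e i) := by
        have h2 := ZHom.of_nat ((isHomogeneous_C (Fin 2) (c i)).mul (hl.pow (e j - e i).toNat))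
        refine h2.congr ?_
        have := hmax i hci
        push_cast
        omega
      exact ((h i).fr_smul h1).fr_congr (by ring)
  have hθh : IsHDer 𝒜 d φ (e j) (∑ i, q i • δ i) := IsHDer.fr_sum _ fun i _ => hq i
  have hθ0 : ∀ r, eval u ((∑ i, q i • δ i) r) = 0 := by
    intro r
    rw [LinearMap.sum_apply, map_sum, ← hc' r]
    refine Finset.sum_congr rfl fun i _ => ?_
    rw [LinearMap.smul_apply, smul_eq_mul, map_mul]
    congr 1
    simp [q, hlu]
  obtain ⟨δj, hδj, hδjθ⟩ := hθh.fr_div hu hθ0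
  refine ⟨Function.update e j (e j - 1), Function.update δ j δj, ?_, ?_,
    fr_gram_update hX hφ (fun i => (h i).der) hdet j q hqj0 (frL u) hδj.der hδjθ, ?_⟩
  · intro i
    by_cases hij : i = j
    · subst hij
      rw [Function.update_self, Function.update_self]
      exact hδj
    · rw [Function.update_of_ne hij, Function.update_of_ne hij]
      exact h i
  · intro i
    by_cases hij : i = j
    · subst hij
      rw [Function.update_self]
      have := hle i
      omega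
    · rw [Function.update_of_ne hij]
      exact hle i
  · have h7 : ∀ i, 2 * Function.update e j (e j - 1) i + (d : ℤ) =
        (2 * e i + d) - if i = j then 2 else 0 := by
      intro i
      by_cases hij : i = j
      · subst hij
        rw [Function.update_self, if_pos rfl]
        ring
      · rw [Function.update_of_ne hij, if_neg hij, sub_zero]
    rw [Finset.sum_congr rfl fun i _ => h7 i, Finset.sum_sub_distrib, Finset.sum_ite_eq',
      if_pos (Finset.mem_univ j)]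

/-- The reduction, carried out to the end. -/
theorem fr_reduce (hX : IsContactFano 𝒜 P) (hφ : IsCurve 𝒜 d φ) (n : ℕ) :
    ∀ (e : Fin (cdim R) → ℤ) (δ : Fin (cdim R) → R →ₗ[ℂ] MvPolynomial (Fin 2) κ),
    (∀ i, IsHDer 𝒜 d φ (e i) (δ i)) → (∀ i, e i ≤ 0) →
    (Matrix.of fun i j => omC P φ (δ i) (δ j)).det ≠ 0 →
    ∑ i, (2 * e i + (d : ℤ)) = n →
    ∃ (e' : Fin (cdim R) → ℤ) (δ' : Fin (cdim R) → R →ₗ[ℂ] MvPolynomial (Fin 2) κ),
      (∀ i, IsHDer 𝒜 d φ (e' i) (δ' i)) ∧ (∀ i, e' i ≤ 0) ∧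
      (Matrix.of fun i j => omC P φ (δ' i) (δ' j)).det ≠ 0 ∧
      ∑ i, (2 * e' i + (d : ℤ)) = 0 := by
  induction n using Nat.strong_induction_on with
  | _ n ih =>
    intro e δ h hle hdet hn
    rcases Nat.eq_zero_or_pos n with h0 | h0
    · exact ⟨e, δ, h, hle, hdet, by rw [hn, h0]; rfl⟩
    · obtain ⟨e', δ', h', hle', hdet', hs⟩ := fr_step hX hφ h hle hdet (by rw [hn]; exact_mod_cast h0)
      have hnn : 0 ≤ ∑ i, (2 * e' i + (d : ℤ)) := by
        by_contra hneg
        push Not at hneg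
        exact hdet' ((fr_gram_zhom hX hφ h').neg hneg)
      obtain ⟨n', hn'⟩ := Int.eq_ofNat_of_zero_le hnn
      refine ih n' ?_ e' δ' h' hle' hdet' hn'
      rw [hn', hn] at hs
      omega

/-- Every curve with enough derivations of degree zero has a frame. -/
theorem exists_hframe (hX : IsContactFano 𝒜 P) (hφ : IsCurve 𝒜 d φ)
    (hfree : ∀ v : R →ₗ[ℂ] κ, IsDer (pt φ ![1, 0]) v →
      ∃ δ : R →ₗ[ℂ] MvPolynomial (Fin 2) κ, IsHDer 𝒜 d φ 0 δ ∧ evL ![1, 0] δ = v) :
    ∃ (e : Fin (cdim R) → ℤ) (δ : Fin (cdim R) → R →ₗ[ℂ] MvPolynomial (Fin 2) κ) (c : κ),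
      IsHFrame 𝒜 P d φ e δ c := by
  classical
  have hu : (![1, 0] : Fin 2 → κ) ≠ 0 := fun h => one_ne_zero (congrFun h 0)
  have hnv := c1_isNV_pt hφ ![1, 0] hu
  obtain ⟨x, hx, hx'⟩ := fr_exists_coord hX (pt φ ![1, 0]) hnv
  choose v hv hvx using fun i => hx' (Pi.single i 1)
  choose δ₀ hδ₀ hδv using fun i => hfree (v i) (hv i)
  have hdet₀ : (Matrix.of fun i j => omC P φ (δ₀ i) (δ₀ j)).det ≠ 0 := by
    intro h0
    obtain ⟨c, hc0, hc⟩ := fr_dep_curve hX hφ (fun i => (hδ₀ i).der) hu (by rw [h0, map_zero])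
    apply hc0
    ext j
    have h1 := hc (x j)
    rw [Finset.sum_eq_single j] at h1
    · rw [← evL_apply, hδv, hvx, Pi.single_eq_same, mul_one] at h1
      exact h1
    · intro i _ hij
      rw [← evL_apply, hδv, hvx, Pi.single_eq_of_ne (Ne.symm hij), mul_zero]
    · intro h'
      exact absurd (Finset.mem_univ j) h'
  obtain ⟨e, δ, h, hle, hdet, hsum⟩ := fr_reduce hX hφ (∑ i : Fin (cdim R), d) (fun _ => 0) δ₀
    hδ₀ (fun _ => le_rfl) hdet₀ (by push_cast; exact Finset.sum_congr rfl fun i _ => by ring)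
  have hz := (fr_gram_zhom hX hφ h).nat 0 (by rw [hsum]; rfl)
  obtain ⟨c, hc⟩ : ∃ c : κ, (Matrix.of fun i j => omC P φ (δ i) (δ j)).det = C c :=
    ⟨_, (totalDegree_eq_zero_iff_eq_C).1 (Nat.le_zero.1 hz.totalDegree_le)⟩
  refine ⟨e, δ, c, hle, ?_, h, ?_, hc, hsum⟩
  · intro i
    by_contra hi
    push Not at hi
    apply hdet
    refine Matrix.det_eq_zero_of_row_eq_zero i fun j => ?_
    rw [Matrix.of_apply]
    refine (omC_zhom hX hφ (h i) (h j)).neg ?_
    have := hle j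
    omega
  · rintro rfl
    rw [hc, map_zero] at hdet
    exact hdet rfl

end curve

end Vale.Agent.P292
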