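import Vale.Agent.P292.K.Q2G2
import Vale.Agent.P292.K.Frame

set_option linter.all false

/-! # Q2 part I, block G: the ends of a full rigid anchored conic are jointly generic. -/

namespace Vale.Agent.P292

open MvPolynomial TensorProduct

universe u v w

variable {R : Type u} [CommRing R] [Algebra ℂ R] {𝒜 : ℕ → Submodule ℂ R} [GradedAlgebra 𝒜]
  {P : R →ₗ[ℂ] R →ₗ[ℂ] R}

/-- A frame spans the tangent spaces at all the points. -/
theorem g3_span (hX : IsContactFano 𝒜 P) [IsDomain R] {K : Type v} [Field K] [IsAlgClosed K]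
    [Algebra ℂ K] {d : ℕ}
    {φ : R →ₐ[ℂ] MvPolynomial (Fin 2) K} (hφ : IsCurve 𝒜 d φ)
    {e : Fin (cdim R) → ℤ} {δ : Fin (cdim R) → R →ₗ[ℂ] MvPolynomial (Fin 2) K} {c : K}
    (hF : IsHFrame 𝒜 P d φ e δ c) (u : Fin 2 → K) (hu : u ≠ 0) (v : R →ₗ[ℂ] K)
    (hv : IsDer (pt φ u) v) : ∃ c : Fin (cdim R) → K, v = ∑ i, c i • evL u (δ i) := by
  have hnv := c1_isNV_pt hφ u hu
  have hG : (Matrix.of fun i j => om P (pt φ u) (evL u (δ i)) (evL u (δ j))).det ≠ 0 := by
    have h1 : (Matrix.of fun i j => om P (pt φ u) (evL u (δ i)) (evL u (δ j))) =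
        (eval u).mapMatrix (Matrix.of fun i j => omC P φ (δ i) (δ j)) := by
      ext i j
      rw [RingHom.mapMatrix_apply, Matrix.map_apply, Matrix.of_apply, Matrix.of_apply]
      exact fr_omC_eval hX hφ (hF.hder i).der (hF.hder j).der u hu
    rw [h1, ← RingHom.map_det, hF.det, eval_C]
    exact hF.ne
  exact fr_span hX hnv (fun i => fr_isDer_evL (hF.hder i).der u)
    (fr_indep hX hnv (fun i => fr_isDer_evL (hF.hder i).der u) hG) hv

theorem g3_ne_zero (hX : IsContactFano 𝒜 P) [IsDomain R] {K : Type v} [Field K] [IsAlgClosed K]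
    [Algebra ℂ K] {d : ℕ}
    {φ : R →ₐ[ℂ] MvPolynomial (Fin 2) K} (hφ : IsCurve 𝒜 d φ)
    {e : Fin (cdim R) → ℤ} {δ : Fin (cdim R) → R →ₗ[ℂ] MvPolynomial (Fin 2) K} {c : K}
    (hF : IsHFrame 𝒜 P d φ e δ c) (i : Fin (cdim R)) : δ i ≠ 0 := by
  classical
  intro h0
  have hu : (![1, 0] : Fin 2 → K) ≠ 0 := vec10_ne
  have hnv := c1_isNV_pt hφ _ hu
  have hG : (Matrix.of fun i j => om P (pt φ ![1, 0]) (evL ![1, 0] (δ i))
      (evL ![1, 0] (δ j))).det ≠ 0 := by
    have h1 : (Matrix.of fun i j => om P (pt φ ![1, 0]) (evL ![1, 0] (δ i))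
        (evL ![1, 0] (δ j))) =
        (eval ![1, 0]).mapMatrix (Matrix.of fun i j => omC P φ (δ i) (δ j)) := by
      ext i j
      rw [RingHom.mapMatrix_apply, Matrix.map_apply, Matrix.of_apply, Matrix.of_apply]
      exact fr_omC_eval hX hφ (hF.hder i).der (hF.hder j).der _ hu
    rw [h1, ← RingHom.map_det, hF.det, eval_C]
    exact hF.ne
  have h2 := fr_indep hX hnv (fun i => fr_isDer_evL (hF.hder i).der ![1, 0]) hG
    (Pi.single i 1) (by
      rw [Finset.sum_eq_single i]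
      · rw [h0]
        ext r
        simp
      · intro j _ hj
        rw [Pi.single_eq_of_ne hj, zero_smul]
      · intro h
        exact absurd (Finset.mem_univ i) h)
  have h3 := congrFun h2 i
  rw [Pi.single_eq_same] at h3
  exact one_ne_zero h3

/-- The free hypothesis of `exists_hframe` for anchored curves. -/
theorem g3_exists_hframe (hX : IsContactFano 𝒜 P) [IsDomain R] {K : Type v} [Field K]
    [IsAlgClosed K] [Algebra ℂ K] {d : ℕ}
    {φ : R →ₐ[ℂ] MvPolynomial (Fin 2) K} (hφ : IsAnch 𝒜 d φ) :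
    ∃ (e : Fin (cdim R) → ℤ) (δ : Fin (cdim R) → R →ₗ[ℂ] MvPolynomial (Fin 2) K) (c : K),
      IsHFrame 𝒜 P d φ e δ c :=
  exists_hframe hX hφ.curve fun v hv => by
    obtain ⟨δ, h1, h2, -⟩ := hφ.exists_isHDer hX v hv
    exact ⟨δ, h1, h2⟩

/-- G: the two ends of a full anchored conic, rigid with fixed ends, are jointly generic. -/
theorem g_injective (hX : IsContactFano 𝒜 P) [IsDomain R] {K : Type v} [Field K]
    [IsAlgClosed K] [Algebra ℂ K] {φ : R →ₐ[ℂ] MvPolynomial (Fin 2) K} (hφ : IsAnch 𝒜 2 φ)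
    (hfull : IsFull 𝒜 2 φ)
    (halg : ∀ D : Derivation ℂ K K, (∀ r, D (pt φ ![1, 0] r) = 0) →
      (∀ r, D (pt φ ![0, 1] r) = 0) → ∀ r m, D (coeff m (φ r)) = 0) :
    Function.Injective (Algebra.TensorProduct.lift (pt φ ![1, 0]) (pt φ ![0, 1])
      (fun _ _ => Commute.all _ _)) := by
  obtain ⟨e, δ, c, hF⟩ := g3_exists_hframe hX hφ
  exact g2_injective hX hφ.curve hfull halg e δ hF.hder (g3_ne_zero hX hφ.curve hF)
    (fun i => by simpa using hF.ge i) (by simpa using hF.sum) (g3_span hX hφ.curve hF)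

end Vale.Agent.P292
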