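import Vale.Agent.P292.K.Q2R

/-! # Q2 part I: definitions. -/

namespace Vale.Agent.P292

open MvPolynomial TensorProduct

universe u v w

variable {R : Type u} [CommRing R] [Algebra ℂ R] {𝒜 : ℕ → Submodule ℂ R}

/-- Every degree zero derivation along `φ` comes from a derivation of the field. -/
def IsFull (𝒜 : ℕ → Submodule ℂ R) (d : ℕ) {K : Type v} [Field K] [Algebra ℂ K]
    (φ : R →ₐ[ℂ] MvPolynomial (Fin 2) K) : Prop :=
  ∀ δ, IsHDer 𝒜 d φ 0 δ → ∃ D : Derivation ℂ K K, ∀ r, mapD D (φ r) = δ r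

/-- The ends `(1, 0)` and `(0, 1)` are not proportional. -/
def NonProp (𝒜 : ℕ → Submodule ℂ R) {K : Type v} [Field K] [Algebra ℂ K]
    (φ : R →ₐ[ℂ] MvPolynomial (Fin 2) K) : Prop :=
  ∃ k, ∃ r ∈ 𝒜 k, ∃ s ∈ 𝒜 k, pt φ ![1, 0] r * pt φ ![0, 1] s ≠ pt φ ![1, 0] s * pt φ ![0, 1] r

/-- The derivation of `R` along `φ` given by a derivation of the coefficient field. -/
theorem isHDer_mapD_comp {K : Type v} [Field K] [Algebra ℂ K] {d : ℕ}
    {φ : R →ₐ[ℂ] MvPolynomial (Fin 2) K} (hφ : ∀ k, ∀ r ∈ 𝒜 k, (φ r).IsHomogeneous (d * k))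
    (D : Derivation ℂ K K) :
    IsHDer 𝒜 d φ 0 ((mapD D : Derivation ℂ _ _).toLinearMap ∘ₗ φ.toLinearMap) where
  der r s := by
    change mapD D (φ (r * s)) = φ r * mapD D (φ s) + φ s * mapD D (φ r)
    rw [map_mul, Derivation.leibniz, smul_eq_mul, smul_eq_mul]
  homog k r hr m hm := by
    obtain rfl : m = d * k := by
      have : (m : ℤ) = ((d * k : ℕ) : ℤ) := by push_cast; omega
      exact_mod_cast this
    intro e he
    refine hφ k r hr fun h0 => he ?_
    change coeff e (mapD D (φ r)) = 0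
    rw [coeff_mapD, h0, map_zero]
  neg k hk := by
    exfalso
    have : (0 : ℤ) ≤ (d : ℤ) * k := by positivity
    omega

/-- Anchored curves are free at the anchor. -/
theorem IsAnch.exists_isHDer {P : R →ₗ[ℂ] R →ₗ[ℂ] R} [GradedAlgebra 𝒜]
    (hX : IsContactFano 𝒜 P) {K : Type v} [Field K] [Algebra ℂ K] {d : ℕ}
    {φ : R →ₐ[ℂ] MvPolynomial (Fin 2) K} (hφ : IsAnch 𝒜 d φ) (v : R →ₗ[ℂ] K)
    (hv : IsDer (pt φ ![1, 0]) v) : ∃ δ, IsHDer 𝒜 d φ 0 δ ∧ evL ![1, 0] δ = v ∧
      ∃ D : Derivation ℂ K K, ∀ r, mapD D (φ r) = δ r := by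
  have := hX.domain
  let _ : Algebra R K := (pt φ ![1, 0] : R →+* K).toAlgebra
  have hst : IsScalarTower ℂ R K := IsScalarTower.of_algebraMap_eq fun c =>
    ((pt φ ![1, 0]).commutes c).symm
  have : CharZero K := charZero_of_injective_algebraMap (algebraMap ℂ K).injective
  let v' : Derivation ℂ R K := Derivation.mk' v fun r s => by
    rw [hv r s, Algebra.smul_def, Algebra.smul_def]
    rfl
  obtain ⟨D, hD⟩ := exists_derivation_extend (k := ℂ) (A := R) (E := K) hφ.inj v'
  refine ⟨_, isHDer_mapD_comp hφ.curve.degree D, ?_, D, fun r => rfl⟩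
  ext r
  have h1 : D (pt φ ![1, 0] r) = v r := hD r
  rw [evL_apply, ← h1, pt_apply]
  change eval ![1, 0] (mapD D (φ r)) = _
  -- evaluation at a rational point commutes with the derivation
  have key : ∀ p : MvPolynomial (Fin 2) K, eval ![1, 0] (mapD D p) = D (eval ![1, 0] p) := by
    intro p
    induction p using MvPolynomial.induction_on with
    | C a =>
      have : mapD D (C a) = C (D a) := by
        classical
        ext m
        rw [coeff_mapD, coeff_C, coeff_C]
        split_ifs
        · rfl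
        · exact map_zero D
      rw [this, eval_C, eval_C]
    | add p q hp hq => rw [map_add, map_add, map_add, map_add, hp, hq]
    | mul_X p i hp =>
      have hX0 : mapD D (X i : MvPolynomial (Fin 2) K) = 0 := by
        classical
        ext m
        rw [coeff_mapD, coeff_X, coeff_zero]
        split_ifs
        · exact Derivation.map_one_eq_zero D
        · exact map_zero D
      rw [Derivation.leibniz, hX0, smul_zero, zero_add, smul_eq_mul, map_mul, map_mul, hp,
        Derivation.leibniz, eval_X]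
      have h2 : D ((![1, 0] : Fin 2 → K) i) = 0 := by
        fin_cases i
        · exact Derivation.map_one_eq_zero D
        · exact map_zero D
      rw [h2, smul_zero, zero_add, smul_eq_mul]
  exact key _

end Vale.Agent.P292
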