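import Vale.Agent.P292.K.N3
import Vale.Agent.P292.K.Q2Defs
import Vale.Agent.P292.VF.U1

set_option linter.all false

/-! # Q2 part I, block H: spreading out of a conic with jointly generic ends. -/

namespace Vale.Agent.P292

open MvPolynomial TensorProduct

universe u v

theorem h_eval_nat {A : Type*} {B : Type*} [CommRing A] [CommRing B] (f : A →+* B)
    (a : Fin 2 → ℕ) (p : MvPolynomial (Fin 2) A) :
    eval (fun i => (a i : B)) (map f p) = f (eval (fun i => (a i : A)) p) := by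
  rw [eval_map, ← eval₂_id, hom_eval₂]
  congr 1
  funext i
  exact (map_natCast _ _).symm

section

variable {R : Type u} [CommRing R] [Algebra ℂ R] {𝒜 : ℕ → Submodule ℂ R} {d : ℕ}
  {E : Type v} [Field E] [Algebra ℂ E] {φ : R →ₐ[ℂ] MvPolynomial (Fin 2) E}

/-- A model of a curve over a finitely generated algebra, all of whose closed members are
curves. -/
theorem IsCurve.h_exists_model [Algebra.FiniteType ℂ R] [IsAlgClosed E] (hφ : IsCurve 𝒜 d φ)
    (F : Finset E) :
    ∃ (A₀ : Subalgebra ℂ E) (_ : Algebra.FiniteType ℂ A₀)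
      (φ₀ : R →ₐ[ℂ] MvPolynomial (Fin 2) A₀),
      (↑F : Set E) ⊆ A₀ ∧ (∀ r, map (algebraMap A₀ E) (φ₀ r) = φ r) ∧
      ∀ σ : A₀ →ₐ[ℂ] ℂ, IsCurve 𝒜 d ((mapAlgHom σ).comp φ₀) := by
  classical
  obtain ⟨G, hG⟩ := Algebra.FiniteType.out (R := ℂ) (A := R)
  obtain ⟨N0, n0, c0, r0, k0, hk0, hr0, h0⟩ := hφ.exists_pow 0
  obtain ⟨N1, n1, c1, r1, k1, hk1, hr1, h1⟩ := hφ.exists_pow 1
  set S : Finset E := F ∪ G.biUnion (fun g => (φ g).coeffs) ∪
    (Finset.univ.biUnion fun j => (c0 j).coeffs) ∪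
    (Finset.univ.biUnion fun j => (c1 j).coeffs) with hS
  set A₀ : Subalgebra ℂ E := Algebra.adjoin ℂ (S : Set E) with hA
  have hSA : (S : Set E) ⊆ A₀ := Algebra.subset_adjoin
  have : Algebra.FiniteType ℂ A₀ :=
    (Subalgebra.fg_iff_finiteType A₀).mp (Subalgebra.fg_adjoin_finset _)
  set M : MvPolynomial (Fin 2) A₀ →ₐ[ℂ] MvPolynomial (Fin 2) E := mapAlgHom A₀.val with hMdef
  have hMapp : ∀ p, M p = map (algebraMap A₀ E) p := fun p => rfl
  have hM : Function.Injective M := map_injective _ Subtype.val_injective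
  have hmem : ∀ p : MvPolynomial (Fin 2) E, (p.coeffs : Set E) ⊆ A₀ → ∃ q, M q = p := by
    intro p hp
    have : p ∈ Set.range (MvPolynomial.map (algebraMap A₀ E)) := by
      rw [mem_range_map_iff_coeffs_subset]
      intro e he
      exact ⟨⟨e, hp he⟩, rfl⟩
    exact this
  have hrange : ∀ r, φ r ∈ M.range := by
    intro r
    have h2 : φ.range ≤ M.range := by
      rw [← Algebra.map_top, ← hG, AlgHom.map_adjoin, Algebra.adjoin_le_iff]
      rintro _ ⟨g, hg, rfl⟩
      obtain ⟨q, hq⟩ := hmem (φ g) (by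
        refine subset_trans ?_ hSA
        rw [hS]
        intro e he
        simp only [Finset.coe_union, Set.mem_union, Finset.mem_coe, Finset.mem_biUnion]
        exact Or.inl (Or.inl (Or.inr ⟨g, hg, he⟩)))
      exact ⟨q, hq⟩
    exact h2 ⟨r, rfl⟩
  set e := AlgEquiv.ofInjective M hM with he
  set φ₀ : R →ₐ[ℂ] MvPolynomial (Fin 2) A₀ :=
    (e.symm : M.range →ₐ[ℂ] MvPolynomial (Fin 2) A₀).comp (φ.codRestrict M.range hrange) with hφ₀
  have hφ₀M : ∀ r, M (φ₀ r) = φ r := by
    intro r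
    have : (e (φ₀ r) : MvPolynomial (Fin 2) E) = φ r := by
      rw [hφ₀]
      simp
    rw [← this]
    rfl
  refine ⟨A₀, this, φ₀, ?_, hφ₀M, fun σ => ⟨?_, ?_⟩⟩
  · refine subset_trans ?_ hSA
    rw [hS]
    intro e he
    simp only [Finset.coe_union, Set.mem_union]
    exact Or.inl (Or.inl (Or.inl he))
  · intro k r hr m hm
    have hm' : coeff m (φ₀ r) ≠ 0 := by
      intro h
      apply hm
      change coeff m (map (σ : A₀ →+* ℂ) (φ₀ r)) = 0
      rw [coeff_map, h, map_zero]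
    have h3 : coeff m (φ r) ≠ 0 := by
      rw [← hφ₀M r, hMapp, coeff_map]
      intro h
      apply hm'
      exact Subtype.val_injective (h.trans (map_zero (algebraMap A₀ E)).symm)
    exact hφ.degree k r hr h3
  · intro x hx
    have key : ∀ (i : Fin 2) (N n : ℕ) (c : Fin n → MvPolynomial (Fin 2) E) (r : Fin n → R)
        (k : Fin n → ℕ), (∀ j, 0 < k j) → (∀ j, r j ∈ 𝒜 (k j)) →
        ∑ j, c j * φ (r j) = (X i : MvPolynomial (Fin 2) E) ^ N →
        (∀ j, ((c j).coeffs : Set E) ⊆ A₀) → x i ≠ 0 →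
        ∃ k, 0 < k ∧ ∃ r ∈ 𝒜 k, aeval x (((mapAlgHom σ).comp φ₀) r) ≠ 0 := by
      intro i N n c r k hk hr hsum hc hxi
      choose q hq using fun j => hmem (c j) (hc j)
      have h5 : ∑ j, q j * φ₀ (r j) = X i ^ N := by
        apply hM
        rw [map_sum, map_pow]
        have : M (X i) = X i := by rw [hMapp, map_X]
        rw [this, ← hsum]
        exact Finset.sum_congr rfl fun j _ => by rw [map_mul, hq, hφ₀M]
      by_contra hcon
      push Not at hcon
      have h6 : aeval x ((mapAlgHom σ : MvPolynomial (Fin 2) A₀ →ₐ[ℂ] _)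
          (∑ j, q j * φ₀ (r j))) = 0 := by
        rw [map_sum, map_sum]
        refine Finset.sum_eq_zero fun j _ => ?_
        rw [map_mul, map_mul]
        have := hcon (k j) (hk j) (r j) (hr j)
        change aeval x ((mapAlgHom σ : MvPolynomial (Fin 2) A₀ →ₐ[ℂ] _) (φ₀ (r j))) = 0 at this
        rw [this, mul_zero]
      rw [h5, map_pow, map_pow] at h6
      have h7 : (mapAlgHom σ : MvPolynomial (Fin 2) A₀ →ₐ[ℂ] _) (X i) = X i := by
        change map (σ : A₀ →+* ℂ) (X i) = X i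
        rw [map_X]
      rw [h7, aeval_X] at h6
      exact pow_ne_zero N hxi h6
    have hx' : x 0 ≠ 0 ∨ x 1 ≠ 0 := by
      by_contra h
      push Not at h
      apply hx
      funext i
      fin_cases i
      · exact h.1
      · exact h.2
    rcases hx' with h | h
    · refine key 0 N0 n0 c0 r0 k0 hk0 hr0 h0 (fun j => ?_) h
      refine subset_trans ?_ hSA
      rw [hS]
      intro e he
      simp only [Finset.coe_union, Set.mem_union, Finset.mem_coe, Finset.mem_biUnion]
      exact Or.inl (Or.inr ⟨j, Finset.mem_univ _, he⟩)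
    · refine key 1 N1 n1 c1 r1 k1 hk1 hr1 h1 (fun j => ?_) h
      refine subset_trans ?_ hSA
      rw [hS]
      intro e he
      simp only [Finset.coe_union, Set.mem_union, Finset.mem_coe, Finset.mem_biUnion]
      exact Or.inr ⟨j, Finset.mem_univ _, he⟩


end

section

variable {R : Type u} [CommRing R] [Algebra ℂ R] {𝒜 : ℕ → Submodule ℂ R} [GradedAlgebra 𝒜]
  {P : R →ₗ[ℂ] R →ₗ[ℂ] R}

/-- H: spreading out. -/
theorem isConicConnected_of_generic (hX : IsContactFano 𝒜 P) {K : Type v} [Field K]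
    [IsAlgClosed K] [Algebra ℂ K] {φ : R →ₐ[ℂ] MvPolynomial (Fin 2) K} (hφ : IsCurve 𝒜 2 φ)
    (hinj : Function.Injective (Algebra.TensorProduct.lift (pt φ ![1, 0]) (pt φ ![0, 1])
      (fun _ _ => Commute.all _ _))) : IsConicConnected 𝒜 := by
  classical
  have := hX.domain
  have := hX.finiteType
  have hft2 : Algebra.FiniteType ℂ (R ⊗[ℂ] R) :=
    Algebra.FiniteType.trans (S := R) inferInstance inferInstance
  have hdom : IsDomain (R ⊗[ℂ] R) := VF.isDomain_tensor
  obtain ⟨A₀, hA₀, φ₀, -, hφ₀, hσ⟩ := hφ.h_exists_model ∅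
  let ev : (Fin 2 → ℕ) → R →ₐ[ℂ] A₀ := fun a =>
    ((aeval (fun i => (a i : A₀)) : MvPolynomial (Fin 2) A₀ →ₐ[A₀] A₀).restrictScalars ℂ).comp φ₀
  have hev : ∀ (a : Fin 2 → ℕ) r, ((ev a r : A₀) : K) = eval (fun i => (a i : K)) (φ r) := by
    intro a r
    rw [← hφ₀ r, h_eval_nat]
    change (algebraMap A₀ K) (aeval (fun i => (a i : A₀)) (φ₀ r)) = _
    rw [aeval_eq_eval]
  let f : R ⊗[ℂ] R →ₐ[ℂ] A₀ := Algebra.TensorProduct.lift (ev ![1, 0]) (ev ![0, 1])
    (fun _ _ => Commute.all _ _)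
  have hf : A₀.val.comp f = Algebra.TensorProduct.lift (pt φ ![1, 0]) (pt φ ![0, 1])
      (fun _ _ => Commute.all _ _) := by
    apply Algebra.TensorProduct.ext
    · ext r
      have h1 := hev ![1, 0] r
      simp only [f, AlgHom.comp_apply, Algebra.TensorProduct.includeLeft_apply,
        Algebra.TensorProduct.lift_tmul, map_one, mul_one, pt_apply]
      rw [Subalgebra.coe_val, h1]
      congr 2
      funext i
      fin_cases i <;> simp
    · ext r
      have h1 := hev ![0, 1] r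
      simp only [f, AlgHom.comp_apply, AlgHom.restrictScalars_apply,
        Algebra.TensorProduct.includeRight_apply,
        Algebra.TensorProduct.lift_tmul, map_one, one_mul, pt_apply]
      rw [Subalgebra.coe_val, h1]
      congr 2
      funext i
      fin_cases i <;> simp
  have hfinj : Function.Injective f := by
    have h1 : Function.Injective (A₀.val.comp f) := by rw [hf]; exact hinj
    intro x y hxy
    apply h1
    rw [AlgHom.comp_apply, AlgHom.comp_apply, hxy]
  obtain ⟨G, hG, h⟩ := VF.exists_generic_lift f hfinj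
  refine ⟨G, hG, fun p q hpq => ?_⟩
  obtain ⟨c, hc⟩ := h _ hpq
  refine ⟨(mapAlgHom c).comp φ₀, hσ c, ?_, ?_⟩
  · ext r
    have h1 : c (f (r ⊗ₜ 1)) = p r := by
      have := congrArg (fun g => g (r ⊗ₜ[ℂ] (1 : R))) hc
      simpa using this
    have h2 : f (r ⊗ₜ 1) = ev ![1, 0] r := by simp [f]
    rw [← h1, h2, pt_apply]
    have h3 : (fun i => ((![1, 0] : Fin 2 → ℕ) i : ℂ)) = ![1, 0] := by
      funext i
      fin_cases i <;> simp
    change eval ![1, 0] (map (c : A₀ →+* ℂ) (φ₀ r)) = (c : A₀ →+* ℂ) (aeval _ (φ₀ r))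
    rw [aeval_eq_eval, ← h3]
    exact h_eval_nat (c : A₀ →+* ℂ) ![1, 0] (φ₀ r)
  · ext r
    have h1 : c (f (1 ⊗ₜ r)) = q r := by
      have := congrArg (fun g => g ((1 : R) ⊗ₜ[ℂ] r)) hc
      simpa using this
    have h2 : f (1 ⊗ₜ r) = ev ![0, 1] r := by simp [f]
    rw [← h1, h2, pt_apply]
    have h3 : (fun i => ((![0, 1] : Fin 2 → ℕ) i : ℂ)) = ![0, 1] := by
      funext i
      fin_cases i <;> simp
    change eval ![0, 1] (map (c : A₀ →+* ℂ) (φ₀ r)) = (c : A₀ →+* ℂ) (aeval _ (φ₀ r))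
    rw [aeval_eq_eval, ← h3]
    exact h_eval_nat (c : A₀ →+* ℂ) ![0, 1] (φ₀ r)

end

end Vale.Agent.P292
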