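import Vale.Agent.P292.K.Ni6
import Vale.Agent.P292.K.N2c

/-! # Block I-6 without unique factorisation: poles of an Euler invariant -/

namespace Vale.Agent.P292

open DirectSum

universe u

section
variable {R : Type u} [CommRing R] [Algebra ℂ R] {𝒜 : ℕ → Submodule ℂ R} [GradedAlgebra 𝒜]
  {P : R →ₗ[ℂ] R →ₗ[ℂ] R}

theorem ni6_euler_component (x : R) (i : ℕ) :
    (decompose 𝒜 (euler 𝒜 x) i : R) = (i : ℂ) • (decompose 𝒜 x i : R) := by
  refine forall_of_homogeneous' (𝒜 := 𝒜)
    ((𝒜 i).subtype ∘ₗ (DirectSum.component ℂ ℕ (fun i => 𝒜 i) i) ∘ₗ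
        (decomposeLinearEquiv 𝒜).toLinearMap ∘ₗ euler 𝒜)
    ((i : ℂ) • ((𝒜 i).subtype ∘ₗ (DirectSum.component ℂ ℕ (fun i => 𝒜 i) i) ∘ₗ
        (decomposeLinearEquiv 𝒜).toLinearMap)) (fun k r hr => ?_) x
  change (decompose 𝒜 (euler 𝒜 r) i : R) = (i : ℂ) • (decompose 𝒜 r i : R)
  rw [euler_apply k r hr, decompose_smul, DirectSum.smul_apply]
  by_cases hik : k = i
  · subst hik
    rfl
  · have : (decompose 𝒜 r i : R) = 0 := decompose_of_mem_ne 𝒜 hr hik
    rw [Submodule.coe_smul, this, smul_zero, smul_zero]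

/-- an Euler eigenvector is homogeneous. -/
theorem ni6_eigen [IsDomain R] (h0 : ∀ r ∈ 𝒜 0, ∃ c : ℂ, r = algebraMap ℂ R c) {g : R} {k : ℕ}
    (h : euler 𝒜 g = (k : ℂ) • g) : g ∈ 𝒜 k := by
  by_cases hg : g = 0
  · rw [hg]; exact zero_mem _
  · obtain ⟨l, hl, hlk⟩ := ni6_homog (𝒜 := 𝒜) h0 (q := algebraMap ℂ R k) hg (by
      rw [h, Algebra.smul_def])
    have h1 := (algebraMap ℂ R).injective hlk
    have h2 : k = l := by exact_mod_cast h1
    rwa [h2]

open scoped Classical in
/-- I-6' homogeneous representation of an Euler invariant of the fraction field -/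
theorem ni6_exists_rep (hX : IsContactFano 𝒜 P) [IsDomain R]
    (E : Derivation ℂ (FractionRing R) (FractionRing R))
    (hEu : ∀ r, E (algebraMap R _ r) = algebraMap R _ (euler 𝒜 r))
    {f : FractionRing R} (hf : E f = 0) (n : ℕ) :
    ∀ g₀ h₀ : R, h₀ ≠ 0 → (decompose 𝒜 h₀).support.card ≤ n →
      f * algebraMap R _ h₀ = algebraMap R _ g₀ →
      ∃ k, ∃ g ∈ 𝒜 k, ∃ h ∈ 𝒜 k, h ≠ 0 ∧ f * algebraMap R _ h = algebraMap R _ g := by
  classical
  have hinj : Function.Injective (algebraMap R (FractionRing R)) :=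
    IsFractionRing.injective R (FractionRing R)
  induction n with
  | zero =>
    intro g₀ h₀ hh hcard _
    exfalso
    apply hh
    rw [← DirectSum.sum_support_decompose 𝒜 h₀, Finset.card_eq_zero.1 (Nat.le_zero.1 hcard),
      Finset.sum_empty]
  | succ n ih =>
    intro g₀ h₀ hh hcard hfg
    have hne : (decompose 𝒜 h₀).support.Nonempty := by
      rw [Finset.nonempty_iff_ne_empty]
      intro he
      apply hh
      rw [← DirectSum.sum_support_decompose 𝒜 h₀, he, Finset.sum_empty]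
    obtain ⟨k, hk⟩ := hne
    have hderiv : f * algebraMap R _ (euler 𝒜 h₀) = algebraMap R _ (euler 𝒜 g₀) := by
      have h1 := congrArg E hfg
      rw [Derivation.leibniz, hf, smul_zero, add_zero, smul_eq_mul, hEu, hEu] at h1
      exact h1
    have hfg' : f * algebraMap R _ (euler 𝒜 h₀ - (k : ℂ) • h₀) =
        algebraMap R _ (euler 𝒜 g₀ - (k : ℂ) • g₀) := by
      rw [map_sub, map_sub, mul_sub, hderiv, Algebra.smul_def, Algebra.smul_def, map_mul, map_mul,
        ← hfg]
      ring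
    by_cases hz : euler 𝒜 h₀ - (k : ℂ) • h₀ = 0
    · have hg1 : euler 𝒜 g₀ - (k : ℂ) • g₀ = 0 := by
        apply hinj
        rw [map_zero, ← hfg', hz, map_zero, mul_zero]
      exact ⟨k, g₀, ni6_eigen hX.connected (sub_eq_zero.1 hg1), h₀,
        ni6_eigen hX.connected (sub_eq_zero.1 hz), hh, hfg⟩
    · refine ih _ _ hz ?_ hfg'
      have hsub : (decompose 𝒜 (euler 𝒜 h₀ - (k : ℂ) • h₀)).support ⊆
          (decompose 𝒜 h₀).support.erase k := by
        intro i hi
        rw [DFinsupp.mem_support_iff] at hi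
        have hcomp : (decompose 𝒜 (euler 𝒜 h₀ - (k : ℂ) • h₀) i : R) =
            ((i : ℂ) - k) • (decompose 𝒜 h₀ i : R) := by
          rw [decompose_sub, DirectSum.sub_apply, AddSubgroupClass.coe_sub, ni6_euler_component,
            decompose_smul, DirectSum.smul_apply, Submodule.coe_smul, sub_smul]
        rw [Finset.mem_erase, DFinsupp.mem_support_iff]
        constructor
        · rintro rfl
          apply hi
          apply Subtype.ext
          rw [hcomp, sub_self, zero_smul]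
          rfl
        · intro h0
          apply hi
          apply Subtype.ext
          rw [hcomp, h0]
          simp
      have h1 := Finset.card_le_card hsub
      rw [Finset.card_erase_of_mem hk] at h1
      omega

/-- I-6'' an Euler invariant which is not a constant has a zero or a pole along a homogeneous
divisor. -/
theorem ni_exists_prime (hX : IsContactFano 𝒜 P) [IsDomain R]
    (E : Derivation ℂ (FractionRing R) (FractionRing R))
    (hE : ∀ k, ∀ r ∈ 𝒜 k, E (algebraMap R _ r) = (k : FractionRing R) * algebraMap R _ r)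
    {f : FractionRing R} (hf : E f = 0)
    (hf' : ∀ c : ℂ, f ≠ algebraMap ℂ (FractionRing R) c) :
    ∃ (f' : FractionRing R) (𝔭 : Ideal R) (_ : 𝔭.IsPrime), (f' = f ∨ f' = f⁻¹) ∧
      IsDiscreteValuationRing (Localization.AtPrime 𝔭) ∧ 𝔭.IsHomogeneous 𝒜 ∧
      (∃ g' h' : R, g' ∈ 𝔭 ∧ h' ∉ 𝔭 ∧ f' * algebraMap R _ h' = algebraMap R _ g') ∧
      ∃ k, ∃ g ∈ 𝒜 k, ∃ h ∈ 𝒜 k, g ≠ 0 ∧ h ≠ 0 ∧ f' * algebraMap R _ h = algebraMap R _ g := by
  classical
  have hft := hX.finiteType
  have hnoeth : IsNoetherianRing R := Algebra.FiniteType.isNoetherianRing ℂ R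
  have hnorm := hX.normal
  have hinj : Function.Injective (algebraMap R (FractionRing R)) :=
    IsFractionRing.injective R (FractionRing R)
  have hEu : ∀ r, E (algebraMap R _ r) = algebraMap R _ (euler 𝒜 r) := by
    intro r
    refine forall_of_homogeneous' (𝒜 := 𝒜)
      ((E : FractionRing R →ₗ[ℂ] FractionRing R) ∘ₗ
        (IsScalarTower.toAlgHom ℂ R (FractionRing R)).toLinearMap)
      ((IsScalarTower.toAlgHom ℂ R (FractionRing R)).toLinearMap ∘ₗ euler 𝒜)
      (fun k r hr => ?_) r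
    change E (algebraMap R _ r) = algebraMap R _ (euler 𝒜 r)
    rw [hE k r hr, euler_apply k r hr, Algebra.smul_def, map_mul, ← IsScalarTower.algebraMap_apply]
    simp
  obtain ⟨k, g, hg, h, hh, hh0, hfg⟩ : ∃ k, ∃ g ∈ 𝒜 k, ∃ h ∈ 𝒜 k, h ≠ 0 ∧
      f * algebraMap R _ h = algebraMap R _ g := by
    obtain ⟨⟨a, b⟩, hab⟩ := IsLocalization.surj (nonZeroDivisors R) f
    exact ni6_exists_rep hX E hEu hf _ a b (nonZeroDivisors.ne_zero b.2) le_rfl hab
  have hf0 : f ≠ 0 := fun h0 => hf' 0 (by rw [h0, map_zero])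
  have hhK : algebraMap R (FractionRing R) h ≠ 0 := by
    rw [Ne, map_eq_zero_iff _ hinj]; exact hh0
  have hg0 : g ≠ 0 := by
    rintro rfl
    rw [map_zero] at hfg
    exact (mul_ne_zero hf0 hhK) hfg
  have hgK : algebraMap R (FractionRing R) g ≠ 0 := by
    rw [Ne, map_eq_zero_iff _ hinj]; exact hg0
  -- a pole
  have hpole : ∃ (𝔭 : Ideal R) (_ : 𝔭.IsPrime), IsDiscreteValuationRing (Localization.AtPrime 𝔭) ∧
      ∀ a b : R, b ∉ 𝔭 → algebraMap R (FractionRing R) b * f ≠ algebraMap R _ a := by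
    by_contra hcon
    push Not at hcon
    obtain ⟨r, hr⟩ := zb2a_mem (R := R) (K := FractionRing R) f (fun 𝔭 hp hdvr => by
      obtain ⟨a, b, hb, hab⟩ := hcon 𝔭 hp hdvr
      exact ⟨a, b, hb, hab⟩)
    have h1 : euler 𝒜 r = ((0 : ℕ) : ℂ) • r := by
      apply hinj
      rw [← hEu, hr, hf]
      simp
    obtain ⟨c, hc⟩ := hX.connected r (ni6_eigen hX.connected h1)
    exact hf' c (by rw [← hr, hc, ← IsScalarTower.algebraMap_apply])
  obtain ⟨𝔭, hp, hdvr, hpole⟩ := hpole
  have hhom : 𝔭.IsHomogeneous 𝒜 := by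
    have h2 : (𝔭.homogeneousCore 𝒜).toIdeal.IsPrime := hp.homogeneousCore
    have h3 : (𝔭.homogeneousCore 𝒜).toIdeal ≤ 𝔭 := Ideal.toIdeal_homogeneousCore_le 𝒜 𝔭
    rcases eq_bot_or_eq_of_dvr 𝔭 hdvr _ h3 with h4 | h4
    · exfalso
      have h5 : h ∉ 𝔭 := by
        intro hmem
        have h6 : h ∈ (𝔭.homogeneousCore 𝒜).toIdeal :=
          Ideal.mem_homogeneousCore_of_homogeneous_of_mem ⟨k, hh⟩ hmem
        rw [h4, Ideal.mem_bot] at h6
        exact hh0 h6
      exact hpole g h h5 (by rw [mul_comm]; exact hfg)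
    · rw [← h4]
      exact (𝔭.homogeneousCore 𝒜).isHomogeneous
  refine ⟨f⁻¹, 𝔭, hp, Or.inr rfl, hdvr, hhom, ?_, k, h, hh, g, hg, hh0, hg0, ?_⟩
  · -- `g` and `h` in the discrete valuation ring
    let L := Localization.AtPrime 𝔭
    have hinjL : Function.Injective (algebraMap R L) :=
      IsLocalization.injective L (Ideal.primeCompl_le_nonZeroDivisors 𝔭)
    have hdiv : (algebraMap R L g) ∣ (algebraMap R L h) ∨ (algebraMap R L h) ∣ (algebraMap R L g) :=
      ValuationRing.dvd_total _ _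
    have key : ∀ a b : R, algebraMap R L a ∣ algebraMap R L b →
        ∃ u v : R, v ∉ 𝔭 ∧ v * b = a * u := by
      intro a b hab
      obtain ⟨z, hz⟩ := hab
      obtain ⟨⟨u, v⟩, hu⟩ := IsLocalization.surj 𝔭.primeCompl z
      refine ⟨u, v, v.2, ?_⟩
      apply hinjL
      rw [map_mul, map_mul, hz, ← hu]
      ring
    rcases hdiv with hd | hd
    · obtain ⟨u, v, hv, huv⟩ := key _ _ hd
      have huv' : algebraMap R (FractionRing R) v * algebraMap R _ h =
          algebraMap R _ g * algebraMap R _ u := by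
        rw [← map_mul, huv, map_mul]
      have hfu : f * algebraMap R _ u = algebraMap R _ v := by
        have h5 : f * (algebraMap R (FractionRing R) g * algebraMap R _ u) =
            algebraMap R _ v * algebraMap R _ g := by
          rw [← huv', ← hfg]; ring
        apply mul_left_cancel₀ hgK
        rw [mul_comm _ (algebraMap R (FractionRing R) v), ← h5]
        ring
      have hu𝔭 : u ∈ 𝔭 := by
        by_contra hu
        exact hpole v u hu (by rw [mul_comm]; exact hfu)
      refine ⟨u, v, hu𝔭, hv, ?_⟩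
      rw [← hfu, ← mul_assoc, inv_mul_cancel₀ hf0, one_mul]
    · exfalso
      obtain ⟨u, v, hv, huv⟩ := key _ _ hd
      refine hpole u v hv ?_
      have huv' : algebraMap R (FractionRing R) v * algebraMap R _ g =
          algebraMap R _ h * algebraMap R _ u := by
        rw [← map_mul, huv, map_mul]
      apply mul_left_cancel₀ hhK
      rw [← huv', ← hfg]
      ring
  · rw [← hfg, ← mul_assoc, inv_mul_cancel₀ hf0, one_mul]

end

end Vale.Agent.P292
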