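import Vale.Agent.P292.K.Ni7

/-! # Forms with vanishing Wronskian are proportional. -/

namespace Vale.Agent.P292

open MvPolynomial

universe u v

/-- Polynomials with vanishing Wronskian have the same degree. -/
theorem niw_natDegree {K : Type v} [Field K] [CharZero K] {g h : Polynomial K} (hg : g ≠ 0)
    (hh : h ≠ 0) (hW : Polynomial.derivative g * h = g * Polynomial.derivative h) :
    g.natDegree = h.natDegree := by
  by_contra hne
  have h1 := congrArg (fun p => Polynomial.coeff p (g.natDegree + h.natDegree - 1)) hW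
  have key : ∀ a b : Polynomial K, a ≠ 0 → b ≠ 0 → 0 < a.natDegree + b.natDegree →
      (Polynomial.derivative a * b).coeff (a.natDegree + b.natDegree - 1) =
      a.natDegree * (a.leadingCoeff * b.leadingCoeff) := by
    intro a b ha hb hab
    rcases Nat.eq_zero_or_pos a.natDegree with h0 | h0
    · rw [Polynomial.eq_C_of_natDegree_eq_zero h0]
      simp
    · have h2 : a.natDegree + b.natDegree - 1 = (a.natDegree - 1) + b.natDegree := by omega
      rw [h2, Polynomial.coeff_mul_add_eq_of_natDegree_le (Polynomial.natDegree_derivative_le a) le_rfl,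
        Polynomial.coeff_derivative, Nat.sub_add_cancel h0]
      push_cast [Nat.cast_sub h0]
      rw [Polynomial.leadingCoeff, Polynomial.leadingCoeff]
      ring
  have hpos : 0 < g.natDegree + h.natDegree := by omega
  rw [key g h hg hh hpos, mul_comm g, add_comm g.natDegree,
    key h g hh hg (by omega), mul_comm h.leadingCoeff] at h1
  have h2 : g.leadingCoeff * h.leadingCoeff ≠ 0 :=
    mul_ne_zero (Polynomial.leadingCoeff_ne_zero.2 hg) (Polynomial.leadingCoeff_ne_zero.2 hh)
  have h3 := mul_right_cancel₀ h2 h1
  exact hne (by exact_mod_cast h3)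

/-- Polynomials with vanishing Wronskian are proportional. -/
theorem niw_poly {K : Type v} [Field K] [CharZero K] {g h : Polynomial K} (hg : g ≠ 0)
    (hh : h ≠ 0) (hW : Polynomial.derivative g * h = g * Polynomial.derivative h) :
    ∃ c : K, g = Polynomial.C c * h := by
  refine ⟨g.leadingCoeff / h.leadingCoeff, ?_⟩
  by_contra hne
  set c := g.leadingCoeff / h.leadingCoeff with hc
  have hl : h.leadingCoeff ≠ 0 := Polynomial.leadingCoeff_ne_zero.2 hh
  have h0 : g - Polynomial.C c * h ≠ 0 := sub_ne_zero.2 hne
  have h1 : Polynomial.derivative (g - Polynomial.C c * h) * h =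
      (g - Polynomial.C c * h) * Polynomial.derivative h := by
    rw [Polynomial.derivative_sub, Polynomial.derivative_C_mul, sub_mul, hW]
    ring
  have h2 := niw_natDegree h0 hh h1
  have h3 := niw_natDegree hg hh hW
  have h4 : (g - Polynomial.C c * h).coeff h.natDegree = 0 := by
    rw [Polynomial.coeff_sub, Polynomial.coeff_C_mul]
    change _ - _ * h.leadingCoeff = 0
    rw [← h3]
    change g.leadingCoeff - _ = 0
    rw [hc, div_mul_cancel₀ _ hl, sub_self]
  rw [← h2] at h4
  exact h0 (Polynomial.leadingCoeff_eq_zero.1 h4)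

/-- Forms with vanishing Wronskian are proportional. -/
theorem niw_forms {K : Type v} [Field K] [CharZero K] {k : ℕ} {G H : MvPolynomial (Fin 2) K}
    (hG : G.IsHomogeneous k) (hH : H.IsHomogeneous k) (hG0 : G ≠ 0) (hH0 : H ≠ 0)
    (hW : pderiv 1 G * H = G * pderiv 1 H) : ∃ c : K, c ≠ 0 ∧ G = C c * H := by
  have hg := ni7D_ne hG hG0 (one_ne_zero (α := K))
  have hh := ni7D_ne hH hH0 (one_ne_zero (α := K))
  obtain ⟨c, hc⟩ := niw_poly hg hh (by
    rw [ni7D_derivative, ni7D_derivative, ← map_mul, ← map_mul, hW])
  have hGH : G = C c * H := by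
    by_contra hne
    have h1 : (G - C c * H).IsHomogeneous k := by
      have := (isHomogeneous_C (Fin 2) c).mul hH
      rw [zero_add] at this
      exact hG.sub this
    refine ni7D_ne h1 (sub_ne_zero.2 hne) (one_ne_zero (α := K)) ?_
    have h2 : ni7D (1 : K) (C c) = Polynomial.C c := (ni7D 1).commutes c
    rw [map_sub, map_mul, h2, hc, sub_self]
  refine ⟨c, ?_, hGH⟩
  rintro rfl
  rw [map_zero, zero_mul] at hGH
  exact hG0 hGH

end Vale.Agent.P292
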