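import Vale.Agent.P292.K.Q2I
import Vale.Agent.P292.K.NiW
import Vale.Agent.P292.K.Ni6P

/-! # Block I for Picard number one: two lines through the generic point which are not
orthogonal. -/

namespace Vale.Agent.P292

open MvPolynomial

universe u v w

variable {R : Type u} [CommRing R] [Algebra ℂ R] {𝒜 : ℕ → Submodule ℂ R} [GradedAlgebra 𝒜]
  {P : R →ₗ[ℂ] R →ₗ[ℂ] R}

/-- Homogeneous ideals and rescaling of a point of a curve. -/
theorem ni_pt_smul {K : Type v} [Field K] [Algebra ℂ K] {d : ℕ}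
    {ψ : R →ₐ[ℂ] MvPolynomial (Fin 2) K} (h : IsCurve 𝒜 d ψ) {𝔭 : Ideal R}
    (hhom : 𝔭.IsHomogeneous 𝒜) {a : Fin 2 → K} (ha : ∀ r ∈ 𝔭, pt ψ a r = 0) (c : K) :
    ∀ r ∈ 𝔭, pt ψ (fun i => c * a i) r = 0 := by
  classical
  intro r hr
  rw [← DirectSum.sum_support_decompose 𝒜 r, map_sum]
  refine Finset.sum_eq_zero fun k _ => ?_
  have h1 := ha _ (hhom k hr)
  rw [pt_apply] at h1 ⊢
  rw [ni7_eval_smul (h.degree k _ (SetLike.coe_mem _)), h1, mul_zero]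

/-- **I: non-isotropy, if the line meets all prime divisors.** -/
theorem exists_lines_ne_zero_of_meets (hX : IsContactFano 𝒜 P) [IsDomain R]
    {K : Type u} [Field K] [IsAlgClosed K] [Algebra ℂ K]
    {ψ : R →ₐ[ℂ] MvPolynomial (Fin 2) K} (h : IsAnch 𝒜 1 ψ) (hfull : IsFull 𝒜 1 ψ)
    (hm : ∀ (𝔭 : Ideal R) [𝔭.IsPrime], IsDiscreteValuationRing (Localization.AtPrime 𝔭) →
      𝔭.IsHomogeneous 𝒜 → ∃ a : Fin 2 → K, a ≠ 0 ∧ ∀ r ∈ 𝔭, pt ψ a r = 0) :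
    ∃ (Ω : Type u) (_ : Field Ω) (_ : IsAlgClosed Ω) (_ : Algebra ℂ Ω)
      (ψ₁ ψ₂ : R →ₐ[ℂ] MvPolynomial (Fin 2) Ω), IsAnch 𝒜 1 ψ₁ ∧ IsAnch 𝒜 1 ψ₂ ∧
      pt ψ₁ ![1, 0] = pt ψ₂ ![1, 0] ∧
      om P (pt ψ₁ ![1, 0]) (evL ![1, 0] (pd ψ₁ 1)) (evL ![1, 0] (pd ψ₂ 1)) ≠ 0 := by
  by_contra hcon
  have hcK : CharZero K := charZero_of_injective_algebraMap (algebraMap ℂ K).injective
  obtain ⟨E, f, hE, hEf, hf, hlin⟩ := ni_exists_f hX h hfull (ni_second_end hX h hfull)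
    (fun x hx ho => ni_lagrangian hX h vec01_ne x hx ho) (fun ψ₂ h2 hpt => by
      by_contra hne
      refine hcon ⟨K, inferInstance, inferInstance, inferInstance, ψ₂, ψ, h2, h, hpt, ?_⟩
      rw [hpt]
      exact hne)
  obtain ⟨f', 𝔭, h𝔭, hf', hdvr, hhom, ⟨g₁, h₁, hg₁, hh₁, hgh₁⟩, k, g, hg, h', hh', hg0, hh0,
    hfgh⟩ := ni_exists_prime hX E hE hEf hf
  have hf0 : f ≠ 0 := fun h0 => hf 0 (by rw [h0, map_zero])
  have hinjF : Function.Injective (algebraMap R (FractionRing R)) := IsFractionRing.injective R _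
  have hlin' : ∀ ψ₀ : R →ₐ[ℂ] MvPolynomial (Fin 2) (AlgebraicClosure (FractionRing R)),
      IsCurve 𝒜 1 ψ₀ → (∀ r, pt ψ₀ ![1, 0] r = algebraMap R _ r) →
        evL ![1, 0] (pd ψ₀ 1) g * algebraMap R _ h' =
          algebraMap R _ g * evL ![1, 0] (pd ψ₀ 1) h' := by
    intro ψ₀ h1 h2
    rcases hf' with rfl | rfl
    · exact hlin g h' hfgh ψ₀ h1 h2
    · have h3 : f * algebraMap R _ g = algebraMap R _ h' := by
        rw [← hfgh, ← mul_assoc, mul_inv_cancel₀ hf0, one_mul]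
      have h4 := hlin h' g h3 ψ₀ h1 h2
      linear_combination -h4
  have hW := ni_wronskian hX h hg hh' hlin'
  have hne : ∀ r : R, r ≠ 0 → ψ r ≠ 0 := by
    intro r hr h0
    apply hr
    apply (injective_iff_map_eq_zero (pt ψ ![1, 0])).1 h.inj
    rw [pt_apply, h0, map_zero]
  obtain ⟨c, hc, hgc⟩ := niw_forms (h.curve.degree k g hg) (h.curve.degree k h' hh')
    (hne g hg0) (hne h' hh0) hW
  have hcross : g * h₁ = g₁ * h' := by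
    apply hinjF
    rw [map_mul, map_mul, ← hfgh, ← hgh₁]
    ring
  have hg₁c : ψ g₁ = C c * ψ h₁ := by
    have h3 := congrArg ψ hcross
    rw [map_mul, map_mul, hgc] at h3
    refine mul_right_cancel₀ (hne h' hh0) ?_
    rw [← h3]
    ring
  obtain ⟨a, ha, ha𝔭⟩ := hm 𝔭 hdvr hhom
  obtain ⟨b, hb, hu', hD⟩ := ni_normalise ha
  have h𝔭0 : 𝔭 ≠ ⊥ := by
    rintro rfl
    have h2 := IsLocalization.AtPrime.ringKrullDim_eq_height (⊥ : Ideal R)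
      (Localization.AtPrime (⊥ : Ideal R))
    rw [IsDiscreteValuationRing.ringKrullDim_eq_one] at h2
    have h3 : (⊥ : Ideal R).height = 1 := by exact_mod_cast h2.symm
    simp at h3
  have hmem := ni_dvr_or_field hX (pt ψ fun i => b * a i) _
    (ni_proportional_on_ker hX h hfull hu' hD) 𝔭 h𝔭0 (ni_pt_smul h.curve hhom ha𝔭 b)
  apply hh₁
  apply hmem
  have h5 := ni_pt_smul h.curve hhom ha𝔭 b g₁ hg₁
  rw [pt_apply, hg₁c, map_mul, eval_C] at h5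
  rw [pt_apply]
  exact (mul_eq_zero.1 h5).resolve_left hc

/-- **I: non-isotropy for Picard number one.** -/
theorem exists_lines_ne_zero_pic (hX : IsContactFano 𝒜 P) [IsDomain R] (hpic : IsPicardOne 𝒜)
    {K : Type u} [Field K] [IsAlgClosed K] [Algebra ℂ K]
    {ψ : R →ₐ[ℂ] MvPolynomial (Fin 2) K} (h : IsAnch 𝒜 1 ψ) (hfull : IsFull 𝒜 1 ψ) :
    ∃ (Ω : Type u) (_ : Field Ω) (_ : IsAlgClosed Ω) (_ : Algebra ℂ Ω)
      (ψ₁ ψ₂ : R →ₐ[ℂ] MvPolynomial (Fin 2) Ω), IsAnch 𝒜 1 ψ₁ ∧ IsAnch 𝒜 1 ψ₂ ∧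
      pt ψ₁ ![1, 0] = pt ψ₂ ![1, 0] ∧
      om P (pt ψ₁ ![1, 0]) (evL ![1, 0] (pd ψ₁ 1)) (evL ![1, 0] (pd ψ₂ 1)) ≠ 0 :=
  exists_lines_ne_zero_of_meets hX h hfull fun 𝔭 _ hdvr hhom =>
    meets_of_pic hX hpic one_pos h.curve 𝔭 hdvr hhom

end Vale.Agent.P292
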