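import Vale.Agent.P292.K.Q2NDefs

/-! # Two lines through a generic point: the smoothing has no base points. -/

namespace Vale.Agent.P292

universe u v w

section val

variable {K : Type v} [Field K] {Ω : Type w} [Field Ω]

/-- A valuation ring which dominates the ring of power series. -/
theorem bp_exists_val (ι : PowerSeries K →+* Ω) : ∃ O : ValuationSubring Ω,
    (∀ f, O.valuation (ι f) ≤ 1) ∧ O.valuation (ι PowerSeries.X) < 1 := by
  obtain ⟨O, h, hl⟩ := IsLocalRing.exists_factor_valuationRing ι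
  refine ⟨O, fun f => (O.valuation_le_one_iff _).2 (h f), ?_⟩
  have h1 : ¬ IsUnit (⟨ι PowerSeries.X, h _⟩ : O) := by
    intro hu
    have h2 : IsUnit (PowerSeries.X : PowerSeries K) := hl.map_nonunit _ hu
    rw [PowerSeries.isUnit_iff_constantCoeff, PowerSeries.constantCoeff_X] at h2
    exact not_isUnit_zero h2
  have h3 : (⟨ι PowerSeries.X, h _⟩ : O) ∈ IsLocalRing.maximalIdeal O := h1
  exact (O.valuation_lt_one_iff _).1 h3

variable {ι : PowerSeries K →+* Ω} {O : ValuationSubring Ω}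

theorem bp_sub_lt (hO : ∀ f, O.valuation (ι f) ≤ 1) (hq : O.valuation (ι PowerSeries.X) < 1)
    (G : PowerSeries K) :
    O.valuation (ι G - ι (PowerSeries.C (PowerSeries.constantCoeff G))) < 1 := by
  have h1 : PowerSeries.X ∣ G - PowerSeries.C (PowerSeries.constantCoeff G) := by
    rw [PowerSeries.X_dvd_iff, map_sub, PowerSeries.constantCoeff_C, sub_self]
  obtain ⟨H, hH⟩ := h1
  rw [← map_sub, hH, map_mul, map_mul]
  exact lt_of_le_of_lt (mul_le_mul_right (hO H) _) (by rwa [mul_one])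

theorem bp_C_eq_zero (hO : ∀ f, O.valuation (ι f) ≤ 1) {c : K}
    (h : O.valuation (ι (PowerSeries.C c)) < 1) : c = 0 := by
  by_contra hc
  have h1 : O.valuation (ι (PowerSeries.C c)) * O.valuation (ι (PowerSeries.C c⁻¹)) = 1 := by
    rw [← map_mul, ← map_mul, ← map_mul, mul_inv_cancel₀ hc, map_one, map_one, map_one]
  have h2 : O.valuation (ι (PowerSeries.C c)) * O.valuation (ι (PowerSeries.C c⁻¹)) < 1 :=
    lt_of_le_of_lt (mul_le_mul_right (hO _) _) (by rwa [mul_one])
  rw [h1] at h2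
  exact lt_irrefl _ h2

/-- The chart around a point of one of the two components. -/
theorem bp_chart (hO : ∀ f, O.valuation (ι f) ≤ 1) (hq : O.valuation (ι PowerSeries.X) < 1)
    (hq0 : ι PowerSeries.X ≠ 0) {k : ℕ} {a : ℕ → Ω} {G : ℕ → PowerSeries K}
    (ha : ∀ i ≤ 2 * k, ι PowerSeries.X ^ k * a i = ι PowerSeries.X ^ ((i - k) + (k - i)) * ι (G i))
    {p : Polynomial K} (hp : p.natDegree ≤ k)
    (hG : ∀ i, k ≤ i → i ≤ 2 * k → PowerSeries.constantCoeff (G i) = p.coeff (2 * k - i))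
    {z : Ω} (hz : O.valuation z ≤ 1) :
    O.valuation (∑ i ∈ Finset.range (2 * k + 1), a i * (ι PowerSeries.X * z) ^ (2 * k - i) -
      p.eval₂ (ι.comp PowerSeries.C) z) < 1 := by
  classical
  have h1 : p.eval₂ (ι.comp PowerSeries.C) z = ∑ i ∈ Finset.range (2 * k + 1),
      if k ≤ i then ι (PowerSeries.C (p.coeff (2 * k - i))) * z ^ (2 * k - i) else 0 := by
    rw [← Finset.sum_range_reflect]
    have h2 : ∀ j ∈ Finset.range (2 * k + 1),
        (if k ≤ 2 * k + 1 - 1 - j then ι (PowerSeries.C (p.coeff (2 * k - (2 * k + 1 - 1 - j)))) *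
          z ^ (2 * k - (2 * k + 1 - 1 - j)) else 0) =
        (ι.comp PowerSeries.C) (p.coeff j) * z ^ j := by
      intro j hj
      rw [Finset.mem_range] at hj
      have e : 2 * k - (2 * k + 1 - 1 - j) = j := by omega
      rw [e]
      split_ifs with h
      · rfl
      · rw [Polynomial.coeff_eq_zero_of_natDegree_lt (by omega), map_zero, zero_mul]
    rw [Finset.sum_congr rfl h2, Polynomial.eval₂_eq_sum_range' (n := 2 * k + 1) _ (by omega)]
  rw [h1, ← Finset.sum_sub_distrib]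
  refine Valuation.map_sum_lt _ one_ne_zero fun i hi => ?_
  rw [Finset.mem_range] at hi
  have h2 : a i * (ι PowerSeries.X * z) ^ (2 * k - i) =
      ι PowerSeries.X ^ (2 * (k - i)) * ι (G i) * z ^ (2 * k - i) := by
    have h3 := ha i (by omega)
    have h4 : ι PowerSeries.X ^ k ≠ 0 := pow_ne_zero _ hq0
    apply mul_left_cancel₀ h4
    rw [← mul_assoc, h3, mul_pow]
    have h5 : (i - k) + (k - i) + (2 * k - i) = k + 2 * (k - i) := by omega
    calc ι PowerSeries.X ^ ((i - k) + (k - i)) * ι (G i) *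
          (ι PowerSeries.X ^ (2 * k - i) * z ^ (2 * k - i))
        = ι PowerSeries.X ^ ((i - k) + (k - i) + (2 * k - i)) * ι (G i) * z ^ (2 * k - i) := by
          rw [pow_add _ ((i - k) + (k - i))]; ring
      _ = _ := by rw [h5, pow_add]; ring
  rw [h2]
  have hz' : O.valuation (z ^ (2 * k - i)) ≤ 1 := by
    rw [map_pow]; exact pow_le_one₀ zero_le hz
  split_ifs with h
  · have e : k - i = 0 := by omega
    rw [e, mul_zero, pow_zero, one_mul, ← hG i h (by omega), ← sub_mul, map_mul]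
    exact lt_of_le_of_lt (mul_le_mul_right hz' _) (by rw [mul_one]; exact bp_sub_lt hO hq _)
  · rw [sub_zero, map_mul, map_mul, map_pow]
    have h3 : O.valuation (ι PowerSeries.X) ^ (2 * (k - i)) < 1 :=
      pow_lt_one₀ zero_le hq (by omega)
    calc O.valuation (ι PowerSeries.X) ^ (2 * (k - i)) * O.valuation (ι (G i)) *
          O.valuation (z ^ (2 * k - i))
        ≤ O.valuation (ι PowerSeries.X) ^ (2 * (k - i)) * 1 * 1 :=
          mul_le_mul' (mul_le_mul_right (hO _) _) hz'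
      _ < 1 := by rwa [mul_one, mul_one]

/-- The chart around the node. -/
theorem bp_node (hO : ∀ f, O.valuation (ι f) ≤ 1) (hq : O.valuation (ι PowerSeries.X) < 1)
    {k : ℕ} {a : ℕ → Ω} {G : ℕ → PowerSeries K}
    (ha : ∀ i ≤ 2 * k, ι PowerSeries.X ^ k * a i = ι PowerSeries.X ^ ((i - k) + (k - i)) * ι (G i))
    {x y : Ω} (hx : x ≠ 0) (hy : y ≠ 0) (h1 : O.valuation (ι PowerSeries.X * x * y⁻¹) < 1)
    (h2 : O.valuation (ι PowerSeries.X * y * x⁻¹) < 1)
    (h0 : ∑ i ∈ Finset.range (2 * k + 1), a i * x ^ i * y ^ (2 * k - i) = 0) :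
    PowerSeries.constantCoeff (G k) = 0 := by
  classical
  have h3 : ∀ i ∈ Finset.range (2 * k + 1),
      (ι PowerSeries.X * x⁻¹ * y⁻¹) ^ k * (a i * x ^ i * y ^ (2 * k - i)) =
        ι (G i) * (ι PowerSeries.X * x * y⁻¹) ^ (i - k) *
          (ι PowerSeries.X * y * x⁻¹) ^ (k - i) := by
    intro i hi
    rw [Finset.mem_range] at hi
    have h4 := ha i (by omega)
    have e1 : (ι PowerSeries.X * x⁻¹ * y⁻¹) ^ k * (a i * x ^ i * y ^ (2 * k - i)) =
        (ι PowerSeries.X ^ k * a i) * (x⁻¹ ^ k * x ^ i) * (y⁻¹ ^ k * y ^ (2 * k - i)) := by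
      rw [mul_pow, mul_pow]; ring
    rw [e1, h4]
    have e2 : x⁻¹ ^ k * x ^ i = x ^ (i - k) * x⁻¹ ^ (k - i) := by
      rcases le_total k i with h | h
      · obtain ⟨j, rfl⟩ := exists_add_of_le h
        rw [Nat.add_sub_cancel_left, Nat.sub_eq_zero_of_le h, pow_zero, mul_one, pow_add,
          ← mul_assoc, ← mul_pow, inv_mul_cancel₀ hx, one_pow, one_mul]
      · obtain ⟨j, rfl⟩ := exists_add_of_le h
        rw [Nat.add_sub_cancel_left, Nat.sub_eq_zero_of_le h, pow_zero, one_mul, pow_add,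
          mul_right_comm, ← mul_pow, inv_mul_cancel₀ hx, one_pow, one_mul]
    have e3 : y⁻¹ ^ k * y ^ (2 * k - i) = y⁻¹ ^ (i - k) * y ^ (k - i) := by
      rcases le_total k i with h | h
      · obtain ⟨j, rfl⟩ := exists_add_of_le h
        have : 2 * k - (k + j) = k - j := by omega
        have hj : k = (k - j) + j := by omega
        rw [Nat.add_sub_cancel_left, Nat.sub_eq_zero_of_le h, pow_zero, mul_one, this]
        conv_lhs => rw [hj]
        rw [Nat.add_sub_cancel, pow_add, mul_right_comm, ← mul_pow, inv_mul_cancel₀ hy, one_pow,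
          one_mul]
      · obtain ⟨j, rfl⟩ := exists_add_of_le h
        have : 2 * (i + j) - i = (i + j) + j := by omega
        rw [Nat.add_sub_cancel_left, Nat.sub_eq_zero_of_le h, pow_zero, one_mul, this, pow_add y,
          ← mul_assoc, ← mul_pow, inv_mul_cancel₀ hy, one_pow, one_mul]
    rw [e2, e3, mul_pow, mul_pow, mul_pow, mul_pow, pow_add]
    ring
  have h4 : ∑ i ∈ Finset.range (2 * k + 1), ι (G i) * (ι PowerSeries.X * x * y⁻¹) ^ (i - k) *
      (ι PowerSeries.X * y * x⁻¹) ^ (k - i) = 0 := by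
    rw [← Finset.sum_congr rfl h3, ← Finset.mul_sum, h0, mul_zero]
  have h5 : O.valuation (∑ i ∈ (Finset.range (2 * k + 1)).erase k,
      ι (G i) * (ι PowerSeries.X * x * y⁻¹) ^ (i - k) *
      (ι PowerSeries.X * y * x⁻¹) ^ (k - i)) < 1 := by
    refine Valuation.map_sum_lt _ one_ne_zero fun i hi => ?_
    rw [Finset.mem_erase] at hi
    rw [map_mul, map_mul, map_pow, map_pow]
    rcases lt_or_gt_of_ne hi.1 with h | h
    · have e : i - k = 0 := by omega
      rw [e, pow_zero, mul_one]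
      exact lt_of_le_of_lt (mul_le_mul_left (hO _) _) (by
        rw [one_mul]; exact pow_lt_one₀ zero_le h2 (by omega))
    · have e : k - i = 0 := by omega
      rw [e, pow_zero, mul_one]
      exact lt_of_le_of_lt (mul_le_mul_left (hO _) _) (by
        rw [one_mul]; exact pow_lt_one₀ zero_le h1 (by omega))
  have h6 : ι (G k) = - ∑ i ∈ (Finset.range (2 * k + 1)).erase k,
      ι (G i) * (ι PowerSeries.X * x * y⁻¹) ^ (i - k) *
      (ι PowerSeries.X * y * x⁻¹) ^ (k - i) := by
    rw [← Finset.add_sum_erase _ _ (Finset.mem_range.2 (by omega : k < 2 * k + 1)), Nat.sub_self,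
      pow_zero, pow_zero, mul_one, mul_one] at h4
    exact eq_neg_of_add_eq_zero_left h4
  apply bp_C_eq_zero hO
  have h7 : ι (PowerSeries.C (PowerSeries.constantCoeff (G k))) = ι (G k) -
      (ι (G k) - ι (PowerSeries.C (PowerSeries.constantCoeff (G k)))) := by ring
  rw [h7]
  refine lt_of_le_of_lt (Valuation.map_sub _ _ _) (max_lt ?_ (bp_sub_lt hO hq _))
  rw [h6, Valuation.map_neg]
  exact h5

end val

section nd

variable {K : Type v} [Field K]

theorem bp_coeff_ndForm (k i : ℕ) (hi : i ≤ 2 * k) (F : MvPowerSeries (Fin 2) K) :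
    ∃ G : PowerSeries K, PowerSeries.constantCoeff G =
      MvPowerSeries.coeff (Finsupp.single 0 (i - k) + Finsupp.single 1 (k - i)) F ∧
      (ndForm k F).coeff (Finsupp.single 0 i + Finsupp.single 1 (2 * k - i)) =
        PowerSeries.X ^ ((i - k) + (k - i)) * G := by
  classical
  let g : PowerSeries K := PowerSeries.mk fun N => ∑ p ∈ Finset.HasAntidiagonal.antidiagonal N,
      if k + p.1 = i + p.2 then
        MvPowerSeries.coeff (Finsupp.single 0 p.1 + Finsupp.single 1 p.2) F else 0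
  have h1 : (ndForm k F).coeff (Finsupp.single 0 i + Finsupp.single 1 (2 * k - i)) = g := by
    rw [ndForm, MvPolynomial.coeff_sum, Finset.sum_eq_single i]
    · rw [MvPolynomial.coeff_monomial, if_pos rfl]
    · intro j hj hji
      rw [MvPolynomial.coeff_monomial, if_neg]
      intro h
      apply hji
      have := DFunLike.congr_fun h 0
      simpa using this
    · intro h
      exact absurd (Finset.mem_range.2 (by omega)) h
  have h2 : PowerSeries.X ^ ((i - k) + (k - i)) ∣ g := by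
    rw [PowerSeries.X_pow_dvd_iff]
    intro N hN
    rw [PowerSeries.coeff_mk]
    refine Finset.sum_eq_zero fun p hp => ?_
    rw [Finset.HasAntidiagonal.mem_antidiagonal] at hp
    rw [if_neg (by omega)]
  obtain ⟨G, hG⟩ := h2
  refine ⟨G, ?_, by rw [h1, hG]⟩
  have h3 : PowerSeries.coeff ((i - k) + (k - i)) g = PowerSeries.constantCoeff G := by
    rw [hG, PowerSeries.coeff_X_pow_mul', if_pos le_rfl, Nat.sub_self,
      PowerSeries.coeff_zero_eq_constantCoeff]
  rw [← h3, PowerSeries.coeff_mk, Finset.sum_eq_single (i - k, k - i)]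
  · rw [if_pos (by simp only; omega)]
  · intro p hp hne
    rw [Finset.HasAntidiagonal.mem_antidiagonal] at hp
    rw [if_neg]
    intro h
    apply hne
    ext
    · simp only; omega
    · simp only; omega
  · intro h
    exfalso
    apply h
    rw [Finset.HasAntidiagonal.mem_antidiagonal]

/-- The value of a binary form. -/
theorem bp_eval_form {κ : Type*} [Field κ] {N : ℕ} {p : MvPolynomial (Fin 2) κ}
    (hp : p.IsHomogeneous N) (x : Fin 2 → κ) : MvPolynomial.eval x p =
      ∑ i ∈ Finset.range (N + 1), p.coeff (Finsupp.single 0 i + Finsupp.single 1 (N - i)) *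
        x 0 ^ i * x 1 ^ (N - i) := by
  classical
  have h1 : p = ∑ i ∈ Finset.range (N + 1), MvPolynomial.monomial
      (Finsupp.single 0 i + Finsupp.single 1 (N - i))
      (p.coeff (Finsupp.single 0 i + Finsupp.single 1 (N - i))) := by
    ext m
    rw [MvPolynomial.coeff_sum]
    by_cases hm : m 0 + m 1 = N
    · have e : m = Finsupp.single 0 (m 0) + Finsupp.single 1 (N - m 0) := by
        ext j
        fin_cases j
        · simp
        · simp; omega
      rw [Finset.sum_eq_single (m 0)]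
      · rw [MvPolynomial.coeff_monomial, if_pos e.symm, ← e]
      · intro j hj hji
        rw [MvPolynomial.coeff_monomial, if_neg]
        intro h
        apply hji
        have := DFunLike.congr_fun h 0
        simpa using this
      · intro h
        exact absurd (Finset.mem_range.2 (by omega)) h
    · have hdeg : m.degree ≠ N := by
        rw [Finsupp.degree_eq_sum, Fin.sum_univ_two]
        exact hm
      rw [hp.coeff_eq_zero hdeg]
      symm
      refine Finset.sum_eq_zero fun i hi => ?_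
      rw [Finset.mem_range] at hi
      rw [MvPolynomial.coeff_monomial, if_neg]
      rintro rfl
      apply hm
      simp
      omega
  conv_lhs => rw [h1]
  rw [map_sum]
  refine Finset.sum_congr rfl fun i _ => ?_
  rw [MvPolynomial.eval_monomial, Finsupp.prod_add_index' (by simp) (by intros; rw [pow_add]),
    Finsupp.prod_single_index (by simp), Finsupp.prod_single_index (by simp), mul_assoc]

/-- The dehomogenised forms of a curve generate the unit ideal. -/
theorem bp_span_eq_top {R : Type u} [CommRing R] [Algebra ℂ R] {𝒜 : ℕ → Submodule ℂ R}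
    [IsAlgClosed K] [Algebra ℂ K] {ψ : R →ₐ[ℂ] MvPolynomial (Fin 2) K} (h : IsCurve 𝒜 1 ψ) :
    Ideal.span {p : Polynomial K | ∃ k, 0 < k ∧ ∃ r ∈ 𝒜 k, p = nwDehom K 1 (ψ r)} = ⊤ := by
  by_contra hne
  obtain ⟨g, hg⟩ := (IsPrincipalIdealRing.principal
    (Ideal.span {p : Polynomial K | ∃ k, 0 < k ∧ ∃ r ∈ 𝒜 k, p = nwDehom K 1 (ψ r)})).principal
  have hgu : ¬ IsUnit g := fun hu => hne (by rw [hg]; exact Ideal.span_singleton_eq_top.2 hu)
  obtain ⟨x, hx⟩ : ∃ x, g.eval x = 0 := by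
    by_cases hg0 : g.degree = 0
    · exact absurd (Polynomial.isUnit_iff_degree_eq_zero.2 hg0) hgu
    · exact IsAlgClosed.exists_root g hg0
  have hx2 : (![x, 1] : Fin 2 → K) ≠ 0 := fun h0 => by
    have := congrFun h0 1
    simp at this
  obtain ⟨k, hk, r, hr, hne2⟩ := h.bpf ![x, 1] hx2
  apply hne2
  have h1 : nwDehom K 1 (ψ r) ∈ Ideal.span {p : Polynomial K | ∃ k, 0 < k ∧
      ∃ r ∈ 𝒜 k, p = nwDehom K 1 (ψ r)} := Ideal.subset_span ⟨k, hk, r, hr, rfl⟩
  rw [hg] at h1
  obtain ⟨c, hc⟩ := Ideal.mem_span_singleton'.1 h1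
  rw [MvPolynomial.aeval_eq_eval]
  change MvPolynomial.eval ![x, 1] (ψ r) = 0
  rw [← eval_nwDehom_one, ← hc, Polynomial.eval_mul, hx, mul_zero]

/-- The dehomogenised forms of a curve have no common root, also modulo the maximal ideal. -/
theorem bp_exists_unit {R : Type u} [CommRing R] [Algebra ℂ R] {𝒜 : ℕ → Submodule ℂ R}
    [IsAlgClosed K] [Algebra ℂ K] {ψ : R →ₐ[ℂ] MvPolynomial (Fin 2) K} (h : IsCurve 𝒜 1 ψ)
    {Ω : Type w} [Field Ω] {ι : PowerSeries K →+* Ω} {O : ValuationSubring Ω}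
    (hO : ∀ f, O.valuation (ι f) ≤ 1) {z : Ω} (hz : O.valuation z ≤ 1) :
    ∃ k, 0 < k ∧ ∃ r ∈ 𝒜 k,
      ¬ O.valuation ((nwDehom K 1 (ψ r)).eval₂ (ι.comp PowerSeries.C) z) < 1 := by
  by_contra hcon
  push Not at hcon
  have hint : ∀ p : Polynomial K, O.valuation (p.eval₂ (ι.comp PowerSeries.C) z) ≤ 1 := by
    intro p
    rw [Polynomial.eval₂_eq_sum_range]
    refine Valuation.map_sum_le _ fun i _ => ?_
    rw [map_mul, map_pow]
    exact mul_le_one' (hO _) (pow_le_one₀ zero_le hz)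
  have key : ∀ p ∈ Ideal.span {p : Polynomial K | ∃ k, 0 < k ∧ ∃ r ∈ 𝒜 k,
      p = nwDehom K 1 (ψ r)}, O.valuation (p.eval₂ (ι.comp PowerSeries.C) z) < 1 := by
    intro p hp
    induction hp using Submodule.span_induction with
    | mem p hp =>
      obtain ⟨k, hk, r, hr, rfl⟩ := hp
      exact hcon k hk r hr
    | zero => rw [Polynomial.eval₂_zero, map_zero]; exact zero_lt_one
    | add p q _ _ hp hq =>
      rw [Polynomial.eval₂_add]
      exact lt_of_le_of_lt (Valuation.map_add _ _ _) (max_lt hp hq)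
    | smul a p _ hp =>
      rw [smul_eq_mul, Polynomial.eval₂_mul, map_mul]
      exact lt_of_le_of_lt (mul_le_mul_left (hint a) _) (by rwa [one_mul])
  have h1 := key 1 (by rw [bp_span_eq_top h]; exact Submodule.mem_top)
  rw [Polynomial.eval₂_one, map_one] at h1
  exact lt_irrefl _ h1

theorem bp_ndForm_isHomogeneous (k : ℕ) (F : MvPowerSeries (Fin 2) K) :
    (ndForm k F).IsHomogeneous (2 * k) := by
  refine MvPolynomial.IsHomogeneous.sum _ _ _ fun i hi => ?_
  rw [Finset.mem_range] at hi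
  refine MvPolynomial.isHomogeneous_monomial _ ?_
  simp only [map_add, Finsupp.degree_single]
  omega

end nd

section

variable {R : Type u} [CommRing R] [Algebra ℂ R] {𝒜 : ℕ → Submodule ℂ R}
  {K : Type v} [Field K] [Algebra ℂ K]

/-- N2.2: the smoothing has no base points. -/
theorem nd_isCurve [GradedAlgebra 𝒜] [IsAlgClosed K] {ψ₁ ψ₂ : R →ₐ[ℂ] MvPolynomial (Fin 2) K}
    (h₁ : IsCurve 𝒜 1 ψ₁) (h₂ : IsCurve 𝒜 1 ψ₂) {Φ : R →ₐ[ℂ] MvPowerSeries (Fin 2) K}
    (hax1 : ∀ r i, MvPowerSeries.coeff (Finsupp.single 0 i) (Φ r) = (nwDehom K 0 (ψ₁ r)).coeff i)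
    (hax2 : ∀ r i, MvPowerSeries.coeff (Finsupp.single 1 i) (Φ r) = (nwDehom K 0 (ψ₂ r)).coeff i)
    {φ : R →ₐ[ℂ] MvPolynomial (Fin 2) (PowerSeries K)} (hφ : ∀ k, ∀ r ∈ 𝒜 k, φ r = ndForm k (Φ r))
    {Ω : Type w} [Field Ω] [Algebra ℂ Ω] (ι : PowerSeries K →ₐ[ℂ] Ω) (hι : Function.Injective ι)
    (O : ValuationSubring Ω) (hO : ∀ a, ι a ∈ O) (hq : O.valuation (ι PowerSeries.X) < 1) :
    IsCurve 𝒜 2 ((MvPolynomial.mapAlgHom ι).comp φ) := by
  classical
  have hq0 : (ι : PowerSeries K →+* Ω) PowerSeries.X ≠ 0 := fun h0 =>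
    PowerSeries.X_ne_zero (hι (h0.trans (map_zero ι).symm))
  have hO' : ∀ f, O.valuation ((ι : PowerSeries K →+* Ω) f) ≤ 1 := fun f =>
    (O.valuation_le_one_iff _).2 (hO f)
  have hdeg : ∀ k, ∀ r ∈ 𝒜 k, (((MvPolynomial.mapAlgHom ι).comp φ) r).IsHomogeneous (2 * k) := by
    intro k r hr
    change (MvPolynomial.map (ι : PowerSeries K →+* Ω) (φ r)).IsHomogeneous _
    rw [hφ k r hr]
    exact (bp_ndForm_isHomogeneous k _).map _
  refine ⟨hdeg, fun x hx => ?_⟩
  by_contra hcon
  push Not at hcon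
  -- the data
  have main : ∀ k, 0 < k → ∀ r ∈ 𝒜 k, ∃ (a : ℕ → Ω) (G : ℕ → PowerSeries K),
      (∀ i ≤ 2 * k, (ι : PowerSeries K →+* Ω) PowerSeries.X ^ k * a i =
        (ι : PowerSeries K →+* Ω) PowerSeries.X ^ ((i - k) + (k - i)) *
          (ι : PowerSeries K →+* Ω) (G i)) ∧
      (∀ i ≤ 2 * k, PowerSeries.constantCoeff (G i) =
        MvPowerSeries.coeff (Finsupp.single 0 (i - k) + Finsupp.single 1 (k - i)) (Φ r)) ∧
      ∑ i ∈ Finset.range (2 * k + 1), a i * x 0 ^ i * x 1 ^ (2 * k - i) = 0 := by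
    intro k hk r hr
    have h1 : ∀ i, ∃ G : PowerSeries K, i ≤ 2 * k → PowerSeries.constantCoeff G =
      MvPowerSeries.coeff (Finsupp.single 0 (i - k) + Finsupp.single 1 (k - i)) (Φ r) ∧
      (ndForm k (Φ r)).coeff (Finsupp.single 0 i + Finsupp.single 1 (2 * k - i)) =
        PowerSeries.X ^ ((i - k) + (k - i)) * G := by
      intro i
      by_cases hi : i ≤ 2 * k
      · obtain ⟨G, hG⟩ := bp_coeff_ndForm k i hi (Φ r)
        exact ⟨G, fun _ => hG⟩
      · exact ⟨0, fun h => absurd h hi⟩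
    choose G hG using h1
    have hqk : (ι : PowerSeries K →+* Ω) PowerSeries.X ^ k ≠ 0 := pow_ne_zero _ hq0
    refine ⟨fun i => ((ι : PowerSeries K →+* Ω) PowerSeries.X ^ k)⁻¹ *
      (((MvPolynomial.mapAlgHom ι).comp φ) r).coeff
        (Finsupp.single 0 i + Finsupp.single 1 (2 * k - i)), G, fun i hi => ?_,
      fun i hi => (hG i hi).1, ?_⟩
    · rw [mul_inv_cancel_left₀ hqk]
      change (MvPolynomial.map (ι : PowerSeries K →+* Ω) (φ r)).coeff _ = _
      rw [MvPolynomial.coeff_map, hφ k r hr, (hG i hi).2, map_mul, map_pow]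
    · have h2 := hcon k hk r hr
      rw [MvPolynomial.aeval_eq_eval] at h2
      change MvPolynomial.eval x _ = 0 at h2
      rw [bp_eval_form (hdeg k r hr)] at h2
      simp only [mul_assoc]
      rw [← Finset.mul_sum]
      simp only [mul_assoc] at h2
      rw [h2, mul_zero]
  have hp : ∀ (ψ : R →ₐ[ℂ] MvPolynomial (Fin 2) K), IsCurve 𝒜 1 ψ → ∀ k, ∀ r ∈ 𝒜 k,
      (nwDehom K 1 (ψ r)).natDegree ≤ k ∧ ∀ i, k ≤ i → i ≤ 2 * k →
        (nwDehom K 0 (ψ r)).coeff (i - k) = (nwDehom K 1 (ψ r)).coeff (2 * k - i) := by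
    intro ψ hψ k r hr
    have h1 : (ψ r).IsHomogeneous k := by
      have := hψ.degree k r hr
      rwa [one_mul] at this
    refine ⟨nwDehom_natDegree_le 1 0 (by decide) h1, fun i hi hi2 => ?_⟩
    exact nwDehom_coeff_symm h1 (by omega)
  -- first chart
  have caseA : ∀ z : Ω, O.valuation z ≤ 1 → x 0 ≠ 0 →
      x 1 = (ι : PowerSeries K →+* Ω) PowerSeries.X * z * x 0 → False := by
    intro z hz hx0 hx1
    obtain ⟨k, hk, r, hr, hu⟩ := bp_exists_unit (ι := (ι : PowerSeries K →+* Ω)) h₁ hO' hz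
    obtain ⟨a, G, ha, hG, hsum⟩ := main k hk r hr
    obtain ⟨hpd, hpc⟩ := hp ψ₁ h₁ k r hr
    apply hu
    have h3 := bp_chart hO' hq hq0 ha hpd (fun i hi hi2 => by
      rw [hG i hi2, Nat.sub_eq_zero_of_le hi, Finsupp.single_zero, add_zero, hax1, hpc i hi hi2]) hz
    have h4 : ∑ i ∈ Finset.range (2 * k + 1),
        a i * ((ι : PowerSeries K →+* Ω) PowerSeries.X * z) ^ (2 * k - i) = 0 := by
      have h5 : x 0 ^ (2 * k) ≠ 0 := pow_ne_zero _ hx0
      apply mul_left_cancel₀ h5
      rw [mul_zero, ← hsum, Finset.mul_sum]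
      refine Finset.sum_congr rfl fun i hi => ?_
      rw [Finset.mem_range] at hi
      obtain ⟨j, hj⟩ := exists_add_of_le (show i ≤ 2 * k by omega)
      rw [hx1, hj, Nat.add_sub_cancel_left, mul_pow _ (x 0), pow_add (x 0)]
      ring
    rw [h4, zero_sub, Valuation.map_neg] at h3
    exact h3
  have caseB : ∀ z : Ω, O.valuation z ≤ 1 → x 1 ≠ 0 →
      x 0 = (ι : PowerSeries K →+* Ω) PowerSeries.X * z * x 1 → False := by
    intro z hz hx1 hx0
    obtain ⟨k, hk, r, hr, hu⟩ := bp_exists_unit (ι := (ι : PowerSeries K →+* Ω)) h₂ hO' hz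
    obtain ⟨a, G, ha, hG, hsum⟩ := main k hk r hr
    obtain ⟨hpd, hpc⟩ := hp ψ₂ h₂ k r hr
    apply hu
    have h3 := bp_chart (a := fun i => a (2 * k - i)) (G := fun i => G (2 * k - i)) hO' hq hq0
      (fun i hi => by
        have e : (i - k) + (k - i) = (2 * k - i - k) + (k - (2 * k - i)) := by omega
        rw [e]
        exact ha (2 * k - i) (by omega)) hpd (fun i hi hi2 => by
      have e1 : 2 * k - i - k = 0 := by omega
      have e2 : k - (2 * k - i) = i - k := by omega
      rw [hG (2 * k - i) (by omega), e1, e2, Finsupp.single_zero, zero_add, hax2, hpc i hi hi2]) hz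
    have h4 : ∑ i ∈ Finset.range (2 * k + 1),
        a (2 * k - i) * ((ι : PowerSeries K →+* Ω) PowerSeries.X * z) ^ (2 * k - i) = 0 := by
      have h5 : x 1 ^ (2 * k) ≠ 0 := pow_ne_zero _ hx1
      apply mul_left_cancel₀ h5
      rw [mul_zero, ← hsum, Finset.mul_sum, ← Finset.sum_range_reflect]
      refine Finset.sum_congr rfl fun i hi => ?_
      rw [Finset.mem_range] at hi
      have e1 : 2 * k + 1 - 1 - i = 2 * k - i := by omega
      have e2 : 2 * k - (2 * k - i) = i := by omega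
      rw [e1, e2, hx0]
      obtain ⟨j, hj⟩ := exists_add_of_le (show i ≤ 2 * k by omega)
      rw [hj, Nat.add_sub_cancel_left, mul_pow _ (x 1), pow_add (x 1)]
      ring
    rw [h4, zero_sub, Valuation.map_neg] at h3
    exact h3
  by_cases hx0 : x 0 = 0
  · have hx1 : x 1 ≠ 0 := fun h => hx (by funext j; fin_cases j <;> assumption)
    exact caseB 0 (by rw [map_zero]; exact zero_le) hx1 (by rw [hx0]; ring)
  by_cases hx1 : x 1 = 0
  · exact caseA 0 (by rw [map_zero]; exact zero_le) hx0 (by rw [hx1]; ring)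
  by_cases hz1 : O.valuation (((ι : PowerSeries K →+* Ω) PowerSeries.X * x 0)⁻¹ * x 1) ≤ 1
  · exact caseA _ hz1 hx0 (by
      have h3 := mul_ne_zero hq0 hx0
      calc x 1 = ((ι : PowerSeries K →+* Ω) PowerSeries.X * x 0) *
          (((ι : PowerSeries K →+* Ω) PowerSeries.X * x 0)⁻¹ * x 1) :=
            (mul_inv_cancel_left₀ h3 _).symm
        _ = _ := by ring)
  by_cases hz0 : O.valuation (((ι : PowerSeries K →+* Ω) PowerSeries.X * x 1)⁻¹ * x 0) ≤ 1
  · exact caseB _ hz0 hx1 (by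
      have h3 := mul_ne_zero hq0 hx1
      calc x 0 = ((ι : PowerSeries K →+* Ω) PowerSeries.X * x 1) *
          (((ι : PowerSeries K →+* Ω) PowerSeries.X * x 1)⁻¹ * x 0) :=
            (mul_inv_cancel_left₀ h3 _).symm
        _ = _ := by ring)
  -- the node
  have h10 : (![1, 0] : Fin 2 → K) ≠ 0 := fun h0 => by
    have := congrFun h0 0
    simp at this
  obtain ⟨k, hk, r, hr, hne⟩ := h₁.bpf ![1, 0] h10
  apply hne
  rw [MvPolynomial.aeval_eq_eval]
  change MvPolynomial.eval ![1, 0] (ψ₁ r) = 0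
  obtain ⟨a, G, ha, hG, hsum⟩ := main k hk r hr
  have h3 := bp_node hO' hq ha hx0 hx1 (by
    rw [not_le] at hz1
    have e : (ι : PowerSeries K →+* Ω) PowerSeries.X * x 0 * (x 1)⁻¹ =
        (((ι : PowerSeries K →+* Ω) PowerSeries.X * x 0)⁻¹ * x 1)⁻¹ := by
      rw [mul_inv, inv_inv]
    rw [e, map_inv₀]
    exact inv_lt_one_of_one_lt₀ hz1) (by
    rw [not_le] at hz0
    have e : (ι : PowerSeries K →+* Ω) PowerSeries.X * x 1 * (x 0)⁻¹ =
        (((ι : PowerSeries K →+* Ω) PowerSeries.X * x 1)⁻¹ * x 0)⁻¹ := by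
      rw [mul_inv, inv_inv]
    rw [e, map_inv₀]
    exact inv_lt_one_of_one_lt₀ hz0) hsum
  rw [hG k (by omega), Nat.sub_self, Finsupp.single_zero, Finsupp.single_zero, add_zero] at h3
  rw [nw_eval_one_zero, ← hax1, Finsupp.single_zero]
  exact h3

end

end Vale.Agent.P292
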