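import Vale.Agent.P292.K.Q2NDefs

set_option linter.all false

/-! # Q2 part I, block N2.1: the conic over `K⟦q⟧`. -/

namespace Vale.Agent.P292

open MvPolynomial

universe u v w

section
variable {K : Type v} [Field K]

/-- the power series coefficients -/
noncomputable def ndSer (k : ℕ) (F : MvPowerSeries (Fin 2) K) (i : ℕ) : PowerSeries K :=
  PowerSeries.mk fun N => ∑ p ∈ Finset.HasAntidiagonal.antidiagonal N,
      if k + p.1 = i + p.2 then
        MvPowerSeries.coeff (Finsupp.single 0 p.1 + Finsupp.single 1 p.2) F else 0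

theorem ndForm_eq (k : ℕ) (F : MvPowerSeries (Fin 2) K) : ndForm k F =
    ∑ i ∈ Finset.range (2 * k + 1),
      monomial (Finsupp.single 0 i + Finsupp.single 1 (2 * k - i)) (ndSer k F i) := rfl

theorem nd_single_eq (e : Fin 2 →₀ ℕ) : Finsupp.single 0 (e 0) + Finsupp.single 1 (e 1) = e := by
  ext i
  fin_cases i <;> simp

theorem nd_ext {e e' : Fin 2 →₀ ℕ} (h0 : e 0 = e' 0) (h1 : e 1 = e' 1) : e = e' := by
  ext i
  fin_cases i
  · exact h0
  · exact h1

@[simp] theorem ndExp_zero (k : ℕ) (m : Fin 2 →₀ ℕ) : ndExp k m 0 = k + m 0 - m 1 := by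
  simp [ndExp]

@[simp] theorem ndExp_one (k : ℕ) (m : Fin 2 →₀ ℕ) : ndExp k m 1 = k + m 1 - m 0 := by
  simp [ndExp]

theorem nd_coeff_form (k : ℕ) (F : MvPowerSeries (Fin 2) K) (e : Fin 2 →₀ ℕ) :
    coeff e (ndForm k F) = if e 0 + e 1 = 2 * k then ndSer k F (e 0) else 0 := by
  classical
  rw [ndForm_eq, coeff_sum]
  split_ifs with h
  · rw [Finset.sum_eq_single (e 0)]
    · rw [coeff_monomial, if_pos]
      rw [show 2 * k - e 0 = e 1 by omega, nd_single_eq]
    · intro i _ hi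
      rw [coeff_monomial, if_neg]
      intro h1
      apply hi
      have := DFunLike.congr_fun h1 0
      simpa using this
    · intro h1
      exfalso
      apply h1
      rw [Finset.mem_range]
      omega
  · refine Finset.sum_eq_zero fun i hi => ?_
    rw [coeff_monomial, if_neg]
    intro h1
    apply h
    rw [Finset.mem_range] at hi
    rw [← h1]
    simp
    omega

theorem ndForm_isHomogeneous (k : ℕ) (F : MvPowerSeries (Fin 2) K) :
    (ndForm k F).IsHomogeneous (2 * k) := by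
  rw [ndForm_eq]
  refine IsHomogeneous.sum _ _ _ fun i hi => ?_
  rw [Finset.mem_range] at hi
  refine isHomogeneous_monomial _ ?_
  rw [map_add, Finsupp.degree_single, Finsupp.degree_single]
  omega

theorem nd_coeff_ser (k : ℕ) (F : MvPowerSeries (Fin 2) K) (i N : ℕ) :
    PowerSeries.coeff N (ndSer k F i) = ∑ p ∈ Finset.HasAntidiagonal.antidiagonal N,
      if k + p.1 = i + p.2 then
        MvPowerSeries.coeff (Finsupp.single 0 p.1 + Finsupp.single 1 p.2) F else 0 := by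
  rw [ndSer, PowerSeries.coeff_mk]

/-- N2.1c the coefficient `F_m` is recovered -/
theorem coeff_ndForm {k : ℕ} (F : MvPowerSeries (Fin 2) K) (m : Fin 2 →₀ ℕ)
    (h0 : m 0 ≤ m 1 + k) (h1 : m 1 ≤ m 0 + k) :
    PowerSeries.coeff (m 0 + m 1) (coeff (ndExp k m) (ndForm k F)) =
      MvPowerSeries.coeff m F := by
  classical
  rw [nd_coeff_form, ndExp_zero, ndExp_one, if_pos (by omega), nd_coeff_ser,
    Finset.sum_eq_single (m 0, m 1)]
  · rw [if_pos (by simp only; omega), nd_single_eq]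
  · rintro ⟨a, b⟩ hab hne
    rw [if_neg]
    intro h
    apply hne
    rw [Finset.HasAntidiagonal.mem_antidiagonal] at hab
    simp only at hab h
    ext <;> simp only <;> omega
  · intro h
    exfalso
    apply h
    rw [Finset.HasAntidiagonal.mem_antidiagonal]

/-- N2.1d -/
theorem exists_of_coeff_ndForm_ne {k : ℕ} {F : MvPowerSeries (Fin 2) K} {N : ℕ}
    {e : Fin 2 →₀ ℕ} (h : PowerSeries.coeff N (coeff e (ndForm k F)) ≠ 0) :
    ∃ m : Fin 2 →₀ ℕ, m 0 ≤ m 1 + k ∧ m 1 ≤ m 0 + k ∧ N = m 0 + m 1 ∧ e = ndExp k m := by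
  classical
  rw [nd_coeff_form] at h
  split_ifs at h with he
  · rw [nd_coeff_ser] at h
    obtain ⟨p, hp, hp'⟩ := Finset.exists_ne_zero_of_sum_ne_zero h
    rw [Finset.HasAntidiagonal.mem_antidiagonal] at hp
    have h2 : k + p.1 = e 0 + p.2 := by
      by_contra h3
      rw [if_neg h3] at hp'
      exact hp' rfl
    refine ⟨Finsupp.single 0 p.1 + Finsupp.single 1 p.2, ?_, ?_, ?_, nd_ext ?_ ?_⟩ <;>
      simp <;> omega
  · exact absurd (map_zero _) h

theorem nd_coeff_zero_of {k : ℕ} {F : MvPowerSeries (Fin 2) K} {N : ℕ}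
    {e : Fin 2 →₀ ℕ} (h : ¬ ∃ m : Fin 2 →₀ ℕ, m 0 ≤ m 1 + k ∧ m 1 ≤ m 0 + k ∧ N = m 0 + m 1 ∧
      e = ndExp k m) : PowerSeries.coeff N (coeff e (ndForm k F)) = 0 := by
  by_contra h1
  exact h (exists_of_coeff_ndForm_ne h1)

theorem NdSupp.of_ne {k : ℕ} {F : MvPowerSeries (Fin 2) K} (hF : NdSupp k F) {m : Fin 2 →₀ ℕ}
    (h : MvPowerSeries.coeff m F ≠ 0) : m 0 ≤ m 1 + k ∧ m 1 ≤ m 0 + k := by
  constructor
  · by_contra h1
    exact h (hF.1 m (by omega))
  · by_contra h1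
    exact h (hF.2 m (by omega))

theorem nd_inj {k : ℕ} {m m' : Fin 2 →₀ ℕ} (h0 : m 0 ≤ m 1 + k) (h1 : m 1 ≤ m 0 + k)
    (h0' : m' 0 ≤ m' 1 + k) (h1' : m' 1 ≤ m' 0 + k) (h : m 0 + m 1 = m' 0 + m' 1)
    (he : ndExp k m = ndExp k m') : m = m' := by
  have h2 := DFunLike.congr_fun he 0
  rw [ndExp_zero, ndExp_zero] at h2
  exact nd_ext (by omega) (by omega)

theorem ndExp_add {k l : ℕ} {m m' : Fin 2 →₀ ℕ} (h0 : m 0 ≤ m 1 + k) (h1 : m 1 ≤ m 0 + k)
    (h0' : m' 0 ≤ m' 1 + l) (h1' : m' 1 ≤ m' 0 + l) :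
    ndExp k m + ndExp l m' = ndExp (k + l) (m + m') := by
  refine nd_ext ?_ ?_ <;> simp <;> omega

/-- N2.1a -/
theorem ndForm_mul {k l : ℕ} {F G : MvPowerSeries (Fin 2) K} (hF : NdSupp k F)
    (hG : NdSupp l G) : ndForm (k + l) (F * G) = ndForm k F * ndForm l G := by
  classical
  ext e N
  rw [coeff_mul, map_sum]
  simp_rw [PowerSeries.coeff_mul]
  rw [← Finset.sum_product']
  by_cases h : ∃ m : Fin 2 →₀ ℕ, m 0 ≤ m 1 + (k + l) ∧ m 1 ≤ m 0 + (k + l) ∧ N = m 0 + m 1 ∧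
      e = ndExp (k + l) m
  · obtain ⟨m, hm0, hm1, rfl, rfl⟩ := h
    rw [coeff_ndForm _ m hm0 hm1, MvPowerSeries.coeff_mul]
    refine Finset.sum_bij_ne_zero
      (fun p _ _ => ((ndExp k p.1, ndExp l p.2), (p.1 0 + p.1 1, p.2 0 + p.2 1))) ?_ ?_ ?_ ?_
    · rintro ⟨a, b⟩ hab hne
      rw [Finset.HasAntidiagonal.mem_antidiagonal] at hab
      obtain ⟨h1, h2⟩ := hF.of_ne (left_ne_zero_of_mul hne)
      obtain ⟨h3, h4⟩ := hG.of_ne (right_ne_zero_of_mul hne)
      simp only at hab h1 h2 h3 h4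
      rw [Finset.mem_product]
      refine ⟨?_, ?_⟩
      · rw [Finset.HasAntidiagonal.mem_antidiagonal]
        simp only
        rw [ndExp_add h1 h2 h3 h4, hab]
      · rw [Finset.HasAntidiagonal.mem_antidiagonal]
        simp only
        rw [← hab, Finsupp.add_apply, Finsupp.add_apply]
        omega
    · rintro ⟨a, b⟩ hab hne ⟨a', b'⟩ hab' hne' heq
      obtain ⟨h1, h2⟩ := hF.of_ne (left_ne_zero_of_mul hne)
      obtain ⟨h3, h4⟩ := hG.of_ne (right_ne_zero_of_mul hne)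
      obtain ⟨h1', h2'⟩ := hF.of_ne (left_ne_zero_of_mul hne')
      obtain ⟨h3', h4'⟩ := hG.of_ne (right_ne_zero_of_mul hne')
      simp only [Prod.mk.injEq] at heq h1 h2 h3 h4 h1' h2' h3' h4' ⊢
      exact ⟨nd_inj h1 h2 h1' h2' heq.2.1 heq.1.1, nd_inj h3 h4 h3' h4' heq.2.2 heq.1.2⟩
    · rintro ⟨⟨e1, e2⟩, ⟨n1, n2⟩⟩ hmem hne
      obtain ⟨a, h1, h2, h3, h4⟩ := exists_of_coeff_ndForm_ne (left_ne_zero_of_mul hne)
      obtain ⟨b, h1', h2', h3', h4'⟩ := exists_of_coeff_ndForm_ne (right_ne_zero_of_mul hne)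
      simp only at h3 h4 h3' h4'
      subst h3 h4 h3' h4'
      rw [Finset.mem_product, Finset.HasAntidiagonal.mem_antidiagonal, Finset.HasAntidiagonal.mem_antidiagonal] at hmem
      simp only at hmem
      obtain ⟨hm1', hm2'⟩ := hmem
      rw [ndExp_add h1 h2 h1' h2'] at hm1'
      have hab : a + b = m := by
        refine nd_inj (k := k + l) ?_ ?_ hm0 hm1 ?_ hm1' <;>
          rw [Finsupp.add_apply, Finsupp.add_apply] <;> omega
      refine ⟨(a, b), ?_, ?_, rfl⟩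
      · rw [Finset.HasAntidiagonal.mem_antidiagonal]
        exact hab
      · simp only
        have h5 := left_ne_zero_of_mul hne
        have h6 := right_ne_zero_of_mul hne
        simp only at h5 h6
        rw [coeff_ndForm F a h1 h2] at h5
        rw [coeff_ndForm G b h1' h2'] at h6
        exact mul_ne_zero h5 h6
    · rintro ⟨a, b⟩ hab hne
      obtain ⟨h1, h2⟩ := hF.of_ne (left_ne_zero_of_mul hne)
      obtain ⟨h3, h4⟩ := hG.of_ne (right_ne_zero_of_mul hne)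
      simp only at h1 h2 h3 h4 ⊢
      rw [coeff_ndForm F a h1 h2, coeff_ndForm G b h3 h4]
  · rw [nd_coeff_zero_of h]
    symm
    refine Finset.sum_eq_zero ?_
    rintro ⟨⟨e1, e2⟩, ⟨n1, n2⟩⟩ hmem
    by_contra hne
    obtain ⟨a, h1, h2, h3, h4⟩ := exists_of_coeff_ndForm_ne (left_ne_zero_of_mul hne)
    obtain ⟨b, h1', h2', h3', h4'⟩ := exists_of_coeff_ndForm_ne (right_ne_zero_of_mul hne)
    simp only at h3 h4 h3' h4'
    subst h3 h4 h3' h4'
    rw [Finset.mem_product, Finset.HasAntidiagonal.mem_antidiagonal, Finset.HasAntidiagonal.mem_antidiagonal] at hmem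
    simp only at hmem
    obtain ⟨hm1', hm2'⟩ := hmem
    rw [ndExp_add h1 h2 h1' h2'] at hm1'
    refine h ⟨a + b, ?_, ?_, ?_, hm1'.symm⟩ <;>
      rw [Finsupp.add_apply, Finsupp.add_apply] <;> omega

end

end Vale.Agent.P292
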