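import Vale.Agent.P292.K.Q2N1f
import Vale.Agent.P292.K.Q2N2
import Vale.Agent.P292.Q2.Node3
import Vale.Agent.P292.Q2.Anchor
import Vale.Agent.P292.K.Ext

/-! # Q2 part I, block N2.4: smoothing of two lines, final step. -/

namespace Vale.Agent.P292

open MvPolynomial

universe u v w

section
variable {R : Type u} [CommRing R] [Algebra ℂ R] {𝒜 : ℕ → Submodule ℂ R} [GradedAlgebra 𝒜]
  {P : R →ₗ[ℂ] R →ₗ[ℂ] R}

/-- N2.4a: the contact form of a reparametrised conic. -/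
theorem nd_reparam (hX : IsContactFano 𝒜 P) {K : Type v} [Field K] [IsAlgClosed K] [Algebra ℂ K]
    {φ ψ : R →ₐ[ℂ] MvPolynomial (Fin 2) K} (hφ : IsCurve 𝒜 2 φ) (hψ : IsCurve 𝒜 2 ψ)
    {a c : Fin 2 → K} (hac : a 0 * c 1 - a 1 * c 0 ≠ 0)
    (h : ∀ (r : R) (x : Fin 2 → K), eval x (ψ r) = eval (x 0 • a + x 1 • c) (φ r))
    {b : K} (hb : omC P φ (pd φ 0) (pd φ 1) = C b) (hb0 : b ≠ 0) :
    ∃ b', omC P ψ (pd ψ 0) (pd ψ 1) = C b' ∧ b' ≠ 0 := by
  refine ⟨_, n24_b_reparam hX hφ hψ a c ?_ h hb, mul_ne_zero hac hb0⟩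
  rintro rfl
  simp at hac

/-- The value of the smoothing at the node. -/
theorem n24_constantCoeff_ndForm {K : Type v} [Field K] (k : ℕ) (F : MvPowerSeries (Fin 2) K) :
    PowerSeries.constantCoeff (eval ![1, 1] (ndForm k F)) = MvPowerSeries.coeff 0 F := by
  rw [ndForm, map_sum, map_sum, Finset.sum_eq_single k]
  · rw [eval_monomial]
    simp [Fin.prod_univ_two, Finsupp.prod_fintype, ← PowerSeries.coeff_zero_eq_constantCoeff_apply]
  · intro i _ hik
    rw [eval_monomial]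
    simp [Fin.prod_univ_two, Finsupp.prod_fintype, ← PowerSeries.coeff_zero_eq_constantCoeff_apply,
      Ne.symm hik]
  · intro h
    exact absurd (Finset.mem_range.2 (by omega)) h

/-- N2.4: two lines through a generic point whose directions are not orthogonal can be smoothed
to a conic with nonzero contact form. -/
theorem exists_conic_of_lines (hX : IsContactFano 𝒜 P) {K : Type u} [Field K] [IsAlgClosed K]
    [Algebra ℂ K] {ψ₁ ψ₂ : R →ₐ[ℂ] MvPolynomial (Fin 2) K} (h₁ : IsAnch 𝒜 1 ψ₁)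
    (h₂ : IsAnch 𝒜 1 ψ₂) (heq : pt ψ₁ ![1, 0] = pt ψ₂ ![1, 0])
    (hom : om P (pt ψ₁ ![1, 0]) (evL ![1, 0] (pd ψ₁ 1)) (evL ![1, 0] (pd ψ₂ 1)) ≠ 0) :
    ∃ (Ω : Type u) (_ : Field Ω) (_ : IsAlgClosed Ω) (_ : Algebra ℂ Ω)
      (φ : R →ₐ[ℂ] MvPolynomial (Fin 2) Ω) (b : Ω), IsAnch 𝒜 2 φ ∧
      omC P φ (pd φ 0) (pd φ 1) = C b ∧ b ≠ 0 := by
  classical
  obtain ⟨Φ, hs1, hs2, hax1, hax2⟩ := exists_smoothing h₁.curve.degree h₂.curve.degree h₁.inj heq
  have h : ∀ k, ∀ r ∈ 𝒜 k, NdSupp k (Φ r) := fun k r hr => ⟨hs1 k r hr, hs2 k r hr⟩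
  obtain ⟨φ, hφ⟩ := exists_ndHom Φ h
  let Ω := AlgebraicClosure (FractionRing (PowerSeries K))
  let ι₀ : PowerSeries K →ₐ[ℂ] FractionRing (PowerSeries K) := IsScalarTower.toAlgHom ℂ _ _
  let ι₁ : FractionRing (PowerSeries K) →ₐ[ℂ] Ω := IsScalarTower.toAlgHom ℂ _ _
  let ι : PowerSeries K →ₐ[ℂ] Ω := ι₁.comp ι₀
  have hι : Function.Injective ι :=
    (algebraMap (FractionRing (PowerSeries K)) Ω).injective.comp
      (IsFractionRing.injective (PowerSeries K) (FractionRing (PowerSeries K)))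
  have : (Ideal.span {(PowerSeries.X : PowerSeries K)}).IsPrime := PowerSeries.span_X_isPrime
  obtain ⟨O, hO⟩ := exists_valuationSubring_prime (ι : PowerSeries K →+* Ω) hι
    (Ideal.span {(PowerSeries.X : PowerSeries K)})
  have hc : IsCurve 𝒜 2 ((mapAlgHom ι).comp φ) :=
    nd_isCurve h₁.curve h₂.curve hax1 hax2 hφ ι hι O (fun a => (hO a).1)
      ((hO _).2.1 (Ideal.mem_span_singleton_self _))
  obtain ⟨b, hb⟩ := exists_b hX hc
  have hb0 := nd_omC_ne hX h₁.curve h₂.curve heq hom h hax1 hax2 hφ ι hι hc hb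
  obtain ⟨ψ, hψ, hev, h10, h01⟩ := exists_reparam hc ![1, 1] ![0, 1] (by simp)
  obtain ⟨b', hb', hb0'⟩ := nd_reparam hX hc hψ (by simp) hev hb hb0
  refine ⟨Ω, inferInstance, inferInstance, inferInstance, ψ, b', ⟨hψ, ?_⟩, hb', hb0'⟩
  rw [h10]
  -- the point reduces to the node
  let Z : R →ₐ[ℂ] PowerSeries K :=
    ((aeval (![1, 1] : Fin 2 → PowerSeries K) : MvPolynomial (Fin 2) (PowerSeries K) →ₐ[PowerSeries K]
      PowerSeries K).restrictScalars ℂ).comp φ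
  have hZ : ∀ r, pt ((mapAlgHom ι).comp φ) ![1, 1] r = ι (Z r) := by
    intro r
    have e1 : (![1, 1] : Fin 2 → Ω) = fun i => ι ((![1, 1] : Fin 2 → PowerSeries K) i) := by
      ext i
      fin_cases i <;> simp
    rw [pt_apply, e1]
    change eval _ (MvPolynomial.map (ι : PowerSeries K →+* Ω) (φ r)) = _
    change eval ((ι : PowerSeries K →+* Ω) ∘ _) _ = _
    rw [← MvPolynomial.map_eval]
    change ι _ = ι (aeval _ (φ r))
    rw [aeval_eq_eval]
  have hZ0 : ∀ r, PowerSeries.constantCoeff (Z r) = pt ψ₁ ![1, 0] r := by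
    intro r
    induction r using DirectSum.Decomposition.inductionOn 𝒜 with
    | zero => simp
    | homogeneous r =>
      rename_i k
      have e2 : Z (r : R) = eval ![1, 1] (ndForm k (Φ r)) := by
        change aeval _ (φ (r : R)) = _
        rw [hφ k _ r.2, aeval_eq_eval]
      rw [e2, n24_constantCoeff_ndForm]
      have e3 := hax1 (r : R) 0
      rw [Finsupp.single_zero] at e3
      rw [e3, pt_apply, nw_eval_one_zero]
    | add x y hx hy => rw [map_add, map_add, hx, hy, map_add]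
  intro x y hxy
  rw [hZ, hZ] at hxy
  apply h₁.inj
  rw [← hZ0, ← hZ0, hι hxy]

end

end Vale.Agent.P292
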