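import Vale.Agent.P292.K.Fin1
import Vale.Agent.P292.K.Asm2
import Vale.Agent.P292.K.DimTr
import Vale.Agent.P292.Mo.Charp_main
import Vale.Agent.P292.Mo.Sp.Final

/-! # Contact Fano manifolds of Picard number one are adjoint varieties. -/

namespace Vale.Agent.P292

universe u

variable {R : Type u} [CommRing R] [Algebra ℂ R] {𝒜 : ℕ → Submodule ℂ R} [GradedAlgebra 𝒜]
  {P : R →ₗ[ℂ] R →ₗ[ℂ] R}

/-- Contact Fano manifolds of Picard number one are conic connected. -/
theorem isConicConnected_of_picardOne (hX : IsContactFano 𝒜 P)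
    (hdim : 3 ≤ Algebra.trdeg ℂ R) (hpic : IsPicardOne 𝒜) : IsConicConnected 𝒜 := by
  have := hX.domain
  obtain ⟨Ω, _, _, _, d, φ, hd, hφ⟩ := Mo.exists_isAnch_of_mori hX
    (le_trans (by norm_num) hdim) (fun k _ _ p _ hp2 hp0 S _ _ ℬ _ Q hPM e n y hN f hf => by
      have : Fact p.Prime := ⟨(CharP.char_is_prime_or_zero k p).resolve_right hp0⟩
      exact Mo.charp_main p hp2 hPM hN f hf)
  exact isConicConnected_of_anch_pic hX hpic (by omega) (by omega) hφ

/-- Contact Fano manifolds of Picard number one are adjoint varieties. -/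
theorem isAdjointVariety_of_picardOne (hX : IsContactFano 𝒜 P)
    (hdim : 3 ≤ Algebra.trdeg ℂ R) (hpic : IsPicardOne 𝒜) : IsAdjointVariety 𝒜 P := by
  have := hX.domain
  have := hX.finiteType
  exact asm_conicConnected hX (le_cdim_of_le_trdeg (n := 3) (by exact_mod_cast hdim))
    (isConicConnected_of_picardOne hX hdim hpic)

end Vale.Agent.P292
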