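import Vale.Agent.P292.K.C1H
import Vale.Agent.P292.K.A2
import Vale.Agent.P292.K.C4

/-! # Frames along a curve: preliminaries.
Linear forms dividing binary forms, division of derivations by a linear form, bilinearity of
`omC`, the dimension of the spaces of derivations at field valued points. -/

namespace Vale.Agent.P292

open MvPolynomial

universe u v w

section forms

variable {κ : Type v} [Field κ]

/-- The linear form vanishing at `u`. -/
noncomputable def frL (u : Fin 2 → κ) : MvPolynomial (Fin 2) κ := C (u 1) * X 0 - C (u 0) * X 1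

theorem frL_homog (u : Fin 2 → κ) : (frL u).IsHomogeneous 1 :=
  ((isHomogeneous_C_mul_X _ _).sub (isHomogeneous_C_mul_X _ _))

theorem frL_ne {u : Fin 2 → κ} (hu : u ≠ 0) : frL u ≠ 0 := by
  intro h
  apply hu
  have h0 := congrArg (eval ![1, 0]) h
  have h1 := congrArg (eval ![0, 1]) h
  simp [frL] at h0 h1
  ext i
  fin_cases i
  · exact h1
  · exact h0

/-- A linear form with value one at `u`. -/
theorem exists_frU {u : Fin 2 → κ} (hu : u ≠ 0) :
    ∃ l : MvPolynomial (Fin 2) κ, l.IsHomogeneous 1 ∧ eval u l = 1 := by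
  by_cases h0 : u 0 = 0
  · have h1 : u 1 ≠ 0 := fun h1 => hu (by ext i; fin_cases i <;> simp [h0, h1])
    exact ⟨C (u 1)⁻¹ * X 1, isHomogeneous_C_mul_X _ _, by simp [h1]⟩
  · exact ⟨C (u 0)⁻¹ * X 0, isHomogeneous_C_mul_X _ _, by simp [h0]⟩

theorem fr_aeval_smul (a : Fin 2 → κ) (Y : MvPolynomial (Fin 2) κ) {m : ℕ}
    {p : MvPolynomial (Fin 2) κ} (hp : p.IsHomogeneous m) :
    aeval (fun i => C (a i) * Y) p = C (eval a p) * Y ^ m := by
  conv_lhs => rw [p.as_sum]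
  conv_rhs => rw [p.as_sum]
  rw [map_sum, map_sum, map_sum, Finset.sum_mul]
  refine Finset.sum_congr rfl fun s hs => ?_
  rw [aeval_monomial, eval_monomial, Finsupp.prod_fintype _ _ (fun _ => pow_zero _),
    Finsupp.prod_fintype _ _ (fun _ => pow_zero _), Fin.prod_univ_two, Fin.prod_univ_two]
  have h1 := hp (mem_support_iff.1 hs)
  rw [Finsupp.weight_apply, Finsupp.sum_fintype _ _ (by simp)] at h1
  simp only [Pi.one_apply, smul_eq_mul, mul_one, Fin.sum_univ_two] at h1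
  rw [← h1, algebraMap_eq, mul_pow, mul_pow, map_mul, map_mul, map_pow, map_pow, pow_add]
  ring

theorem frL_dvd {u : Fin 2 → κ} (hu : u ≠ 0) {m : ℕ} {p : MvPolynomial (Fin 2) κ}
    (hp : p.IsHomogeneous m) (h : eval u p = 0) : frL u ∣ p := by
  have key : ∀ (q : Fin 2 → MvPolynomial (Fin 2) κ), (∀ i, frL u ∣ X i - q i) →
      ∀ p, frL u ∣ p - aeval q p := by
    intro q hq p
    rw [← Ideal.mem_span_singleton, ← Ideal.Quotient.eq]
    have h1 : (Ideal.Quotient.mkₐ κ (Ideal.span {frL u})) =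
        (Ideal.Quotient.mkₐ κ (Ideal.span {frL u})).comp (aeval q) := by
      apply MvPolynomial.algHom_ext
      intro i
      rw [AlgHom.comp_apply, aeval_X]
      change Ideal.Quotient.mk _ _ = Ideal.Quotient.mk _ _
      rw [Ideal.Quotient.eq, Ideal.mem_span_singleton]
      exact hq i
    exact congrArg (fun f => f p) h1
  by_cases h0 : u 0 = 0
  · have h1 : u 1 ≠ 0 := fun h1 => hu (by ext i; fin_cases i <;> simp [h0, h1])
    have h2 := key (fun i => C ((u 1)⁻¹ * u i) * X 1) (by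
      intro i
      fin_cases i
      · refine ⟨C (u 1)⁻¹, ?_⟩
        simp only [frL, Fin.zero_eta, h0, mul_zero, map_zero, zero_mul, sub_zero]
        rw [mul_comm, ← mul_assoc, ← map_mul, inv_mul_cancel₀ h1, map_one, one_mul]
      · refine ⟨0, ?_⟩
        simp [h1]) p
    rw [fr_aeval_smul _ _ hp] at h2
    have h3 : eval (fun i => (u 1)⁻¹ * u i) p = 0 := by
      have h4 := congrArg (eval (fun _ => (1 : κ))) (fr_aeval_smul u (C (u 1)⁻¹) hp)
      rw [h] at h4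
      rw [map_zero, zero_mul, map_zero] at h4
      rw [← h4, ← aeval_eq_eval, ← aeval_eq_eval]
      have h5 := MvPolynomial.comp_aeval (R := κ) (fun i => C (u i) * C (σ := Fin 2) (u 1)⁻¹)
        (aeval (R := κ) (fun _ : Fin 2 => (1 : κ)))
      have h6 := congrArg (fun f => f p) h5
      simp only [AlgHom.comp_apply] at h6
      rw [h6]
      congr 2
      funext i
      simp [mul_comm]
    rwa [h3, map_zero, zero_mul, sub_zero] at h2
  · have h2 := key (fun i => C ((u 0)⁻¹ * u i) * X 0) (by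
      intro i
      fin_cases i
      · refine ⟨0, ?_⟩
        simp [h0]
      · refine ⟨-C (u 0)⁻¹, ?_⟩
        simp only [frL, Fin.mk_one, map_mul]
        have h6 : (C (u 0) : MvPolynomial (Fin 2) κ) * C (u 0)⁻¹ = 1 := by
          rw [← map_mul, mul_inv_cancel₀ h0, map_one]
        linear_combination (X 1 : MvPolynomial (Fin 2) κ) * (-1) * h6 * (-1) * (-1)) p
    rw [fr_aeval_smul _ _ hp] at h2
    have h3 : eval (fun i => (u 0)⁻¹ * u i) p = 0 := by
      have h4 := congrArg (eval (fun _ => (1 : κ))) (fr_aeval_smul u (C (u 0)⁻¹) hp)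
      rw [h] at h4
      rw [map_zero, zero_mul, map_zero] at h4
      rw [← h4, ← aeval_eq_eval, ← aeval_eq_eval]
      have h5 := MvPolynomial.comp_aeval (R := κ) (fun i => C (u i) * C (σ := Fin 2) (u 0)⁻¹)
        (aeval (R := κ) (fun _ : Fin 2 => (1 : κ)))
      have h6 := congrArg (fun f => f p) h5
      simp only [AlgHom.comp_apply] at h6
      rw [h6]
      congr 2
      funext i
      simp [mul_comm]
    rwa [h3, map_zero, zero_mul, sub_zero] at h2

/-- A polynomial which vanishes outside the origin is zero. -/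
theorem fr_eq_zero [Infinite κ] {p : MvPolynomial (Fin 2) κ}
    (h : ∀ a : Fin 2 → κ, a ≠ 0 → eval a p = 0) : p = 0 := by
  have h1 : (X 0 : MvPolynomial (Fin 2) κ) * p = 0 := by
    apply MvPolynomial.funext
    intro a
    rw [map_mul, map_zero, eval_X]
    by_cases ha : a = 0
    · rw [ha]; simp
    · rw [h a ha, mul_zero]
  exact (mul_eq_zero.1 h1).resolve_left (X_ne_zero 0)

end forms

section hder

variable {R : Type u} [CommRing R] [Algebra ℂ R] {𝒜 : ℕ → Submodule ℂ R} [GradedAlgebra 𝒜]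
  {P : R →ₗ[ℂ] R →ₗ[ℂ] R}
  {κ : Type v} [Field κ] [Algebra ℂ κ] {d : ℕ} {φ : R →ₐ[ℂ] MvPolynomial (Fin 2) κ}

omit [GradedAlgebra 𝒜] in
theorem IsHDer.fr_of_zhom {e : ℤ} {δ : R →ₗ[ℂ] MvPolynomial (Fin 2) κ} (h : IsDer φ δ)
    (h' : ∀ k, ∀ r ∈ 𝒜 k, ZHom (δ r) (d * k + e)) : IsHDer 𝒜 d φ e δ :=
  ⟨h, fun k r hr m hm => (h' k r hr).nat m hm, fun k hk r hr => (h' k r hr).neg hk⟩

omit [GradedAlgebra 𝒜] in
theorem IsHDer.fr_add {e : ℤ} {δ δ' : R →ₗ[ℂ] MvPolynomial (Fin 2) κ} (h : IsHDer 𝒜 d φ e δ)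
    (h' : IsHDer 𝒜 d φ e δ') : IsHDer 𝒜 d φ e (δ + δ') :=
  IsHDer.fr_of_zhom ((DerAt φ).add_mem h.der h'.der) fun k r hr => by
    rw [LinearMap.add_apply]
    exact (h.zhom hr).add (h'.zhom hr)

omit [GradedAlgebra 𝒜] in
theorem IsHDer.fr_zero (e : ℤ) : IsHDer 𝒜 d φ e (0 : R →ₗ[ℂ] MvPolynomial (Fin 2) κ) :=
  IsHDer.fr_of_zhom (DerAt φ).zero_mem fun k r hr => by
    rw [LinearMap.zero_apply]
    exact ZHom.zero _

omit [GradedAlgebra 𝒜] in
theorem IsHDer.fr_smul {e : ℤ} {δ : R →ₗ[ℂ] MvPolynomial (Fin 2) κ} (h : IsHDer 𝒜 d φ e δ)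
    {p : MvPolynomial (Fin 2) κ} {n : ℤ} (hp : ZHom p n) : IsHDer 𝒜 d φ (n + e) (p • δ) :=
  IsHDer.fr_of_zhom ((DerAt φ).smul_mem p h.der) fun k r hr => by
    rw [LinearMap.smul_apply, smul_eq_mul]
    exact (hp.mul (h.zhom hr)).congr (by ring)

omit [GradedAlgebra 𝒜] in
theorem IsHDer.fr_congr {e e' : ℤ} {δ : R →ₗ[ℂ] MvPolynomial (Fin 2) κ} (h : IsHDer 𝒜 d φ e δ)
    (he : e = e') : IsHDer 𝒜 d φ e' δ := he ▸ h

omit [GradedAlgebra 𝒜] in
theorem IsHDer.fr_sum {ι : Type*} (s : Finset ι) {e : ℤ}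
    {δ : ι → R →ₗ[ℂ] MvPolynomial (Fin 2) κ} (h : ∀ i ∈ s, IsHDer 𝒜 d φ e (δ i)) :
    IsHDer 𝒜 d φ e (∑ i ∈ s, δ i) := by
  classical
  induction s using Finset.induction_on with
  | empty => simpa using IsHDer.fr_zero (φ := φ) e
  | insert a s ha ih =>
    rw [Finset.sum_insert ha]
    exact (h a (Finset.mem_insert_self _ _)).fr_add
      (ih fun i hi => h i (Finset.mem_insert_of_mem hi))

/-- Division of a homogeneous derivation by a linear form. -/
theorem IsHDer.fr_div {e : ℤ} {δ : R →ₗ[ℂ] MvPolynomial (Fin 2) κ} (h : IsHDer 𝒜 d φ e δ)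
    {u : Fin 2 → κ} (hu : u ≠ 0) (h0 : ∀ r, eval u (δ r) = 0) :
    ∃ δ', IsHDer 𝒜 d φ (e - 1) δ' ∧ δ = frL u • δ' := by
  classical
  have hL := frL_ne hu
  have hdvd : ∀ r, frL u ∣ δ r := by
    intro r
    induction r using DirectSum.Decomposition.inductionOn 𝒜 with
    | zero => rw [map_zero]; exact dvd_zero _
    | @homogeneous k r =>
      by_cases hk : (d * k + e : ℤ) < 0
      · rw [h.neg k hk r r.2]; exact dvd_zero _
      · push Not at hk
        obtain ⟨m, hm⟩ := Int.eq_ofNat_of_zero_le hk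
        exact frL_dvd hu (h.homog k r r.2 m hm.symm) (h0 r)
    | add a b ha hb => rw [map_add]; exact dvd_add ha hb
  choose f hf using hdvd
  let δ' : R →ₗ[ℂ] MvPolynomial (Fin 2) κ :=
    { toFun := f
      map_add' := fun a b => by
        apply mul_left_cancel₀ hL
        rw [← hf, mul_add, ← hf, ← hf, map_add]
      map_smul' := fun c a => by
        apply mul_left_cancel₀ hL
        rw [← hf, RingHom.id_apply, mul_smul_comm, ← hf, map_smul] }
  have hδ' : ∀ r, δ r = frL u * δ' r := hf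
  refine ⟨δ', IsHDer.fr_of_zhom ?_ ?_, ?_⟩
  · intro r s
    apply mul_left_cancel₀ hL
    rw [← hδ', h.der, hδ', hδ']
    ring
  · intro k r hr
    have h1 := h.zhom hr
    rw [hδ'] at h1
    exact (ZHom.of_nat (frL_homog u)).of_mul_left (n' := d * k + (e - 1)) hL
      (h1.congr (by push_cast; ring))
  · ext1 r
    rw [LinearMap.smul_apply, smul_eq_mul, hδ']

theorem fr_inj : Function.Injective (IsScalarTower.toAlgHom ℂ (MvPolynomial (Fin 2) κ)
        (FractionRing (MvPolynomial (Fin 2) κ))) :=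
    IsFractionRing.injective (MvPolynomial (Fin 2) κ) (FractionRing (MvPolynomial (Fin 2) κ))

variable [IsAlgClosed κ]

theorem fr_omC_add_left (hX : IsContactFano 𝒜 P) (hφ : IsCurve 𝒜 d φ)
    {δ₁ δ₂ δ' : R →ₗ[ℂ] MvPolynomial (Fin 2) κ} (h1 : IsDer φ δ₁) (h2 : IsDer φ δ₂)
    (h' : IsDer φ δ') : omC P φ (δ₁ + δ₂) δ' = omC P φ δ₁ δ' + omC P φ δ₂ δ' := by
  apply fr_inj
  have e1 := omC_frac hX hφ ((DerAt φ).add_mem h1 h2) h'
  have e2 := omC_frac hX hφ h1 h'
  have e3 := omC_frac hX hφ h2 h'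
  rw [map_add]
  change algebraMap _ _ _ = algebraMap _ _ _ + algebraMap _ _ _
  rw [e1, e2, e3, LinearMap.comp_add]
  exact om_add_left hX (c1_isNV_gen hφ _ fr_inj) (c1_isDer_comp h1 _) (c1_isDer_comp h2 _)
    (c1_isDer_comp h' _)

theorem fr_omC_smul_left (hX : IsContactFano 𝒜 P) (hφ : IsCurve 𝒜 d φ)
    {δ δ' : R →ₗ[ℂ] MvPolynomial (Fin 2) κ} (h1 : IsDer φ δ) (h' : IsDer φ δ')
    (p : MvPolynomial (Fin 2) κ) : omC P φ (p • δ) δ' = p * omC P φ δ δ' := by
  apply fr_inj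
  have e1 := omC_frac hX hφ ((DerAt φ).smul_mem p h1) h'
  have e2 := omC_frac hX hφ h1 h'
  rw [map_mul]
  change algebraMap _ _ _ = algebraMap _ _ _ * algebraMap _ _ _
  rw [e1, e2]
  have e3 : (IsScalarTower.toAlgHom ℂ (MvPolynomial (Fin 2) κ)
        (FractionRing (MvPolynomial (Fin 2) κ))).toLinearMap ∘ₗ (p • δ) =
      (algebraMap _ (FractionRing (MvPolynomial (Fin 2) κ)) p) •
      ((IsScalarTower.toAlgHom ℂ (MvPolynomial (Fin 2) κ)
        (FractionRing (MvPolynomial (Fin 2) κ))).toLinearMap ∘ₗ δ) := by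
    ext1 r
    rw [LinearMap.comp_apply, LinearMap.smul_apply, LinearMap.smul_apply, smul_eq_mul,
      smul_eq_mul, AlgHom.toLinearMap_apply, map_mul]
    rfl
  rw [e3]
  exact om_smul_left hX (c1_isNV_gen hφ _ fr_inj) (c1_isDer_comp h1 _) (c1_isDer_comp h' _) _

theorem fr_omC_antisymm (hX : IsContactFano 𝒜 P) (hφ : IsCurve 𝒜 d φ)
    {δ δ' : R →ₗ[ℂ] MvPolynomial (Fin 2) κ} (h1 : IsDer φ δ) (h' : IsDer φ δ') :
    omC P φ δ δ' = - omC P φ δ' δ := by
  apply fr_inj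
  have e1 := omC_frac hX hφ h1 h'
  have e2 := omC_frac hX hφ h' h1
  rw [map_neg]
  change algebraMap _ _ _ = - algebraMap _ _ _
  rw [e1, e2]
  exact om_antisymm hX (c1_isNV_gen hφ _ fr_inj) (c1_isDer_comp h1 _) (c1_isDer_comp h' _)

theorem fr_omC_add_right (hX : IsContactFano 𝒜 P) (hφ : IsCurve 𝒜 d φ)
    {δ₁ δ₂ δ' : R →ₗ[ℂ] MvPolynomial (Fin 2) κ} (h1 : IsDer φ δ₁) (h2 : IsDer φ δ₂)
    (h' : IsDer φ δ') : omC P φ δ' (δ₁ + δ₂) = omC P φ δ' δ₁ + omC P φ δ' δ₂ := by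
  rw [fr_omC_antisymm hX hφ h' ((DerAt φ).add_mem h1 h2), fr_omC_add_left hX hφ h1 h2 h',
    fr_omC_antisymm hX hφ h' h1, fr_omC_antisymm hX hφ h' h2]
  ring

theorem fr_omC_smul_right (hX : IsContactFano 𝒜 P) (hφ : IsCurve 𝒜 d φ)
    {δ δ' : R →ₗ[ℂ] MvPolynomial (Fin 2) κ} (h1 : IsDer φ δ) (h' : IsDer φ δ')
    (p : MvPolynomial (Fin 2) κ) : omC P φ δ (p • δ') = p * omC P φ δ δ' := by
  rw [fr_omC_antisymm hX hφ h1 ((DerAt φ).smul_mem p h'), fr_omC_smul_left hX hφ h' h1,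
    fr_omC_antisymm hX hφ h1 h']
  ring

theorem fr_omC_zero_left (hX : IsContactFano 𝒜 P) (hφ : IsCurve 𝒜 d φ)
    {δ' : R →ₗ[ℂ] MvPolynomial (Fin 2) κ} (h' : IsDer φ δ') : omC P φ 0 δ' = 0 := by
  have := fr_omC_smul_left hX hφ h' h' 0
  rwa [zero_smul, zero_mul] at this

theorem fr_omC_sum_left (hX : IsContactFano 𝒜 P) (hφ : IsCurve 𝒜 d φ) {ι : Type*} (s : Finset ι)
    (p : ι → MvPolynomial (Fin 2) κ) {δ : ι → R →ₗ[ℂ] MvPolynomial (Fin 2) κ}
    {δ' : R →ₗ[ℂ] MvPolynomial (Fin 2) κ} (h1 : ∀ i ∈ s, IsDer φ (δ i)) (h' : IsDer φ δ') :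
    omC P φ (∑ i ∈ s, p i • δ i) δ' = ∑ i ∈ s, p i * omC P φ (δ i) δ' := by
  classical
  induction s using Finset.induction_on with
  | empty => simpa using fr_omC_zero_left hX hφ h'
  | insert a s ha ih =>
    have h2 : ∀ i ∈ s, IsDer φ (δ i) := fun i hi => h1 i (Finset.mem_insert_of_mem hi)
    have h3 := h1 a (Finset.mem_insert_self _ _)
    rw [Finset.sum_insert ha, Finset.sum_insert ha, fr_omC_add_left hX hφ
      ((DerAt φ).smul_mem _ h3) ((DerAt φ).sum_mem fun i hi => (DerAt φ).smul_mem _ (h2 i hi)) h',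
      fr_omC_smul_left hX hφ h3 h', ih h2]

theorem fr_omC_sum_right (hX : IsContactFano 𝒜 P) (hφ : IsCurve 𝒜 d φ) {ι : Type*} (s : Finset ι)
    (p : ι → MvPolynomial (Fin 2) κ) {δ : ι → R →ₗ[ℂ] MvPolynomial (Fin 2) κ}
    {δ' : R →ₗ[ℂ] MvPolynomial (Fin 2) κ} (h1 : ∀ i ∈ s, IsDer φ (δ i)) (h' : IsDer φ δ') :
    omC P φ δ' (∑ i ∈ s, p i • δ i) = ∑ i ∈ s, p i * omC P φ δ' (δ i) := by
  rw [fr_omC_antisymm hX hφ h' ((DerAt φ).sum_mem fun i hi => (DerAt φ).smul_mem _ (h1 i hi)),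
    fr_omC_sum_left hX hφ s p h1 h', ← Finset.sum_neg_distrib]
  refine Finset.sum_congr rfl fun i hi => ?_
  rw [fr_omC_antisymm hX hφ h' (h1 i hi)]
  ring

end hder

section dim

variable {R : Type u} [CommRing R] [Algebra ℂ R] {𝒜 : ℕ → Submodule ℂ R} [GradedAlgebra 𝒜]
  {P : R →ₗ[ℂ] R →ₗ[ℂ] R}

/-- The values on a chart are coordinates on the space of derivations over a field valued
point. -/
theorem fr_chart_equiv (hX : IsContactFano 𝒜 P) {E : Type v} [Field E] [Algebra ℂ E]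
    (y : R →ₐ[ℂ] E) {N : ℕ} {x : Fin N → R} {g : R} (hg : y g ≠ 0)
    (hdet : y (Matrix.det (Matrix.of fun i j => P (x i) (x j))) ≠ 0)
    (h : ∀ r, ∃ c : Fin N → R, g • KaehlerDifferential.D ℂ R r =
      ∑ i, c i • KaehlerDifferential.D ℂ R (x i)) :
    Nonempty (DerAt y ≃ₗ[E] (Fin N → E)) := by
  classical
  choose c hc using h
  let f : DerAt y →ₗ[E] (Fin N → E) :=
    { toFun := fun δ i => (δ : R →ₗ[ℂ] E) (x i)
      map_add' := fun a b => rfl
      map_smul' := fun c a => rfl }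
  have hf : ∀ δ i, f δ i = (δ : R →ₗ[ℂ] E) (x i) := fun δ i => rfl
  refine ⟨LinearEquiv.ofBijective f ⟨?_, ?_⟩⟩
  · rintro ⟨δ₁, h₁⟩ ⟨δ₂, h₂⟩ h0
    apply Subtype.ext
    ext r
    apply mul_left_cancel₀ hg
    rw [a2_apply y h₁ (hc r), a2_apply y h₂ (hc r)]
    refine Finset.sum_congr rfl fun i _ => ?_
    have h3 : δ₁ (x i) = δ₂ (x i) := congrFun h0 i
    rw [h3]
  · intro b
    let M : Matrix (Fin N) (Fin N) E := (Matrix.of fun i j => P (x i) (x j)).map y
    have hM : IsUnit M.det := by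
      have h1 : M.det = y (Matrix.det (Matrix.of fun i j => P (x i) (x j))) := by
        rw [AlgHom.map_det]
        rfl
      rw [h1]
      exact isUnit_iff_ne_zero.2 hdet
    let a : Fin N → E := Matrix.vecMul b M⁻¹
    have ha : Matrix.vecMul a M = b := by
      rw [Matrix.vecMul_vecMul, Matrix.nonsing_inv_mul _ hM, Matrix.vecMul_one]
    let δ : R →ₗ[ℂ] E := ∑ j, a j • hamAt P y (x j)
    have hδ : δ ∈ DerAt y := Submodule.sum_mem _ fun j _ => Submodule.smul_mem _ _ (by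
      intro r s
      rw [hamAt_apply, hamAt_apply, hamAt_apply, hX.leibniz, map_add, map_mul, map_mul]
      ring)
    refine ⟨⟨δ, hδ⟩, ?_⟩
    ext i
    rw [hf]
    have h1 := congrFun ha i
    rw [Matrix.vecMul, dotProduct] at h1
    rw [← h1]
    change (∑ j, a j • hamAt P y (x j)) (x i) = _
    rw [LinearMap.sum_apply]
    exact Finset.sum_congr rfl fun j _ => rfl

/-- The space of derivations over a field valued point has dimension `cdim R`. -/
theorem fr_exists_equiv (hX : IsContactFano 𝒜 P) [IsDomain R] {E : Type v} [Field E] [Algebra ℂ E]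
    (y : R →ₐ[ℂ] E) (hy : IsNV 𝒜 y) : Nonempty (DerAt y ≃ₗ[E] (Fin (cdim R) → E)) := by
  obtain ⟨N, x, k, g, l, -, -, hg, hdet, hc⟩ := exists_chart_kd hX y hy
  have hg0 : g ≠ 0 := fun h => hg (by rw [h, map_zero])
  have hdet0 : Matrix.det (Matrix.of fun i j => P (x i) (x j)) ≠ 0 :=
    fun h => hdet (by rw [h, map_zero])
  set ι : R →ₐ[ℂ] FractionRing R := IsScalarTower.toAlgHom ℂ R (FractionRing R) with hι
  have hιinj : Function.Injective ι := IsFractionRing.injective R (FractionRing R)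
  obtain ⟨e⟩ := fr_chart_equiv hX ι (fun h => hg0 (hιinj (by rw [h, map_zero])))
    (fun h => hdet0 (hιinj (by rw [h, map_zero]))) hc
  have hN : cdim R = N := by
    rw [cdim, e.finrank_eq, Module.finrank_fin_fun]
  rw [hN]
  exact fr_chart_equiv hX y hg hdet hc

end dim

end Vale.Agent.P292
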