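import Vale.Agent.P292.K.Frame
import Vale.Agent.P292.K.ChartKD

/-! # Consequences of the existence of frames along curves. -/

namespace Vale.Agent.P292

open MvPolynomial

universe u v w

variable {R : Type u} [CommRing R] [Algebra ℂ R] {𝒜 : ℕ → Submodule ℂ R} [GradedAlgebra 𝒜]
  {P : R →ₗ[ℂ] R →ₗ[ℂ] R}
  {κ : Type v} [Field κ] [IsAlgClosed κ] [Algebra ℂ κ] {d : ℕ}
  {φ : R →ₐ[ℂ] MvPolynomial (Fin 2) κ}

/-- The Gram matrix. -/
noncomputable def frG (P : R →ₗ[ℂ] R →ₗ[ℂ] R) (φ : R →ₐ[ℂ] MvPolynomial (Fin 2) κ) {N : ℕ}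
    (δ : Fin N → R →ₗ[ℂ] MvPolynomial (Fin 2) κ) :
    Matrix (Fin N) (Fin N) (MvPolynomial (Fin 2) κ) := Matrix.of fun i j => omC P φ (δ i) (δ j)

/-- The inverse of the Gram matrix. -/
noncomputable def frI (P : R →ₗ[ℂ] R →ₗ[ℂ] R) (φ : R →ₐ[ℂ] MvPolynomial (Fin 2) κ) {N : ℕ}
    (δ : Fin N → R →ₗ[ℂ] MvPolynomial (Fin 2) κ) (c : κ) :
    Matrix (Fin N) (Fin N) (MvPolynomial (Fin 2) κ) := (C c⁻¹ : MvPolynomial (Fin 2) κ) •
      (frG P φ δ).adjugate

section basic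

variable {N : ℕ} {e : Fin N → ℤ} {δ : Fin N → R →ₗ[ℂ] MvPolynomial (Fin 2) κ} {c : κ}

omit [GradedAlgebra 𝒜] [IsAlgClosed κ] in
theorem IsHFrame.mul_frI (h : IsHFrame 𝒜 P d φ e δ c) : frG P φ δ * frI P φ δ c = 1 := by
  rw [frI, Matrix.mul_smul, Matrix.mul_adjugate, frG, h.det, smul_smul, ← map_mul,
    inv_mul_cancel₀ h.ne, map_one, one_smul]

omit [GradedAlgebra 𝒜] [IsAlgClosed κ] in
theorem IsHFrame.frI_mul (h : IsHFrame 𝒜 P d φ e δ c) : frI P φ δ c * frG P φ δ = 1 := by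
  rw [frI, Matrix.smul_mul, Matrix.adjugate_mul, frG, h.det, smul_smul, ← map_mul,
    inv_mul_cancel₀ h.ne, map_one, one_smul]

theorem IsHFrame.frG_zhom (hX : IsContactFano 𝒜 P) (hφ : IsCurve 𝒜 d φ)
    (h : IsHFrame 𝒜 P d φ e δ c) (i j : Fin N) : ZHom (frG P φ δ i j) (e i + (e j + d)) :=
  (omC_zhom hX hφ (h.hder i) (h.hder j)).congr (by ring)

theorem IsHFrame.frI_zhom (hX : IsContactFano 𝒜 P) (hφ : IsCurve 𝒜 d φ)
    (h : IsHFrame 𝒜 P d φ e δ c) (i j : Fin N) :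
    ZHom (frI P φ δ c i j) (-(e i + e j + d)) := by
  have h1 := ZHom.adjugate (M := frG P φ δ) e (fun j => e j + d) (h.frG_zhom hX hφ) i j
  have h2 := (ZHom.of_nat (isHomogeneous_C (Fin 2) c⁻¹)).mul h1
  rw [frI, Matrix.smul_apply, smul_eq_mul]
  refine h2.congr ?_
  have h3 := h.sum
  rw [← Finset.sum_add_distrib]
  have h4 : ∑ i, (e i + (e i + (d : ℤ))) = 0 := by
    rw [← h3]
    exact Finset.sum_congr rfl fun i _ => by ring
  rw [h4]
  push_cast
  ring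

/-- The coefficients of a combination of the frame. -/
theorem IsHFrame.coeff_eq (hX : IsContactFano 𝒜 P) (hφ : IsCurve 𝒜 d φ)
    (h : IsHFrame 𝒜 P d φ e δ c) {θ : R →ₗ[ℂ] MvPolynomial (Fin 2) κ}
    {p : Fin N → MvPolynomial (Fin 2) κ} (hθ : θ = ∑ i, p i • δ i) (i : Fin N) :
    p i = ∑ j, omC P φ θ (δ j) * frI P φ δ c j i := by
  have h1 : ∀ j, omC P φ θ (δ j) = Matrix.vecMul p (frG P φ δ) j := by
    intro j
    rw [hθ, fr_omC_sum_left hX hφ _ _ (fun i _ => (h.hder i).der) (h.hder j).der]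
    rfl
  have h2 : Matrix.vecMul (Matrix.vecMul p (frG P φ δ)) (frI P φ δ c) = p := by
    rw [Matrix.vecMul_vecMul, h.mul_frI, Matrix.vecMul_one]
  conv_lhs => rw [← h2]
  rw [Matrix.vecMul, dotProduct]
  exact Finset.sum_congr rfl fun j _ => by rw [h1]

/-- The coefficients are unique. -/
theorem IsHFrame.unique (hX : IsContactFano 𝒜 P) (hφ : IsCurve 𝒜 d φ)
    (h : IsHFrame 𝒜 P d φ e δ c) {p q : Fin N → MvPolynomial (Fin 2) κ}
    (hpq : ∑ i, p i • δ i = ∑ i, q i • δ i) : p = q := by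
  ext1 i
  rw [h.coeff_eq hX hφ (p := p) rfl i, h.coeff_eq hX hφ (p := q) rfl i, hpq]

/-- The Gram determinant at a point. -/
theorem IsHFrame.gram_ne (hX : IsContactFano 𝒜 P) (hφ : IsCurve 𝒜 d φ)
    (h : IsHFrame 𝒜 P d φ e δ c) {u : Fin 2 → κ} (hu : u ≠ 0) :
    (Matrix.of fun i j => om P (pt φ u) (evL u (δ i)) (evL u (δ j))).det ≠ 0 := by
  have h1 : (Matrix.of fun i j => om P (pt φ u) (evL u (δ i)) (evL u (δ j))) =
      (eval u).mapMatrix (Matrix.of fun i j => omC P φ (δ i) (δ j)) := by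
    ext i j
    rw [RingHom.mapMatrix_apply, Matrix.map_apply, Matrix.of_apply, Matrix.of_apply]
    exact fr_omC_eval hX hφ (h.hder i).der (h.hder j).der u hu
  rw [h1, ← RingHom.map_det, h.det, eval_C]
  exact h.ne

end basic

section domain

variable [IsDomain R] {e : Fin (cdim R) → ℤ}
  {δ : Fin (cdim R) → R →ₗ[ℂ] MvPolynomial (Fin 2) κ} {c : κ}

/-- The values of the frame at a point span the derivations there. -/
theorem IsHFrame.exists_pt (hX : IsContactFano 𝒜 P) (hφ : IsCurve 𝒜 d φ)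
    (h : IsHFrame 𝒜 P d φ e δ c) {u : Fin 2 → κ} (hu : u ≠ 0) {x : R →ₗ[ℂ] κ}
    (hx : IsDer (pt φ u) x) : ∃ b : Fin (cdim R) → κ, x = ∑ i, b i • evL u (δ i) :=
  fr_span hX (c1_isNV_pt hφ u hu) (fun i => fr_isDer_evL (h.hder i).der u)
    (fr_indep hX (c1_isNV_pt hφ u hu) (fun i => fr_isDer_evL (h.hder i).der u)
      (h.gram_ne hX hφ hu)) hx

omit [IsDomain R] in
/-- The values of the frame at a point are linearly independent. -/
theorem IsHFrame.pt_indep (hX : IsContactFano 𝒜 P) (hφ : IsCurve 𝒜 d φ)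
    (h : IsHFrame 𝒜 P d φ e δ c) {u : Fin 2 → κ} (hu : u ≠ 0) {b : Fin (cdim R) → κ}
    (hb : ∑ i, b i • evL u (δ i) = 0) : b = 0 :=
  fr_indep hX (c1_isNV_pt hφ u hu) (fun i => fr_isDer_evL (h.hder i).der u)
      (h.gram_ne hX hφ hu) b hb

/-- Every derivation along the curve is a combination of the frame. -/
theorem IsHFrame.exists_coeff (hX : IsContactFano 𝒜 P) (hφ : IsCurve 𝒜 d φ)
    (h : IsHFrame 𝒜 P d φ e δ c) {θ : R →ₗ[ℂ] MvPolynomial (Fin 2) κ} (hθ : IsDer φ θ) :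
    ∃ p : Fin (cdim R) → MvPolynomial (Fin 2) κ, θ = ∑ i, p i • δ i := by
  refine ⟨Matrix.vecMul (fun j => omC P φ θ (δ j)) (frI P φ δ c), ?_⟩
  set p := Matrix.vecMul (fun j => omC P φ θ (δ j)) (frI P φ δ c) with hp
  have hs : IsDer φ (∑ i, p i • δ i) := fr_isDer_sum _ _ fun i _ => (h.hder i).der
  have hs' : IsDer φ (θ - ∑ i, p i • δ i) := (DerAt φ).sub_mem hθ hs
  have horth : ∀ j, omC P φ (θ - ∑ i, p i • δ i) (δ j) = 0 := by
    intro j
    have h1 : θ - ∑ i, p i • δ i = θ + (-1 : MvPolynomial (Fin 2) κ) • ∑ i, p i • δ i := by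
      ext1 r
      rw [LinearMap.sub_apply, LinearMap.add_apply, LinearMap.smul_apply, smul_eq_mul]
      ring
    rw [h1, fr_omC_add_left hX hφ hθ ((DerAt φ).smul_mem _ hs) (h.hder j).der,
      fr_omC_smul_left hX hφ hs (h.hder j).der,
      fr_omC_sum_left hX hφ _ _ (fun i _ => (h.hder i).der) (h.hder j).der]
    have h2 : ∑ i, p i * omC P φ (δ i) (δ j) = omC P φ θ (δ j) := by
      have h3 : Matrix.vecMul p (frG P φ δ) = fun j => omC P φ θ (δ j) := by
        rw [hp, Matrix.vecMul_vecMul, h.frI_mul, Matrix.vecMul_one]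
      exact congrFun h3 j
    rw [h2]
    ring
  have hpt : ∀ u : Fin 2 → κ, u ≠ 0 → evL u (θ - ∑ i, p i • δ i) = 0 := by
    intro u hu
    refine eq_zero_of_om hX (c1_isNV_pt hφ u hu) (fr_isDer_evL hs' u) fun x hx => ?_
    obtain ⟨b, rfl⟩ := h.exists_pt hX hφ hu hx
    rw [om_antisymm hX (c1_isNV_pt hφ u hu) (fr_isDer_evL hs' u) hx,
      fr_om_sum_left hX (c1_isNV_pt hφ u hu) _ _ (fun i _ => fr_isDer_evL (h.hder i).der u)
      (fr_isDer_evL hs' u), neg_eq_zero]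
    refine Finset.sum_eq_zero fun j _ => ?_
    rw [om_antisymm hX (c1_isNV_pt hφ u hu) (fr_isDer_evL (h.hder j).der u)
      (fr_isDer_evL hs' u), fr_omC_eval hX hφ hs' (h.hder j).der u hu, horth, map_zero, neg_zero,
      mul_zero]
  rw [← sub_eq_zero]
  ext1 r
  rw [LinearMap.zero_apply]
  refine fr_eq_zero fun u hu => ?_
  rw [← evL_apply, hpt u hu, LinearMap.zero_apply]

/-- Homogeneous derivations are combinations with homogeneous coefficients. -/
theorem IsHFrame.exists_coeff_zhom (hX : IsContactFano 𝒜 P) (hφ : IsCurve 𝒜 d φ)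
    (h : IsHFrame 𝒜 P d φ e δ c) {k : ℤ} {θ : R →ₗ[ℂ] MvPolynomial (Fin 2) κ}
    (hθ : IsHDer 𝒜 d φ k θ) :
    ∃ p : Fin (cdim R) → MvPolynomial (Fin 2) κ, (∀ i, ZHom (p i) (k - e i)) ∧
      θ = ∑ i, p i • δ i := by
  obtain ⟨p, hp⟩ := h.exists_coeff hX hφ hθ.der
  refine ⟨p, fun i => ?_, hp⟩
  rw [h.coeff_eq hX hφ hp i]
  refine ZHom.sum _ fun j _ => ?_
  exact ((omC_zhom hX hφ hθ (h.hder j)).mul (h.frI_zhom hX hφ j i)).congr (by ring)

/-- There are no derivations of degree `< -d`. -/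
theorem IsHFrame.eq_zero (hX : IsContactFano 𝒜 P) (hφ : IsCurve 𝒜 d φ)
    (h : IsHFrame 𝒜 P d φ e δ c) {k : ℤ} (hk : k < -d) {θ : R →ₗ[ℂ] MvPolynomial (Fin 2) κ}
    (hθ : IsHDer 𝒜 d φ k θ) : θ = 0 := by
  obtain ⟨p, hp, hp'⟩ := h.exists_coeff_zhom hX hφ hθ
  rw [hp']
  refine Finset.sum_eq_zero fun i _ => ?_
  rw [(hp i).neg (by have := h.ge i; omega), zero_smul]

/-- The derivations of degree zero take every value at every point. -/
theorem IsHFrame.exists_value (hX : IsContactFano 𝒜 P) (hφ : IsCurve 𝒜 d φ)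
    (h : IsHFrame 𝒜 P d φ e δ c) {u : Fin 2 → κ} (hu : u ≠ 0) {x : R →ₗ[ℂ] κ}
    (hx : IsDer (pt φ u) x) {k : ℤ} (hk : 0 ≤ k) : ∃ θ, IsHDer 𝒜 d φ k θ ∧ evL u θ = x := by
  obtain ⟨b, rfl⟩ := h.exists_pt hX hφ hu hx
  obtain ⟨l, hl, hlu⟩ := exists_frU hu
  refine ⟨∑ i, (C (b i) * l ^ (k - e i).toNat : MvPolynomial (Fin 2) κ) • δ i,
    IsHDer.fr_sum _ fun i _ => ?_, ?_⟩
  · have h1 : ZHom (C (b i) * l ^ (k - e i).toNat) (k - e i) := by
      have h2 := ZHom.of_nat ((isHomogeneous_C (Fin 2) (b i)).mul (hl.pow (k - e i).toNat))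
      refine h2.congr ?_
      have := h.nonpos i
      push_cast
      omega
    exact ((h.hder i).fr_smul h1).fr_congr (by ring)
  · ext r
    rw [evL_apply, LinearMap.sum_apply, LinearMap.sum_apply, map_sum]
    refine Finset.sum_congr rfl fun i _ => ?_
    rw [LinearMap.smul_apply, LinearMap.smul_apply, evL_apply, smul_eq_mul, smul_eq_mul, map_mul,
      map_mul, map_pow, hlu, one_pow, mul_one, eval_C]

/-- On a line, the values of the derivations of degree `-1` form a Lagrangian subspace. -/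
theorem IsHFrame.lagrangian (hX : IsContactFano 𝒜 P) (hφ : IsCurve 𝒜 1 φ)
    (h : IsHFrame 𝒜 P 1 φ e δ c) {u : Fin 2 → κ} (hu : u ≠ 0) (x : R →ₗ[ℂ] κ)
    (hx : IsDer (pt φ u) x)
    (horth : ∀ τ, IsHDer 𝒜 1 φ (-1) τ → om P (pt φ u) x (evL u τ) = 0) :
    ∃ τ, IsHDer 𝒜 1 φ (-1) τ ∧ evL u τ = x := by
  classical
  obtain ⟨b, rfl⟩ := h.exists_pt hX hφ hu hx
  have hnv := c1_isNV_pt hφ u hu
  have he : ∀ i, e i = 0 ∨ e i = -1 := fun i => by
    have h1 := h.ge i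
    have h2 := h.nonpos i
    push_cast at h1
    omega
  -- the part of degree zero
  let b₀ : Fin (cdim R) → κ := fun i => if e i = 0 then b i else 0
  let θ : R →ₗ[ℂ] MvPolynomial (Fin 2) κ := ∑ i, (C (b₀ i) : MvPolynomial (Fin 2) κ) • δ i
  have hθ : IsHDer 𝒜 1 φ 0 θ := by
    refine IsHDer.fr_sum _ fun i _ => ?_
    by_cases hi : e i = 0
    · exact ((h.hder i).fr_smul (ZHom.of_nat (isHomogeneous_C (Fin 2) (b₀ i)))).fr_congr
        (by rw [hi]; rfl)
    · have : b₀ i = 0 := if_neg hi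
      rw [this, map_zero, zero_smul]
      exact IsHDer.fr_zero _
  have hθu : evL u θ = ∑ i, b₀ i • evL u (δ i) := by
    ext r
    rw [evL_apply, LinearMap.sum_apply, LinearMap.sum_apply, map_sum]
    refine Finset.sum_congr rfl fun i _ => ?_
    rw [LinearMap.smul_apply, LinearMap.smul_apply, evL_apply, smul_eq_mul, smul_eq_mul, map_mul,
      eval_C]
  have hneg : ∀ i j, e i = -1 → e j = -1 → omC P φ (δ i) (δ j) = 0 := fun i j hi hj =>
    (omC_zhom hX hφ (h.hder i) (h.hder j)).neg (by rw [hi, hj]; norm_num)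
  -- `θ` is orthogonal to the derivations of degree `-1`
  have h1 : ∀ j, e j = -1 → omC P φ θ (δ j) = 0 := by
    intro j hj
    have h2 := (omC_zhom hX hφ hθ (h.hder j)).nat 0 (by rw [hj]; norm_num)
    obtain ⟨a, ha⟩ : ∃ a : κ, omC P φ θ (δ j) = C a :=
      ⟨_, (totalDegree_eq_zero_iff_eq_C).1 (Nat.le_zero.1 h2.totalDegree_le)⟩
    have h3 := fr_omC_eval hX hφ hθ.der (h.hder j).der u hu
    rw [ha, eval_C] at h3
    have h4 : om P (pt φ u) (evL u θ) (evL u (δ j)) = 0 := by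
      rw [hθu, fr_om_sum_left hX hnv _ _ (fun i _ => fr_isDer_evL (h.hder i).der u)
        (fr_isDer_evL (h.hder j).der u)]
      have h5 := horth (δ j) (hj ▸ h.hder j)
      rw [fr_om_sum_left hX hnv _ _ (fun i _ => fr_isDer_evL (h.hder i).der u)
        (fr_isDer_evL (h.hder j).der u)] at h5
      rw [← h5]
      refine Finset.sum_congr rfl fun i _ => ?_
      by_cases hi : e i = 0
      · rw [show b₀ i = b i from if_pos hi]
      · rw [fr_omC_eval hX hφ (h.hder i).der (h.hder j).der u hu,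
          hneg i j ((he i).resolve_left hi) hj, map_zero, mul_zero, mul_zero]
    rw [ha, ← h3, h4, map_zero]
  have h2 : ∀ i, e i = 0 → b i = 0 := by
    intro i hi
    have h3 := h.coeff_eq hX hφ (p := fun i => C (b₀ i)) (θ := θ) rfl i
    have h4 : ∑ j, omC P φ θ (δ j) * frI P φ δ c j i = 0 := by
      refine Finset.sum_eq_zero fun j _ => ?_
      rcases he j with hj | hj
      · rw [(h.frI_zhom hX hφ j i).neg (by rw [hi, hj]; norm_num), mul_zero]
      · rw [h1 j hj, zero_mul]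
    rw [h4] at h3
    have h5 : b₀ i = 0 := by
      simpa using h3
    rwa [show b₀ i = b i from if_pos hi] at h5
  refine ⟨∑ i, (C (b i) : MvPolynomial (Fin 2) κ) • δ i, ?_, ?_⟩
  · refine IsHDer.fr_sum _ fun i _ => ?_
    rcases he i with hi | hi
    · rw [h2 i hi, map_zero, zero_smul]
      exact IsHDer.fr_zero _
    · exact ((h.hder i).fr_smul (ZHom.of_nat (isHomogeneous_C (Fin 2) (b i)))).fr_congr
        (by rw [hi]; rfl)
  · ext r
    rw [evL_apply, LinearMap.sum_apply, LinearMap.sum_apply, map_sum]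
    refine Finset.sum_congr rfl fun i _ => ?_
    rw [LinearMap.smul_apply, LinearMap.smul_apply, evL_apply, smul_eq_mul, smul_eq_mul, map_mul,
      eval_C]

end domain

end Vale.Agent.P292
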