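import Vale.Agent.P292.K.FrameC
import Vale.Agent.P292.K.Q2Defs

/-! # Frames along anchored curves. -/

namespace Vale.Agent.P292

open MvPolynomial

universe u v w

variable {R : Type u} [CommRing R] [Algebra ℂ R] {𝒜 : ℕ → Submodule ℂ R} [GradedAlgebra 𝒜]
  {P : R →ₗ[ℂ] R →ₗ[ℂ] R}

/-- An anchored curve has a frame. -/
theorem IsAnch.exists_hframe (hX : IsContactFano 𝒜 P) [IsDomain R] {K : Type v} [Field K]
    [IsAlgClosed K] [Algebra ℂ K] {d : ℕ} {ψ : R →ₐ[ℂ] MvPolynomial (Fin 2) K}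
    (h : IsAnch 𝒜 d ψ) :
    ∃ (e : Fin (cdim R) → ℤ) (δ : Fin (cdim R) → R →ₗ[ℂ] MvPolynomial (Fin 2) K) (c : K),
      IsHFrame 𝒜 P d ψ e δ c :=
  Vale.Agent.P292.exists_hframe hX h.curve fun v hv =>
    let ⟨δ, h1, h2, _⟩ := h.exists_isHDer hX v hv
    ⟨δ, h1, h2⟩

/-- F1 -/
theorem ni_exists_value (hX : IsContactFano 𝒜 P) [IsDomain R] {K : Type v} [Field K]
    [IsAlgClosed K] [Algebra ℂ K] {ψ : R →ₐ[ℂ] MvPolynomial (Fin 2) K} (h : IsAnch 𝒜 1 ψ)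
    {u : Fin 2 → K} (hu : u ≠ 0) (x : R →ₗ[ℂ] K) (hx : IsDer (pt ψ u) x) :
    ∃ δ, IsHDer 𝒜 1 ψ 0 δ ∧ evL u δ = x := by
  obtain ⟨e, δ, c, hf⟩ := h.exists_hframe hX
  exact hf.exists_value hX h.curve hu hx le_rfl

/-- F2 -/
theorem ni_lagrangian (hX : IsContactFano 𝒜 P) [IsDomain R] {K : Type v} [Field K]
    [IsAlgClosed K] [Algebra ℂ K] {ψ : R →ₐ[ℂ] MvPolynomial (Fin 2) K} (h : IsAnch 𝒜 1 ψ)
    {u : Fin 2 → K} (hu : u ≠ 0) (x : R →ₗ[ℂ] K) (hx : IsDer (pt ψ u) x)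
    (horth : ∀ τ, IsHDer 𝒜 1 ψ (-1) τ → om P (pt ψ u) x (evL u τ) = 0) :
    ∃ τ, IsHDer 𝒜 1 ψ (-1) τ ∧ evL u τ = x := by
  obtain ⟨e, δ, c, hf⟩ := h.exists_hframe hX
  exact hf.lagrangian hX h.curve hu x hx horth

end Vale.Agent.P292
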