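import Vale.Agent.P292.K.FrameC

/-! # Frames along curves, over arbitrary rings. -/

namespace Vale.Agent.P292

open MvPolynomial

universe u v w

variable {R : Type u} [CommRing R] [Algebra ℂ R] {𝒜 : ℕ → Submodule ℂ R} [GradedAlgebra 𝒜]
  {P : R →ₗ[ℂ] R →ₗ[ℂ] R}

theorem fr_isDer_hamAt {S : Type w} [CommRing S] [Algebra ℂ S] (hX : IsContactFano 𝒜 P)
    (y : R →ₐ[ℂ] S) (r : R) : IsDer y (hamAt P y r) := by
  intro s t
  simp only [hamAt_apply, hX.leibniz, map_add, map_mul]
  ring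

/-- On a chart the Hamiltonian derivations span, over any ring. -/
theorem fr_ham_span {S : Type w} [CommRing S] [Algebra ℂ S] (y : R →ₐ[ℂ] S) (hX : IsContactFano 𝒜 P)
    {N : ℕ} {x : Fin N → R} {g : R}
    (hc : ∀ r, ∃ c : Fin N → R, g • KaehlerDifferential.D ℂ R r =
      ∑ i, c i • KaehlerDifferential.D ℂ R (x i)) {θ : R →ₗ[ℂ] S} (hθ : IsDer y θ) :
    ∃ B : Fin N → S, ∀ r, y (g * Matrix.det (Matrix.of fun i j => P (x i) (x j))) * θ r =
      ∑ k, B k * (y g * y (P (x k) r)) := by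
  classical
  choose c hc using hc
  let M : Matrix (Fin N) (Fin N) S := (Matrix.of fun i j => P (x i) (x j)).map y
  have hM : M.det = y (Matrix.det (Matrix.of fun i j => P (x i) (x j))) := by
    rw [AlgHom.map_det]
    rfl
  let t : Fin N → S := fun l => θ (x l)
  let B : Fin N → S := Matrix.vecMul t M.adjugate
  have hB : ∀ l, ∑ k, B k * y (P (x k) (x l)) = M.det * t l := by
    intro l
    have h1 : Matrix.vecMul B M = M.det • t := by
      rw [Matrix.vecMul_vecMul, Matrix.adjugate_mul, Matrix.vecMul_smul, Matrix.vecMul_one]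
    exact congrFun h1 l
  refine ⟨B, fun r => ?_⟩
  have h1 : ∀ k, y g * y (P (x k) r) = ∑ l, y (c r l) * y (P (x k) (x l)) := fun k =>
    a2_apply y (fr_isDer_hamAt hX y (x k)) (hc r)
  have h2 := a2_apply y hθ (hc r)
  rw [map_mul, ← hM, mul_comm (y g), mul_assoc, h2]
  simp only [h1]
  calc M.det * ∑ i, y (c r i) * θ (x i) = ∑ l, y (c r l) * (M.det * t l) := by
        rw [Finset.mul_sum]
        exact Finset.sum_congr rfl fun i _ => by ring
    _ = ∑ l, y (c r l) * ∑ k, B k * y (P (x k) (x l)) := by simp only [hB]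
    _ = ∑ l, ∑ k, B k * (y (c r l) * y (P (x k) (x l))) := by
        refine Finset.sum_congr rfl fun l _ => ?_
        rw [Finset.mul_sum]
        exact Finset.sum_congr rfl fun k _ => by ring
    _ = ∑ k, ∑ l, B k * (y (c r l) * y (P (x k) (x l))) := Finset.sum_comm
    _ = _ := Finset.sum_congr rfl fun k _ => by rw [Finset.mul_sum]

variable {κ : Type v} [Field κ] [IsAlgClosed κ] [Algebra ℂ κ] {d : ℕ}
  {φ : R →ₐ[ℂ] MvPolynomial (Fin 2) κ} [IsDomain R] {e : Fin (cdim R) → ℤ}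
  {δ : Fin (cdim R) → R →ₗ[ℂ] MvPolynomial (Fin 2) κ} {c : κ}

/-- Over every ring in which one of the coordinates becomes a unit, the frame spans the
derivations. -/
theorem IsHFrame.exists_coeff_ring (hX : IsContactFano 𝒜 P) (hφ : IsCurve 𝒜 d φ)
    (h : IsHFrame 𝒜 P d φ e δ c) {S : Type w} [CommRing S] [Algebra ℂ S]
    (j : MvPolynomial (Fin 2) κ →ₐ[ℂ] S) (i₀ : Fin 2) (hj : IsUnit (j (X i₀)))
    {θ : R →ₗ[ℂ] S} (hθ : IsDer (j.comp φ) θ) :
    ∃ b : Fin (cdim R) → S, ∀ r, θ r = ∑ i, b i * j (δ i r) := by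
  classical
  let J : Ideal (MvPolynomial (Fin 2) κ) :=
    { carrier := {s | ∃ b : Fin (cdim R) → S, ∀ r, j s * θ r = ∑ i, b i * j (δ i r)}
      add_mem' := by
        rintro s s' ⟨b, hb⟩ ⟨b', hb'⟩
        refine ⟨b + b', fun r => ?_⟩
        rw [map_add, add_mul, hb, hb', ← Finset.sum_add_distrib]
        exact Finset.sum_congr rfl fun i _ => by rw [Pi.add_apply]; ring
      zero_mem' := ⟨0, fun r => by simp⟩
      smul_mem' := by
        rintro a s ⟨b, hb⟩
        refine ⟨fun i => j a * b i, fun r => ?_⟩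
        rw [smul_eq_mul, map_mul, mul_assoc, hb, Finset.mul_sum]
        exact Finset.sum_congr rfl fun i _ => by ring }
  have hJ : ∀ s, s ∈ J ↔ ∃ b : Fin (cdim R) → S, ∀ r, j s * θ r = ∑ i, b i * j (δ i r) :=
    fun s => Iff.rfl
  have hz : ∀ a : Fin 2 → κ, a ≠ 0 → ∃ s ∈ J, eval a s ≠ 0 := by
    intro a ha
    obtain ⟨N, x, k, g, l, -, -, hg, hdet, hc⟩ := exists_chart_kd hX (pt φ a) (c1_isNV_pt hφ a ha)
    refine ⟨φ (g * Matrix.det (Matrix.of fun i j => P (x i) (x j))), ?_, ?_⟩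
    · obtain ⟨B, hB⟩ := fr_ham_span (j.comp φ) hX hc hθ
      choose p hp using fun k => h.exists_coeff hX hφ (θ := hamAt P φ (x k))
        (fr_isDer_hamAt hX φ (x k))
      refine (hJ _).2 ⟨fun i => ∑ k, B k * ((j.comp φ) g * j (p k i)), fun r => ?_⟩
      have h1 := hB r
      rw [AlgHom.comp_apply] at h1
      rw [h1]
      have h2 : ∀ k, (j.comp φ) (P (x k) r) = ∑ i, j (p k i) * j (δ i r) := by
        intro k
        have h3 : φ (P (x k) r) = (∑ i, p k i • δ i) r := by
          rw [← hp k, hamAt_apply]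
        rw [AlgHom.comp_apply, h3, LinearMap.sum_apply, map_sum]
        exact Finset.sum_congr rfl fun i _ => by
          rw [LinearMap.smul_apply, smul_eq_mul, map_mul]
      simp only [h2]
      simp only [Finset.sum_mul, Finset.mul_sum]
      rw [Finset.sum_comm]
      exact Finset.sum_congr rfl fun i _ => Finset.sum_congr rfl fun k _ => by ring
    · rw [map_mul, map_mul]
      exact mul_ne_zero hg hdet
  have hX0 : (X i₀ : MvPolynomial (Fin 2) κ) ∈ J.radical := by
    rw [← vanishingIdeal_zeroLocus_eq_radical (K := κ), mem_vanishingIdeal_iff]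
    intro a ha
    rw [mem_zeroLocus_iff] at ha
    by_cases h0 : a = 0
    · rw [h0]
      simp
    · obtain ⟨s, hs, hs0⟩ := hz a h0
      exact absurd (by simpa [aeval_eq_eval] using ha s hs) hs0
  obtain ⟨n, hn⟩ := hX0
  obtain ⟨b, hb⟩ := (hJ _).1 hn
  have hu : IsUnit (j (X i₀ ^ n)) := by
    rw [map_pow]
    exact hj.pow n
  obtain ⟨w, hw⟩ := hu
  refine ⟨fun i => ↑w⁻¹ * b i, fun r => ?_⟩
  have h1 := hb r
  rw [← hw] at h1
  have h2 : θ r = ↑w⁻¹ * (↑w * θ r) := by
    rw [← mul_assoc, Units.inv_mul, one_mul]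
  rw [h2, h1, Finset.mul_sum]
  exact Finset.sum_congr rfl fun i _ => by ring

end Vale.Agent.P292
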