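import Vale.Agent.P292.K.I2T
import Vale.Agent.P292.K.I0
import Vale.Agent.P292.K.B
import Vale.Agent.P292.K.C4

/-! # Block I2, the reduction: if the coefficients of the generic conic are integral then `b`
itself is a root of a good polynomial. The results of the blocks V, C, N enter as hypotheses. -/

namespace Vale.Agent.P292

set_option linter.style.haveILetI false
set_option linter.unusedSectionVars false

open MvPolynomial TensorProduct

universe u v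

/-- The value at `(0, 1)` of a homogeneous polynomial. -/
theorem i2_eval_eq_coeff {κ : Type*} [Field κ] {q : MvPolynomial (Fin 2) κ} {n : ℕ}
    (hq : q.IsHomogeneous n) : eval ![0, 1] q = coeff (Finsupp.single 1 n) q := by
  classical
  rw [eval_eq', Finset.sum_eq_single (Finsupp.single 1 n : Fin 2 →₀ ℕ)]
  · simp
  · intro m hm hne
    have hdeg := hq (mem_support_iff.1 hm)
    have hd : m 0 + m 1 = n := by
      rw [← hdeg, Finsupp.weight_apply, Finsupp.sum_fintype _ _ (fun i => by simp)]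
      simp
    have hm0 : m 0 ≠ 0 := by
      intro h0
      apply hne
      ext i
      fin_cases i
      · simp [h0]
      · simp
        omega
    simp [hm0]
  · intro hn
    rw [notMem_support_iff.1 hn, zero_mul]

/-- The coefficient of `s t ^ (m - 1)` is the value of `∂ / ∂ s` at `(0, 1)`. -/
theorem i2_eval_pderiv_zero {κ : Type*} [Field κ] [Algebra ℂ κ] {p : MvPolynomial (Fin 2) κ}
    {m : ℕ} (hp : p.IsHomogeneous m) : eval ![0, 1] (pderiv 0 p) = cf p 1 (m - 1) := by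
  have h1 : (pderiv 0 p).IsHomogeneous (m - 1) := hp.pderiv
  rw [i2_eval_eq_coeff h1, coeff_pderiv, cf, add_comm]
  simp

/-- Euler's formula at `(0, 1)`. -/
theorem i2_eval_pderiv_one {κ : Type*} [Field κ] [Algebra ℂ κ] {p : MvPolynomial (Fin 2) κ}
    {m : ℕ} (hp : p.IsHomogeneous m) : eval ![0, 1] (pderiv 1 p) = m * eval ![0, 1] p := by
  have h1 : (pderiv 1 p).IsHomogeneous (m - 1) := hp.pderiv
  rw [i2_eval_eq_coeff h1, i2_eval_eq_coeff hp, coeff_pderiv]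
  rcases Nat.eq_zero_or_pos m with h0 | h0
  · subst h0
    have h2 : coeff (Finsupp.single 1 (0 - 1) + Finsupp.single 1 1 : Fin 2 →₀ ℕ) p = 0 := by
      by_contra h
      have := hp h
      rw [Finsupp.weight_apply, Finsupp.sum_fintype _ _ (fun i => by simp)] at this
      simp at this
    rw [h2, Nat.cast_zero, zero_mul, zero_mul]
  · rw [← Finsupp.single_add, Nat.sub_add_cancel h0]
    have h3 : ((Finsupp.single 1 (m - 1) : Fin 2 →₀ ℕ) 1 : κ) + 1 = m := by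
      rw [Finsupp.single_eq_same]
      have : ((m - 1 : ℕ) : κ) + 1 = ((m - 1 + 1 : ℕ) : κ) := by push_cast; ring
      rw [this, Nat.sub_add_cancel h0]
    rw [h3, mul_comm]

variable {R : Type u} [CommRing R] [Algebra ℂ R] {𝒜 : ℕ → Submodule ℂ R} [GradedAlgebra 𝒜]
  {P : R →ₗ[ℂ] R →ₗ[ℂ] R}

/-- Two linear maps which agree on homogeneous elements are equal. -/
theorem i2_ext {M : Type*} [AddCommGroup M] [Module ℂ M] {f g : R →ₗ[ℂ] M}
    (h : ∀ k, ∀ r ∈ 𝒜 k, f r = g r) : f = g := by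
  classical
  ext r
  rw [← DirectSum.sum_support_decompose 𝒜 r, map_sum, map_sum]
  exact Finset.sum_congr rfl fun k _ => h k _ (SetLike.coe_mem _)

variable {Ω : Type v} [Field Ω] [Algebra ℂ Ω] {w : R →ₐ[ℂ] ℂ}
  {φ : R →ₐ[ℂ] MvPolynomial (Fin 2) Ω}

/-- The Euler derivation is induced by `(1 / 2) ∂ / ∂ t` at `(0, 1)`. -/
theorem i2_euler_apply (hφ : GenConicAt 𝒜 w φ) {k : ℕ} {r : R} (hr : r ∈ 𝒜 k) :
    ((2 : Ω)⁻¹ • evL ![0, 1] (pd φ 1)) r = (k : ℂ) • pt φ ![0, 1] r := by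
  have h2 : (2 : Ω) ≠ 0 := by
    have : CharZero Ω := charZero_of_injective_algebraMap (algebraMap ℂ Ω).injective
    exact two_ne_zero
  rw [LinearMap.smul_apply, evL_apply, pd_apply, i2_eval_pderiv_one (hφ.curve.degree k r hr),
    pt_apply, smul_eq_mul, Algebra.smul_def, map_natCast, Nat.cast_mul, ← mul_assoc, ← mul_assoc]
  rw [Nat.cast_ofNat, inv_mul_cancel₀ h2, one_mul]

theorem i2_isDer_evL (φ : R →ₐ[ℂ] MvPolynomial (Fin 2) Ω) (i : Fin 2) (a : Fin 2 → Ω) :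
    IsDer (pt φ a) (evL a (pd φ i)) := by
  intro r s
  rw [evL_apply, evL_apply, evL_apply, pd_apply, pd_apply, pd_apply, map_mul,
    Derivation.leibniz, map_add, smul_eq_mul, smul_eq_mul, map_mul, map_mul, pt_apply, pt_apply]

theorem i2_isNV (hX : IsContactFano 𝒜 P) (hφ : GenConicAt 𝒜 w φ) : IsNV 𝒜 (pt φ ![0, 1]) := by
  obtain ⟨p, hp⟩ := hX.nonempty
  unfold IsVertex at hp
  push Not at hp
  obtain ⟨k, hk, r, hr, hpr⟩ := hp
  refine ⟨k, hk, r, hr, fun h0 => hpr ?_⟩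
  have : r = 0 := hφ.inj (by rw [h0, map_zero])
  rw [this, map_zero]

/-- `E b = b / 2` for the Euler derivation `E`. -/
theorem i2_euler_b (hX : IsContactFano 𝒜 P) (hφ : GenConicAt 𝒜 w φ) {b : Ω}
    (hom : om P (pt φ ![0, 1]) (evL ![0, 1] (pd φ 0)) (evL ![0, 1] (pd φ 1)) = b)
    (hfv : ∀ D : Derivation ℂ Ω Ω,
      D b = om P (pt φ ![0, 1]) (evL ![0, 1] (pd φ 0)) (alongAt (pt φ ![0, 1]) D))
    (D : Derivation ℂ Ω Ω) (hD : ∀ k, ∀ r ∈ 𝒜 k, D (pt φ ![0, 1] r) = (k : ℂ) • pt φ ![0, 1] r) :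
    (2 : ℂ) • D b = b := by
  have h2 : (2 : Ω) ≠ 0 := by
    have : CharZero Ω := charZero_of_injective_algebraMap (algebraMap ℂ Ω).injective
    exact two_ne_zero
  have h1 : alongAt (pt φ ![0, 1]) D = (2 : Ω)⁻¹ • evL ![0, 1] (pd φ 1) := by
    refine i2_ext (𝒜 := 𝒜) fun k r hr => ?_
    rw [alongAt_apply, hD k r hr, i2_euler_apply hφ hr]
  rw [hfv D, h1, om_smul_right hX (i2_isNV hX hφ) (i2_isDer_evL φ 0 _) (i2_isDer_evL φ 1 _), hom,
    Algebra.smul_def, map_ofNat, ← mul_assoc, mul_inv_cancel₀ h2, one_mul]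

/-- There is an Euler derivation of `Ω`. -/
theorem i2_exists_euler (hφ : GenConicAt 𝒜 w φ) : ∃ D : Derivation ℂ Ω Ω,
    ∀ k, ∀ r ∈ 𝒜 k, D (pt φ ![0, 1] r) = (k : ℂ) • pt φ ![0, 1] r := by
  obtain ⟨D, hD⟩ := exists_derivation_of_isDer hφ.inj
    (δ := (2 : Ω)⁻¹ • evL ![0, 1] (pd φ 1)) ((DerAt _).smul_mem _ (i2_isDer_evL φ 1 _))
  refine ⟨D, fun k r hr => ?_⟩
  rw [← alongAt_apply, hD, i2_euler_apply hφ hr]

/-- Elements killed by all derivations over `R` are algebraic. -/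
theorem i2_isAlgebraic (φ : R →ₐ[ℂ] MvPolynomial (Fin 2) Ω) (x : Ω)
    (h : ∀ D : Derivation ℂ Ω Ω, (∀ s, D (pt φ ![0, 1] s) = 0) → D x = 0) :
    letI : Algebra R Ω := (pt φ ![0, 1] : R →+* Ω).toAlgebra
    IsAlgebraic R x := by
  letI : Algebra R Ω := (pt φ ![0, 1] : R →+* Ω).toAlgebra
  haveI : IsScalarTower ℂ R Ω := IsScalarTower.of_algebraMap_eq fun c =>
    ((pt φ ![0, 1]).commutes c).symm
  exact i2_isAlgebraic_of_der x h

/-- Integrality of algebraic elements from valuation rings with centre of codimension one. -/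
theorem i2_exists_monic [IsDomain R] (hX : IsContactFano 𝒜 P) (hφ : GenConicAt 𝒜 w φ) (x : Ω)
    (h : ∀ D : Derivation ℂ Ω Ω, (∀ s, D (pt φ ![0, 1] s) = 0) → D x = 0)
    (hv : ∀ (v : ValuationSubring Ω), (∀ c : ℂ, algebraMap ℂ Ω c ∈ v) →
      (∀ r, pt φ ![0, 1] r ∈ v) →
      ∀ (𝔭 : Ideal R) [𝔭.IsPrime], (∀ r, r ∈ 𝔭 ↔ v.valuation (pt φ ![0, 1] r) < 1) →
      IsDiscreteValuationRing (Localization.AtPrime 𝔭) → x ∈ v) :
    ∃ q : Polynomial R, q.Monic ∧ q.eval₂ (pt φ ![0, 1] : R →+* Ω) x = 0 := by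
  haveI := hX.normal
  haveI := hX.finiteType
  haveI : IsNoetherianRing R := Algebra.FiniteType.isNoetherianRing ℂ R
  have hx := i2_isAlgebraic φ x h
  letI : Algebra R Ω := (pt φ ![0, 1] : R →+* Ω).toAlgebra
  haveI : FaithfulSMul R Ω := (faithfulSMul_iff_algebraMap_injective R Ω).2 hφ.inj
  have hint : IsIntegral R x := by
    refine i2_isIntegral_of_dvr x hx fun v hvR 𝔭 _ hdvr h𝔭 => ?_
    refine hv v (fun c => ?_) hvR 𝔭 h𝔭 hdvr
    rw [← (pt φ ![0, 1]).commutes c]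
    exact hvR _
  exact hint

/-- The first end point is a unit for every valuation ring. -/
theorem i2_left_unit (hφ : GenConicAt 𝒜 w φ) (v : ValuationSubring Ω)
    (hv : ∀ c : ℂ, algebraMap ℂ Ω c ∈ v) :
    (∀ r, pt φ ![1, 0] r ∈ v) ∧ ∃ k : ℕ, 0 < k ∧ ∃ r ∈ 𝒜 k, v.valuation (pt φ ![1, 0] r) = 1 := by
  refine ⟨fun r => by rw [hφ.left]; exact hv _, ?_⟩
  obtain ⟨k, hk, r, hr, hne⟩ := hφ.curve.bpf ![1, 0] (by
    intro h
    have := congrFun h 0
    simp at this)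
  refine ⟨k, hk, r, hr, ?_⟩
  have h1 : pt φ ![1, 0] r ≠ 0 := hne
  rw [hφ.left] at h1 ⊢
  have h2 : w r ≠ 0 := fun h0 => h1 (by rw [h0, map_zero])
  refine i0_valuation_eq_one v (hv _) (hv (w r)⁻¹) ?_
  rw [← map_mul, mul_inv_cancel₀ h2, map_one]

/-- I2, with the results of the blocks V, C and N as hypotheses: if the coefficients of the
generic conic are integral then `b` itself is a root of a good polynomial. -/
theorem i2_exists_isGood {Ω : Type u} [Field Ω] [Algebra ℂ Ω]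
    {φ : R →ₐ[ℂ] MvPolynomial (Fin 2) Ω} (hX : IsContactFano 𝒜 P) (hφ : GenConicAt 𝒜 w φ) {b : Ω}
    (hom : om P (pt φ ![0, 1]) (evL ![0, 1] (pd φ 0)) (evL ![0, 1] (pd φ 1)) = b)
    (hfv : ∀ D : Derivation ℂ Ω Ω,
      D b = om P (pt φ ![0, 1]) (evL ![0, 1] (pd φ 0)) (alongAt (pt φ ![0, 1]) D))
    (hbd : ∀ v : ValuationSubring Ω, (∀ c : ℂ, algebraMap ℂ Ω c ∈ v) →
      (∀ r, pt φ ![0, 1] r ∈ v) →
      (∃ k : ℕ, 0 < k ∧ ∃ r ∈ 𝒜 k, v.valuation (pt φ ![0, 1] r) = 1) → b ∈ v)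
    (hcf : ∀ k : ℕ, 0 < k → ∀ r ∈ 𝒜 k, ∃ q : Polynomial R, q.Monic ∧
      q.eval₂ (pt φ ![0, 1] : R →+* Ω) (cf (φ r) 1 (2 * k - 1)) = 0) :
    ∃ Q : Polynomial R, IsGood 𝒜 P 2 Q ∧ Q.eval₂ (pt φ ![0, 1] : R →+* Ω) b = 0 := by
  obtain ⟨D, hD⟩ := i2_exists_euler hφ
  refine exists_isGood_of hX (pt φ ![0, 1]) hφ.inj two_pos b
    (isIntegral_of_valuationSubring hX _ hφ.inj b hbd)
    ⟨D, hD, by simpa using i2_euler_b hX hφ hom hfv D hD⟩ fun k hk r hr => ?_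
  obtain ⟨D', hD'⟩ := exists_derivation_of_isDer hφ.inj (isDer_hamAt hX (pt φ ![0, 1]) r)
  have hD2 : ∀ s, D' (pt φ ![0, 1] s) = pt φ ![0, 1] (P r s) := fun s => by
    rw [← alongAt_apply, hD', hamAt_apply]
  refine ⟨D', hD2, ?_⟩
  have h1 : D' b = -cf (φ r) 1 (2 * k - 1) := by
    rw [hfv D', hD', om_ham_right hX (i2_isNV hX hφ) (i2_isDer_evL φ 0 _), evL_apply, pd_apply,
      i2_eval_pderiv_zero (hφ.curve.degree k r hr)]
  rw [h1]
  letI : Algebra R Ω := (pt φ ![0, 1] : R →+* Ω).toAlgebra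
  have h2 : IsIntegral R (cf (φ r) 1 (2 * k - 1)) := hcf k hk r hr
  exact h2.neg

end Vale.Agent.P292
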