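import Vale.Agent.P292.K.Basic
import Vale.Agent.P292.K.DerExt
import Vale.Agent.P292.Bdl.B4

/-! # Block I2, tools: algebraic elements from derivations, integrality from valuation rings
whose centre has codimension one. -/

namespace Vale.Agent.P292

open Polynomial

universe u v

/-- An element on which all derivations trivial on `R` vanish is algebraic over `R`. -/
theorem i2_isAlgebraic_of_der {R : Type u} [CommRing R] [Algebra ℂ R] {Ω : Type v} [Field Ω]
    [Algebra ℂ Ω] [Algebra R Ω] [IsScalarTower ℂ R Ω] (x : Ω)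
    (h : ∀ D : Derivation ℂ Ω Ω, (∀ r, D (algebraMap R Ω r) = 0) → D x = 0) :
    IsAlgebraic R x := by
  by_contra hx
  have hinj : Function.Injective (Polynomial.aeval x : Polynomial R →ₐ[R] Ω) :=
    transcendental_iff_injective.1 hx
  obtain ⟨D, hD⟩ := exists_derivation_of_isDer
    (q := (Polynomial.aeval x : Polynomial R →ₐ[R] Ω).restrictScalars ℂ)
    hinj (δ := ((Polynomial.aeval x : Polynomial R →ₐ[R] Ω).restrictScalars ℂ).toLinearMap ∘ₗ
      (Polynomial.derivative.restrictScalars ℂ : Polynomial R →ₗ[ℂ] Polynomial R))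
    (fun p q => by
      change Polynomial.aeval x (Polynomial.derivative (p * q)) =
        Polynomial.aeval x p * Polynomial.aeval x (Polynomial.derivative q) +
        Polynomial.aeval x q * Polynomial.aeval x (Polynomial.derivative p)
      rw [Polynomial.derivative_mul, map_add, map_mul, map_mul]
      ring)
  have hD' : ∀ p : Polynomial R, D (Polynomial.aeval x p) =
      Polynomial.aeval x (Polynomial.derivative p) := fun p => LinearMap.congr_fun hD p
  have h1 : D x = 1 := by
    have := hD' Polynomial.X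
    rwa [Polynomial.aeval_X, Polynomial.derivative_X, map_one] at this
  have h2 : ∀ r, D (algebraMap R Ω r) = 0 := by
    intro r
    have := hD' (Polynomial.C r)
    rwa [Polynomial.aeval_C, Polynomial.derivative_C, map_zero] at this
  exact one_ne_zero (h1.symm.trans (h D h2))

/-- Algebraic elements belong to a valuation ring which contains the fraction field. -/
theorem i2_mem_of_isAlgebraic {V : Type u} {Ω : Type v} [CommRing V] [Field Ω]
    [Algebra V Ω] [FaithfulSMul V Ω] (v : ValuationSubring Ω) (hv : ∀ r : V, algebraMap V Ω r ∈ v)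
    (hinv : ∀ r : V, r ≠ 0 → (algebraMap V Ω r)⁻¹ ∈ v) {x : Ω} (hx : IsAlgebraic V x) :
    x ∈ v := by
  obtain ⟨p, hp0, hp⟩ := hx
  let f : V →+* v := (algebraMap V Ω).codRestrict v.toSubring hv
  have hf : ∀ r, ((f r : v) : Ω) = algebraMap V Ω r := fun r => rfl
  have hlc : p.leadingCoeff ≠ 0 := leadingCoeff_ne_zero.2 hp0
  have hlcΩ : algebraMap V Ω p.leadingCoeff ≠ 0 := by
    rw [Ne, FaithfulSMul.algebraMap_eq_zero_iff]
    exact hlc
  have hflc : f p.leadingCoeff ≠ 0 := fun h => hlcΩ (by rw [← hf, h]; rfl)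
  have hmap : (p.map f).leadingCoeff = f p.leadingCoeff :=
    leadingCoeff_map_of_leadingCoeff_ne_zero f hflc
  have hunit : IsUnit (p.map f).leadingCoeff := by
    rw [hmap]
    refine IsUnit.of_mul_eq_one (⟨_, hinv _ hlc⟩ : v) (Subtype.ext ?_)
    change algebraMap V Ω p.leadingCoeff * (algebraMap V Ω p.leadingCoeff)⁻¹ = 1
    exact mul_inv_cancel₀ hlcΩ
  have hint : IsIntegral v x := by
    refine ⟨hunit.unit⁻¹ • p.map f, monic_of_isUnit_leadingCoeff_inv_smul hunit, ?_⟩
    have h1 : (p.map f).eval₂ (algebraMap v Ω) x = 0 := by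
      rw [eval₂_map]
      exact hp
    rw [Units.smul_def, eval₂_smul, h1, mul_zero]
  obtain ⟨y, hy⟩ := IsIntegrallyClosed.isIntegral_iff.1 hint
  rw [← hy]
  exact y.2

/-- Integrality from valuation rings of the big field, whose centre is a prime with a discrete
valuation ring as localisation. -/
theorem i2_isIntegral_of_dvr {R : Type u} {Ω : Type v} [CommRing R] [IsDomain R]
    [IsNoetherianRing R] [IsIntegrallyClosed R] [Field Ω] [Algebra R Ω] [FaithfulSMul R Ω]
    (x : Ω) (hx : IsAlgebraic R x)
    (h : ∀ (v : ValuationSubring Ω), (∀ r : R, algebraMap R Ω r ∈ v) →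
      ∀ (𝔭 : Ideal R) [𝔭.IsPrime], IsDiscreteValuationRing (Localization.AtPrime 𝔭) →
      (∀ r, r ∈ 𝔭 ↔ v.valuation (algebraMap R Ω r) < 1) → x ∈ v) : IsIntegral R x := by
  refine isIntegral_of_forall_dvr x hx ?_
  intro 𝔭 _ V _ _ _ _ _ _ _ _
  have hdvr : IsDiscreteValuationRing (Localization.AtPrime 𝔭) :=
    IsDiscreteValuationRing.RingEquivClass.isDiscreteValuationRing
      (IsLocalization.algEquiv 𝔭.primeCompl V (Localization.AtPrime 𝔭))
  refine isIntegral_of_forall_valuationSubring x fun v hv => ?_
  obtain ⟨ϖ, hϖ⟩ := IsDiscreteValuationRing.exists_irreducible V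
  have hvR : ∀ r : R, algebraMap R Ω r ∈ v := fun r => by
    rw [IsScalarTower.algebraMap_apply R V Ω]
    exact hv _
  by_cases h1 : v.valuation (algebraMap V Ω ϖ) < 1
  · refine h v hvR 𝔭 hdvr fun r => ?_
    rw [IsScalarTower.algebraMap_apply R V Ω]
    constructor
    · intro hr
      have h2 : algebraMap R V r ∈ IsLocalRing.maximalIdeal V := by
        rwa [IsLocalization.AtPrime.to_map_mem_maximal_iff V 𝔭]
      rw [(IsDiscreteValuationRing.irreducible_iff_uniformizer ϖ).1 hϖ,
        Ideal.mem_span_singleton] at h2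
      obtain ⟨y, hy⟩ := h2
      rw [hy, map_mul, map_mul]
      refine mul_lt_one_of_lt_of_le h1 ?_
      rw [ValuationSubring.valuation_le_one_iff]
      exact hv y
    · intro hlt
      by_contra hr
      have hu : IsUnit (algebraMap R V r) := IsLocalization.map_units V (⟨r, hr⟩ : 𝔭.primeCompl)
      obtain ⟨y, hy⟩ := hu.exists_right_inv
      have h3 : v.valuation (algebraMap V Ω (algebraMap R V r)) *
          v.valuation (algebraMap V Ω y) = 1 := by
        rw [← map_mul, ← map_mul, hy, map_one, map_one]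
      have h4 : v.valuation (algebraMap V Ω y) ≤ 1 :=
        (ValuationSubring.valuation_le_one_iff v _).2 (hv y)
      exact absurd h3 (mul_lt_one_of_lt_of_le hlt h4).ne
  · have hinj : Function.Injective (algebraMap R V) := by
      have h2 : Function.Injective (algebraMap R Ω) := FaithfulSMul.algebraMap_injective R Ω
      rw [IsScalarTower.algebraMap_eq R V Ω] at h2
      exact Function.Injective.of_comp h2
    have hxV : IsAlgebraic V x := by
      obtain ⟨p, hp0, hp⟩ := hx
      refine ⟨p.map (algebraMap R V), ?_, ?_⟩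
      · rw [Ne, Polynomial.map_eq_zero_iff hinj]
        exact hp0
      · rw [aeval_map_algebraMap]
        exact hp
    refine i2_mem_of_isAlgebraic v hv (fun y hy => ?_) hxV
    obtain ⟨n, u, hu⟩ := IsDiscreteValuationRing.eq_unit_mul_pow_irreducible hy hϖ
    have hϖv : (algebraMap V Ω ϖ)⁻¹ ∈ v := by
      rw [← ValuationSubring.valuation_le_one_iff, map_inv₀]
      refine inv_le_one_of_one_le₀ ?_
      exact not_lt.1 h1
    have huv : (algebraMap V Ω (u : V))⁻¹ ∈ v := by
      have h5 : algebraMap V Ω (u : V) * algebraMap V Ω ((u⁻¹ : Vˣ) : V) = 1 := by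
        rw [← map_mul, Units.mul_inv, map_one]
      rw [inv_eq_of_mul_eq_one_right h5]
      exact hv _
    rw [hu, map_mul, map_pow, mul_inv, ← inv_pow]
    exact v.mul_mem _ _ huv (pow_mem hϖv n)

end Vale.Agent.P292
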