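import Vale.Agent.P292.K.Basic
import Vale.Agent.P292.Bdl.B4

/-! # Block M: curves meet divisors (factorial case) -/

namespace Vale.Agent.P292

open MvPolynomial

universe u v

/-- Homogeneity of evaluation. -/
theorem eval_mul_of_binary {κ : Type v} [Field κ] {F : MvPolynomial (Fin 2) κ} {n : ℕ}
    (hF : F.IsHomogeneous n) (c : κ) (a : Fin 2 → κ) :
    eval (fun i => c * a i) F = c ^ n * eval a F := by
  classical
  rw [eval_eq, eval_eq, Finset.mul_sum]
  refine Finset.sum_congr rfl fun d hd => ?_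
  have h1 : d.degree = n := by
    have h2 := hF (mem_support_iff.1 hd)
    rw [Finsupp.degree_eq_weight_one]
    exact h2
  have h3 : ∏ i ∈ d.support, (c * a i) ^ d i = c ^ n * ∏ i ∈ d.support, a i ^ d i := by
    rw [← h1, Finsupp.degree_apply, ← Finset.prod_pow_eq_pow_sum, ← Finset.prod_mul_distrib]
    exact Finset.prod_congr rfl fun i _ => mul_pow _ _ _
  rw [h3]
  ring

/-- A binary form of positive degree over an algebraically closed field has a nontrivial zero. -/
theorem exists_zero_of_binary {κ : Type v} [Field κ] [IsAlgClosed κ]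
    {F : MvPolynomial (Fin 2) κ} {n : ℕ} (hn : 0 < n) (hF : F.IsHomogeneous n) :
    ∃ a : Fin 2 → κ, a ≠ 0 ∧ eval a F = 0 := by
  classical
  have hev : ∀ (g : Fin 2 → Polynomial κ) (t : κ),
      (aeval g F).eval t = eval (fun i => (g i).eval t) F := by
    intro g t
    rw [← Polynomial.coe_evalRingHom, aeval_def, hom_eval₂]
    have h1 : (Polynomial.evalRingHom t).comp (algebraMap κ (Polynomial κ)) = RingHom.id κ := by
      ext c
      simp
    rw [h1]
    rfl
  by_contra hcon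
  push Not at hcon
  set f : Polynomial κ := aeval ![1, Polynomial.X] F with hf
  have hfe : ∀ t, f.eval t = eval ![1, t] F := by
    intro t
    rw [hf, hev]
    congr 2
    funext i
    fin_cases i <;> simp
  have hne : ∀ t, f.eval t ≠ 0 := fun t => by
    rw [hfe]
    exact hcon _ (fun h => one_ne_zero (congrFun h 0))
  have hdeg : f.degree = 0 := by
    by_contra hd
    obtain ⟨t, ht⟩ := IsAlgClosed.exists_root f hd
    exact hne t ht
  obtain ⟨c, hc⟩ : ∃ c, f = Polynomial.C c := ⟨_, Polynomial.eq_C_of_degree_eq_zero hdeg⟩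
  set g : Polynomial κ := aeval ![Polynomial.X, 1] F with hg
  have hge : ∀ t, g.eval t = eval ![t, 1] F := by
    intro t
    rw [hg, hev]
    congr 2
    funext i
    fin_cases i <;> simp
  have hgz : (g - Polynomial.C c * Polynomial.X ^ n) * Polynomial.X = 0 := by
    refine Polynomial.funext fun t => ?_
    rw [Polynomial.eval_mul, Polynomial.eval_X, Polynomial.eval_zero]
    by_cases ht : t = 0
    · rw [ht, mul_zero]
    · have h1 : eval ![t, 1] F = t ^ n * eval ![1, t⁻¹] F := by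
        rw [← eval_mul_of_binary hF]
        congr 2
        funext i
        fin_cases i
        · simp
        · simp [mul_inv_cancel₀ ht]
      rw [Polynomial.eval_sub, hge, h1, ← hfe, hc, Polynomial.eval_mul, Polynomial.eval_C,
        Polynomial.eval_pow, Polynomial.eval_X, Polynomial.eval_C]
      ring
  have hg0 : g = Polynomial.C c * Polynomial.X ^ n := by
    rcases mul_eq_zero.1 hgz with h | h
    · exact sub_eq_zero.1 h
    · exact absurd h Polynomial.X_ne_zero
  refine hcon ![0, 1] (fun h => one_ne_zero (congrFun h 1)) ?_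
  rw [← hge, hg0, Polynomial.eval_mul, Polynomial.eval_pow, Polynomial.eval_X,
    zero_pow hn.ne', mul_zero]

section

variable {R : Type u} [CommRing R] [Algebra ℂ R] {𝒜 : ℕ → Submodule ℂ R} [GradedAlgebra 𝒜]
  {P : R →ₗ[ℂ] R →ₗ[ℂ] R}

/-- A homogeneous height one prime of a factorial `R` is generated by a homogeneous element of
positive degree. -/
theorem exists_generator_of_ufd (hX : IsContactFano 𝒜 P) [IsDomain R]
    [UniqueFactorizationMonoid R] (𝔭 : Ideal R) [𝔭.IsPrime]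
    (hdvr : IsDiscreteValuationRing (Localization.AtPrime 𝔭)) (hh : 𝔭.IsHomogeneous 𝒜) :
    ∃ (k : ℕ) (ϖ : R), 0 < k ∧ ϖ ∈ 𝒜 k ∧ Prime ϖ ∧ ϖ ∈ 𝔭 ∧ ∀ r ∈ 𝔭, ϖ ∣ r := by
  classical
  have h𝔭 : 𝔭.IsPrime := inferInstance
  set S := Localization.AtPrime 𝔭 with hS
  have hinj : Function.Injective (algebraMap R S) :=
    IsLocalization.injective S 𝔭.primeCompl_le_nonZeroDivisors
  have hbot : 𝔭 ≠ ⊥ := by
    intro h
    apply hdvr.not_a_field'
    rw [← Localization.AtPrime.map_eq_maximalIdeal (I := 𝔭)]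
    exact (Ideal.map_eq_bot_iff_of_injective hinj).2 h
  -- a nonzero homogeneous element
  obtain ⟨r, hr, hr0⟩ := Submodule.exists_mem_ne_zero_of_ne_bot hbot
  obtain ⟨k, hk⟩ : ∃ k, (DirectSum.decompose 𝒜 r k : R) ≠ 0 := by
    by_contra hcon
    push Not at hcon
    apply hr0
    rw [← DirectSum.sum_support_decompose 𝒜 r]
    exact Finset.sum_eq_zero fun k _ => hcon k
  have hmem : (DirectSum.decompose 𝒜 r k : R) ∈ 𝔭 := hh k hr
  have hmem' : (DirectSum.decompose 𝒜 r k : R) ∈ 𝒜 k := (DirectSum.decompose 𝒜 r k).2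
  generalize (DirectSum.decompose 𝒜 r k : R) = h at hk hmem hmem'
  -- a prime factor
  obtain ⟨ϖ, hϖ, hϖp, hϖd⟩ : ∃ ϖ, Prime ϖ ∧ ϖ ∈ 𝔭 ∧ ϖ ∣ h := by
    have key : ∀ x : R, x ≠ 0 → x ∈ 𝔭 → ∃ ϖ, Prime ϖ ∧ ϖ ∈ 𝔭 ∧ ϖ ∣ x := by
      intro x
      refine UniqueFactorizationMonoid.induction_on_prime x ?_ ?_ ?_
      · intro h; exact absurd rfl h
      · intro y hy _ hy2
        exact absurd (Ideal.eq_top_of_isUnit_mem _ hy2 hy) h𝔭.ne_top
      · intro a p ha hp ih _ hpa
        rcases h𝔭.mem_or_mem hpa with h1 | h1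
        · exact ⟨p, hp, h1, dvd_mul_right _ _⟩
        · obtain ⟨ϖ, h2, h3, h4⟩ := ih ha h1
          exact ⟨ϖ, h2, h3, h4.mul_left p⟩
    exact key h hk hmem
  obtain ⟨e, he⟩ := hϖd
  obtain ⟨i, j, hi, -, -⟩ := exists_mem_of_mul_mem (𝒜 := 𝒜) (a := ϖ) (b := e) (k := k)
    (by rwa [← he]) (by rwa [← he])
  refine ⟨i, ϖ, ?_, hi, hϖ, hϖp, ?_⟩
  · rcases Nat.eq_zero_or_pos i with h0 | h0
    · exfalso
      subst h0
      obtain ⟨c, hc⟩ := hX.connected ϖ hi
      apply hϖ.not_isUnit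
      rw [hc]
      refine (IsUnit.mk0 c ?_).map (algebraMap ℂ R)
      rintro rfl
      exact hϖ.ne_zero (by rw [hc, map_zero])
    · exact h0
  · intro x hx
    have hQ : (Ideal.span {ϖ}).IsPrime := (Ideal.span_singleton_prime hϖ.ne_zero).2 hϖ
    have hQle : Ideal.span {ϖ} ≤ 𝔭 := (Ideal.span_singleton_le_iff_mem _).2 hϖp
    have hdisj : Disjoint (𝔭.primeCompl : Set R) (Ideal.span {ϖ} : Set R) := by
      rw [Set.disjoint_left]
      intro y hy hy2
      exact hy (hQle hy2)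
    have h1 := IsLocalization.isPrime_of_isPrime_disjoint 𝔭.primeCompl S _ hQ hdisj
    have h2 : Ideal.map (algebraMap R S) (Ideal.span {ϖ}) ≠ ⊥ := by
      intro hb
      have h3 : algebraMap R S ϖ ∈ Ideal.map (algebraMap R S) (Ideal.span {ϖ}) :=
        Ideal.mem_map_of_mem _ (Ideal.mem_span_singleton_self ϖ)
      rw [hb, Ideal.mem_bot] at h3
      exact hϖ.ne_zero (hinj (by rw [h3, map_zero]))
    have h3 : (Ideal.map (algebraMap R S) (Ideal.span {ϖ})).IsMaximal :=
      Ring.DimensionLEOne.maximalOfPrime h2 h1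
    have h4 : algebraMap R S x ∈ Ideal.map (algebraMap R S) (Ideal.span {ϖ}) := by
      rw [IsLocalRing.eq_maximalIdeal h3, ← Localization.AtPrime.map_eq_maximalIdeal (I := 𝔭)]
      exact Ideal.mem_map_of_mem _ hx
    have h5 : x ∈ (Ideal.map (algebraMap R S) (Ideal.span {ϖ})).under R := h4
    rw [IsLocalization.under_map_of_isPrime_disjoint 𝔭.primeCompl S hQ hdisj] at h5
    exact Ideal.mem_span_singleton.1 h5

theorem meets_of_ufd (hX : IsContactFano 𝒜 P) [IsDomain R] [UniqueFactorizationMonoid R]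
    {d : ℕ} (hd : 0 < d) {φ : R →ₐ[ℂ] MvPolynomial (Fin 2) ℂ} (hφ : IsCurve 𝒜 d φ)
    (𝔭 : Ideal R) [𝔭.IsPrime] (hdvr : IsDiscreteValuationRing (Localization.AtPrime 𝔭))
    (hh : 𝔭.IsHomogeneous 𝒜) : ∃ a : Fin 2 → ℂ, a ≠ 0 ∧ ∀ r ∈ 𝔭, pt φ a r = 0 := by
  obtain ⟨k, ϖ, hk, hϖk, -, -, hdvd⟩ := exists_generator_of_ufd hX 𝔭 hdvr hh
  obtain ⟨a, ha, ha0⟩ := exists_zero_of_binary (Nat.mul_pos hd hk) (hφ.degree k ϖ hϖk)
  refine ⟨a, ha, fun r hr => ?_⟩
  obtain ⟨e, rfl⟩ := hdvd r hr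
  rw [pt_apply, map_mul, map_mul, ha0, zero_mul]

end

end Vale.Agent.P292
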