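import Vale.Agent.P292.K.F
import Vale.Agent.P292.K.I1
import Vale.Agent.P292.K.I2
import Vale.Agent.P292.K.U
import Vale.Agent.P292.K.M
import Vale.Agent.P292.K.Ultra
import Vale.Agent.P292.K.V1
import Vale.Agent.P292.K.Main1
import Vale.Agent.P292.K.MeetDefs

/-! # Assembly. -/

namespace Vale.Agent.P292

open MvPolynomial TensorProduct

universe u v w

section
variable {R : Type u} [CommRing R] [Algebra ℂ R] {𝒜 : ℕ → Submodule ℂ R} [GradedAlgebra 𝒜]
  {P : R →ₗ[ℂ] R →ₗ[ℂ] R}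

/-- A splitting field of `Q` embeds in that of `q` if `Q(b²) = 0` and `q(b) = 0`. -/
theorem exists_algHom_splitting [IsDomain R] [IsIntegrallyClosed R] {Ω : Type u} [Field Ω]
    (j : R →+* Ω) (hj : Function.Injective j) (b : Ω) {Q q : Polynomial R} (hQ : Q.Monic)
    (hQi : Irreducible Q) (hq : q.Monic) (hqi : Irreducible q) (hQb : Q.eval₂ j (b ^ 2) = 0)
    (hqb : q.eval₂ j b = 0) (M₁ M₂ : Type u) [Field M₁] [Field M₂]
    [Algebra R M₁] [Algebra (FractionRing R) M₁]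
    [IsScalarTower R (FractionRing R) M₁]
    [(Q.map (algebraMap R (FractionRing R))).IsSplittingField (FractionRing R) M₁]
    [Algebra R M₂] [Algebra (FractionRing R) M₂]
    [IsScalarTower R (FractionRing R) M₂]
    [(q.map (algebraMap R (FractionRing R))).IsSplittingField (FractionRing R) M₂] :
    Nonempty (M₁ →ₐ[R] M₂) := by
  set K := FractionRing R with hK
  let jK : K →+* Ω := IsLocalization.lift (M := nonZeroDivisors R) (g := j) (fun y => by
    rw [isUnit_iff_ne_zero]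
    exact fun h => nonZeroDivisors.coe_ne_zero y (hj (by rw [h, map_zero])))
  let _ : Algebra K Ω := jK.toAlgebra
  have hjK : ∀ r : R, algebraMap K Ω (algebraMap R K r) = j r := fun r =>
    IsLocalization.lift_eq _ r
  set f := Q.map (algebraMap R K) with hf
  set g := q.map (algebraMap R K) with hg
  have hfi : Irreducible f := (hQ.irreducible_iff_irreducible_map_fraction_map (K := K)).1 hQi
  have hgi : Irreducible g := (hq.irreducible_iff_irreducible_map_fraction_map (K := K)).1 hqi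
  have hfm : f.Monic := hQ.map _
  have hgm : g.Monic := hq.map _
  have e1 : ∀ (p : Polynomial R) (x : Ω), Polynomial.aeval x (p.map (algebraMap R K)) =
      p.eval₂ j x := fun p x => by
    rw [Polynomial.aeval_def, Polynomial.eval₂_map]
    congr 1
    exact RingHom.ext hjK
  have hfb : Polynomial.aeval (b ^ 2) f = 0 := by rw [hf, e1, hQb]
  have hgb : Polynomial.aeval b g = 0 := by rw [hg, e1, hqb]
  have hmin : g = minpoly K b := minpoly.eq_of_irreducible_of_monic hgi hgb hgm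
  have hdvd : g ∣ f.comp (Polynomial.X ^ 2) := by
    rw [hmin]
    apply minpoly.dvd
    rw [Polynomial.aeval_comp, map_pow, Polynomial.aeval_X, hfb]
  -- a root in `M₂`
  have hsplit : (g.map (algebraMap K M₂)).Splits := Polynomial.IsSplittingField.splits M₂ g
  have hdeg : (g.map (algebraMap K M₂)).degree ≠ 0 := by
    rw [Polynomial.degree_map]
    exact (Polynomial.degree_pos_of_irreducible hgi).ne'
  obtain ⟨β, hβ⟩ := hsplit.exists_eval_eq_zero hdeg
  have hβ' : Polynomial.aeval β g = 0 := by rwa [Polynomial.aeval_def, ← Polynomial.eval_map]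
  have hroot : Polynomial.aeval (β ^ 2) f = 0 := by
    obtain ⟨c, hc⟩ := hdvd
    have h := congrArg (Polynomial.aeval β) hc
    rw [Polynomial.aeval_comp, map_mul, hβ', zero_mul, map_pow, Polynomial.aeval_X] at h
    exact h
  have : Normal K M₂ := Normal.of_isSplittingField g
  have hfs : (f.map (algebraMap K M₂)).Splits := by
    have h := Normal.splits (inferInstance : Normal K M₂) (β ^ 2)
    have h2 : f = minpoly K (β ^ 2) := minpoly.eq_of_irreducible_of_monic hfi hroot hfm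
    rwa [← h2] at h
  let F : M₁ →ₐ[K] M₂ := Polynomial.IsSplittingField.lift M₁ f hfs
  exact ⟨F.restrictScalars R⟩

/-- **Main theorem, with the meeting property as hypothesis.** -/
theorem isAdjointVariety_of_meets (hX : IsContactFano 𝒜 P) [IsDomain R]
    (hdim : 4 ≤ cdim R) (hc : IsConicConnected 𝒜)
    (hmeet : MeetsAll 𝒜 1 ∨ NoLines 𝒜 ∧ MeetsAll 𝒜 2) :
    IsAdjointVariety 𝒜 P := by
  classical
  have : IsIntegrallyClosed R := hX.normal
  obtain ⟨F, hF, hconic⟩ := hc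
  obtain ⟨g₁, hg₁, hg₁'⟩ := exists_evLeft_ne_zero F hF
  -- generic conics
  have hgen : ∀ w : R →ₐ[ℂ] ℂ, w g₁ ≠ 0 → ∃ (Ω : Type u) (_ : Field Ω) (_ : IsAlgClosed Ω)
      (_ : Algebra ℂ Ω) (φ : R →ₐ[ℂ] MvPolynomial (Fin 2) Ω), GenConicAt 𝒜 w φ := by
    intro w hw
    refine exists_genConicAt hX w (evLeft F w) (hg₁' w hw) fun q hq => hconic w q ?_
    rwa [← apply_evLeft]
  rcases hmeet with hm | ⟨⟨g₂, hg₂, hno⟩, hm⟩
  · -- lines
    obtain ⟨w₀, hw₀⟩ := exists_closed_ne hX g₁ hg₁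
    obtain ⟨Ω, _, _, _, φ, hφ⟩ := hgen w₀ hw₀
    obtain ⟨b, hb⟩ := exists_b hX hφ.curve
    obtain ⟨Q, hQ, hroot⟩ := exists_isGood_one hX hφ hb
    refine isAdjointVariety_of_genConic hX hφ hb hQ hroot fun M _ _ _ _ _ => ?_
    exact isUnram_of_curves hX one_pos hQ fun 𝔭 _ hdvr hh =>
      hm Q.discr (discr_ne_zero_of_irreducible hQ.monic hQ.irr) 𝔭 hdvr hh
  · -- no lines
    obtain ⟨w₀, hw₀⟩ := exists_closed_ne hX (g₁ * g₂) (mul_ne_zero hg₁ hg₂)
    rw [map_mul] at hw₀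
    have hw₁ : w₀ g₁ ≠ 0 := left_ne_zero_of_mul hw₀
    have hw₂ : w₀ g₂ ≠ 0 := right_ne_zero_of_mul hw₀
    obtain ⟨Ω, _, _, _, φ, hφ⟩ := hgen w₀ hw₁
    obtain ⟨b, hb⟩ := exists_b hX hφ.curve
    obtain ⟨Q, hQ, hroot⟩ := exists_isGood_one hX hφ hb
    obtain ⟨q, hq, hroot2⟩ := exists_isGood_two hX hdim hφ hb (hno w₀ hw₂)
    refine isAdjointVariety_of_genConic hX hφ hb hQ hroot fun M _ _ _ _ _ => ?_
    let g := q.map (algebraMap R (FractionRing R))
    let M₂ := g.SplittingField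
    have hU : IsUnram R M₂ := isUnram_of_curves hX two_pos hq fun 𝔭 _ hdvr hh =>
      hm q.discr (discr_ne_zero_of_irreducible hq.monic hq.irr) 𝔭 hdvr hh
    obtain ⟨f⟩ := exists_algHom_splitting (pt φ ![0, 1] : R →+* Ω) hφ.inj b hQ.monic hQ.irr
      hq.monic hq.irr hroot hroot2 M M₂
    exact hU.of_algHom f

/-- If every curve meets every homogeneous divisor then the meeting property holds. -/
theorem meets_of_forall (hX : IsContactFano 𝒜 P) [IsDomain R] (hc : IsConicConnected 𝒜)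
    (hM : ∀ (d : ℕ), 0 < d → ∀ φ : R →ₐ[ℂ] MvPolynomial (Fin 2) ℂ, IsCurve 𝒜 d φ →
      ∀ (𝔭 : Ideal R) [𝔭.IsPrime], IsDiscreteValuationRing (Localization.AtPrime 𝔭) →
      𝔭.IsHomogeneous 𝒜 → Meets φ 𝔭) :
    MeetsAll 𝒜 1 ∨ NoLines 𝒜 ∧ MeetsAll 𝒜 2 := by
  classical
  by_cases hno : NoLines 𝒜
  · refine Or.inr ⟨hno, fun D hD 𝔭 _ hdvr hh => ?_⟩
    obtain ⟨F, hF, hconic⟩ := hc
    obtain ⟨g₁, hg₁, hg₁'⟩ := exists_evLeft_ne_zero F hF
    obtain ⟨w₁, hw₁⟩ := exists_closed_ne hX (g₁ * D) (mul_ne_zero hg₁ hD)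
    rw [map_mul] at hw₁
    obtain ⟨w₂, hw₂⟩ := exists_closed_ne hX (evLeft F w₁) (hg₁' w₁ (left_ne_zero_of_mul hw₁))
    obtain ⟨ψ, hψ, hψ1, -⟩ := hconic w₁ w₂ (by rwa [← apply_evLeft])
    refine ⟨ψ, hψ, fun h0 => right_ne_zero_of_mul hw₁ ?_, hM 2 two_pos ψ hψ 𝔭 hdvr hh⟩
    rw [← hψ1, pt_apply, h0, map_zero]
  · refine Or.inl fun D hD 𝔭 _ hdvr hh => ?_
    rw [NoLines] at hno
    push Not at hno
    obtain ⟨w, hw, ψ, hψ, hψ1⟩ := hno D hD
    refine ⟨ψ, hψ, fun h0 => hw ?_, hM 1 one_pos ψ hψ 𝔭 hdvr hh⟩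
    rw [← hψ1, pt_apply, h0, map_zero]

/-- **Main theorem**, factorial case. -/
theorem isAdjointVariety_of_conicConnected (hX : IsContactFano 𝒜 P) [IsDomain R]
    [UniqueFactorizationMonoid R] (hdim : 4 ≤ cdim R) (hc : IsConicConnected 𝒜) :
    IsAdjointVariety 𝒜 P :=
  isAdjointVariety_of_meets hX hdim hc (meets_of_forall hX hc
    fun _ hd _ hφ 𝔭 _ hdvr hh => meets_of_ufd hX hd hφ 𝔭 hdvr hh)

end

end Vale.Agent.P292
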