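import Vale.Agent.P292.K.N2Defs

/-! # Block N2b: the conic of a node has no base point over the algebraic closure. -/

namespace Vale.Agent.P292

open MvPolynomial

universe u v w

section gen

/-- The value of a form in two variables. -/
theorem n2b_eval₂ {A Ω : Type*} [CommRing A] [CommRing Ω] (f : A →+* Ω)
    {P : MvPolynomial (Fin 2) A} {N : ℕ} (hP : P.IsHomogeneous N) (x : Fin 2 → Ω) :
    eval₂ f x P = ∑ i ∈ Finset.range (N + 1),
      f (coeff (Finsupp.single 0 i + Finsupp.single 1 (N - i)) P) * (x 0 ^ i * x 1 ^ (N - i)) := by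
  classical
  let e : ℕ → (Fin 2 →₀ ℕ) := fun i => Finsupp.single 0 i + Finsupp.single 1 (N - i)
  have he0 : ∀ i, e i 0 = i := fun i => by simp [e]
  have he1 : ∀ i, e i 1 = N - i := fun i => by simp [e]
  have hinj : Set.InjOn e (Finset.range (N + 1) : Set ℕ) := fun i _ j _ h => by
    rw [← he0 i, h, he0]
  have hsub : P.support ⊆ (Finset.range (N + 1)).image e := by
    intro m hm
    have h1 : m 0 + m 1 = N := by
      have := hP (mem_support_iff.1 hm)
      rw [Finsupp.weight_apply, Finsupp.sum_fintype _ _ (fun _ => by simp)] at this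
      simpa [Fin.sum_univ_two] using this
    rw [Finset.mem_image]
    refine ⟨m 0, Finset.mem_range.2 (by omega), ?_⟩
    ext i
    fin_cases i
    · exact he0 _
    · change e (m 0) 1 = m 1
      rw [he1]
      omega
  rw [eval₂_eq', Finset.sum_subset hsub, Finset.sum_image hinj]
  · refine Finset.sum_congr rfl fun i _ => ?_
    rw [Fin.prod_univ_two, he0, he1]
  · intro m _ hm
    rw [notMem_support_iff.1 hm, map_zero, zero_mul]

variable {R : Type u} [CommRing R] [Algebra ℂ R] {𝒜 : ℕ → Submodule ℂ R}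

/-- No base point over the residue field. -/
theorem n2b_bpf {K : Type v} [Field K] [IsAlgClosed K] [Algebra ℂ K] {d : ℕ}
    {ψ : R →ₐ[ℂ] MvPolynomial (Fin 2) K} (hψ : IsCurve 𝒜 d ψ) {Ω : Type w} [Field Ω]
    (O : ValuationSubring Ω) (j : K →+* Ω) (hj : ∀ a, j a ∈ O) (y : Fin 2 → Ω)
    (hy : ∀ i, y i ∈ O) (i : Fin 2) (hyi : y i = 1) :
    ∃ k, 0 < k ∧ ∃ r ∈ 𝒜 k, ¬ O.valuation (eval₂ j y (ψ r)) < 1 := by
  classical
  by_contra hcon
  push Not at hcon
  let T : Set (MvPolynomial (Fin 2) K) := {p | ∃ k, 0 < k ∧ ∃ r ∈ 𝒜 k, p = ψ r}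
  have hrad : (X i : MvPolynomial (Fin 2) K) ∈ (Ideal.span T).radical := by
    rw [← vanishingIdeal_zeroLocus_eq_radical (K := K)]
    intro x hx
    rw [aeval_X]
    by_contra hxi
    obtain ⟨k, hk0, r, hr, hne⟩ := hψ.bpf x (fun h0 => hxi (by rw [h0]; rfl))
    exact hne (hx _ (Ideal.subset_span ⟨k, hk0, r, hr, rfl⟩))
  obtain ⟨M, hM⟩ := hrad
  have hO : ∀ p : MvPolynomial (Fin 2) K, O.valuation (eval₂ j y p) ≤ 1 := by
    intro p
    rw [O.valuation_le_one_iff, eval₂_eq']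
    exact sum_mem fun m _ => mul_mem (hj _) (prod_mem fun l _ => pow_mem (hy l) _)
  have hlt : ∀ p ∈ Ideal.span T, O.valuation (eval₂ j y p) < 1 := by
    intro p hp
    induction hp using Submodule.span_induction with
    | mem p hp =>
      obtain ⟨k, hk0, r, hr, rfl⟩ := hp
      exact hcon k hk0 r hr
    | zero => rw [eval₂_zero, map_zero]; exact zero_lt_one
    | add p p' _ _ h h' =>
      rw [eval₂_add]
      exact O.valuation.map_add_lt h h'
    | smul a p _ h =>
      rw [smul_eq_mul, eval₂_mul, map_mul]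
      exact lt_of_le_of_lt (mul_le_mul_left (hO a) _) (by rwa [one_mul])
  have h1 := hlt _ hM
  rw [eval₂_pow, eval₂_X, hyi, one_pow, map_one] at h1
  exact lt_irrefl _ h1

/-- a power series is its constant coefficient modulo the maximal ideal -/
theorem n2b_sub {K : Type v} [Field K] {Ω : Type w} [Field Ω] (O : ValuationSubring Ω)
    (ι : PowerSeries K →+* Ω) (hO : ∀ a, ι a ∈ O) (hq : O.valuation (ι PowerSeries.X) < 1)
    (f : PowerSeries K) :
    O.valuation (ι f - ι (PowerSeries.C (PowerSeries.constantCoeff f))) < 1 := by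
  have h1 : PowerSeries.X ∣ f - PowerSeries.C (PowerSeries.constantCoeff f) := by
    rw [PowerSeries.X_dvd_iff, map_sub, PowerSeries.constantCoeff_C, sub_self]
  obtain ⟨g, hg⟩ := h1
  rw [← map_sub, hg, map_mul, map_mul]
  exact lt_of_le_of_lt (mul_le_mul_right ((O.valuation_le_one_iff _).2 (hO g)) _)
    (by rwa [mul_one])

/-- One half of the proof: the parameter `z` is in the maximal ideal. -/
theorem n2b_half {K : Type v} [Field K] [IsAlgClosed K] [Algebra ℂ K]
    {ψ : R →ₐ[ℂ] MvPolynomial (Fin 2) K} (hψ : IsCurve 𝒜 1 ψ) {Ω : Type w} [Field Ω]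
    (O : ValuationSubring Ω) (ι : PowerSeries K →+* Ω) (hO : ∀ a, ι a ∈ O)
    (hq : O.valuation (ι PowerSeries.X) < 1) (x z : Ω) (hz : O.valuation z < 1) :
    ∃ k, 0 < k ∧ ∃ r ∈ 𝒜 k, ∀ c d : ℕ → PowerSeries K,
      (∀ j ≤ k, PowerSeries.constantCoeff (c j) =
        coeff (Finsupp.single 0 (k - j) + Finsupp.single 1 j) (ψ r)) →
      ∑ j ∈ Finset.range (k + 1), ι (c j) * x ^ j +
        ∑ j ∈ Finset.Icc 1 k, ι (d j) * z ^ j ≠ 0 := by
  -- normalised coordinates
  obtain ⟨y, i, hy, hyi, hxy⟩ : ∃ (y : Fin 2 → Ω) (i : Fin 2), (∀ l, y l ∈ O) ∧ y i = 1 ∧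
      y 1 = y 0 * x := by
    by_cases hx : x ∈ O
    · refine ⟨![1, x], 0, fun l => ?_, rfl, ?_⟩
      · fin_cases l
        · exact O.one_mem
        · exact hx
      · exact (one_mul x).symm
    · have hx0 : x ≠ 0 := fun h => hx (by rw [h]; exact O.zero_mem)
      have hxi : x⁻¹ ∈ O := (O.mem_or_inv_mem x).resolve_left hx
      refine ⟨![x⁻¹, 1], 1, fun l => ?_, rfl, ?_⟩
      · fin_cases l
        · exact hxi
        · exact O.one_mem
      · exact (inv_mul_cancel₀ hx0).symm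
  obtain ⟨k, hk, r, hr, hv⟩ := n2b_bpf hψ O (ι.comp PowerSeries.C) (fun a => hO _) y hy i hyi
  refine ⟨k, hk, r, hr, fun c d hc h0 => hv ?_⟩
  have hhom : (ψ r).IsHomogeneous k := by
    have := hψ.degree k r hr
    rwa [one_mul] at this
  have hval : ∀ m : ℕ, O.valuation (y 0 ^ m) ≤ 1 := fun m =>
    (O.valuation_le_one_iff _).2 (pow_mem (hy 0) m)
  have hval1 : ∀ m : ℕ, O.valuation (y 1 ^ m) ≤ 1 := fun m =>
    (O.valuation_le_one_iff _).2 (pow_mem (hy 1) m)
  -- the value at `y` is a sum over `j`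
  have e1 : eval₂ (ι.comp PowerSeries.C) y (ψ r) = ∑ j ∈ Finset.range (k + 1),
      ι (PowerSeries.C (PowerSeries.constantCoeff (c j))) * (y 0 ^ (k - j) * y 1 ^ j) := by
    rw [n2b_eval₂ _ hhom, ← Finset.sum_range_reflect]
    refine Finset.sum_congr rfl fun j hj => ?_
    have hj' : j ≤ k := by
      have := Finset.mem_range.1 hj
      omega
    have h2 : k + 1 - 1 - j = k - j := by omega
    have h3 : k - (k - j) = j := by omega
    rw [h2, h3, hc j hj']
    rfl
  have e2 : eval₂ (ι.comp PowerSeries.C) y (ψ r) =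
      (∑ j ∈ Finset.range (k + 1), (ι (PowerSeries.C (PowerSeries.constantCoeff (c j))) -
        ι (c j)) * (y 0 ^ (k - j) * y 1 ^ j)) - ∑ j ∈ Finset.Icc 1 k, y 0 ^ k * (ι (d j) * z ^ j) := by
    have e3 : ∑ j ∈ Finset.range (k + 1), ι (c j) * (y 0 ^ (k - j) * y 1 ^ j) =
        - ∑ j ∈ Finset.Icc 1 k, y 0 ^ k * (ι (d j) * z ^ j) := by
      rw [← Finset.mul_sum, eq_neg_iff_add_eq_zero]
      have e4 : ∑ j ∈ Finset.range (k + 1), ι (c j) * (y 0 ^ (k - j) * y 1 ^ j) =
          y 0 ^ k * ∑ j ∈ Finset.range (k + 1), ι (c j) * x ^ j := by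
        rw [Finset.mul_sum]
        refine Finset.sum_congr rfl fun j hj => ?_
        have hj' : k = (k - j) + j := by
          have := Finset.mem_range.1 hj
          omega
        have e5 : y 0 ^ k = y 0 ^ (k - j) * y 0 ^ j := by rw [← pow_add, ← hj']
        rw [hxy, mul_pow, e5]
        ring
      rw [e4, ← mul_add, h0, mul_zero]
    rw [e1, sub_eq_add_neg, ← e3, ← Finset.sum_add_distrib]
    refine Finset.sum_congr rfl fun j _ => ?_
    ring
  rw [e2]
  refine O.valuation.map_sub_lt ?_ ?_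
  · refine Valuation.map_sum_lt _ one_ne_zero fun j _ => ?_
    rw [map_mul]
    have h1 := n2b_sub O ι hO hq (c j)
    rw [Valuation.map_sub_swap] at h1
    have h2 : O.valuation (y 0 ^ (k - j) * y 1 ^ j) ≤ 1 := by
      rw [map_mul]
      exact mul_le_one' (hval _) (hval1 _)
    exact lt_of_le_of_lt (mul_le_mul_right h2 _) (by rwa [mul_one])
  · refine Valuation.map_sum_lt _ one_ne_zero fun j hj => ?_
    have hj1 : j ≠ 0 := by
      have := (Finset.mem_Icc.1 hj).1
      omega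
    have h3 : O.valuation (z ^ j) < 1 := by
      rw [map_pow]
      exact pow_lt_one₀ zero_le hz hj1
    have h4 : O.valuation (y 0 ^ k * ι (d j)) ≤ 1 := by
      rw [map_mul]
      exact mul_le_one' (hval _) ((O.valuation_le_one_iff _).2 (hO _))
    rw [← mul_assoc, map_mul]
    exact lt_of_le_of_lt (mul_le_mul_left h4 _) (by rwa [one_mul])

theorem n2b_range {M : Type*} [AddCommMonoid M] (k : ℕ) (f : ℕ → M) :
    ∑ j ∈ Finset.range (k + 1), f j = f 0 + ∑ j ∈ Finset.Icc 1 k, f j := by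
  have h : Finset.Icc 1 k = Finset.Ico (0 + 1) (k + 1) := by
    ext j
    rw [Finset.mem_Icc, Finset.mem_Ico]
    omega
  rw [Finset.range_eq_Ico, Finset.sum_eq_sum_Ico_succ_bot (Nat.succ_pos k), h]

theorem n2b_split {M : Type*} [AddCommMonoid M] (k : ℕ) (f : ℕ → M) :
    ∑ i ∈ Finset.range (2 * k + 1), f i = f k + ∑ j ∈ Finset.Icc 1 k, (f (k + j) + f (k - j)) := by
  have h1 : 2 * k + 1 = k + (k + 1) := by omega
  rw [h1, Finset.sum_range_add, n2b_range k fun j => f (k + j), add_zero, Finset.sum_add_distrib]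
  have h2 : ∑ i ∈ Finset.range k, f i = ∑ j ∈ Finset.Icc 1 k, f (k - j) := by
    refine Finset.sum_bij' (fun i _ => k - i) (fun j _ => k - j) ?_ ?_ ?_ ?_ ?_
    · intro i hi
      rw [Finset.mem_range] at hi
      rw [Finset.mem_Icc]
      omega
    · intro j hj
      rw [Finset.mem_Icc] at hj
      rw [Finset.mem_range]
      omega
    · intro i hi
      rw [Finset.mem_range] at hi
      omega
    · intro j hj
      rw [Finset.mem_Icc] at hj
      omega
    · intro i hi
      rw [Finset.mem_range] at hi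
      congr 1
      omega
  rw [h2, add_comm, add_assoc]

/-- The family has no base point over the big field. -/
theorem n2b_main {K : Type v} [Field K] [IsAlgClosed K] [Algebra ℂ K]
    {ψ₁ ψ₂ : R →ₐ[ℂ] MvPolynomial (Fin 2) K} (h₁ : IsCurve 𝒜 1 ψ₁) (h₂ : IsCurve 𝒜 1 ψ₂)
    {Ω : Type w} [Field Ω] (ι : PowerSeries K →+* Ω) (hι : Function.Injective ι)
    (O : ValuationSubring Ω) (hO : ∀ a, ι a ∈ O) (hq : O.valuation (ι PowerSeries.X) < 1)
    (φ : R → MvPolynomial (Fin 2) (PowerSeries K))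
    (hdeg : ∀ k, ∀ r ∈ 𝒜 k, (φ r).IsHomogeneous (2 * k))
    (hdec : ∀ k, ∀ r ∈ 𝒜 k, ∃ c d : ℕ → PowerSeries K, c 0 = d 0 ∧
      (∀ j ≤ k, PowerSeries.constantCoeff (c j) =
        coeff (Finsupp.single 0 (k - j) + Finsupp.single 1 j) (ψ₁ r)) ∧
      (∀ j ≤ k, PowerSeries.constantCoeff (d j) =
        coeff (Finsupp.single 0 (k - j) + Finsupp.single 1 j) (ψ₂ r)) ∧
      (∀ j ≤ k, coeff (Finsupp.single 0 (k + j) + Finsupp.single 1 (k - j)) (φ r) =
        PowerSeries.X ^ j * c j) ∧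
      ∀ j ≤ k, coeff (Finsupp.single 0 (k - j) + Finsupp.single 1 (k + j)) (φ r) =
        PowerSeries.X ^ j * d j)
    (x : Fin 2 → Ω) (hx : x ≠ 0) : ∃ k, 0 < k ∧ ∃ r ∈ 𝒜 k, eval₂ ι x (φ r) ≠ 0 := by
  have hq0 : ι PowerSeries.X ≠ 0 := fun h =>
    PowerSeries.X_ne_zero (hι (by rw [h, map_zero]))
  -- the ends
  have hend : ∀ {ψ : R →ₐ[ℂ] MvPolynomial (Fin 2) K}, IsCurve 𝒜 1 ψ → ∃ k, 0 < k ∧ ∃ r ∈ 𝒜 k,
      coeff (Finsupp.single 0 0 + Finsupp.single 1 k) (ψ r) ≠ 0 := by
    intro ψ hψ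
    obtain ⟨k, hk, r, hr, hne⟩ := hψ.bpf ![0, 1] (fun h => one_ne_zero (congrFun h 1))
    refine ⟨k, hk, r, hr, fun h0 => hne ?_⟩
    have hhom : (ψ r).IsHomogeneous k := by
      have := hψ.degree k r hr
      rwa [one_mul] at this
    change eval₂ _ _ _ = _
    rw [n2b_eval₂ _ hhom, Finset.sum_eq_single 0]
    · rw [Nat.sub_zero, h0, map_zero, zero_mul]
    · intro i _ hi
      change _ * ((0 : K) ^ i * _) = 0
      rw [zero_pow hi, zero_mul, mul_zero]
    · intro h
      exact absurd (Finset.mem_range.2 (Nat.succ_pos _)) h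
  have hne : ∀ {c : PowerSeries K} (k : ℕ), PowerSeries.constantCoeff c ≠ 0 →
      ι (PowerSeries.X ^ k * c) ≠ 0 := by
    intro c k hc
    rw [map_mul, map_pow]
    refine mul_ne_zero (pow_ne_zero _ hq0) fun h => hc ?_
    have : c = 0 := hι (by rw [h, map_zero])
    rw [this, map_zero]
  by_cases hx1 : x 1 = 0
  · have hx0 : x 0 ≠ 0 := fun h => hx (by
      funext i
      fin_cases i
      · exact h
      · exact hx1)
    obtain ⟨k, hk, r, hr, hc⟩ := hend h₁
    refine ⟨k, hk, r, hr, ?_⟩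
    obtain ⟨c, d, -, hc1, -, hc3, -⟩ := hdec k r hr
    rw [n2b_eval₂ _ (hdeg k r hr), Finset.sum_eq_single (2 * k)]
    · have h1 := hc3 k le_rfl
      have h2 := hc1 k le_rfl
      rw [Nat.sub_self, ← two_mul] at h1
      rw [Nat.sub_self] at h2
      rw [Nat.sub_self, h1, pow_zero, mul_one]
      refine mul_ne_zero (hne k ?_) (pow_ne_zero _ hx0)
      rwa [h2]
    · intro i hi hi2
      have h3 : 2 * k - i ≠ 0 := by
        have := Finset.mem_range.1 hi
        omega
      rw [hx1, zero_pow h3, mul_zero, mul_zero]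
    · intro h
      exact absurd (Finset.mem_range.2 (Nat.lt_succ_self _)) h
  by_cases hx0 : x 0 = 0
  · obtain ⟨k, hk, r, hr, hc⟩ := hend h₂
    refine ⟨k, hk, r, hr, ?_⟩
    obtain ⟨c, d, -, -, hc2, -, hc4⟩ := hdec k r hr
    rw [n2b_eval₂ _ (hdeg k r hr), Finset.sum_eq_single 0]
    · have h1 := hc4 k le_rfl
      have h2 := hc2 k le_rfl
      rw [Nat.sub_self, ← two_mul] at h1
      rw [Nat.sub_self] at h2
      rw [Nat.sub_zero, h1, pow_zero, one_mul]
      refine mul_ne_zero (hne k ?_) (pow_ne_zero _ hx1)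
      rwa [h2]
    · intro i _ hi
      rw [hx0, zero_pow hi, zero_mul, mul_zero]
    · intro h
      exact absurd (Finset.mem_range.2 (Nat.succ_pos _)) h
  -- both coordinates are different from zero
  obtain ⟨X, hX⟩ : ∃ X, X = ι PowerSeries.X * (x 0 / x 1) := ⟨_, rfl⟩
  obtain ⟨Z, hZ⟩ : ∃ Z, Z = ι PowerSeries.X * (x 1 / x 0) := ⟨_, rfl⟩
  have hXZ : X * Z = ι PowerSeries.X * ι PowerSeries.X := by
    rw [hX, hZ]
    field_simp
  have hval : ∀ k, ∀ r ∈ 𝒜 k, ∀ c d : ℕ → PowerSeries K, c 0 = d 0 →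
      (∀ j ≤ k, coeff (Finsupp.single 0 (k + j) + Finsupp.single 1 (k - j)) (φ r) =
        PowerSeries.X ^ j * c j) →
      (∀ j ≤ k, coeff (Finsupp.single 0 (k - j) + Finsupp.single 1 (k + j)) (φ r) =
        PowerSeries.X ^ j * d j) →
      eval₂ ι x (φ r) = (x 0 * x 1) ^ k *
        (ι (c 0) + ∑ j ∈ Finset.Icc 1 k, (ι (c j) * X ^ j + ι (d j) * Z ^ j)) := by
    intro k r hr c d hcd h3 h4
    rw [n2b_eval₂ _ (hdeg k r hr), n2b_split, mul_add, Finset.mul_sum]
    congr 1
    · have h5 : 2 * k - k = k := by omega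
      have h6 := h3 0 (Nat.zero_le _)
      rw [Nat.sub_zero, pow_zero, one_mul, add_zero] at h6
      rw [h5, h6, mul_pow]
      ring
    · refine Finset.sum_congr rfl fun j hj => ?_
      have hj' := (Finset.mem_Icc.1 hj).2
      have h5 : 2 * k - (k + j) = k - j := by omega
      have h6 : 2 * k - (k - j) = k + j := by omega
      have e0 : x 0 ^ k = x 0 ^ (k - j) * x 0 ^ j := by
        rw [← pow_add]
        congr 1
        omega
      have e1 : x 1 ^ k = x 1 ^ (k - j) * x 1 ^ j := by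
        rw [← pow_add]
        congr 1
        omega
      rw [h5, h6, h3 j hj', h4 j hj', mul_add, map_mul, map_mul, map_pow, hX, hZ, mul_pow, mul_pow,
        mul_pow, div_pow, div_pow]
      congr 1
      · rw [pow_add, e1]
        field_simp
      · rw [pow_add, e0]
        field_simp
  have hlt : O.valuation Z < 1 ∨ O.valuation X < 1 := by
    by_contra hcon
    push Not at hcon
    have h1 : (1 : O.ValueGroup) ≤ O.valuation (X * Z) := by
      rw [map_mul]
      exact one_le_mul_of_one_le_of_one_le hcon.2 hcon.1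
    rw [hXZ, map_mul] at h1
    exact absurd h1 (not_le.2 (mul_lt_one_of_lt_of_le hq hq.le))
  rcases hlt with hlt | hlt
  · obtain ⟨k, hk, r, hr, h⟩ := n2b_half h₁ O ι hO hq X Z hlt
    refine ⟨k, hk, r, hr, ?_⟩
    obtain ⟨c, d, hcd, h1, h2, h3, h4⟩ := hdec k r hr
    rw [hval k r hr c d hcd h3 h4]
    refine mul_ne_zero (pow_ne_zero _ (mul_ne_zero hx0 hx1)) ?_
    have h5 := h c d h1
    rw [n2b_range, pow_zero, mul_one, add_assoc, ← Finset.sum_add_distrib] at h5
    exact h5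
  · obtain ⟨k, hk, r, hr, h⟩ := n2b_half h₂ O ι hO hq Z X hlt
    refine ⟨k, hk, r, hr, ?_⟩
    obtain ⟨c, d, hcd, h1, h2, h3, h4⟩ := hdec k r hr
    rw [hval k r hr c d hcd h3 h4]
    refine mul_ne_zero (pow_ne_zero _ (mul_ne_zero hx0 hx1)) ?_
    have h5 := h d c h2
    rw [n2b_range, pow_zero, mul_one, add_assoc, ← Finset.sum_add_distrib] at h5
    rw [hcd]
    intro h6
    apply h5
    rw [← h6]
    congr 1
    refine Finset.sum_congr rfl fun j _ => ?_
    rw [add_comm]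

/-- The decomposition of the conic of a node. -/
theorem n2b_dec {K : Type v} [Field K] [Algebra ℂ K]
    {ψ₁ ψ₂ : R →ₐ[ℂ] MvPolynomial (Fin 2) K} {Φ : R →ₐ[ℂ] MvPowerSeries (Fin 2) K}
    {φA : R →ₐ[ℂ] MvPolynomial (Fin 2) (PowerSeries K)} (hN : IsNode 𝒜 ψ₁ ψ₂ Φ)
    (hC : IsNodeConic 𝒜 Φ φA) (k : ℕ) (r : R) (hr : r ∈ 𝒜 k) :
    ∃ c d : ℕ → PowerSeries K, c 0 = d 0 ∧
      (∀ j ≤ k, PowerSeries.constantCoeff (c j) =
        coeff (Finsupp.single 0 (k - j) + Finsupp.single 1 j) (ψ₁ r)) ∧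
      (∀ j ≤ k, PowerSeries.constantCoeff (d j) =
        coeff (Finsupp.single 0 (k - j) + Finsupp.single 1 j) (ψ₂ r)) ∧
      (∀ j ≤ k, coeff (Finsupp.single 0 (k + j) + Finsupp.single 1 (k - j)) (φA r) =
        PowerSeries.X ^ j * c j) ∧
      ∀ j ≤ k, coeff (Finsupp.single 0 (k - j) + Finsupp.single 1 (k + j)) (φA r) =
        PowerSeries.X ^ j * d j := by
  have hc : ∀ j, ∃ c : PowerSeries K, j ≤ k →
      coeff (Finsupp.single 0 (k + j) + Finsupp.single 1 (k - j)) (φA r) =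
        PowerSeries.X ^ j * c := by
    intro j
    by_cases hj : j ≤ k
    · have h1 : PowerSeries.X ^ j ∣
          coeff (Finsupp.single 0 (k + j) + Finsupp.single 1 (k - j)) (φA r) := by
        rw [PowerSeries.X_pow_dvd_iff]
        intro n hn
        rw [hC.coef k r hr _ _ n (by omega)]
        refine Finset.sum_eq_zero fun p hp => ?_
        rw [Finset.HasAntidiagonal.mem_antidiagonal] at hp
        rw [if_neg (by omega)]
      obtain ⟨c, hc⟩ := h1
      exact ⟨c, fun _ => hc⟩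
    · exact ⟨0, fun h => absurd h hj⟩
  have hd : ∀ j, ∃ d : PowerSeries K, j ≤ k →
      coeff (Finsupp.single 0 (k - j) + Finsupp.single 1 (k + j)) (φA r) =
        PowerSeries.X ^ j * d := by
    intro j
    by_cases hj : j ≤ k
    · have h1 : PowerSeries.X ^ j ∣
          coeff (Finsupp.single 0 (k - j) + Finsupp.single 1 (k + j)) (φA r) := by
        rw [PowerSeries.X_pow_dvd_iff]
        intro n hn
        rw [hC.coef k r hr _ _ n (by omega)]
        refine Finset.sum_eq_zero fun p hp => ?_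
        rw [Finset.HasAntidiagonal.mem_antidiagonal] at hp
        rw [if_neg (by omega)]
      obtain ⟨c, hc⟩ := h1
      exact ⟨c, fun _ => hc⟩
    · exact ⟨0, fun h => absurd h hj⟩
  choose c hc using hc
  choose d hd using hd
  refine ⟨c, d, ?_, fun j hj => ?_, fun j hj => ?_, hc, hd⟩
  · have h1 := hc 0 (Nat.zero_le _)
    have h2 := hd 0 (Nat.zero_le _)
    rw [Nat.sub_zero, add_zero, pow_zero, one_mul] at h1 h2
    rw [← h1, h2]
  · have h1 := congrArg (PowerSeries.coeff j) (hc j hj)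
    rw [PowerSeries.coeff_X_pow_mul', if_pos le_rfl, Nat.sub_self,
      PowerSeries.coeff_zero_eq_constantCoeff_apply, hC.coef k r hr _ _ j (by omega),
      Finset.sum_eq_single (j, 0)] at h1
    · rw [← h1, if_pos (by omega), Finsupp.single_zero, add_zero]
      exact hN.ax1 k r hr (k - j) j (by omega)
    · intro p hp hne
      rw [Finset.HasAntidiagonal.mem_antidiagonal] at hp
      rw [if_neg]
      intro h
      exact hne (Prod.ext (by omega) (by omega))
    · intro h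
      exact absurd (Finset.HasAntidiagonal.mem_antidiagonal.2 (add_zero j)) h
  · have h1 := congrArg (PowerSeries.coeff j) (hd j hj)
    rw [PowerSeries.coeff_X_pow_mul', if_pos le_rfl, Nat.sub_self,
      PowerSeries.coeff_zero_eq_constantCoeff_apply, hC.coef k r hr _ _ j (by omega),
      Finset.sum_eq_single (0, j)] at h1
    · rw [← h1, if_pos (by omega), Finsupp.single_zero, zero_add]
      exact hN.ax2 k r hr (k - j) j (by omega)
    · intro p hp hne
      rw [Finset.HasAntidiagonal.mem_antidiagonal] at hp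
      rw [if_neg]
      intro h
      exact hne (Prod.ext (by omega) (by omega))
    · intro h
      exact absurd (Finset.HasAntidiagonal.mem_antidiagonal.2 (zero_add j)) h

/-- **N2b.** The conic of a node is a curve over every field containing `K⟦q⟧` with a valuation
ring dominating it. -/
theorem n2_isCurve_of_val {K : Type v} [Field K] [IsAlgClosed K] [Algebra ℂ K]
    {ψ₁ ψ₂ : R →ₐ[ℂ] MvPolynomial (Fin 2) K} (h₁ : IsCurve 𝒜 1 ψ₁) (h₂ : IsCurve 𝒜 1 ψ₂)
    {Φ : R →ₐ[ℂ] MvPowerSeries (Fin 2) K} (hN : IsNode 𝒜 ψ₁ ψ₂ Φ)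
    {φA : R →ₐ[ℂ] MvPolynomial (Fin 2) (PowerSeries K)} (hC : IsNodeConic 𝒜 Φ φA)
    {Ω : Type w} [Field Ω] [Algebra ℂ Ω] (ι : PowerSeries K →ₐ[ℂ] Ω)
    (hι : Function.Injective ι) (O : ValuationSubring Ω) (hO : ∀ a, ι a ∈ O)
    (hq : O.valuation (ι PowerSeries.X) < 1) : IsCurve 𝒜 2 ((mapAlgHom ι).comp φA) := by
  refine ⟨fun k r hr => (hC.degree k r hr).map _, fun x hx => ?_⟩
  obtain ⟨k, hk, r, hr, h⟩ := n2b_main h₁ h₂ (ι : PowerSeries K →+* Ω) hι O hO hq φA hC.degree
    (n2b_dec hN hC) x hx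
  refine ⟨k, hk, r, hr, ?_⟩
  rw [aeval_eq_eval]
  change eval x (map (ι : PowerSeries K →+* Ω) (φA r)) ≠ 0
  rwa [eval_map]

/-- **N2b.** The conic of a node is a curve over every field containing `K⟦q⟧`. -/
theorem n2_isCurve {K : Type v} [Field K] [IsAlgClosed K] [Algebra ℂ K]
    {ψ₁ ψ₂ : R →ₐ[ℂ] MvPolynomial (Fin 2) K} (h₁ : IsCurve 𝒜 1 ψ₁) (h₂ : IsCurve 𝒜 1 ψ₂)
    {Φ : R →ₐ[ℂ] MvPowerSeries (Fin 2) K} (hN : IsNode 𝒜 ψ₁ ψ₂ Φ)
    {φA : R →ₐ[ℂ] MvPolynomial (Fin 2) (PowerSeries K)} (hC : IsNodeConic 𝒜 Φ φA)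
    {Ω : Type w} [Field Ω] [Algebra ℂ Ω] (ι : PowerSeries K →ₐ[ℂ] Ω)
    (hι : Function.Injective ι) : IsCurve 𝒜 2 ((mapAlgHom ι).comp φA) := by
  have hprime : (Ideal.span {(PowerSeries.X : PowerSeries K)}).IsPrime :=
    PowerSeries.span_X_isPrime
  obtain ⟨O, hO⟩ := exists_valuationSubring_prime (ι : PowerSeries K →+* Ω) hι
    (Ideal.span {(PowerSeries.X : PowerSeries K)})
  exact n2_isCurve_of_val h₁ h₂ hN hC ι hι O (fun a => (hO a).1)
    ((hO PowerSeries.X).2.1 (Ideal.mem_span_singleton_self _))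

end gen

end Vale.Agent.P292
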