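import Vale.Agent.P292.K.Q2Defs

/-! # Smoothing of two lines: definitions. -/

namespace Vale.Agent.P292

open MvPolynomial

universe u v w

variable {R : Type u} [CommRing R] [Algebra ℂ R] {K : Type v} [Field K] [Algebra ℂ K]

/-- The formal smoothing of the pair of lines `ψ₁`, `ψ₂` near the node with parameter `(1, 0)`, in
the coordinates `x = X 0` along `ψ₁` and `z = X 1` along `ψ₂`. -/
structure IsNode (𝒜 : ℕ → Submodule ℂ R) (ψ₁ ψ₂ : R →ₐ[ℂ] MvPolynomial (Fin 2) K)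
    (Φ : R →ₐ[ℂ] MvPowerSeries (Fin 2) K) : Prop where
  supp : ∀ k, ∀ r ∈ 𝒜 k, ∀ p q : ℕ,
    MvPowerSeries.coeff (Finsupp.single 0 p + Finsupp.single 1 q) (Φ r) ≠ 0 → p ≤ q + k ∧ q ≤ p + k
  ax1 : ∀ k, ∀ r ∈ 𝒜 k, ∀ i j : ℕ, i + j = k →
    MvPowerSeries.coeff (Finsupp.single 0 j) (Φ r) =
      coeff (Finsupp.single 0 i + Finsupp.single 1 j) (ψ₁ r)
  ax2 : ∀ k, ∀ r ∈ 𝒜 k, ∀ i j : ℕ, i + j = k →
    MvPowerSeries.coeff (Finsupp.single 1 j) (Φ r) =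
      coeff (Finsupp.single 0 i + Finsupp.single 1 j) (ψ₂ r)

/-- The family of conics given by the formal smoothing: `x = q s / t`, `z = q t / s`. -/
structure IsNodeConic (𝒜 : ℕ → Submodule ℂ R) (Φ : R →ₐ[ℂ] MvPowerSeries (Fin 2) K)
    (φA : R →ₐ[ℂ] MvPolynomial (Fin 2) (PowerSeries K)) : Prop where
  degree : ∀ k, ∀ r ∈ 𝒜 k, (φA r).IsHomogeneous (2 * k)
  coef : ∀ k, ∀ r ∈ 𝒜 k, ∀ i j n : ℕ, i + j = 2 * k →
    PowerSeries.coeff n (coeff (Finsupp.single 0 i + Finsupp.single 1 j) (φA r)) =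
      ∑ p ∈ Finset.HasAntidiagonal.antidiagonal n, if k + p.1 = i + p.2 then
        MvPowerSeries.coeff (Finsupp.single 0 p.1 + Finsupp.single 1 p.2) (Φ r) else 0

end Vale.Agent.P292
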