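import Vale.Agent.P292.K.Basic
import Vale.Agent.P292.Q.Newton

/-! # Chains: reduction of a conic along a valuation. -/

namespace Vale.Agent.P292

open Polynomial

universe u v w

set_option linter.all false

/-- The residue field of a valuation ring of an algebraically closed field is algebraically
closed. -/
theorem n2_isAlgClosed_residueField {L : Type u} [Field L] [IsAlgClosed L]
    (v : ValuationSubring L) : IsAlgClosed (IsLocalRing.ResidueField v) := by
  refine IsAlgClosed.of_exists_root _ fun p hp hirr => ?_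
  have hsurj : Function.Surjective (IsLocalRing.residue v) := IsLocalRing.residue_surjective
  have hlift : p ∈ Polynomial.lifts (IsLocalRing.residue v) := by
    rw [Polynomial.lifts_iff_coeff_lifts]
    intro n
    exact hsurj _
  obtain ⟨q, hq, hdeg, hmon⟩ := Polynomial.lifts_and_degree_eq_and_monic hlift hp
  have hd : (q.map (algebraMap v L)).degree ≠ 0 := by
    rw [Polynomial.degree_map_eq_of_injective (IsFractionRing.injective v L), hdeg]
    exact hirr.degree_pos.ne'
  obtain ⟨x, hx⟩ := IsAlgClosed.exists_root (q.map (algebraMap v L)) hd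
  have hint : IsIntegral v x := ⟨q, hmon, by
    have hx' : (q.map (algebraMap v L)).eval x = 0 := hx
    rwa [Polynomial.eval_map] at hx'⟩
  obtain ⟨y, rfl⟩ := IsIntegrallyClosed.isIntegral_iff.mp hint
  refine ⟨IsLocalRing.residue v y, ?_⟩
  have h1 : q.eval y = 0 := by
    apply IsFractionRing.injective v L
    have hx' : (q.map (algebraMap v L)).eval (algebraMap v L y) = 0 := hx
    rw [Polynomial.eval_map, Polynomial.eval₂_at_apply] at hx'
    rw [hx', map_zero]
  rw [← hq, Polynomial.eval_map, Polynomial.eval₂_at_apply, h1, map_zero]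

section
variable {R : Type u} [CommRing R] [Algebra ℂ R] {𝒜 : ℕ → Submodule ℂ R} [GradedAlgebra 𝒜]
  {P : R →ₗ[ℂ] R →ₗ[ℂ] R}

/-- Reduction of a homomorphism with integral coefficients. -/
theorem n2_reduce {L : Type v} [Field L] [Algebra ℂ L] (v : ValuationSubring L)
    (hv : ∀ c : ℂ, algebraMap ℂ L c ∈ v) {κ : Type w} [Field κ] [Algebra ℂ κ] (π : v →+* κ)
    (hπ : ∀ c : ℂ, π ⟨algebraMap ℂ L c, hv c⟩ = algebraMap ℂ κ c)
    (f : R →ₐ[ℂ] L[X]) (ρ : L) (h : ∀ r i, (f r).coeff i * ρ ^ i ∈ v) :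
    ∃ Ψ : R →ₐ[ℂ] κ[X], ∀ r i, (Ψ r).coeff i = π ⟨(f r).coeff i * ρ ^ i, h r i⟩ := by
  classical
  let ι : v →+* L := v.subtype
  have hι : Function.Injective ι := Subtype.val_injective
  let f₁ : R →+* L[X] := (Polynomial.compRingHom (C ρ * X)).comp f.toRingHom
  have hf₁ : ∀ r i, (f₁ r).coeff i = (f r).coeff i * ρ ^ i := by
    intro r i
    change ((f r).comp (C ρ * X)).coeff i = _
    rw [comp_C_mul_X_coeff]
  have hmem : ∀ r, f₁ r ∈ (mapRingHom ι).range := by
    intro r
    rw [Polynomial.mem_map_range]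
    intro i
    rw [hf₁]
    exact ⟨⟨(f r).coeff i * ρ ^ i, h r i⟩, rfl⟩
  let e : v[X] ≃+* (mapRingHom ι).range := RingEquiv.ofBijective (mapRingHom ι).rangeRestrict
    ⟨by
      intro a b hab
      have h1 : mapRingHom ι a = mapRingHom ι b := congrArg Subtype.val hab
      exact Polynomial.map_injective ι hι h1, RingHom.rangeRestrict_surjective _⟩
  let F : R →+* v[X] := (e.symm : (mapRingHom ι).range →+* v[X]).comp
    (f₁.codRestrict (mapRingHom ι).range hmem)
  have hF : ∀ r, mapRingHom ι (F r) = f₁ r := by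
    intro r
    have h1 : e (F r) = ⟨f₁ r, hmem r⟩ := e.apply_symm_apply _
    exact congrArg Subtype.val h1
  have hFc : ∀ r i, (F r).coeff i = ⟨(f r).coeff i * ρ ^ i, h r i⟩ := by
    intro r i
    apply Subtype.ext
    change ι ((F r).coeff i) = (f r).coeff i * ρ ^ i
    rw [← coeff_map, ← hf₁, ← hF]
    rfl
  let Ψ₀ : R →+* κ[X] := (mapRingHom π).comp F
  have hΨc : ∀ r i, (Ψ₀ r).coeff i = π ((F r).coeff i) := by
    intro r i
    change ((F r).map π).coeff i = _
    rw [coeff_map]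
  refine ⟨{ Ψ₀ with commutes' := fun c => ?_ }, fun r i => ?_⟩
  · change Ψ₀ (algebraMap ℂ R c) = _
    have h1 : F (algebraMap ℂ R c) = C ⟨algebraMap ℂ L c, hv c⟩ := by
      apply Polynomial.map_injective ι hι
      change mapRingHom ι (F _) = _
      rw [hF, map_C]
      change (f (algebraMap ℂ R c)).comp (C ρ * X) = _
      rw [AlgHom.commutes, IsScalarTower.algebraMap_apply ℂ L L[X], Polynomial.algebraMap_eq,
        C_comp]
      rfl
    change (F (algebraMap ℂ R c)).map π = _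
    rw [h1, map_C, hπ, IsScalarTower.algebraMap_apply ℂ κ κ[X]]
    rfl
  · change (Ψ₀ r).coeff i = _
    rw [hΨc, hFc]

/-- Graded twist of a homomorphism. -/
theorem n2_twist {κ : Type v} [Field κ] [Algebra ℂ κ] (f : R →ₐ[ℂ] κ[X])
    (hf : ∀ k, ∀ r ∈ 𝒜 k, (f r).natDegree ≤ k) {B : Type w} [CommRing B] [Algebra ℂ B]
    (T : ℕ → κ[X] →ₗ[ℂ] B) (hT1 : T 0 1 = 1)
    (hTm : ∀ k l p q, natDegree p ≤ k → natDegree q ≤ l → T (k + l) (p * q) = T k p * T l q) :
    ∃ Ψ : R →ₐ[ℂ] B, ∀ k, ∀ r ∈ 𝒜 k, Ψ r = T k (f r) := by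
  classical
  let F : ∀ k, (𝒜 k) →ₗ[ℂ] B := fun k => (T k) ∘ₗ f.toLinearMap ∘ₗ (𝒜 k).subtype
  have hF : ∀ k (r : 𝒜 k), F k r = T k (f (r : R)) := fun k r => rfl
  let c₀ : (DirectSum ℕ fun k => 𝒜 k) →ₐ[ℂ] B := DirectSum.toAlgebra ℂ (fun k => 𝒜 k) F (by
      rw [hF]
      change T 0 (f (1 : R)) = 1
      rw [map_one, hT1]) (by
      intro i j a b
      rw [hF, hF, hF]
      change T (i + j) (f ((a : R) * (b : R))) = _
      rw [map_mul, hTm _ _ _ _ (hf i a a.2) (hf j b b.2)])
  refine ⟨c₀.comp (DirectSum.decomposeAlgEquiv 𝒜).toAlgHom, fun k r hr => ?_⟩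
  have e2 : (DirectSum.decomposeAlgEquiv 𝒜) r = DirectSum.of (fun k => 𝒜 k) k ⟨r, hr⟩ := by
    rw [DirectSum.decomposeAlgEquiv_apply, DirectSum.decompose_of_mem 𝒜 hr]
  change c₀ ((DirectSum.decomposeAlgEquiv 𝒜) r) = _
  rw [e2]
  change DirectSum.toModule ℂ ℕ B F (DirectSum.lof ℂ ℕ (fun k => 𝒜 k) k ⟨r, hr⟩) = _
  rw [DirectSum.toModule_lof]
  rfl

/-- A homomorphism of degree one with a base point. -/
theorem n2_base (hX : IsContactFano 𝒜 P) {κ : Type v} [Field κ] [Algebra ℂ κ]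
    (f : R →ₐ[ℂ] κ[X]) (hf : ∀ k, ∀ r ∈ 𝒜 k, (f r).natDegree ≤ k) (c : κ)
    (hc : ∀ k, 0 < k → ∀ r ∈ 𝒜 k, (f r).eval c = 0) (k : ℕ) (r : R) (hr : r ∈ 𝒜 k) :
    f r = C ((f r).coeff k) * (X - C c) ^ k := by
  classical
  -- the twisted homomorphism: coefficients with respect to `X - C c`, reversed
  let T : ℕ → κ[X] →ₗ[ℂ] κ[X] := fun k =>
    { toFun := fun p => reflect k (taylor c p)
      map_add' := fun p q => by rw [map_add, reflect_add]
      map_smul' := fun a p => by
        rw [RingHom.id_apply, algebra_compatible_smul κ a p, map_smul, algebra_compatible_smul κ a]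
        ext i
        rw [coeff_reflect, coeff_smul, coeff_smul, coeff_reflect] }
  have hT : ∀ k p, T k p = reflect k (taylor c p) := fun k p => rfl
  obtain ⟨g, hg⟩ := n2_twist f hf T (by
      rw [hT, taylor_one, ← C_1, reflect_C, pow_zero, mul_one])
    (by
      intro k l p q hp hq
      rw [hT, hT, hT, taylor_mul, reflect_mul _ _ (by rwa [natDegree_taylor])
        (by rwa [natDegree_taylor])])
  have hdeg : ∀ k, 0 < k → ∀ r ∈ 𝒜 k, (g r).natDegree < k := by
    intro k hk r hr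
    have h2 : (g r).natDegree ≤ k - 1 := by
      rw [natDegree_le_iff_coeff_eq_zero]
      intro i hi
      rw [hg k r hr, hT, coeff_reflect]
      rcases Nat.lt_or_ge k i with h | h
      · rw [revAt_eq_self_of_lt h]
        apply coeff_eq_zero_of_natDegree_lt
        rw [natDegree_taylor]
        exact lt_of_le_of_lt (hf k r hr) h
      · rw [revAt_le h, show k - i = 0 by omega, taylor_coeff_zero]
        exact hc k hk r hr
    omega
  have h1 := nw_const hX g hdeg r
  have h2 : taylor c (f r) = C ((taylor c (f r)).coeff k) * X ^ k := by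
    ext j
    rw [coeff_C_mul_X_pow]
    split_ifs with hj
    · rw [hj]
    · rcases Nat.lt_or_ge k j with h | h
      · apply coeff_eq_zero_of_natDegree_lt
        rw [natDegree_taylor]
        exact lt_of_le_of_lt (hf k r hr) h
      · have h3 : (g r).coeff (k - j) = 0 := coeff_eq_zero_of_natDegree_lt (by omega)
        rw [hg k r hr, hT, coeff_reflect, revAt_le (by omega), show k - (k - j) = j by omega] at h3
        exact h3
  set e := (taylor c (f r)).coeff k with he
  have h4 : f r = C e * (X - C c) ^ k := by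
    have h5 := congrArg (taylor (-c)) h2
    rw [taylor_taylor, neg_add_cancel, taylor_zero, taylor_mul, taylor_C, taylor_pow, taylor_X,
      C_neg, ← sub_eq_add_neg] at h5
    exact h5
  have h6 : (f r).coeff k = e := by
    rw [h4, coeff_C_mul]
    have h7 : ((X - C c) ^ k : κ[X]).coeff k = 1 := by
      have h8 : ((X - C c) ^ k : κ[X]).Monic := (monic_X_sub_C c).pow k
      have h9 : ((X - C c) ^ k : κ[X]).natDegree = k := by
        rw [natDegree_pow, natDegree_X_sub_C, mul_one]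
      have h10 := h8.coeff_natDegree
      rwa [h9] at h10
    rw [h7, mul_one]
  rw [h6]
  exact h4

/-- Homogenisation of a homomorphism of degree one. -/
theorem n2_curve {κ : Type v} [Field κ] [Algebra ℂ κ] (f : R →ₐ[ℂ] κ[X])
    (hf : ∀ k, ∀ r ∈ 𝒜 k, (f r).natDegree ≤ k)
    (h0 : ∃ k, 0 < k ∧ ∃ r ∈ 𝒜 k, (f r).coeff 0 ≠ 0)
    (h1 : ∃ k, 0 < k ∧ ∃ r ∈ 𝒜 k, (f r).coeff k ≠ 0)
    (hc : ∀ c : κ, c ≠ 0 → ∃ k, 0 < k ∧ ∃ r ∈ 𝒜 k, (f r).eval c ≠ 0) :
    ∃ Ψ : R →ₐ[ℂ] MvPolynomial (Fin 2) κ, IsCurve 𝒜 1 Ψ ∧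
      (∀ k, ∀ r ∈ 𝒜 k, ∀ x : κ, MvPolynomial.eval ![x, 0] (Ψ r) = (f r).coeff 0 * x ^ k) ∧
      (∀ k, ∀ r ∈ 𝒜 k, ∀ x : κ, MvPolynomial.eval ![0, x] (Ψ r) = (f r).coeff k * x ^ k) := by
  classical
  let T : ℕ → κ[X] →ₗ[ℂ] MvPolynomial (Fin 2) κ := fun k =>
    { toFun := fun p => MvPolynomial.rename (Equiv.swap (0 : Fin 2) 1) (homogenize p k)
      map_add' := fun p q => by rw [homogenize_add, map_add]
      map_smul' := fun a p => by
        rw [RingHom.id_apply, algebra_compatible_smul κ a p, homogenize_smul, map_smul,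
          algebra_compatible_smul κ a] }
  have hT : ∀ k p, T k p = MvPolynomial.rename (Equiv.swap (0 : Fin 2) 1) (homogenize p k) :=
    fun k p => rfl
  obtain ⟨Ψ, hΨ⟩ := n2_twist f hf T (by
      rw [hT, homogenize_one, pow_zero, map_one])
    (by
      intro k l p q hp hq
      rw [hT, hT, hT, homogenize_mul _ _ hp hq, map_mul])
  have hev : ∀ k, ∀ r ∈ 𝒜 k, ∀ a : Fin 2 → κ, MvPolynomial.eval a (Ψ r) =
      ∑ ij ∈ Finset.HasAntidiagonal.antidiagonal k,
        (f r).coeff ij.1 * (a 1 ^ ij.1 * a 0 ^ ij.2) := by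
    intro k r hr a
    rw [hΨ k r hr, hT, MvPolynomial.eval_rename, homogenize, map_sum]
    refine Finset.sum_congr rfl fun ij _ => ?_
    rw [MvPolynomial.eval_monomial]
    congr 1
    rw [Finsupp.prod_fintype _ _ (by simp), Fin.prod_univ_two]
    simp
  have e0 : ∀ k, ∀ r ∈ 𝒜 k, ∀ x : κ, MvPolynomial.eval ![x, 0] (Ψ r) = (f r).coeff 0 * x ^ k := by
    intro k r hr x
    rw [hev k r hr, Finset.sum_eq_single (0, k)]
    · simp
    · rintro ⟨i, j⟩ hij hne
      rw [Finset.HasAntidiagonal.mem_antidiagonal] at hij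
      have hi : i ≠ 0 := by
        rintro rfl
        apply hne
        rw [zero_add] at hij
        exact congrArg (fun z => ((0 : ℕ), z)) hij
      simp [hi]
    · intro hnot
      exact absurd (Finset.HasAntidiagonal.mem_antidiagonal.mpr (zero_add k)) hnot
  have e1 : ∀ k, ∀ r ∈ 𝒜 k, ∀ x : κ, MvPolynomial.eval ![0, x] (Ψ r) = (f r).coeff k * x ^ k := by
    intro k r hr x
    rw [hev k r hr, Finset.sum_eq_single (k, 0)]
    · simp
    · rintro ⟨i, j⟩ hij hne
      rw [Finset.HasAntidiagonal.mem_antidiagonal] at hij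
      have hi : j ≠ 0 := by
        rintro rfl
        apply hne
        rw [add_zero] at hij
        exact congrArg (fun z => (z, (0 : ℕ))) hij
      simp [hi]
    · intro hnot
      exact absurd (Finset.HasAntidiagonal.mem_antidiagonal.mpr (add_zero k)) hnot
  have e2 : ∀ k, ∀ r ∈ 𝒜 k, ∀ x y : κ, x ≠ 0 →
      MvPolynomial.eval ![x, y] (Ψ r) = (f r).eval (y / x) * x ^ k := by
    intro k r hr x y hx
    rw [hev k r hr, eval_eq_sum_range' (Nat.lt_succ_of_le (hf k r hr)),
      Finset.Nat.sum_antidiagonal_eq_sum_range_succ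
        (fun i j => (f r).coeff i * ((![x, y] : Fin 2 → κ) 1 ^ i * (![x, y] : Fin 2 → κ) 0 ^ j)),
      Finset.sum_mul]
    refine Finset.sum_congr rfl fun i hi => ?_
    have hi' : i ≤ k := by
      have := Finset.mem_range.mp hi
      omega
    simp only [Matrix.cons_val_zero, Matrix.cons_val_one]
    have h3 : x ^ k = x ^ i * x ^ (k - i) := by rw [← pow_add, Nat.add_sub_cancel' hi']
    rw [h3, div_pow]
    field_simp
  refine ⟨Ψ, ⟨fun k r hr => ?_, fun x hx => ?_⟩, e0, e1⟩
  · rw [hΨ k r hr, hT, one_mul]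
    exact (isHomogeneous_homogenize _).rename_isHomogeneous
  · have hx' : x = ![x 0, x 1] := by
      ext i; fin_cases i <;> rfl
    by_cases hx0 : x 0 = 0
    · have hx1 : x 1 ≠ 0 := by
        intro h
        apply hx
        rw [hx', hx0, h]
        ext i; fin_cases i <;> rfl
      obtain ⟨k, hk, r, hr, h⟩ := h1
      refine ⟨k, hk, r, hr, ?_⟩
      rw [hx', hx0, MvPolynomial.aeval_eq_eval, e1 k r hr]
      exact mul_ne_zero h (pow_ne_zero _ hx1)
    · by_cases hx1 : x 1 = 0
      · obtain ⟨k, hk, r, hr, h⟩ := h0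
        refine ⟨k, hk, r, hr, ?_⟩
        rw [hx', hx1, MvPolynomial.aeval_eq_eval, e0 k r hr]
        exact mul_ne_zero h (pow_ne_zero _ hx0)
      · obtain ⟨k, hk, r, hr, h⟩ := hc (x 1 / x 0) (div_ne_zero hx1 hx0)
        refine ⟨k, hk, r, hr, ?_⟩
        rw [hx', MvPolynomial.aeval_eq_eval, e2 k r hr _ _ hx0]
        exact mul_ne_zero h (pow_ne_zero _ hx0)

end

end Vale.Agent.P292
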