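import Vale.Agent.P292.K.N2a

/-! # Chains: a conic which breaks gives a line through `w`. -/

namespace Vale.Agent.P292

open Polynomial

universe u v w

set_option linter.all false

variable {R : Type u} [CommRing R] [Algebra ℂ R] {𝒜 : ℕ → Submodule ℂ R} [GradedAlgebra 𝒜]
  {P : R →ₗ[ℂ] R →ₗ[ℂ] R}

theorem n2_dehom_eval {L : Type v} [Field L] [Algebra ℂ L] (x : L) (p : MvPolynomial (Fin 2) L) :
    (nwDehom L 0 p).eval x = MvPolynomial.eval ![1, x] p ∧
      (nwDehom L 1 p).eval x = MvPolynomial.eval ![x, 1] p := by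
  constructor
  · change (Polynomial.aeval x : L[X] →ₐ[L] L) (MvPolynomial.aeval _ p) = _
    rw [MvPolynomial.comp_aeval_apply, ← MvPolynomial.aeval_eq_eval]
    congr 2
    ext i
    fin_cases i <;> simp
  · change (Polynomial.aeval x : L[X] →ₐ[L] L) (MvPolynomial.aeval _ p) = _
    rw [MvPolynomial.comp_aeval_apply, ← MvPolynomial.aeval_eq_eval]
    congr 2
    ext i
    fin_cases i <;> simp

/-- After the middle the coefficients are small. -/
theorem n2_small {L : Type v} [Field L] [Algebra ℂ L] (v : ValuationSubring L) {ρ : L}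
    (hρ : v.valuation ρ < 1) (f g : R →ₐ[ℂ] L[X]) (hf : ∀ k, ∀ r ∈ 𝒜 k, (f r).natDegree ≤ 2 * k)
    (hfg : ∀ k, ∀ r ∈ 𝒜 k, ∀ i j, i + j = 2 * k → (f r).coeff i = (g r).coeff j)
    (hg : ∀ r i, v.valuation ((g r).coeff i * ρ ^ i) ≤ 1) (k : ℕ) (r : R) (hr : r ∈ 𝒜 k) (i : ℕ)
    (hi : k < i) : v.valuation ((f r).coeff i * ρ ^ i) < 1 := by
  rcases Nat.lt_or_ge (2 * k) i with h | h
  · rw [coeff_eq_zero_of_natDegree_lt (by have := hf k r hr; omega), zero_mul, map_zero]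
    exact zero_lt_one
  · have h1 := hg r (2 * k - i)
    rw [← hfg k r hr i (2 * k - i) (by omega)] at h1
    have e1 : (f r).coeff i * ρ ^ i
        = ((f r).coeff i * ρ ^ (2 * k - i)) * ρ ^ (2 * i - 2 * k) := by
      have e2 : ρ ^ i = ρ ^ (2 * k - i) * ρ ^ (2 * i - 2 * k) := by
        rw [← pow_add]; congr 1; omega
      rw [e2]; ring
    rw [e1, map_mul, map_pow v.valuation ρ (2 * i - 2 * k)]
    exact mul_lt_one_of_nonneg_of_lt_one_right h1 zero_le
      (pow_lt_one₀ zero_le hρ (by omega))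

/-- A conic through a closed point `w` with integral other end point, some coefficient of which
is not integral, breaks into a chain: either this gives a line through `w`, or the centre of the
valuation lies on the ray of `w`. -/
theorem exists_line_or_le {Ω : Type v} [Field Ω] [IsAlgClosed Ω] [Algebra ℂ Ω]
    {w : R →ₐ[ℂ] ℂ} {φ : R →ₐ[ℂ] MvPolynomial (Fin 2) Ω} (hX : IsContactFano 𝒜 P)
    (hφ : IsCurve 𝒜 2 φ) (hleft : ∀ r, pt φ ![1, 0] r = algebraMap ℂ Ω (w r))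
    (v : ValuationSubring Ω)
    (hv : ∀ c : ℂ, algebraMap ℂ Ω c ∈ v) (h01 : ∀ r, pt φ ![0, 1] r ∈ v)
    (k : ℕ) (r : R) (hr : r ∈ 𝒜 k) (i : ℕ) (hi : i ≤ 2 * k) (hn : cf (φ r) i (2 * k - i) ∉ v) :
    (∃ (κ : Type v) (_ : Field κ) (_ : IsAlgClosed κ) (_ : Algebra ℂ κ)
      (Ψ : R →ₐ[ℂ] MvPolynomial (Fin 2) κ), IsCurve 𝒜 1 Ψ ∧
      ∀ r, pt Ψ ![1, 0] r = algebraMap ℂ κ (w r)) ∨
    (∀ k, ∀ r ∈ 𝒜 k, w r = 0 → v.valuation (pt φ ![0, 1] r) < 1) := by
  classical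
  have h01' : (0 : Fin 2) ≠ 1 := by decide
  have hdeg := hφ.degree
  let F1 : R →ₐ[ℂ] Polynomial Ω := (nwDehom Ω 0).comp φ
  let F2 : R →ₐ[ℂ] Polynomial Ω := (nwDehom Ω 1).comp φ
  have c1 : ∀ k, ∀ r ∈ 𝒜 k, ∀ i j, i + j = 2 * k → (F1 r).coeff j = cf (φ r) i j := by
    intro k r hr i j hij
    have e1 := nwDehom_coeff 0 1 h01' (hdeg k r hr)
      (m := Finsupp.single 0 i + Finsupp.single 1 j) (by simp; omega)
    simp only [Finsupp.coe_add, Pi.add_apply, Finsupp.single_eq_same, ne_eq, h01',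
      not_false_eq_true, Finsupp.single_eq_of_ne, zero_add, h01'.symm, add_zero] at e1
    exact e1
  have c2 : ∀ k, ∀ r ∈ 𝒜 k, ∀ i j, i + j = 2 * k → (F2 r).coeff i = cf (φ r) i j := by
    intro k r hr i j hij
    have e1 := nwDehom_coeff 1 0 h01'.symm (hdeg k r hr)
      (m := Finsupp.single 0 i + Finsupp.single 1 j) (by simp; omega)
    simp only [Finsupp.coe_add, Pi.add_apply, Finsupp.single_eq_same, ne_eq, h01',
      not_false_eq_true, Finsupp.single_eq_of_ne, zero_add, h01'.symm, add_zero] at e1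
    exact e1
  have d1 : ∀ r, (F1 r).coeff 0 = algebraMap ℂ Ω (w r) := by
    intro r
    rw [coeff_zero_eq_eval_zero, ← hleft r, pt_apply]
    exact (n2_dehom_eval 0 (φ r)).1
  have d2 : ∀ r, (F2 r).coeff 0 = pt φ ![0, 1] r := by
    intro r
    rw [coeff_zero_eq_eval_zero, pt_apply]
    exact (n2_dehom_eval 0 (φ r)).2
  have deg1 : ∀ k, ∀ r ∈ 𝒜 k, (F1 r).natDegree ≤ 2 * k :=
    fun k r hr => nwDehom_natDegree_le 0 1 h01' (hdeg k r hr)
  have deg2 : ∀ k, ∀ r ∈ 𝒜 k, (F2 r).natDegree ≤ 2 * k :=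
    fun k r hr => nwDehom_natDegree_le 1 0 h01'.symm (hdeg k r hr)
  have h12 : ∀ k, ∀ r ∈ 𝒜 k, ∀ i j, i + j = 2 * k → (F1 r).coeff i = (F2 r).coeff j := by
    intro k r hr i j hij
    rw [c1 k r hr j i (by omega), c2 k r hr j i (by omega)]
  have h21 : ∀ k, ∀ r ∈ 𝒜 k, ∀ i j, i + j = 2 * k → (F2 r).coeff i = (F1 r).coeff j :=
    fun k r hr i j hij => (h12 k r hr j i (by omega)).symm
  obtain ⟨ρ, hρ0, hρ1, b1, b2, hnode⟩ := nw_main v.valuation hX
    (fun c => (v.valuation_le_one_iff _).mpr (hv c)) F1 F2 deg1 deg2 h12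
    (fun k r hr => by rw [d1]; exact (v.valuation_le_one_iff _).mpr (hv _))
    (fun k r hr => by rw [d2]; exact (v.valuation_le_one_iff _).mpr (h01 _))
  have hlt : v.valuation ρ < 1 := by
    refine lt_of_le_of_ne hρ1 fun h1 => hn ?_
    have h2 := b2 r i
    rw [map_mul, map_pow, h1, one_pow, mul_one, c2 k r hr i (2 * k - i) (by omega)] at h2
    exact (v.valuation_le_one_iff _).mp h2
  rcases hnode with h1 | ⟨kn, hkn, rn, hrn, hnode⟩
  · exact absurd h1 hlt.ne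
  have s1 := n2_small (𝒜 := 𝒜) v hlt F1 F2 deg1 h12 b2
  have s2 := n2_small (𝒜 := 𝒜) v hlt F2 F1 deg2 h21 b1
  -- the residue field
  let κ := IsLocalRing.ResidueField v
  have : IsAlgClosed κ := n2_isAlgClosed_residueField v
  let π : v →+* κ := IsLocalRing.residue v
  let c₀ : ℂ →+* v := (algebraMap ℂ Ω).codRestrict v.toSubring hv
  letI : Algebra ℂ κ := (π.comp c₀).toAlgebra
  have hπ : ∀ c : ℂ, π ⟨algebraMap ℂ Ω c, hv c⟩ = algebraMap ℂ κ c := fun c => rfl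
  have hπ0 : ∀ (x : Ω) (hx : x ∈ v), π ⟨x, hx⟩ = 0 ↔ v.valuation x < 1 := by
    intro x hx
    change IsLocalRing.residue v _ = 0 ↔ _
    rw [IsLocalRing.residue_eq_zero_iff]
    exact (v.valuation_lt_one_iff ⟨x, hx⟩)
  obtain ⟨f1, hf1⟩ := n2_reduce v hv π hπ F1 ρ (fun r i => (v.valuation_le_one_iff _).mp (b1 r i))
  obtain ⟨f2, hf2⟩ := n2_reduce v hv π hπ F2 ρ (fun r i => (v.valuation_le_one_iff _).mp (b2 r i))
  have deg1' : ∀ k, ∀ r ∈ 𝒜 k, (f1 r).natDegree ≤ k := by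
    intro k r hr
    rw [natDegree_le_iff_coeff_eq_zero]
    intro i hi
    rw [hf1, hπ0]
    exact s1 k r hr i hi
  have deg2' : ∀ k, ∀ r ∈ 𝒜 k, (f2 r).natDegree ≤ k := by
    intro k r hr
    rw [natDegree_le_iff_coeff_eq_zero]
    intro i hi
    rw [hf2, hπ0]
    exact s2 k r hr i hi
  have w1 : ∀ r, (f1 r).coeff 0 = algebraMap ℂ κ (w r) := by
    intro r
    rw [hf1, ← hπ]
    congr 1
    apply Subtype.ext
    change (F1 r).coeff 0 * ρ ^ 0 = algebraMap ℂ Ω (w r)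
    rw [pow_zero, mul_one, d1]
  have w2 : ∀ r, (f2 r).coeff 0 = 0 ↔ v.valuation (pt φ ![0, 1] r) < 1 := by
    intro r
    rw [hf2, hπ0, pow_zero, mul_one, d2]
  have hnu : ∀ k, ∀ r ∈ 𝒜 k, (f1 r).coeff k = (f2 r).coeff k := by
    intro k r hr
    rw [hf1, hf2]
    congr 1
    apply Subtype.ext
    change (F1 r).coeff k * ρ ^ k = (F2 r).coeff k * ρ ^ k
    rw [h12 k r hr k k (by omega)]
  have hnu0 : ∃ k, 0 < k ∧ ∃ r ∈ 𝒜 k, (f1 r).coeff k ≠ 0 := by
    refine ⟨kn, hkn, rn, hrn, ?_⟩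
    rw [hf1, ne_eq, hπ0, hnode]
    exact lt_irrefl 1
  -- `w` is not the vertex
  have hw0 : ∃ k, 0 < k ∧ ∃ r ∈ 𝒜 k, w r ≠ 0 := by
    obtain ⟨k, hk, r, hr, h⟩ := hφ.bpf ![1, 0] (by
      intro h
      have := congrFun h 0
      simp at this)
    refine ⟨k, hk, r, hr, fun h0 => h ?_⟩
    rw [MvPolynomial.aeval_eq_eval, ← pt_apply, hleft, h0, map_zero]
  have hw0' : ∃ k, 0 < k ∧ ∃ r ∈ 𝒜 k, (f1 r).coeff 0 ≠ 0 := by
    obtain ⟨k, hk, r, hr, h1⟩ := hw0
    refine ⟨k, hk, r, hr, ?_⟩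
    rw [w1]
    exact (_root_.map_ne_zero _).mpr h1
  by_cases hb1 : ∀ c : κ, c ≠ 0 → ∃ k, 0 < k ∧ ∃ r ∈ 𝒜 k, (f1 r).eval c ≠ 0
  · obtain ⟨Ψ, hΨ, hΨ0, -⟩ := n2_curve f1 deg1' hw0' hnu0 hb1
    refine Or.inl ⟨κ, inferInstance, inferInstance, inferInstance, Ψ, hΨ, fun r => ?_⟩
    refine forall_of_homogeneous' (𝒜 := 𝒜) (pt Ψ ![1, 0]).toLinearMap
      ((Algebra.linearMap ℂ κ) ∘ₗ w.toLinearMap) (fun k r hr => ?_) r
    change pt Ψ ![1, 0] r = algebraMap ℂ κ (w r)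
    rw [pt_apply, hΨ0 k r hr, w1, one_pow, mul_one]
  · push Not at hb1
    obtain ⟨c, hc0, hc⟩ := hb1
    have hb := n2_base hX f1 deg1' c hc
    have hw' : ∀ k, ∀ r ∈ 𝒜 k, algebraMap ℂ κ (w r) = (f1 r).coeff k * (-c) ^ k := by
      intro k r hr
      rw [← w1 r]
      conv_lhs => rw [hb k r hr]
      rw [coeff_C_mul, coeff_zero_eq_eval_zero]
      simp
    by_cases hb2 : ∀ c : κ, ∃ k, 0 < k ∧ ∃ r ∈ 𝒜 k, (f2 r).eval c ≠ 0
    · have hnu0' : ∃ k, 0 < k ∧ ∃ r ∈ 𝒜 k, (f2 r).coeff k ≠ 0 := by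
        obtain ⟨k, hk, r, hr, h⟩ := hnu0
        exact ⟨k, hk, r, hr, by rw [← hnu k r hr]; exact h⟩
      have he0 : ∃ k, 0 < k ∧ ∃ r ∈ 𝒜 k, (f2 r).coeff 0 ≠ 0 := by
        obtain ⟨k, hk, r, hr, h⟩ := hb2 0
        exact ⟨k, hk, r, hr, by rw [coeff_zero_eq_eval_zero]; exact h⟩
      obtain ⟨Ψ, hΨ, -, hΨ1⟩ := n2_curve f2 deg2' he0 hnu0' (fun c _ => hb2 c)
      let τ : Fin 2 → MvPolynomial (Fin 2) κ := ![MvPolynomial.X 1, MvPolynomial.C (-c) *
        MvPolynomial.X 0]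
      let S : MvPolynomial (Fin 2) κ →ₐ[ℂ] MvPolynomial (Fin 2) κ :=
        (MvPolynomial.aeval τ).restrictScalars ℂ
      have hS : ∀ p a, MvPolynomial.eval a (S p) = MvPolynomial.eval ![a 1, -c * a 0] p := by
        intro p a
        change MvPolynomial.eval a (MvPolynomial.aeval τ p) = _
        rw [← MvPolynomial.aeval_eq_eval, MvPolynomial.comp_aeval_apply,
          ← MvPolynomial.aeval_eq_eval]
        congr 2
        ext i
        fin_cases i
        · simp [τ]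
        · simp only [τ]
          simp [neg_mul]
          exact (neg_mul _ _).symm
      refine Or.inl ⟨κ, inferInstance, inferInstance, inferInstance, S.comp Ψ, ⟨fun k r hr => ?_,
        fun x hx => ?_⟩, fun r => ?_⟩
      · have h1 := (hΨ.degree k r hr).aeval τ (n := 1) (by
          intro i
          fin_cases i
          · exact MvPolynomial.isHomogeneous_X κ 1
          · exact (MvPolynomial.isHomogeneous_C_mul_X (-c) 0))
        rw [one_mul] at h1
        exact h1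
      · obtain ⟨k, hk, r, hr, h⟩ := hΨ.bpf ![x 1, -c * x 0] (by
          intro h
          apply hx
          have h0 := congrFun h 0
          have h1 := congrFun h 1
          simp at h0 h1
          ext i
          fin_cases i
          · exact h1.resolve_left hc0
          · exact h0)
        refine ⟨k, hk, r, hr, ?_⟩
        rw [MvPolynomial.aeval_eq_eval] at h ⊢
        rw [AlgHom.comp_apply, hS]
        exact h
      · refine forall_of_homogeneous' (𝒜 := 𝒜) (pt (S.comp Ψ) ![1, 0]).toLinearMap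
          ((Algebra.linearMap ℂ κ) ∘ₗ w.toLinearMap) (fun k r hr => ?_) r
        change pt (S.comp Ψ) ![1, 0] r = algebraMap ℂ κ (w r)
        rw [pt_apply, AlgHom.comp_apply, hS, hw' k r hr, hnu k r hr]
        have h1 := hΨ1 k r hr (-c * 1)
        have h2 : (![(![1, 0] : Fin 2 → κ) 1, -c * (![1, 0] : Fin 2 → κ) 0] : Fin 2 → κ) =
            ![0, -c * 1] := by
          ext i; fin_cases i <;> rfl
        rw [h2, h1, mul_one]
    · push Not at hb2
      obtain ⟨c', hc'⟩ := hb2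
      have hb' := n2_base hX f2 deg2' c' hc'
      refine Or.inr fun k r hr hwr => ?_
      rw [← w2, hb' k r hr, ← hnu k r hr]
      have h1 := hw' k r hr
      rw [hwr, map_zero] at h1
      have h2 : (f1 r).coeff k = 0 := by
        rcases mul_eq_zero.mp h1.symm with h | h
        · exact h
        · exact absurd h (pow_ne_zero _ (neg_ne_zero.mpr hc0))
      rw [h2, map_zero, zero_mul, coeff_zero]

end Vale.Agent.P292
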