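import Vale.Agent.P292.K.Basic
import Vale.Agent.P292.K.N3

/-! # Base change of curves. -/

namespace Vale.Agent.P292

open MvPolynomial

universe u v w

variable {R : Type u} [CommRing R] [Algebra ℂ R] {𝒜 : ℕ → Submodule ℂ R} {d : ℕ}

/-- The curve condition from powers of the variables in the ideal of the base locus. -/
theorem ni_isCurve {E : Type v} [Field E] [Algebra ℂ E] (φ : R →ₐ[ℂ] MvPolynomial (Fin 2) E)
    (hdeg : ∀ k, ∀ r ∈ 𝒜 k, (φ r).IsHomogeneous (d * k))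
    (hpow : ∀ i : Fin 2, ∃ (N n : ℕ) (c : Fin n → MvPolynomial (Fin 2) E) (r : Fin n → R)
      (k : Fin n → ℕ), (∀ j, 0 < k j) ∧ (∀ j, r j ∈ 𝒜 (k j)) ∧
      ∑ j, c j * φ (r j) = (X i : MvPolynomial (Fin 2) E) ^ N) : IsCurve 𝒜 d φ := by
  refine ⟨hdeg, fun x hx => ?_⟩
  have hi : ∃ i, x i ≠ 0 := by
    by_contra h
    push Not at h
    exact hx (funext h)
  obtain ⟨i, hi⟩ := hi
  obtain ⟨N, n, c, r, k, hk, hr, hsum⟩ := hpow i
  by_contra hcon
  push Not at hcon
  have h1 : aeval x (∑ j, c j * φ (r j)) = 0 := by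
    rw [map_sum]
    refine Finset.sum_eq_zero fun j _ => ?_
    rw [map_mul, hcon (k j) (hk j) (r j) (hr j), mul_zero]
  rw [hsum, map_pow, aeval_X] at h1
  exact pow_ne_zero N hi h1

/-- Base change of a curve. -/
theorem ni_baseChange {k : Type v} {E : Type w} [Field k] [IsAlgClosed k] [Field E]
    [Algebra ℂ k] [Algebra ℂ E] [Algebra k E] [IsScalarTower ℂ k E] {d : ℕ}
    {φ : R →ₐ[ℂ] MvPolynomial (Fin 2) k} (hφ : IsCurve 𝒜 d φ) :
    ∃ ψ : R →ₐ[ℂ] MvPolynomial (Fin 2) E, IsCurve 𝒜 d ψ ∧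
      ∀ r, ψ r = map (algebraMap k E) (φ r) := by
  refine ⟨(mapAlgHom (IsScalarTower.toAlgHom ℂ k E)).comp φ, ?_, fun r => rfl⟩
  have happ : ∀ r, ((mapAlgHom (IsScalarTower.toAlgHom ℂ k E)).comp φ) r =
    map (algebraMap k E) (φ r) := fun r => rfl
  refine ni_isCurve _ (fun n r hr => ?_) (fun i => ?_)
  · rw [happ]
    exact (hφ.degree n r hr).map _
  · obtain ⟨N, n, c, r, e, he, hr, hsum⟩ := hφ.exists_pow i
    refine ⟨N, n, fun j => map (algebraMap k E) (c j), r, e, he, hr, ?_⟩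
    have := congrArg (map (algebraMap k E)) hsum
    rw [map_sum, map_pow, map_X] at this
    rw [← this]
    exact Finset.sum_congr rfl fun j _ => by rw [happ, map_mul]

end Vale.Agent.P292
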