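import Vale.Agent.P292.K.Q2Defs
import Vale.Agent.P292.K.V1
import Vale.Agent.P292.K.C1H
import Vale.Agent.P292.K.C4
import Vale.Agent.P292.K.Ext
import Vale.Agent.P292.K.Frame0
import Vale.Agent.P292.MM.Gen
import Vale.Agent.P292.MM.Chain2

/-! # The relations between the second end of a full line, over the first one. -/

namespace Vale.Agent.P292

open MvPolynomial TensorProduct

universe u v w

section alg

/-- A normalised linear relation of minimal support. -/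
theorem ni_min_relation {ι : Type*} {k : Type v} {K : Type w} [Field k] [Field K] [Algebra k K]
    (w : ι → K) (h : ¬ LinearIndependent k w) :
    ∃ c : ι →₀ k, Finsupp.linearCombination k w c = 0 ∧ (∃ j, c j = 1) ∧
      ∀ c' : ι →₀ k, Finsupp.linearCombination k w c' = 0 → c'.support ⊂ c.support → c' = 0 := by
  classical
  have h1 : ∃ n : ℕ, ∃ c : ι →₀ k, c ≠ 0 ∧ Finsupp.linearCombination k w c = 0 ∧
      c.support.card = n := by
    rw [linearIndependent_iff] at h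
    push Not at h
    obtain ⟨c, hc, hc0⟩ := h
    exact ⟨_, c, hc0, hc, rfl⟩
  obtain ⟨c, hc0, hc, hn⟩ := Nat.find_spec h1
  obtain ⟨j, hj⟩ : ∃ j, c j ≠ 0 := by
    by_contra hcon
    push Not at hcon
    exact hc0 (Finsupp.ext hcon)
  have hsupp : ((c j)⁻¹ • c).support = c.support :=
    Finsupp.support_smul_eq (inv_ne_zero hj)
  refine ⟨(c j)⁻¹ • c, ?_, ⟨j, ?_⟩, ?_⟩
  · rw [map_smul, hc, smul_zero]
  · rw [Finsupp.smul_apply, smul_eq_mul, inv_mul_cancel₀ hj]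
  · intro c' hc' hlt
    by_contra hc'0
    rw [hsupp] at hlt
    have h2 := Finset.card_lt_card hlt
    rw [hn] at h2
    exact Nat.find_min h1 h2 ⟨c', hc'0, hc', rfl⟩

/-- A derivation which kills the vectors kills the minimal relation. -/
theorem ni_kill_relation {ι : Type*} {k : Type v} {K : Type w} [Field k] [Field K] [Algebra k K]
    [Algebra ℂ k] [Algebra ℂ K] (w : ι → K) {c : ι →₀ k}
    (hc : Finsupp.linearCombination k w c = 0) {j : ι} (hj : c j = 1)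
    (hmin : ∀ c' : ι →₀ k, Finsupp.linearCombination k w c' = 0 → c'.support ⊂ c.support → c' = 0)
    (D₀ : Derivation ℂ k k) (D : Derivation ℂ K K)
    (hD : ∀ a, D (algebraMap k K a) = algebraMap k K (D₀ a)) (hw : ∀ i, D (w i) = 0) (i : ι) :
    D₀ (c i) = 0 := by
  classical
  have h0 : D₀ 0 = 0 := map_zero D₀
  set c' : ι →₀ k := c.mapRange D₀ h0 with hc'
  have h1 : Finsupp.linearCombination k w c' = 0 := by
    have h2 := congrArg D hc
    rw [map_zero, Finsupp.linearCombination_apply, Finsupp.sum, map_sum] at h2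
    rw [Finsupp.linearCombination_apply, Finsupp.sum_of_support_subset (s := c.support) c'
      (by rw [hc']; exact Finsupp.support_mapRange) _ (by simp), ← h2]
    refine Finset.sum_congr rfl fun i _ => ?_
    rw [Algebra.smul_def, Algebra.smul_def, Derivation.leibniz, hw, hD, smul_zero, zero_add,
      smul_eq_mul, hc', Finsupp.mapRange_apply]
    ring
  have h2 : c' = 0 := by
    refine hmin c' h1 ⟨by rw [hc']; exact Finsupp.support_mapRange, fun hsub => ?_⟩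
    have h3 : j ∈ c'.support := hsub (by rw [Finsupp.mem_support_iff, hj]; exact one_ne_zero)
    rw [Finsupp.mem_support_iff, hc', Finsupp.mapRange_apply, hj, D₀.map_one_eq_zero] at h3
    exact h3 rfl
  have h3 := DFunLike.congr_fun h2 i
  rwa [hc', Finsupp.mapRange_apply] at h3

end alg

variable {R : Type u} [CommRing R] [Algebra ℂ R] {𝒜 : ℕ → Submodule ℂ R} [GradedAlgebra 𝒜]
  {P : R →ₗ[ℂ] R →ₗ[ℂ] R} {K : Type v} [Field K] [IsAlgClosed K] [Algebra ℂ K]
  {ψ : R →ₐ[ℂ] MvPolynomial (Fin 2) K}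

omit [IsAlgClosed K] in
/-- A derivation killing the first end. -/
theorem ni_der_div (h : IsCurve 𝒜 1 ψ) (D : Derivation ℂ K K)
    (hD : ∀ r, D (pt ψ ![1, 0] r) = 0) :
    ∃ τ, IsHDer 𝒜 1 ψ (-1) τ ∧ ∀ r, mapD D (ψ r) = X 1 * τ r := by
  obtain ⟨τ, h1, h2⟩ := exists_div_X_one h (isHDer_mapD h D) fun r => by
    change eval ![1, 0] (mapD D (ψ r)) = 0
    rw [eval_mapD_10, ← pt_apply, hD]
  exact ⟨τ, h1, h2⟩

omit [IsAlgClosed K] [GradedAlgebra 𝒜] in
theorem ni_full_div (hfull : IsFull 𝒜 1 ψ) {τ : R →ₗ[ℂ] MvPolynomial (Fin 2) K}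
    (hτ : IsHDer 𝒜 1 ψ (-1) τ) : ∃ D : Derivation ℂ K K, (∀ r, D (pt ψ ![1, 0] r) = 0) ∧
      ∀ r, mapD D (ψ r) = X 1 * τ r := by
  have h1 : IsHDer 𝒜 1 ψ 0 ((X 1 : MvPolynomial (Fin 2) K) • τ) :=
    (hτ.fr_smul (ZHom.of_nat (isHomogeneous_X K (1 : Fin 2)))).fr_congr (by norm_num)
  obtain ⟨D, hD⟩ := hfull _ h1
  refine ⟨D, fun r => ?_, fun r => ?_⟩
  · rw [pt_apply, ← eval_mapD_10, hD, LinearMap.smul_apply, smul_eq_mul, map_mul, eval_X]
    simp
  · rw [hD, LinearMap.smul_apply, smul_eq_mul]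

omit [IsAlgClosed K] in
theorem ni_eval_div {τ : R →ₗ[ℂ] MvPolynomial (Fin 2) K} {D : Derivation ℂ K K}
    (h : ∀ r, mapD D (ψ r) = X 1 * τ r) (r : R) :
    evL ![0, 1] τ r = D (pt ψ ![0, 1] r) := by
  rw [pt_apply, ← eval_mapD_01, h, map_mul, eval_X, evL_apply]
  simp

/-- The value of the form on derivations of degree `0` and `-1` is the same at both ends. -/
theorem ni_om_const (hX : IsContactFano 𝒜 P) (h : IsCurve 𝒜 1 ψ)
    {δ τ : R →ₗ[ℂ] MvPolynomial (Fin 2) K} (hδ : IsHDer 𝒜 1 ψ 0 δ) (hτ : IsHDer 𝒜 1 ψ (-1) τ)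
    {a b : Fin 2 → K} (ha : a ≠ 0) (hb : b ≠ 0) :
    om P (pt ψ a) (evL a δ) (evL a τ) = om P (pt ψ b) (evL b δ) (evL b τ) := by
  rw [omC_eval hX h hδ hτ a ha, omC_eval hX h hδ hτ b hb]
  have h1 : (omC P ψ δ τ).IsHomogeneous 0 := omC_homog hX h hδ hτ (by norm_num)
  rw [totalDegree_eq_zero_iff_eq_C.1 (Nat.le_zero.1 h1.totalDegree_le)]
  simp

/-- Derivations of degree `-1` are orthogonal. -/
theorem ni_om_zero (hX : IsContactFano 𝒜 P) (h : IsCurve 𝒜 1 ψ)
    {τ τ' : R →ₗ[ℂ] MvPolynomial (Fin 2) K} (hτ : IsHDer 𝒜 1 ψ (-1) τ)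
    (hτ' : IsHDer 𝒜 1 ψ (-1) τ') {a : Fin 2 → K} (ha : a ≠ 0) :
    om P (pt ψ a) (evL a τ) (evL a τ') = 0 := by
  rw [omC_eval hX h hτ hτ' a ha, omC_eq_zero hX h hτ hτ' (by norm_num), map_zero]

variable {k : Type w} [Field k] [Algebra ℂ k] [Algebra k K] [IsScalarTower ℂ k K]

omit [IsAlgClosed K] [IsScalarTower ℂ k K] in
/-- Orthogonality to the tangent of the line gives orthogonality to the derivations of
degree `-1`. -/
theorem ni_orth (hX : IsContactFano 𝒜 P) (h : IsCurve 𝒜 1 ψ) {η₀ : R →ₐ[ℂ] k}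
    (h0 : ∀ r, pt ψ ![1, 0] r = algebraMap k K (η₀ r)) {v : R →ₗ[ℂ] k} (hv : IsDer η₀ v)
    {v' : R →ₗ[ℂ] K} (hv' : ∀ r, v' r = algebraMap k K (v r))
    (hom : om P (pt ψ ![1, 0]) v' (evL ![1, 0] (pd ψ 1)) = 0) {D : Derivation ℂ K K}
    (hDk : ∀ a : k, D (algebraMap k K a) = 0) {τ : R →ₗ[ℂ] MvPolynomial (Fin 2) K}
    (hτ : IsHDer 𝒜 1 ψ (-1) τ) (hDτ : ∀ r, mapD D (ψ r) = X 1 * τ r) :
    om P (pt ψ ![1, 0]) v' (evL ![1, 0] τ) = 0 := by
  have hNV := h.isNV_pt (vec10_ne (κ := K))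
  have hNV0 : IsNV 𝒜 η₀ := by
    obtain ⟨n, hn, r, hr, hne⟩ := hNV
    refine ⟨n, hn, r, hr, fun h1 => hne ?_⟩
    rw [h0, h1, map_zero]
  obtain ⟨N, r, hr⟩ := exists_ham_rep hX hNV0
  obtain ⟨a, ha⟩ := hr v hv
  have hrep : ∀ s, v' s = ∑ i, algebraMap k K (a i) * pt ψ ![1, 0] (P (r i) s) := by
    intro s
    rw [hv', ha, map_sum]
    refine Finset.sum_congr rfl fun i _ => ?_
    rw [map_mul, h0]
  rw [om_eq hX hNV ((isHDer_pd h 1).der.evL _) hrep] at hom
  rw [om_eq hX hNV (hτ.der.evL _) hrep]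
  have h1 := congrArg D hom
  rw [map_zero, map_sum] at h1
  refine Eq.trans ?_ h1
  refine Finset.sum_congr rfl fun i _ => ?_
  rw [Derivation.leibniz, hDk, smul_zero, add_zero, smul_eq_mul, evL_apply, evL_apply, pd_apply,
    ← eval_mapD_10, mapD_pderiv, hDτ, Derivation.leibniz, pderiv_X_self]
  simp

/-- The second end satisfies relations over the first end. -/
theorem ni_not_independent (hX : IsContactFano 𝒜 P) (h : IsCurve 𝒜 1 ψ) {η₀ : R →ₐ[ℂ] k}
    (h0 : ∀ r, pt ψ ![1, 0] r = algebraMap k K (η₀ r)) {ι : Type*} (b : Module.Basis ι ℂ R) :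
    ¬ LinearIndependent k fun j => pt ψ ![0, 1] (b j) := by
  classical
  intro hli
  let i₀ : k ⊗[ℂ] R →ₐ[k] K := Algebra.TensorProduct.lift (Algebra.ofId k K) (pt ψ ![0, 1])
    (fun _ _ => Commute.all _ _)
  have hi₀ : ∀ a r, i₀ (a ⊗ₜ r) = algebraMap k K a * pt ψ ![0, 1] r := fun a r => by
    rw [Algebra.TensorProduct.lift_tmul]
    rfl
  have hinj : Function.Injective i₀ := by
    rw [injective_iff_map_eq_zero]
    intro x hx
    let B := Algebra.TensorProduct.basis k b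
    have h1 : x = ∑ j ∈ (B.repr x).support, B.repr x j • B j := (B.linearCombination_repr x).symm
    have h2 : Finsupp.linearCombination k (fun j => pt ψ ![0, 1] (b j)) (B.repr x) = 0 := by
      rw [Finsupp.linearCombination_apply, Finsupp.sum]
      refine Eq.trans ?_ hx
      conv_rhs => rw [h1]
      rw [map_sum]
      refine Finset.sum_congr rfl fun j _ => ?_
      rw [map_smul, Algebra.TensorProduct.basis_apply, hi₀, map_one, one_mul]
    have h3 := linearIndependent_iff.1 hli _ h2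
    rw [← B.repr.map_eq_zero_iff]
    exact h3
  let i : R ⊗[ℂ] k →ₐ[ℂ] K :=
    (i₀.restrictScalars ℂ).comp (Algebra.TensorProduct.comm ℂ R k).toAlgHom
  have hi : ∀ r a, i (r ⊗ₜ a) = algebraMap k K a * pt ψ ![0, 1] r := fun r a => hi₀ a r
  have hinj' : Function.Injective i :=
    hinj.comp (Algebra.TensorProduct.comm ℂ R k).injective
  have hleft : i.comp Algebra.TensorProduct.includeLeft = pt ψ ![0, 1] := by
    ext r
    rw [AlgHom.comp_apply, Algebra.TensorProduct.includeLeft_apply, hi, map_one, one_mul]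
  have hval : ∀ x : R →ₗ[ℂ] K, IsDer (pt ψ ![0, 1]) x →
      ∃ τ, IsHDer 𝒜 1 ψ (-1) τ ∧ evL ![0, 1] τ = x := by
    intro x hx
    obtain ⟨D, hD1, hD2⟩ := mm_exists_der_tensor i hinj' (δ := x) (by rw [hleft]; exact hx)
    have hD3 : ∀ a : k, D (algebraMap k K a) = 0 := fun a => by
      have := hD2 a
      rwa [hi, map_one, mul_one] at this
    obtain ⟨τ, hτ, hDτ⟩ := ni_der_div h D fun r => by rw [h0, hD3]
    refine ⟨τ, hτ, ?_⟩
    ext r
    rw [ni_eval_div hDτ, ← hD1, hi, map_one, one_mul]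
  have hNV := h.isNV_pt (vec01_ne (κ := K))
  have hzero : evL ![0, 1] (pd ψ 1) = 0 := by
    refine eq_zero_of_om hX hNV ((isHDer_pd h 1).der.evL _) fun x hx => ?_
    obtain ⟨τ, hτ, rfl⟩ := hval x hx
    exact ni_om_zero hX h (isHDer_pd h 1) hτ vec01_ne
  obtain ⟨n, hn, r, hr, hne⟩ := hNV
  have h1 := (h.degree n r hr).sum_X_mul_pderiv
  have h2 := congrArg (eval ![0, 1]) h1
  rw [Fin.sum_univ_two, map_add, map_mul, map_mul, eval_X, eval_X] at h2
  have h3 := LinearMap.congr_fun hzero r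
  rw [evL_apply, pd_apply, LinearMap.zero_apply] at h3
  rw [h3, map_nsmul] at h2
  have h4 : (1 * n) • eval ![0, 1] (ψ r) = 0 := by
    rw [← h2]
    simp
  have : CharZero K := charZero_of_injective_algebraMap (algebraMap ℂ K).injective
  rw [pt_apply] at hne
  rcases smul_eq_zero.1 h4 with h5 | h5
  · omega
  · exact hne h5

/-- **The coefficient.** -/
theorem ni_coeff (hX : IsContactFano 𝒜 P) (h : IsCurve 𝒜 1 ψ) (hfull : IsFull 𝒜 1 ψ)
    (hinj : Function.Injective (pt ψ ![0, 1]))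
    (hlag : ∀ x : R →ₗ[ℂ] K, IsDer (pt ψ ![0, 1]) x →
      (∀ τ, IsHDer 𝒜 1 ψ (-1) τ → om P (pt ψ ![0, 1]) x (evL ![0, 1] τ) = 0) →
      ∃ τ, IsHDer 𝒜 1 ψ (-1) τ ∧ evL ![0, 1] τ = x)
    {η₀ : R →ₐ[ℂ] k} (h0 : ∀ r, pt ψ ![1, 0] r = algebraMap k K (η₀ r))
    (halg : ∀ D : Derivation ℂ K K, (∀ r, D (algebraMap k K (η₀ r)) = 0) →
      ∀ a : k, D (algebraMap k K a) = 0) :
    ∃ c : k, (∀ a : ℂ, c ≠ algebraMap ℂ k a) ∧ ∀ D₀ : Derivation ℂ k k,
      (∀ v' : R →ₗ[ℂ] K, (∀ r, v' r = algebraMap k K (D₀ (η₀ r))) →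
        om P (pt ψ ![1, 0]) v' (evL ![1, 0] (pd ψ 1)) = 0) → D₀ c = 0 := by
  classical
  obtain ⟨ι, ⟨b⟩⟩ : ∃ ι : Type u, Nonempty (Module.Basis ι ℂ R) :=
    ⟨_, ⟨Module.Basis.ofVectorSpace ℂ R⟩⟩
  have : CharZero K := charZero_of_injective_algebraMap (algebraMap ℂ K).injective
  obtain ⟨c, hc, ⟨j, hj⟩, hmin⟩ := ni_min_relation (k := k) _ (ni_not_independent hX h h0 b)
  have hex : ∃ i, ∀ a : ℂ, c i ≠ algebraMap ℂ k a := by
    by_contra hcon
    push Not at hcon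
    choose a ha using hcon
    have h1 : pt ψ ![0, 1] (∑ i ∈ c.support, a i • b i) = 0 := by
      rw [Finsupp.linearCombination_apply, Finsupp.sum] at hc
      rw [map_sum]
      refine Eq.trans ?_ hc
      refine Finset.sum_congr rfl fun i _ => ?_
      rw [map_smul, ha, algebraMap_smul]
    have h2 := (injective_iff_map_eq_zero (pt ψ ![0, 1])).1 hinj _ h1
    have h3 := linearIndependent_iff'.1 b.linearIndependent c.support a h2 j (by
      rw [Finsupp.mem_support_iff, hj]; exact one_ne_zero)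
    have h4 := ha j
    rw [h3, map_zero, hj] at h4
    exact one_ne_zero h4
  obtain ⟨i, hi⟩ := hex
  refine ⟨c i, hi, fun D₀ hD₀ => ?_⟩
  let d : Derivation ℂ k K := (Algebra.linearMap k K).compDer D₀
  have hd : ∀ a, d a = algebraMap k K (D₀ a) := fun a => rfl
  obtain ⟨D, hD⟩ := exists_derivation_extend (k := ℂ) (A := k) (E := K)
    (algebraMap k K).injective d
  let v : R →ₗ[ℂ] k := alongAt η₀ D₀
  let v' : R →ₗ[ℂ] K := alongAt (pt ψ ![1, 0]) D
  have hv' : ∀ r, v' r = algebraMap k K (v r) := fun r => by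
    change D (pt ψ ![1, 0] r) = _
    rw [h0, hD, hd]
    rfl
  have hom := hD₀ v' fun r => hv' r
  -- `Dη'` lies in the values of degree `-1`
  have hδ := isHDer_mapD h D
  obtain ⟨τ, hτ, hτx⟩ := hlag (evL ![0, 1] ((mapD D : Derivation ℂ _ _).toLinearMap ∘ₗ
      ψ.toLinearMap)) (hδ.der.evL _) fun τ hτ => by
    rw [ni_om_const hX h hδ hτ vec01_ne vec10_ne]
    obtain ⟨D', hD', hD'τ⟩ := ni_full_div hfull hτ
    have h1 := ni_orth hX h h0 (isDer_alongAt η₀ D₀) hv' hom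
      (halg D' fun r => by rw [← h0, hD']) hτ hD'τ
    have h2 : evL ![1, 0] ((mapD D : Derivation ℂ _ _).toLinearMap ∘ₗ ψ.toLinearMap) = v' := by
      ext r
      rw [evL_apply]
      change eval ![1, 0] (mapD D (ψ r)) = D (pt ψ ![1, 0] r)
      rw [eval_mapD_10, pt_apply]
    rw [h2]
    exact h1
  obtain ⟨D', hD', hD'τ⟩ := ni_full_div hfull hτ
  have hD'k := halg D' fun r => by rw [← h0, hD']
  refine ni_kill_relation _ hc hj hmin D₀ (D - D') (fun a => ?_) (fun l => ?_) i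
  · rw [Derivation.sub_apply, hD'k, sub_zero, hD, hd]
  · rw [Derivation.sub_apply, ← ni_eval_div hD'τ, hτx, evL_apply]
    change D (pt ψ ![0, 1] (b l)) - eval ![0, 1] (mapD D (ψ (b l))) = 0
    rw [eval_mapD_01, pt_apply, sub_self]

end Vale.Agent.P292
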