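import Mathlib

/-! # Coefficients of a minimal polynomial killed by derivations. -/

namespace Vale.Agent.P292

open Polynomial

universe u v

/-- I-5a: coefficient in the fraction field, killed by everything -/
theorem ni_galois {F : Type u} {L : Type v} [Field F] [CharZero F] [Field L] [IsAlgClosed L]
    [Algebra F L] [Algebra.IsAlgebraic F L] [Algebra ℂ F] [Algebra ℂ L] [IsScalarTower ℂ F L]
    (S : Set (Derivation ℂ L L))
    (hS : ∀ D ∈ S, ∀ σ : L ≃ₐ[F] L, ∃ D' ∈ S, ∀ x, D' x = σ.symm (D (σ x)))
    {c : L} (hc : ∀ D ∈ S, D c = 0) (hc' : ∀ a : ℂ, c ≠ algebraMap ℂ L a) :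
    ∃ f : F, (∀ a : ℂ, f ≠ algebraMap ℂ F a) ∧ ∀ D ∈ S, D (algebraMap F L f) = 0 := by
  classical
  have hcl : IsAlgClosure F L := ⟨inferInstance, inferInstance⟩
  have hnor : Normal F L := IsAlgClosure.normal F L
  have halg : IsIntegral F c := Algebra.IsIntegral.isIntegral c
  set p := minpoly F c with hp
  -- all roots are killed
  have hroot : ∀ D ∈ S, ∀ r : L, aeval r p = 0 → D r = 0 := by
    intro D hD r hr
    obtain ⟨σ, hσ⟩ := minpoly.exists_algEquiv_of_root' halg.isAlgebraic hr
    obtain ⟨D', hD', h1⟩ := hS D hD σ
    have h2 := h1 c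
    rw [hc D' hD', hσ] at h2
    have h3 := congrArg σ h2
    rw [map_zero, AlgEquiv.apply_symm_apply] at h3
    exact h3.symm
  -- all coefficients are killed
  have hcoeff : ∀ D ∈ S, ∀ n, D (algebraMap F L (p.coeff n)) = 0 := by
    intro D hD n
    let A : Subring L :=
      { carrier := {x | D x = 0}
        mul_mem' := by
          intro a b ha hb
          change D (a * b) = 0
          rw [Derivation.leibniz, show D a = 0 from ha, show D b = 0 from hb, smul_zero, smul_zero,
            add_zero]
        one_mem' := Derivation.map_one_eq_zero D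
        add_mem' := by
          intro a b ha hb
          change D (a + b) = 0
          rw [map_add, show D a = 0 from ha, show D b = 0 from hb, add_zero]
        zero_mem' := map_zero D
        neg_mem' := by
          intro a ha
          change D (-a) = 0
          rw [map_neg, show D a = 0 from ha, neg_zero] }
    have hmon : (p.map (algebraMap F L)).Monic := (minpoly.monic halg).map _
    have hsp : (p.map (algebraMap F L)).Splits := IsAlgClosed.splits _
    have hprod : p.map (algebraMap F L) = ((p.map (algebraMap F L)).roots.map (X - C ·)).prod :=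
      hsp.eq_prod_roots_of_monic hmon
    have hlift : p.map (algebraMap F L) ∈ Polynomial.lifts A.subtype := by
      rw [hprod]
      refine Submonoid.multiset_prod_mem (Polynomial.lifts A.subtype).toSubmonoid _ ?_
      intro q hq
      obtain ⟨r, hr, rfl⟩ := Multiset.mem_map.1 hq
      have hr0 : D r = 0 := by
        refine hroot D hD r ?_
        have := (Polynomial.mem_roots'.1 hr).2
        rw [Polynomial.IsRoot.def, Polynomial.eval_map_algebraMap] at this
        exact this
      change X - C r ∈ Polynomial.lifts A.subtype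
      rw [Polynomial.mem_lifts]
      refine ⟨X - C (⟨r, hr0⟩ : A), ?_⟩
      rw [Polynomial.map_sub, Polynomial.map_X, Polynomial.map_C]
      rfl
    rw [Polynomial.lifts_iff_coeff_lifts] at hlift
    obtain ⟨x, hx⟩ := hlift n
    rw [Polynomial.coeff_map] at hx
    rw [← hx]
    exact x.2
  by_contra hno
  push Not at hno
  -- all coefficients are complex numbers
  have hC : ∀ n, ∃ a : ℂ, p.coeff n = algebraMap ℂ F a := by
    intro n
    by_contra h1
    push Not at h1
    obtain ⟨D, hD, h2⟩ := hno (p.coeff n) h1
    exact h2 (hcoeff D hD n)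
  have hlift : p ∈ Polynomial.lifts (algebraMap ℂ F) := by
    rw [Polynomial.lifts_iff_coeff_lifts]
    intro n
    obtain ⟨a, ha⟩ := hC n
    exact ⟨a, ha.symm⟩
  obtain ⟨q, hq⟩ := (Polynomial.mem_lifts _).1 hlift
  have hq0 : q ≠ 0 := by
    rintro rfl
    rw [Polynomial.map_zero] at hq
    exact minpoly.ne_zero halg hq.symm
  have hroot : aeval c q = 0 := by
    have : aeval c p = 0 := minpoly.aeval F c
    rw [← hq, aeval_map_algebraMap] at this
    exact this
  have hmem : c ∈ (q.map (algebraMap ℂ L)).roots := by
    rw [Polynomial.mem_roots', Polynomial.IsRoot.def, Polynomial.eval_map_algebraMap]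
    exact ⟨(Polynomial.map_ne_zero_iff (algebraMap ℂ L).injective).2 hq0, hroot⟩
  rw [(IsAlgClosed.splits q).roots_map (algebraMap ℂ L)] at hmem
  obtain ⟨a, _, ha⟩ := Multiset.mem_map.1 hmem
  exact hc' a ha.symm

end Vale.Agent.P292
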