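import Vale.Agent.P292.K.Basic
import Vale.Agent.P292.Bdl.B1

/-! # Block I-6: homogeneous coprime representation of an Euler invariant -/

namespace Vale.Agent.P292

open DirectSum

universe u

section
variable {R : Type u} [CommRing R] [Algebra ℂ R] {𝒜 : ℕ → Submodule ℂ R} [GradedAlgebra 𝒜]
  {P : R →ₗ[ℂ] R →ₗ[ℂ] R}

/-- the leading components multiply. -/
theorem ni6_top [IsDomain R] (q g : R) (m n : ℕ)
    (hm : ∀ i, m < i → (decompose 𝒜 q i : R) = 0) (hn : ∀ i, n < i → (decompose 𝒜 g i : R) = 0) :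
    (decompose 𝒜 (q * g) (m + n) : R) = decompose 𝒜 q m * decompose 𝒜 g n := by
  classical
  rw [decompose_mul, coe_mul_apply]
  have h1 : ∀ ij ∈ (decompose 𝒜 q).support ×ˢ (decompose 𝒜 g).support,
      ij.1 + ij.2 = m + n → ij = (m, n) := by
    rintro ⟨i, j⟩ hij h
    rw [Finset.mem_product, DFinsupp.mem_support_iff, DFinsupp.mem_support_iff] at hij
    have hi : i ≤ m := by
      by_contra hlt
      exact hij.1 (Subtype.ext (hm i (not_le.1 hlt)))
    have hj : j ≤ n := by
      by_contra hlt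
      exact hij.2 (Subtype.ext (hn j (not_le.1 hlt)))
    simp only at h
    ext <;> simp <;> omega
  by_cases hmem : (m, n) ∈ (decompose 𝒜 q).support ×ˢ (decompose 𝒜 g).support
  · rw [Finset.sum_eq_single (m, n)]
    · intro ij hij hne
      rw [Finset.mem_filter] at hij
      exact absurd (h1 ij hij.1 hij.2) hne
    · intro hnot
      refine absurd ?_ hnot
      rw [Finset.mem_filter]
      exact ⟨hmem, rfl⟩
  · rw [Finset.sum_eq_zero]
    · rw [Finset.mem_product, not_and_or, DFinsupp.notMem_support_iff,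
        DFinsupp.notMem_support_iff] at hmem
      rcases hmem with h | h
      · simp only at h
        rw [h, ZeroMemClass.coe_zero, zero_mul]
      · simp only at h
        rw [h, ZeroMemClass.coe_zero, mul_zero]
    · intro ij hij
      rw [Finset.mem_filter] at hij
      exact absurd ((h1 ij hij.1 hij.2) ▸ hij.1) hmem

/-- an element dividing its Euler derivative is homogeneous. -/
theorem ni6_homog [IsDomain R] (h0 : ∀ r ∈ 𝒜 0, ∃ c : ℂ, r = algebraMap ℂ R c) {q g : R}
    (hg : g ≠ 0) (h : euler 𝒜 g = q * g) :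
    ∃ k : ℕ, g ∈ 𝒜 k ∧ q = algebraMap ℂ R k := by
  classical
  have heu : ∀ (x : R) (i : ℕ), (decompose 𝒜 (euler 𝒜 x) i : R) = (i : ℂ) • (decompose 𝒜 x i : R) := by
    intro x i
    refine forall_of_homogeneous' (𝒜 := 𝒜)
      ((𝒜 i).subtype ∘ₗ (DirectSum.component ℂ ℕ (fun i => 𝒜 i) i) ∘ₗ
          (decomposeLinearEquiv 𝒜).toLinearMap ∘ₗ euler 𝒜)
      ((i : ℂ) • ((𝒜 i).subtype ∘ₗ (DirectSum.component ℂ ℕ (fun i => 𝒜 i) i) ∘ₗ
          (decomposeLinearEquiv 𝒜).toLinearMap)) (fun k r hr => ?_) x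
    change (decompose 𝒜 (euler 𝒜 r) i : R) = (i : ℂ) • (decompose 𝒜 r i : R)
    rw [euler_apply k r hr, decompose_smul, DirectSum.smul_apply]
    by_cases hik : k = i
    · subst hik
      rfl
    · have : (decompose 𝒜 r i : R) = 0 := decompose_of_mem_ne 𝒜 hr hik
      rw [Submodule.coe_smul, this, smul_zero, smul_zero]
  have hsup : ∀ x : R, x ≠ 0 → ∃ m, (decompose 𝒜 x m : R) ≠ 0 ∧
      ∀ i, m < i → (decompose 𝒜 x i : R) = 0 := by
    intro x hx
    have hne : (decompose 𝒜 x).support.Nonempty := by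
      rw [Finset.nonempty_iff_ne_empty]
      intro he
      apply hx
      rw [← DirectSum.sum_support_decompose 𝒜 x, he, Finset.sum_empty]
    refine ⟨(decompose 𝒜 x).support.max' hne, ?_, fun i hi => ?_⟩
    · have := Finset.max'_mem _ hne
      rw [DFinsupp.mem_support_iff] at this
      intro h0
      exact this (Subtype.ext h0)
    · by_contra hnot
      have : i ∈ (decompose 𝒜 x).support := by
        rw [DFinsupp.mem_support_iff]
        intro h0
        exact hnot (by rw [h0]; rfl)
      exact absurd (Finset.le_max' _ i this) (not_le.2 hi)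
  obtain ⟨n, hn, hn'⟩ := hsup g hg
  -- `q` is a constant
  have hq : q ∈ 𝒜 0 := by
    by_cases hq0 : q = 0
    · rw [hq0]; exact zero_mem _
    obtain ⟨m, hm, hm'⟩ := hsup q hq0
    have h1 := ni6_top q g m n hm' hn'
    rw [← h, heu] at h1
    have hm0 : m = 0 := by
      by_contra hpos
      rw [hn' (m + n) (by omega), smul_zero] at h1
      exact mul_ne_zero hm hn h1.symm
    subst hm0
    have h2 : q = (decompose 𝒜 q 0 : R) := by
      conv_lhs => rw [← DirectSum.sum_support_decompose 𝒜 q]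
      refine Finset.sum_eq_single 0 (fun i _ hi => hm' i (Nat.pos_of_ne_zero hi)) fun h0 => ?_
      rw [DFinsupp.notMem_support_iff] at h0
      rw [h0]; rfl
    rw [h2]
    exact SetLike.coe_mem _
  obtain ⟨c, rfl⟩ := h0 q hq
  have hcomp : ∀ i, (decompose 𝒜 g i : R) ≠ 0 → (i : ℂ) = c := by
    intro i hi
    have h1 := heu g i
    rw [h, ← Algebra.smul_def, decompose_smul, DirectSum.smul_apply, Submodule.coe_smul] at h1
    have h2 : (c - (i : ℂ)) • (decompose 𝒜 g i : R) = 0 := by
      rw [sub_smul, h1, sub_self]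
    rcases smul_eq_zero.1 h2 with h3 | h3
    · exact (sub_eq_zero.1 h3).symm
    · exact absurd h3 hi
  have hnc := hcomp n hn
  refine ⟨n, ?_, by rw [hnc]⟩
  have h2 : g = (decompose 𝒜 g n : R) := by
    conv_lhs => rw [← DirectSum.sum_support_decompose 𝒜 g]
    refine Finset.sum_eq_single n (fun i _ hi => ?_) fun h0 => ?_
    · by_contra hne
      have := hcomp i hne
      rw [← hnc] at this
      exact hi (by exact_mod_cast this)
    · rw [DFinsupp.notMem_support_iff] at h0
      rw [h0]; rfl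
  rw [h2]
  exact SetLike.coe_mem _

/-- I-6 homogeneous coprime representation of an Euler invariant of the fraction field -/
theorem ni_exists_homog (hX : IsContactFano 𝒜 P) [IsDomain R] [UniqueFactorizationMonoid R]
    (E : Derivation ℂ (FractionRing R) (FractionRing R))
    (hE : ∀ k, ∀ r ∈ 𝒜 k, E (algebraMap R _ r) = (k : FractionRing R) * algebraMap R _ r)
    {f : FractionRing R} (hf : E f = 0)
    (hf' : ∀ c : ℂ, f ≠ algebraMap ℂ (FractionRing R) c) :
    ∃ k, 0 < k ∧ ∃ g ∈ 𝒜 k, ∃ h ∈ 𝒜 k, h ≠ 0 ∧ IsRelPrime g h ∧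
      f * algebraMap R _ h = algebraMap R _ g := by
  classical
  have hinj : Function.Injective (algebraMap R (FractionRing R)) :=
    IsFractionRing.injective R (FractionRing R)
  have hEu : ∀ r, E (algebraMap R _ r) = algebraMap R _ (euler 𝒜 r) := by
    intro r
    refine forall_of_homogeneous' (𝒜 := 𝒜)
      ((E : FractionRing R →ₗ[ℂ] FractionRing R) ∘ₗ
        (IsScalarTower.toAlgHom ℂ R (FractionRing R)).toLinearMap)
      ((IsScalarTower.toAlgHom ℂ R (FractionRing R)).toLinearMap ∘ₗ euler 𝒜)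
      (fun k r hr => ?_) r
    change E (algebraMap R _ r) = algebraMap R _ (euler 𝒜 r)
    rw [hE k r hr, euler_apply k r hr, Algebra.smul_def, map_mul, ← IsScalarTower.algebraMap_apply]
    simp
  set g := IsFractionRing.num R f with hgdef
  set h : R := (IsFractionRing.den R f : R) with hhdef
  have hh0 : h ≠ 0 := nonZeroDivisors.ne_zero (IsFractionRing.den R f).2
  have hrel : IsRelPrime g h := IsFractionRing.num_den_reduced R f
  have hfg : f * algebraMap R _ h = algebraMap R _ g := by
    have := IsFractionRing.mk'_num_den R f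
    rw [IsLocalization.mk'_eq_iff_eq_mul] at this
    exact this.symm
  have hg0 : g ≠ 0 := by
    intro h0
    rw [h0, map_zero] at hfg
    rcases mul_eq_zero.1 hfg with h1 | h1
    · exact hf' 0 (by rw [h1, map_zero])
    · exact hh0 (hinj (by rw [h1, map_zero]))
  have hkey : h * euler 𝒜 g = g * euler 𝒜 h := by
    apply hinj
    rw [map_mul, map_mul, ← hEu, ← hEu]
    have h1 := congrArg E hfg
    rw [Derivation.leibniz, hf, smul_zero, add_zero, smul_eq_mul] at h1
    rw [← h1, ← hfg]
    ring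
  have hd1 : g ∣ euler 𝒜 g := by
    have : g ∣ h * euler 𝒜 g := ⟨_, hkey⟩
    exact hrel.dvd_of_dvd_mul_left this
  obtain ⟨q, hq⟩ := hd1
  have hq' : euler 𝒜 h = q * h := by
    rw [hq] at hkey
    apply mul_left_cancel₀ hg0
    rw [← hkey]
    ring
  rw [mul_comm] at hq
  obtain ⟨k, hgk, hqk⟩ := ni6_homog hX.connected hg0 hq
  obtain ⟨l, hhl, hql⟩ := ni6_homog hX.connected hh0 hq'
  have hkl : k = l := by
    have h1 : algebraMap ℂ R k = algebraMap ℂ R l := hqk.symm.trans hql
    have h2 := (algebraMap ℂ R).injective h1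
    exact_mod_cast h2
  subst hkl
  refine ⟨k, ?_, g, hgk, h, hhl, hh0, hrel, hfg⟩
  by_contra hk
  obtain rfl : k = 0 := by omega
  obtain ⟨c, hc⟩ := hX.connected g hgk
  obtain ⟨d, hd⟩ := hX.connected h hhl
  have hd0 : d ≠ 0 := by
    rintro rfl
    exact hh0 (by rw [hd, map_zero])
  refine hf' (c / d) ?_
  have hd0' : algebraMap ℂ (FractionRing R) d ≠ 0 := by
    rw [Ne, map_eq_zero_iff _ (algebraMap ℂ (FractionRing R)).injective]
    exact hd0
  rw [hc, hd, ← IsScalarTower.algebraMap_apply, ← IsScalarTower.algebraMap_apply] at hfg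
  rw [map_div₀, eq_div_iff hd0', hfg]

end

end Vale.Agent.P292
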