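import Mathlib

/-! # Two binary forms with vanishing Wronskian have a common zero. -/

namespace Vale.Agent.P292

open MvPolynomial

universe v

section

variable {K : Type v} [Field K]

theorem ni7_eval_smul {m : ℕ} {p : MvPolynomial (Fin 2) K} (hp : p.IsHomogeneous m) (c : K)
    (a : Fin 2 → K) : eval (fun i => c * a i) p = c ^ m * eval a p := by
  conv_lhs => rw [p.as_sum]
  conv_rhs => rw [p.as_sum]
  rw [map_sum, map_sum, Finset.mul_sum]
  refine Finset.sum_congr rfl fun s hs => ?_
  rw [eval_monomial, eval_monomial, Finsupp.prod_fintype _ _ (fun _ => pow_zero _),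
    Finsupp.prod_fintype _ _ (fun _ => pow_zero _), Fin.prod_univ_two, Fin.prod_univ_two]
  have h1 := hp (mem_support_iff.1 hs)
  rw [Finsupp.weight_apply, Finsupp.sum_fintype _ _ (by simp)] at h1
  simp only [Pi.one_apply, smul_eq_mul, mul_one, Fin.sum_univ_two] at h1
  rw [← h1, mul_pow, mul_pow, pow_add]
  ring

/-- Restriction to the line with first coordinate `s`. -/
noncomputable def ni7D (s : K) : MvPolynomial (Fin 2) K →ₐ[K] Polynomial K :=
  aeval ![Polynomial.C s, Polynomial.X]

theorem ni7D_eval (s t : K) (p : MvPolynomial (Fin 2) K) :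
    (ni7D s p).eval t = eval ![s, t] p := by
  have h : (Polynomial.aeval t : Polynomial K →ₐ[K] K).comp (ni7D s) = aeval ![s, t] := by
    apply MvPolynomial.algHom_ext
    intro i
    rw [AlgHom.comp_apply, ni7D, aeval_X, aeval_X]
    fin_cases i <;> simp
  have h1 := DFunLike.congr_fun h p
  rw [AlgHom.comp_apply] at h1
  rw [← aeval_eq_eval, ← h1, Polynomial.coe_aeval_eq_eval]

theorem ni7D_derivative (s : K) (p : MvPolynomial (Fin 2) K) :
    Polynomial.derivative (ni7D s p) = ni7D s (pderiv 1 p) := by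
  induction p using MvPolynomial.induction_on with
  | C a =>
    rw [pderiv_C, map_zero]
    have : ni7D s (C a) = Polynomial.C a := (ni7D s).commutes a
    rw [this, Polynomial.derivative_C]
  | add p q hp hq => rw [map_add, map_add, hp, hq, map_add, map_add]
  | mul_X p i hp =>
    rw [map_mul, Polynomial.derivative_mul, hp, pderiv_mul, map_add, map_mul, map_mul]
    congr 2
    have hX : ∀ j, ni7D s (X j) = ![Polynomial.C s, Polynomial.X] j := fun j => aeval_X _ j
    rw [hX, pderiv_X]
    fin_cases i <;> simp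

/-- Two polynomials with vanishing Wronskian: the roots of one are roots of the other. -/
theorem ni7_root [CharZero K] {g h : Polynomial K} (h0 : h ≠ 0)
    (hW : Polynomial.derivative g * h = g * Polynomial.derivative h) {t : K} (ht : h.IsRoot t) :
    g.IsRoot t := by
  by_contra hg
  have hm : 0 < h.rootMultiplicity t := (Polynomial.rootMultiplicity_pos h0).2 ht
  have hd0 : Polynomial.derivative h ≠ 0 := by
    intro hd
    obtain ⟨c, rfl⟩ : ∃ c, h = Polynomial.C c :=
      ⟨_, Polynomial.eq_C_of_natDegree_eq_zero (Polynomial.derivative_eq_zero.1 hd)⟩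
    rw [Polynomial.IsRoot, Polynomial.eval_C] at ht
    rw [ht, map_zero] at h0
    exact h0 rfl
  have h1 := Polynomial.derivative_rootMultiplicity_of_root ht
  have h2 : (Polynomial.X - Polynomial.C t) ^ h.rootMultiplicity t ∣
      g * Polynomial.derivative h := by
    rw [← hW]
    exact (Polynomial.pow_rootMultiplicity_dvd h t).mul_left _
  have hirr : Prime (Polynomial.X - Polynomial.C t) := Polynomial.prime_X_sub_C t
  have h3 : (Polynomial.X - Polynomial.C t) ^ h.rootMultiplicity t ∣ Polynomial.derivative h := by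
    refine hirr.pow_dvd_of_dvd_mul_left _ ?_ h2
    rw [Polynomial.dvd_iff_isRoot]
    exact hg
  have h4 := (Polynomial.le_rootMultiplicity_iff hd0).2 h3
  rw [h1] at h4
  omega

theorem ni7D_ne [Infinite K] {m : ℕ} {H : MvPolynomial (Fin 2) K} (hH : H.IsHomogeneous m)
    (hH0 : H ≠ 0) {s : K} (hs : s ≠ 0) : ni7D s H ≠ 0 := by
  intro h
  apply hH0
  have h1 : (X 0 : MvPolynomial (Fin 2) K) * H = 0 := by
    apply MvPolynomial.funext
    intro a
    rw [map_mul, map_zero, eval_X]
    by_cases ha : a 0 = 0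
    · rw [ha, zero_mul]
    · have h2 : eval ![s, s * (a 0)⁻¹ * a 1] H = 0 := by
        rw [← ni7D_eval, h, Polynomial.eval_zero]
      have h3 : (![s, s * (a 0)⁻¹ * a 1] : Fin 2 → K) = fun i => (s * (a 0)⁻¹) * a i := by
        funext i
        fin_cases i
        · simp [ha]
        · simp
      rw [h3, ni7_eval_smul hH] at h2
      rw [(mul_eq_zero.1 h2).resolve_left (pow_ne_zero _ (mul_ne_zero hs (inv_ne_zero ha))),
        mul_zero]
  exact (mul_eq_zero.1 h1).resolve_left (X_ne_zero 0)

/-- A binary form of positive degree over an algebraically closed field has a zero. -/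
theorem ni7_exists_zero [IsAlgClosed K] {F : MvPolynomial (Fin 2) K} {m : ℕ} (hm : 0 < m)
    (hF : F.IsHomogeneous m) : ∃ a : Fin 2 → K, a ≠ 0 ∧ eval a F = 0 := by
  have : Infinite K := IsAlgClosed.instInfinite
  by_cases h0 : ∃ t, (ni7D 1 F).eval t = 0
  · obtain ⟨t, ht⟩ := h0
    exact ⟨![1, t], fun h => one_ne_zero (α := K) (by simpa using congrFun h 0),
      by rw [← ni7D_eval, ht]⟩
  · push Not at h0
    have hdeg : (ni7D 1 F).degree = 0 := by
      by_contra hne
      obtain ⟨t, ht⟩ := IsAlgClosed.exists_root _ hne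
      exact h0 t ht
    obtain ⟨c, hc⟩ : ∃ c, ni7D 1 F = Polynomial.C c := ⟨_, Polynomial.eq_C_of_degree_eq_zero hdeg⟩
    refine ⟨![0, 1], fun h => one_ne_zero (α := K) (by simpa using congrFun h 1), ?_⟩
    have hFc : F = C c * X 0 ^ m := by
      have h1 : (X 0 : MvPolynomial (Fin 2) K) * F = X 0 * (C c * X 0 ^ m) := by
        apply MvPolynomial.funext
        intro a
        rw [map_mul, map_mul, map_mul, map_pow, eval_X, eval_C]
        by_cases ha : a 0 = 0
        · rw [ha, zero_mul, zero_mul]
        · congr 1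
          have h3 : a = fun i => (a 0) * (![1, (a 0)⁻¹ * a 1] : Fin 2 → K) i := by
            funext i
            fin_cases i
            · simp
            · simp [ha]
          conv_lhs => rw [h3]
          rw [ni7_eval_smul hF, ← ni7D_eval, hc, Polynomial.eval_C, mul_comm]
      exact mul_left_cancel₀ (X_ne_zero 0) h1
    rw [hFc, map_mul, map_pow, eval_X]
    simp [hm.ne']

/-- I-7a vanishing Wronskian: common zero -/
theorem ni_common_zero [IsAlgClosed K] [CharZero K] {k : ℕ} (hk : 0 < k)
    {G H : MvPolynomial (Fin 2) K} (hG : G.IsHomogeneous k) (hH : H.IsHomogeneous k)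
    (hG0 : G ≠ 0) (hH0 : H ≠ 0)
    (hW : pderiv 1 G * H = G * pderiv 1 H) : ∃ u : Fin 2 → K, u ≠ 0 ∧ eval u G = 0 ∧
      eval u H = 0 := by
  have : Infinite K := IsAlgClosed.instInfinite
  have key : ∀ {G H : MvPolynomial (Fin 2) K}, H.IsHomogeneous k → H ≠ 0 →
      pderiv 1 G * H = G * pderiv 1 H → ∀ u : Fin 2 → K, u 0 ≠ 0 → eval u H = 0 →
      eval u G = 0 := by
    intro G H hH hH0 hW u hu0 hu
    have hu' : (![u 0, u 1] : Fin 2 → K) = u := by
      funext i
      fin_cases i <;> rfl
    have h1 := ni7_root (g := ni7D (u 0) G) (h := ni7D (u 0) H) (ni7D_ne hH hH0 hu0) (by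
      rw [ni7D_derivative, ni7D_derivative, ← map_mul, ← map_mul, hW]) (t := u 1)
      (by rw [Polynomial.IsRoot, ni7D_eval, hu', hu])
    rwa [Polynomial.IsRoot, ni7D_eval, hu'] at h1
  obtain ⟨a, ha, haG⟩ := ni7_exists_zero hk hG
  obtain ⟨b, hb, hbH⟩ := ni7_exists_zero hk hH
  by_cases ha0 : a 0 = 0
  · by_cases hb0 : b 0 = 0
    · have ha1 : a 1 ≠ 0 := fun h1 => ha (by ext i; fin_cases i <;> simp [ha0, h1])
      have hb1 : b 1 ≠ 0 := fun h1 => hb (by ext i; fin_cases i <;> simp [hb0, h1])
      refine ⟨b, hb, ?_, hbH⟩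
      have h1 : b = fun i => (b 1 * (a 1)⁻¹) * a i := by
        funext i
        fin_cases i
        · simp [ha0, hb0]
        · simp [ha1]
      rw [h1, ni7_eval_smul hG, haG, mul_zero]
    · exact ⟨b, hb, key hH hH0 hW b hb0 hbH, hbH⟩
  · exact ⟨a, ha, haG, key hG hG0 (by rw [mul_comm, ← hW, mul_comm]) a ha0 haG⟩

end

end Vale.Agent.P292
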