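import Vale.Agent.P292.K.Ni7

/-! # Block I-7': two forms with vanishing Wronskian are proportional -/

namespace Vale.Agent.P292

open MvPolynomial

universe u

variable {K : Type u} [Field K]

/-- Two polynomials with vanishing Wronskian. -/
theorem ni7p_wronskian [CharZero K] {g h : Polynomial K} (h0 : h ≠ 0)
    (hW : Polynomial.derivative g * h = g * Polynomial.derivative h) :
    ∃ c : K, g = Polynomial.C c * h := by
  set m := h.natDegree with hm
  have hlc : h.coeff m ≠ 0 := by
    rw [hm]; exact Polynomial.leadingCoeff_ne_zero.2 h0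
  let c := g.coeff m / h.coeff m
  refine ⟨c, ?_⟩
  rw [← sub_eq_zero]
  set g₁ := g - Polynomial.C c * h with hg₁
  by_contra hne
  have hW1 : Polynomial.derivative g₁ * h = g₁ * Polynomial.derivative h := by
    rw [hg₁, Polynomial.derivative_sub, Polynomial.derivative_C_mul, sub_mul, sub_mul, hW]
    ring
  have hcm : g₁.coeff m = 0 := by
    rw [hg₁, Polynomial.coeff_sub, Polynomial.coeff_C_mul]
    change g.coeff m - g.coeff m / h.coeff m * h.coeff m = 0
    rw [div_mul_cancel₀ _ hlc, sub_self]
  set n := g₁.natDegree with hn
  have hlc1 : g₁.coeff n ≠ 0 := by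
    rw [hn]; exact Polynomial.leadingCoeff_ne_zero.2 hne
  have hnm : n ≠ m := by
    intro h1
    apply hlc1
    rw [h1]; exact hcm
  -- compare the coefficients of degree `n + m - 1`
  have key : (n : K) = m := by
    have e1 : ∀ (p q : Polynomial K) (a b : ℕ), p.natDegree ≤ a → q.natDegree ≤ b →
        (p * q).coeff (a + b) = p.coeff a * q.coeff b := fun p q a b ha hb =>
      Polynomial.coeff_mul_add_eq_of_natDegree_le ha hb
    rcases Nat.eq_zero_or_pos n with hn0 | hnpos
    · -- `g₁` constant
      have hd : Polynomial.derivative g₁ = 0 := by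
        rw [Polynomial.derivative_eq_zero, ← hn, hn0]
      rw [hd, zero_mul] at hW1
      have hd2 : Polynomial.derivative h = 0 := (mul_eq_zero.1 hW1.symm).resolve_left hne
      have : h.natDegree = 0 := Polynomial.derivative_eq_zero.1 hd2
      rw [hn0, hm, this]
    · rcases Nat.eq_zero_or_pos m with hm0 | hmpos
      · have hd : Polynomial.derivative h = 0 := by
          rw [Polynomial.derivative_eq_zero, ← hm, hm0]
        rw [hd, mul_zero] at hW1
        have hd2 : Polynomial.derivative g₁ = 0 := (mul_eq_zero.1 hW1).resolve_right h0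
        have : g₁.natDegree = 0 := Polynomial.derivative_eq_zero.1 hd2
        omega
      · obtain ⟨n', hn'⟩ := Nat.exists_eq_succ_of_ne_zero hnpos.ne'
        obtain ⟨m', hm'⟩ := Nat.exists_eq_succ_of_ne_zero hmpos.ne'
        have e2 : (Polynomial.derivative g₁ * h).coeff (n' + m) =
            (g₁ * Polynomial.derivative h).coeff (n' + m) := by rw [hW1]
        rw [e1 _ _ n' m (by
            refine (Polynomial.natDegree_derivative_le g₁).trans ?_
            omega) le_rfl] at e2
        have e3 : n' + m = n + m' := by omega
        rw [e3, e1 _ _ n m' le_rfl (by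
            refine (Polynomial.natDegree_derivative_le h).trans ?_
            omega), Polynomial.coeff_derivative, Polynomial.coeff_derivative] at e2
        have e4 : n' + 1 = n := by omega
        have e5 : m' + 1 = m := by omega
        rw [e4, e5] at e2
        have e6 : (g₁.coeff n * h.coeff m) * (n : K) = (g₁.coeff n * h.coeff m) * m := by
          have e7 : ((n' : K) + 1) = n := by rw [← e4]; push_cast; ring
          have e8 : ((m' : K) + 1) = m := by rw [← e5]; push_cast; ring
          rw [e7, e8] at e2
          linear_combination e2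
        exact mul_left_cancel₀ (mul_ne_zero hlc1 hlc) e6
  exact hnm (by exact_mod_cast key)

/-- I-7' Two forms of the same degree with vanishing Wronskian are proportional. -/
theorem ni_const [CharZero K] {k : ℕ} {G H : MvPolynomial (Fin 2) K}
    (hG : G.IsHomogeneous k) (hH : H.IsHomogeneous k) (hH0 : H ≠ 0)
    (hW : pderiv 1 G * H = G * pderiv 1 H) : ∃ c : K, G = C c * H := by
  have hinf : Infinite K := inferInstance
  have hh : ni7D 1 H ≠ 0 := ni7D_ne hH hH0 one_ne_zero
  obtain ⟨c, hc⟩ := ni7p_wronskian (g := ni7D 1 G) hh (by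
    rw [ni7D_derivative, ni7D_derivative, ← map_mul, hW, map_mul])
  refine ⟨c, ?_⟩
  rw [← sub_eq_zero]
  by_contra hne
  have h1 : (G - C c * H).IsHomogeneous k := by
    refine hG.sub ?_
    have := (isHomogeneous_C (Fin 2) c).mul hH
    rwa [zero_add] at this
  apply ni7D_ne h1 hne (one_ne_zero (α := K))
  rw [map_sub, map_mul, hc]
  have : ni7D 1 (C c : MvPolynomial (Fin 2) K) = Polynomial.C c := (ni7D 1).commutes c
  rw [this, sub_self]

end Vale.Agent.P292
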