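import Vale.Agent.P292.K.DerExt
import Vale.Agent.P292.K.N2c

/-! # Derivations and primes of height at most one. -/

namespace Vale.Agent.P292

open IsLocalRing

universe u v w

/-- Functionals on the cotangent space of a local ring come from derivations. -/
theorem ni8_exists_der {L : Type u} [CommRing L] [IsLocalRing L] [Algebra ℂ L]
    (f : CotangentSpace L →ₗ[L] ResidueField L) :
    ∃ x : L →ₗ[ℂ] ResidueField L, (∀ a b, x (a * b) = residue L a * x b + residue L b * x a) ∧
      ∀ a : maximalIdeal L, x a = f ((maximalIdeal L).toCotangent a) := by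
  set m := maximalIdeal L with hm
  let S := ResidueField L
  have hch : CharZero S := charZero_of_injective_algebraMap (algebraMap ℂ S).injective
  have hsm : Algebra.FormallySmooth ℂ S := formallySmooth_of_faithful
  let g₀ : L →ₐ[ℂ] S := IsScalarTower.toAlgHom ℂ L S
  have hg₀ : ∀ a, g₀ a = residue L a := fun a => rfl
  have hg₀m : ∀ a ∈ m ^ 2, g₀ a = 0 := fun a ha => by
    rw [hg₀, residue_eq_zero_iff]
    exact Ideal.pow_le_self two_ne_zero ha
  let g : (L ⧸ m ^ 2) →ₐ[ℂ] S := Ideal.Quotient.liftₐ (m ^ 2) g₀ hg₀m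
  have hg : ∀ a, g (Ideal.Quotient.mk (m ^ 2) a) = residue L a := fun a => rfl
  have hsurj : Function.Surjective g := fun s => by
    obtain ⟨a, rfl⟩ := residue_surjective s
    exact ⟨Ideal.Quotient.mk (m ^ 2) a, hg a⟩
  have hker : ∀ b, g b = 0 ↔ b ∈ m.cotangentIdeal := by
    intro b
    obtain ⟨a, rfl⟩ := Ideal.Quotient.mk_surjective b
    rw [hg, residue_eq_zero_iff, Ideal.mk_mem_cotangentIdeal]
  have hnil : IsNilpotent (RingHom.ker (g : (L ⧸ m ^ 2) →+* S)) := by
    refine ⟨2, ?_⟩
    have : RingHom.ker (g : (L ⧸ m ^ 2) →+* S) = m.cotangentIdeal := by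
      ext b
      rw [RingHom.mem_ker]
      exact hker b
    rw [this, Ideal.cotangentIdeal_square]
    rfl
  let σ : S →ₐ[ℂ] L ⧸ m ^ 2 := Algebra.FormallySmooth.liftOfSurjective (AlgHom.id ℂ S) g hsurj hnil
  have hσ : ∀ s, g (σ s) = s := fun s =>
    Algebra.FormallySmooth.liftOfSurjective_apply (AlgHom.id ℂ S) g hsurj hnil s
  have hmem : ∀ a : L, Ideal.Quotient.mk (m ^ 2) a - σ (residue L a) ∈ m.cotangentIdeal := by
    intro a
    rw [← hker, map_sub, hσ, hg, sub_self]
  let D : L → m.cotangentIdeal := fun a => ⟨_, hmem a⟩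
  have hD : ∀ a, (D a : L ⧸ m ^ 2) = Ideal.Quotient.mk (m ^ 2) a - σ (residue L a) := fun a => rfl
  have hDadd : ∀ a b, D (a + b) = D a + D b := by
    intro a b
    apply Subtype.ext
    change (D (a + b) : L ⧸ m ^ 2) = (D a : L ⧸ m ^ 2) + (D b : L ⧸ m ^ 2)
    rw [hD, hD, hD, map_add, map_add, map_add]
    ring
  have hDmul : ∀ a b, D (a * b) = a • D b + b • D a := by
    intro a b
    apply Subtype.ext
    change (D (a * b) : L ⧸ m ^ 2) = Ideal.Quotient.mk (m ^ 2) a * (D b : L ⧸ m ^ 2) +
      Ideal.Quotient.mk (m ^ 2) b * (D a : L ⧸ m ^ 2)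
    have h1 : (D a : L ⧸ m ^ 2) * (D b : L ⧸ m ^ 2) = 0 := by
      have := Ideal.mul_mem_mul (D a).2 (D b).2
      rw [← pow_two, Ideal.cotangentIdeal_square] at this
      exact this
    rw [hD, hD] at h1
    rw [hD, hD, hD, map_mul, map_mul, map_mul]
    linear_combination -h1
  have hDC : ∀ c : ℂ, D (algebraMap ℂ L c) = 0 := by
    intro c
    apply Subtype.ext
    rw [hD]
    have h1 : residue L (algebraMap ℂ L c) = algebraMap ℂ S c := rfl
    rw [h1, AlgHom.commutes]
    exact sub_self _
  let F : m.cotangentIdeal →ₗ[L] S := f ∘ₗ (m.cotangentEquivIdeal.symm : _ →ₗ[L] m.Cotangent)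
  have hsmul : ∀ (a : L) (s : S), a • s = residue L a * s := fun a s => by
    rw [Algebra.smul_def]; rfl
  refine ⟨{ toFun := fun a => F (D a)
            map_add' := fun a b => by rw [hDadd, map_add]
            map_smul' := fun c a => by
              rw [RingHom.id_apply, Algebra.smul_def c a, hDmul, hDC, smul_zero, add_zero,
                map_smul, hsmul]
              rw [Algebra.smul_def c (F (D a))]
              rfl }, fun a b => ?_, fun a => ?_⟩
  · change F (D (a * b)) = residue L a * F (D b) + residue L b * F (D a)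
    rw [hDmul, map_add, map_smul, map_smul, hsmul, hsmul]
  · change F (D a) = _
    have h1 : residue L (a : L) = 0 := (residue_eq_zero_iff _).2 a.2
    have h2 : D a = ⟨(m ^ 2).mkQ (a : L), Submodule.mem_map_of_mem a.2⟩ := by
      apply Subtype.ext
      rw [hD, h1, map_zero, sub_zero]
      rfl
    rw [h2]
    change f (m.cotangentEquivIdeal.symm _) = _
    rw [Ideal.cotangentEquivIdeal_symm_apply]

variable {R : Type u} [CommRing R] [Algebra ℂ R] {𝒜 : ℕ → Submodule ℂ R} [GradedAlgebra 𝒜]
  {P : R →ₗ[ℂ] R →ₗ[ℂ] R}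

/-- Functionals on the cotangent space at a point come from derivations. -/
theorem ni8_exists_isDer {κ : Type v} [Field κ] [Algebra ℂ κ] (z : R →ₐ[ℂ] κ) (q : Ideal R)
    [q.IsPrime] (hq : ∀ r, r ∈ q ↔ z r = 0) :
    ∃ ι : ResidueField (Localization.AtPrime q) →+* κ,
      ∀ f : CotangentSpace (Localization.AtPrime q) →ₗ[Localization.AtPrime q]
        ResidueField (Localization.AtPrime q),
      ∃ x : R →ₗ[ℂ] κ, IsDer z x ∧ ∀ r (a : maximalIdeal (Localization.AtPrime q)),
        (a : Localization.AtPrime q) = algebraMap R _ r →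
        x r = ι (f ((maximalIdeal (Localization.AtPrime q)).toCotangent a)) := by
  let L := Localization.AtPrime q
  have hu : ∀ s : q.primeCompl, IsUnit ((z : R →+* κ) s) := fun s =>
    isUnit_iff_ne_zero.2 fun h => s.2 ((hq s).2 h)
  let ι₀ : L →+* κ := IsLocalization.lift hu
  have hι₀ : ∀ r, ι₀ (algebraMap R L r) = z r := fun r => IsLocalization.lift_eq hu r
  have hloc : IsLocalHom ι₀ := by
    refine ⟨fun a ha => ?_⟩
    by_contra h
    have h1 : a ∈ maximalIdeal L := (mem_maximalIdeal a).2 h
    obtain ⟨⟨r, s⟩, hrs⟩ := IsLocalization.surj q.primeCompl a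
    have h2 : algebraMap R L r ∈ maximalIdeal L := by
      rw [← hrs]
      exact Ideal.mul_mem_right _ _ h1
    have h3 : r ∈ q := (IsLocalization.AtPrime.to_map_mem_maximal_iff L q r).1 h2
    have h4 := congrArg ι₀ hrs
    rw [map_mul, hι₀, hι₀, (hq r).1 h3] at h4
    rcases mul_eq_zero.1 h4 with h5 | h5
    · rw [h5] at ha
      exact not_isUnit_zero ha
    · exact s.2 ((hq s).2 h5)
  let ι : ResidueField L →+* κ := ResidueField.lift ι₀
  have hι : ∀ a, ι (residue L a) = ι₀ a := fun a => ResidueField.lift_residue_apply ι₀ a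
  refine ⟨ι, fun f => ?_⟩
  obtain ⟨x, hx, hxm⟩ := ni8_exists_der f
  have hιC : ∀ c : ℂ, ι (algebraMap ℂ (ResidueField L) c) = algebraMap ℂ κ c := by
    intro c
    have h1 : algebraMap ℂ (ResidueField L) c = residue L (algebraMap R L (algebraMap ℂ R c)) := by
      rw [← IsScalarTower.algebraMap_apply ℂ R L]
      rfl
    rw [h1, hι, hι₀, AlgHom.commutes]
  refine ⟨{ toFun := fun r => ι (x (algebraMap R L r))
            map_add' := fun r s => by rw [map_add, map_add, map_add]
            map_smul' := fun c r => by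
              have h1 : algebraMap R L (c • r) = c • algebraMap R L r := by
                rw [Algebra.smul_def, map_mul, ← IsScalarTower.algebraMap_apply ℂ R L,
                  Algebra.smul_def]
              rw [RingHom.id_apply, h1, map_smul, Algebra.smul_def, map_mul, hιC,
                Algebra.smul_def] }, fun r s => ?_, fun r a ha => ?_⟩
  · change ι (x (algebraMap R L (r * s))) = z r * ι (x (algebraMap R L s)) +
      z s * ι (x (algebraMap R L r))
    rw [map_mul, hx, map_add, map_mul, map_mul, hι, hι, hι₀, hι₀]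
  · change ι (x (algebraMap R L r)) = _
    rw [← ha, hxm]

omit [Algebra ℂ R] in
/-- Every cotangent vector at a prime is a nonzero multiple of one given by an element of the
prime. -/
theorem ni8_exists_smul (q : Ideal R) [q.IsPrime] (e : CotangentSpace (Localization.AtPrime q)) :
    ∃ r ∈ q, ∃ c : ResidueField (Localization.AtPrime q), c ≠ 0 ∧
      ∃ a : maximalIdeal (Localization.AtPrime q),
        (a : Localization.AtPrime q) = algebraMap R _ r ∧
        (maximalIdeal (Localization.AtPrime q)).toCotangent a = c • e := by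
  let L := Localization.AtPrime q
  obtain ⟨b, rfl⟩ := (maximalIdeal L).toCotangent_surjective e
  obtain ⟨⟨r, s⟩, hrs⟩ := IsLocalization.surj q.primeCompl (b : L)
  have h2 : algebraMap R L r ∈ maximalIdeal L := by
    rw [← hrs]
    exact Ideal.mul_mem_right _ _ b.2
  have h3 : r ∈ q := (IsLocalization.AtPrime.to_map_mem_maximal_iff L q r).1 h2
  refine ⟨r, h3, residue L (algebraMap R L s), ?_, ⟨_, h2⟩, rfl, ?_⟩
  · rw [Ne, residue_eq_zero_iff, IsLocalization.AtPrime.to_map_mem_maximal_iff L q]
    exact s.2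
  · have h4 : (⟨algebraMap R L r, h2⟩ : maximalIdeal L) = algebraMap R L s • b := by
      apply Subtype.ext
      change algebraMap R L r = algebraMap R L s * (b : L)
      rw [← hrs, mul_comm]
    rw [h4, map_smul]
    exact (algebraMap_smul (ResidueField L) (algebraMap R L s)
      ((maximalIdeal L).toCotangent b)).symm

/-- A point at which all derivations kill the kernel is injective. -/
theorem ni_injective (hX : IsContactFano 𝒜 P) [IsDomain R] {κ : Type v} [Field κ] [Algebra ℂ κ]
    (z : R →ₐ[ℂ] κ) (h : ∀ x : R →ₗ[ℂ] κ, IsDer z x → ∀ r, z r = 0 → x r = 0) :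
    Function.Injective z := by
  have := hX.finiteType
  have : IsNoetherianRing R := Algebra.FiniteType.isNoetherianRing ℂ R
  let q : Ideal R := RingHom.ker z
  have hqp : q.IsPrime := RingHom.ker_isPrime _
  have hq : ∀ r, r ∈ q ↔ z r = 0 := fun r => Iff.rfl
  let L := Localization.AtPrime q
  have hL : IsNoetherianRing L := IsLocalization.isNoetherianRing q.primeCompl L inferInstance
  obtain ⟨ι, hι⟩ := ni8_exists_isDer z q hq
  have hsub : Subsingleton (CotangentSpace L) := by
    refine ⟨fun e e' => ?_⟩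
    suffices H : ∀ e : CotangentSpace L, e = 0 by rw [H e, H e']
    intro e
    by_contra he
    obtain ⟨f, hf, -⟩ := Submodule.exists_le_ker_of_notMem (p := (⊥ : Submodule (ResidueField L)
      (CotangentSpace L))) (v := e) he
    obtain ⟨r, hr, c, hc, a, ha, hac⟩ := ni8_exists_smul q e
    obtain ⟨x, hx, hxr⟩ := hι (f.restrictScalars L)
    have h1 := hxr r a ha
    rw [h x hx r ((hq r).1 hr), hac] at h1
    have h2 : ι (f (c • e)) = 0 := h1.symm
    rw [map_eq_zero, map_smul, smul_eq_mul, mul_eq_zero] at h2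
    exact h2.elim hc hf
  have hfield : IsField L := subsingleton_cotangentSpace_iff.1 hsub
  have hbot : maximalIdeal L = ⊥ := isField_iff_maximalIdeal_eq.1 hfield
  have hinj : Function.Injective (algebraMap R L) :=
    IsLocalization.injective L (Ideal.primeCompl_le_nonZeroDivisors q)
  rw [injective_iff_map_eq_zero]
  intro r hr
  have h1 : algebraMap R L r ∈ maximalIdeal L :=
    (IsLocalization.AtPrime.to_map_mem_maximal_iff L q r).2 ((hq r).2 hr)
  rw [hbot, Ideal.mem_bot] at h1
  exact hinj (h1.trans (map_zero _).symm)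

/-- A point at which all derivations are proportional on the kernel is injective or the generic
point of a divisor. -/
theorem ni8_dvr (hX : IsContactFano 𝒜 P) [IsDomain R] {κ : Type v} [Field κ] [Algebra ℂ κ]
    (z : R →ₐ[ℂ] κ) (y : R →ₗ[ℂ] κ)
    (hy : ∀ x : R →ₗ[ℂ] κ, IsDer z x → ∃ c : κ, ∀ r, z r = 0 → x r = c * y r)
    (q : Ideal R) [q.IsPrime] (hq : ∀ r, r ∈ q ↔ z r = 0) {g : R} (hg0 : g ≠ 0) (hg : z g = 0) :
    IsDiscreteValuationRing (Localization.AtPrime q) := by
  have := hX.finiteType
  have : IsNoetherianRing R := Algebra.FiniteType.isNoetherianRing ℂ R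
  let L := Localization.AtPrime q
  have hL : IsNoetherianRing L := IsLocalization.isNoetherianRing q.primeCompl L inferInstance
  have hLd : IsDomain L := IsLocalization.isDomain_localization q.primeCompl_le_nonZeroDivisors
  have hinj : Function.Injective (algebraMap R L) :=
    IsLocalization.injective L (Ideal.primeCompl_le_nonZeroDivisors q)
  obtain ⟨ι, hι⟩ := ni8_exists_isDer z q hq
  have hfin : Module.finrank (ResidueField L) (CotangentSpace L) ≤ 1 := by
    by_cases h0 : ∀ e : CotangentSpace L, e = 0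
    · exact finrank_le_one 0 fun w => ⟨0, by rw [h0 w, smul_zero]⟩
    · push Not at h0
      obtain ⟨e, he⟩ := h0
      -- a nonzero functional
      obtain ⟨f, hf, -⟩ := Submodule.exists_le_ker_of_notMem (p := (⊥ : Submodule (ResidueField L)
        (CotangentSpace L))) (v := e) he
      obtain ⟨r, hr, c, hc, a, ha, hac⟩ := ni8_exists_smul q e
      obtain ⟨x, hx, hxr⟩ := hι (f.restrictScalars L)
      obtain ⟨t, ht⟩ := hy x hx
      have hyr : y r ≠ 0 := by
        intro h1
        have h2 := hxr r a ha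
        rw [ht r ((hq r).1 hr), h1, mul_zero, hac] at h2
        have h3 : ι (f (c • e)) = 0 := h2.symm
        rw [map_eq_zero, map_smul, smul_eq_mul, mul_eq_zero] at h3
        exact h3.elim hc hf
      refine finrank_le_one e fun w => ?_
      by_contra hw
      have hw' : w ∉ Submodule.span (ResidueField L) {e} := fun h =>
        hw (Submodule.mem_span_singleton.1 h)
      obtain ⟨f', hf', hf'e⟩ := Submodule.exists_le_ker_of_notMem hw'
      have hf'e' : f' e = 0 := hf'e (Submodule.mem_span_singleton_self e)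
      obtain ⟨x', hx', hxr'⟩ := hι (f'.restrictScalars L)
      obtain ⟨t', ht'⟩ := hy x' hx'
      have ht0 : t' = 0 := by
        have h2 := hxr' r a ha
        rw [ht' r ((hq r).1 hr), hac] at h2
        have h3 : t' * y r = ι (f' (c • e)) := h2
        rw [map_smul, hf'e', smul_zero, map_zero] at h3
        exact (mul_eq_zero.1 h3).resolve_right hyr
      obtain ⟨r', hr', c', hc', a', ha', hac'⟩ := ni8_exists_smul q w
      have h2 := hxr' r' a' ha'
      rw [ht' r' ((hq r').1 hr'), hac', ht0, zero_mul] at h2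
      have h3 : ι (f' (c' • w)) = 0 := h2.symm
      rw [map_eq_zero, map_smul, smul_eq_mul, mul_eq_zero] at h3
      exact h3.elim hc' hf'
  have hnf : ¬ IsField L := by
    intro hfield
    have hbot : maximalIdeal L = ⊥ := isField_iff_maximalIdeal_eq.1 hfield
    have h1 : algebraMap R L g ∈ maximalIdeal L :=
      (IsLocalization.AtPrime.to_map_mem_maximal_iff L q g).2 ((hq g).2 hg)
    rw [hbot, Ideal.mem_bot] at h1
    exact hg0 (hinj (h1.trans (map_zero _).symm))
  have hone : Module.finrank (ResidueField L) (CotangentSpace L) = 1 := by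
    have h0 : Module.finrank (ResidueField L) (CotangentSpace L) ≠ 0 := fun h =>
      hnf (finrank_cotangentSpace_eq_zero_iff.1 h)
    omega
  exact finrank_CotangentSpace_eq_one_iff.1 hone

/-- A point on a divisor at which all derivations are proportional on the kernel is the generic
point of the divisor. -/
theorem ni_dvr_or_field (hX : IsContactFano 𝒜 P) [IsDomain R] {κ : Type v} [Field κ] [Algebra ℂ κ]
    (z : R →ₐ[ℂ] κ) (y : R →ₗ[ℂ] κ)
    (hy : ∀ x : R →ₗ[ℂ] κ, IsDer z x → ∃ c : κ, ∀ r, z r = 0 → x r = c * y r)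
    (p : Ideal R) [p.IsPrime] (h0 : p ≠ ⊥) (hp : ∀ r ∈ p, z r = 0) : ∀ r, z r = 0 → r ∈ p := by
  obtain ⟨g, hgp, hg0⟩ := Submodule.exists_mem_ne_zero_of_ne_bot h0
  let q : Ideal R := RingHom.ker z
  have hqp : q.IsPrime := RingHom.ker_isPrime _
  have hq : ∀ r, r ∈ q ↔ z r = 0 := fun r => Iff.rfl
  have hdvr := ni8_dvr hX z y hy q hq hg0 (hp g hgp)
  intro r hr
  rcases eq_bot_or_eq_of_dvr q hdvr p (fun a ha => hp a ha) with h1 | h1
  · exact absurd h1 h0
  · rw [h1]
    exact hr

/-- A point at which all derivations are proportional on the kernel does not lie on two coprime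
divisors. -/
theorem ni_no_common_zero (hX : IsContactFano 𝒜 P) [IsDomain R] [UniqueFactorizationMonoid R]
    {κ : Type v} [Field κ] [Algebra ℂ κ] (z : R →ₐ[ℂ] κ) (y : R →ₗ[ℂ] κ)
    (hy : ∀ x : R →ₗ[ℂ] κ, IsDer z x → ∃ c : κ, ∀ r, z r = 0 → x r = c * y r)
    {g h : R} (hgh : IsRelPrime g h) (hg : z g = 0) (hh : z h = 0) : False := by
  -- `g` is not zero
  have hg0 : g ≠ 0 := by
    rintro rfl
    have h1 : IsUnit h := hgh (dvd_zero h) dvd_rfl
    have h2 : IsUnit (z h) := h1.map z
    rw [hh] at h2
    exact not_isUnit_zero h2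
  -- a prime factor of `g`
  obtain ⟨π, hπ, hπz, hπg⟩ : ∃ π : R, Prime π ∧ z π = 0 ∧ π ∣ g := by
    have key : ∀ a : R, a ≠ 0 → z a = 0 → ∃ π : R, Prime π ∧ z π = 0 ∧ π ∣ a := by
      intro a
      induction a using WfDvdMonoid.induction_on_irreducible with
      | zero => exact fun h => absurd rfl h
      | unit u hu => exact fun _ h => absurd (h ▸ hu.map z) not_isUnit_zero
      | mul a i ha hi ih =>
        intro _ h
        rw [map_mul] at h
        rcases mul_eq_zero.1 h with h1 | h1
        · exact ⟨i, UniqueFactorizationMonoid.irreducible_iff_prime.1 hi, h1, Dvd.intro _ rfl⟩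
        · obtain ⟨π, h2, h3, h4⟩ := ih ha h1
          exact ⟨π, h2, h3, h4.mul_left _⟩
    exact key g hg0 hg
  have hspan : (Ideal.span {π}).IsPrime := (Ideal.span_singleton_prime hπ.ne_zero).2 hπ
  have hne : Ideal.span {π} ≠ ⊥ := fun h => hπ.ne_zero (Ideal.span_singleton_eq_bot.1 h)
  have hle : ∀ r ∈ Ideal.span {π}, z r = 0 := by
    intro r hr
    obtain ⟨t, rfl⟩ := Ideal.mem_span_singleton'.1 hr
    rw [map_mul, hπz, mul_zero]
  have hπh : π ∣ h := by
    rw [← Ideal.mem_span_singleton]
    exact ni_dvr_or_field hX z y hy (Ideal.span {π}) hne hle h hh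
  exact hπ.not_isUnit (hgh hπg hπh)

end Vale.Agent.P292
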