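import Vale.Agent.P292.K.Ni1
import Vale.Agent.P292.K.Ext
import Vale.Agent.P292.K.Q2Defs

/-! # Block I: preliminaries for the assembly. -/

namespace Vale.Agent.P292

open MvPolynomial

universe u v w

section maps

variable {R : Type u} [CommRing R] [Algebra ℂ R] {𝒜 : ℕ → Submodule ℂ R} {d : ℕ}
  {k : Type v} {E : Type w} [Field k] [Field E] [Algebra ℂ k] [Algebra ℂ E]

/-- Change of the coefficients of a curve. -/
noncomputable def niMap (f : k →ₐ[ℂ] E) (φ : R →ₐ[ℂ] MvPolynomial (Fin 2) k) :
    R →ₐ[ℂ] MvPolynomial (Fin 2) E := (mapAlgHom f).comp φ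

theorem niMap_apply (f : k →ₐ[ℂ] E) (φ : R →ₐ[ℂ] MvPolynomial (Fin 2) k) (r : R) :
    niMap f φ r = map (f : k →+* E) (φ r) := rfl

theorem IsCurve.niMap [IsAlgClosed k] {φ : R →ₐ[ℂ] MvPolynomial (Fin 2) k}
    (hφ : IsCurve 𝒜 d φ) (f : k →ₐ[ℂ] E) : IsCurve 𝒜 d (P292.niMap f φ) := by
  refine ni_isCurve _ (fun n r hr => ?_) (fun i => ?_)
  · rw [niMap_apply]
    exact (hφ.degree n r hr).map _
  · obtain ⟨N, n, c, r, e, he, hr, hsum⟩ := hφ.exists_pow i
    refine ⟨N, n, fun j => map (f : k →+* E) (c j), r, e, he, hr, ?_⟩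
    have := congrArg (map (f : k →+* E)) hsum
    rw [map_sum, map_pow, map_X] at this
    rw [← this]
    exact Finset.sum_congr rfl fun j _ => by rw [niMap_apply, map_mul]

theorem niA_eval_map_10 (f : k →ₐ[ℂ] E) (p : MvPolynomial (Fin 2) k) :
    eval ![1, 0] (map (f : k →+* E) p) = f (eval ![1, 0] p) := by
  rw [eval_map]
  have := eval₂_comp_left (f : k →+* E) (RingHom.id k) ![1, 0] p
  rw [RingHom.comp_id] at this
  refine Eq.trans ?_ this.symm
  congr 1
  funext i
  fin_cases i <;> simp

theorem pt_niMap_10 (f : k →ₐ[ℂ] E) (φ : R →ₐ[ℂ] MvPolynomial (Fin 2) k) (r : R) :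
    pt (niMap f φ) ![1, 0] r = f (pt φ ![1, 0] r) := by
  rw [pt_apply, pt_apply, niMap_apply, niA_eval_map_10]

theorem evL_pd_niMap (f : k →ₐ[ℂ] E) (φ : R →ₐ[ℂ] MvPolynomial (Fin 2) k) (i : Fin 2) (r : R) :
    evL ![1, 0] (pd (niMap f φ) i) r = f (evL ![1, 0] (pd φ i) r) := by
  rw [evL_apply, evL_apply, pd_apply, pd_apply, niMap_apply, pderiv_map, niA_eval_map_10]

end maps

section ext

variable {R : Type u} [CommRing R] [Algebra ℂ R] [IsDomain R]

/-- Extension of an injective point to the algebraic closure of the fraction field. -/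
theorem ni_exists_embedding {L : Type v} [Field L] [IsAlgClosed L]
    [Algebra ℂ L] {η : R →ₐ[ℂ] L} (hη : Function.Injective η) :
    ∃ i : AlgebraicClosure (FractionRing R) →ₐ[ℂ] L, ∀ r : R, i (algebraMap R _ r) = η r := by
  let _ : Algebra R L := (η : R →+* L).toAlgebra
  have hmap : ∀ r, algebraMap R L r = η r := fun r => rfl
  have : IsScalarTower ℂ R L := IsScalarTower.of_algebraMap_eq fun c => (η.commutes c).symm
  have : FaithfulSMul R L := (faithfulSMul_iff_algebraMap_injective R L).2 hη
  let _ : Algebra (FractionRing R) L := FractionRing.liftAlgebra R L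
  have : IsScalarTower R (FractionRing R) L := FractionRing.isScalarTower_liftAlgebra R L
  have : IsScalarTower ℂ (FractionRing R) L := IsScalarTower.of_algebraMap_eq fun c => by
    rw [IsScalarTower.algebraMap_apply ℂ R L, IsScalarTower.algebraMap_apply ℂ R (FractionRing R),
      ← IsScalarTower.algebraMap_apply R (FractionRing R) L]
  let i : AlgebraicClosure (FractionRing R) →ₐ[FractionRing R] L := IsAlgClosed.lift
  refine ⟨i.restrictScalars ℂ, fun r => ?_⟩
  rw [AlgHom.restrictScalars_apply, IsScalarTower.algebraMap_apply R (FractionRing R)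
    (AlgebraicClosure (FractionRing R)), i.commutes,
    ← IsScalarTower.algebraMap_apply R (FractionRing R) L]
  rfl

/-- A derivation along the fraction field which vanishes on `R` is zero. -/
theorem ni_frac_killed {M : Type v} [Field M] [Algebra ℂ M] (i : FractionRing R →ₐ[ℂ] M)
    (D : FractionRing R →ₗ[ℂ] M) (hder : IsDer i D)
    (hD : ∀ r : R, D (algebraMap R _ r) = 0) (x : FractionRing R) : D x = 0 := by
  obtain ⟨r, s, hs, rfl⟩ := IsFractionRing.div_surjective (A := R) x
  have hs0 : algebraMap R (FractionRing R) s ≠ 0 := by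
    intro h
    rw [← map_zero (algebraMap R (FractionRing R))] at h
    exact nonZeroDivisors.ne_zero hs (IsFractionRing.injective R (FractionRing R) h)
  have h1 := hder (algebraMap R (FractionRing R) r / algebraMap R (FractionRing R) s)
    (algebraMap R (FractionRing R) s)
  rw [div_mul_cancel₀ _ hs0, hD, hD, mul_zero, zero_add] at h1
  have h2 : i (algebraMap R (FractionRing R) s) ≠ 0 := by
    rw [Ne, map_eq_zero]
    exact hs0
  exact (mul_eq_zero.1 h1.symm).resolve_left h2

/-- A derivation which kills `R` kills the algebraic closure of the fraction field. -/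
theorem ni_alg_killed {K : Type v} [Field K] [Algebra ℂ K]
    (i : AlgebraicClosure (FractionRing R) →ₐ[ℂ] K) (D : Derivation ℂ K K)
    (hD : ∀ r : R, D (i (algebraMap R _ r)) = 0) (a : AlgebraicClosure (FractionRing R)) :
    D (i a) = 0 := by
  have hF : ∀ x : FractionRing R, D (i (algebraMap (FractionRing R) _ x)) = 0 := by
    intro x
    refine ni_frac_killed (i.comp (IsScalarTower.toAlgHom ℂ (FractionRing R)
      (AlgebraicClosure (FractionRing R))))
      ((D : K →ₗ[ℂ] K) ∘ₗ (i.comp (IsScalarTower.toAlgHom ℂ (FractionRing R)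
      (AlgebraicClosure (FractionRing R)))).toLinearMap) ?_ ?_ x
    · intro x y
      change D (i (algebraMap _ _ (x * y))) = _
      rw [map_mul, map_mul, Derivation.leibniz, smul_eq_mul, smul_eq_mul]
      rfl
    · intro r
      change D (i (algebraMap _ _ (algebraMap R (FractionRing R) r))) = 0
      rw [← IsScalarTower.algebraMap_apply]
      exact hD r
  have key : ∀ p : Polynomial (FractionRing R),
      D (i (Polynomial.aeval a p)) = i (Polynomial.aeval a p.derivative) * D (i a) := by
    intro p
    induction p using Polynomial.induction_on' with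
    | add p q hp hq =>
      rw [map_add, map_add, map_add, hp, hq, Polynomial.derivative_add, map_add, map_add]
      ring
    | monomial n c =>
      rw [Polynomial.aeval_monomial, Polynomial.derivative_monomial, Polynomial.aeval_monomial,
        map_mul, Derivation.leibniz, hF, smul_zero, add_zero, smul_eq_mul, map_pow,
        Derivation.leibniz_pow, map_mul, map_mul, map_mul, map_pow, map_natCast, map_natCast,
        nsmul_eq_mul, smul_eq_mul]
      ring
  have : CharZero (FractionRing R) :=
    charZero_of_injective_algebraMap (algebraMap ℂ (FractionRing R)).injective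
  have hint : IsIntegral (FractionRing R) a := Algebra.IsIntegral.isIntegral a
  have h1 := key (minpoly (FractionRing R) a)
  rw [minpoly.aeval, map_zero, map_zero] at h1
  have h2 : Polynomial.aeval a (minpoly (FractionRing R) a).derivative ≠ 0 :=
    (minpoly.irreducible hint).separable.aeval_derivative_ne_zero (minpoly.aeval _ _)
  have h3 : i (Polynomial.aeval a (minpoly (FractionRing R) a).derivative) ≠ 0 := by
    rwa [Ne, map_eq_zero]
  exact (mul_eq_zero.1 h1.symm).resolve_left h3

end ext

end Vale.Agent.P292
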