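import Vale.Agent.P292.K.N3
import Vale.Agent.P292.K.Basic

/-! # Block I-1, I-2: specialisation of curves to an algebraically closed subfield -/

namespace Vale.Agent.P292

open MvPolynomial

universe u v w

variable {R : Type u} [CommRing R] [Algebra ℂ R] {𝒜 : ℕ → Submodule ℂ R}

/-- Every curve over an algebraically closed field `E` has a finite set of elements of `E` such
that it specialises to a curve by every point of every subalgebra containing this set. -/
theorem nic_exists_finset {E : Type w} [Field E] [Algebra ℂ E] {k : Type v} [Field k]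
    [Algebra ℂ k] [Algebra.FiniteType ℂ R] [IsAlgClosed E] {d : ℕ}
    {φ : R →ₐ[ℂ] MvPolynomial (Fin 2) E} (hφ : IsCurve 𝒜 d φ) :
    ∃ S : Finset E, ∀ A₀ : Subalgebra ℂ E, (S : Set E) ⊆ A₀ → ∀ σ : A₀ →ₐ[ℂ] k,
      ∃ ψ : R →ₐ[ℂ] MvPolynomial (Fin 2) k, IsCurve 𝒜 d ψ ∧
        ∀ r m, ∃ h : coeff m (φ r) ∈ A₀, coeff m (ψ r) = σ ⟨coeff m (φ r), h⟩ := by
  classical
  obtain ⟨G, hG⟩ := Algebra.FiniteType.out (R := ℂ) (A := R)
  obtain ⟨N0, n0, c0, r0, k0, hk0, hr0, h0⟩ := hφ.exists_pow 0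
  obtain ⟨N1, n1, c1, r1, k1, hk1, hr1, h1⟩ := hφ.exists_pow 1
  set S : Finset E := G.biUnion (fun g => (φ g).coeffs) ∪
    (Finset.univ.biUnion fun j => (c0 j).coeffs) ∪
    (Finset.univ.biUnion fun j => (c1 j).coeffs) with hS
  refine ⟨S, fun A₀ hSA σ => ?_⟩
  set M : MvPolynomial (Fin 2) A₀ →ₐ[ℂ] MvPolynomial (Fin 2) E := mapAlgHom A₀.val with hMdef
  have hMapp : ∀ p, M p = map (algebraMap A₀ E) p := fun p => rfl
  have hM : Function.Injective M := MvPolynomial.map_injective _ Subtype.val_injective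
  have hmem : ∀ p : MvPolynomial (Fin 2) E, (p.coeffs : Set E) ⊆ A₀ → ∃ q, M q = p := by
    intro p hp
    have : p ∈ Set.range (MvPolynomial.map (algebraMap A₀ E)) := by
      rw [mem_range_map_iff_coeffs_subset]
      intro e he
      exact ⟨⟨e, hp he⟩, rfl⟩
    exact this
  have hrange : ∀ r, φ r ∈ M.range := by
    intro r
    have h2 : φ.range ≤ M.range := by
      rw [← Algebra.map_top, ← hG, AlgHom.map_adjoin, Algebra.adjoin_le_iff]
      rintro _ ⟨g, hg, rfl⟩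
      obtain ⟨q, hq⟩ := hmem (φ g) (by
        refine subset_trans ?_ hSA
        rw [hS]
        intro e he
        simp only [Finset.coe_union, Set.mem_union, Finset.mem_coe, Finset.mem_biUnion]
        exact Or.inl (Or.inl ⟨g, hg, he⟩))
      exact ⟨q, hq⟩
    exact h2 ⟨r, rfl⟩
  set e := AlgEquiv.ofInjective M hM with he
  set φ₀ : R →ₐ[ℂ] MvPolynomial (Fin 2) A₀ :=
    (e.symm : M.range →ₐ[ℂ] MvPolynomial (Fin 2) A₀).comp (φ.codRestrict M.range hrange) with hφ₀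
  have hφ₀M : ∀ r, M (φ₀ r) = φ r := by
    intro r
    have : (e (φ₀ r) : MvPolynomial (Fin 2) E) = φ r := by
      rw [hφ₀]
      simp
    rw [← this]
    rfl
  have hcf : ∀ r m, ((coeff m (φ₀ r) : A₀) : E) = coeff m (φ r) := by
    intro r m
    rw [← hφ₀M r, hMapp, coeff_map]
    rfl
  have hmap : ∀ r, ((mapAlgHom σ).comp φ₀) r = map (σ : A₀ →+* k) (φ₀ r) := fun r => rfl
  refine ⟨(mapAlgHom σ).comp φ₀, ⟨?_, ?_⟩, ?_⟩
  · intro k r hr m hm
    have hm' : coeff m (φ₀ r) ≠ 0 := by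
      intro h
      apply hm
      rw [hmap, coeff_map, h, map_zero]
    have h3 : coeff m (φ r) ≠ 0 := by
      rw [← hφ₀M r, hMapp, coeff_map]
      intro h
      apply hm'
      exact Subtype.val_injective (h.trans (map_zero (algebraMap A₀ E)).symm)
    exact hφ.degree k r hr h3
  · intro x hx
    have key : ∀ (i : Fin 2) (N n : ℕ) (c : Fin n → MvPolynomial (Fin 2) E) (r : Fin n → R)
        (k : Fin n → ℕ), (∀ j, 0 < k j) → (∀ j, r j ∈ 𝒜 (k j)) →
        ∑ j, c j * φ (r j) = (X i : MvPolynomial (Fin 2) E) ^ N →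
        (∀ j, ((c j).coeffs : Set E) ⊆ A₀) → x i ≠ 0 →
        ∃ k, 0 < k ∧ ∃ r ∈ 𝒜 k, aeval x (((mapAlgHom σ).comp φ₀) r) ≠ 0 := by
      intro i N n c r k' hk hr hsum hc hxi
      choose q hq using fun j => hmem (c j) (hc j)
      have h5 : ∑ j, q j * φ₀ (r j) = X i ^ N := by
        apply hM
        rw [map_sum, map_pow]
        have : M (X i) = X i := by rw [hMapp, map_X]
        rw [this, ← hsum]
        exact Finset.sum_congr rfl fun j _ => by rw [map_mul, hq, hφ₀M]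
      by_contra hcon
      push Not at hcon
      have h6 : aeval x ((mapAlgHom σ : MvPolynomial (Fin 2) A₀ →ₐ[ℂ] MvPolynomial (Fin 2) k)
          (∑ j, q j * φ₀ (r j))) = 0 := by
        rw [map_sum, map_sum]
        refine Finset.sum_eq_zero fun j _ => ?_
        rw [map_mul, map_mul]
        have := hcon (k' j) (hk j) (r j) (hr j)
        change aeval x ((mapAlgHom σ : MvPolynomial (Fin 2) A₀ →ₐ[ℂ] MvPolynomial (Fin 2) k)
          (φ₀ (r j))) = 0 at this
        rw [this, mul_zero]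
      rw [h5, map_pow, map_pow] at h6
      have h7 : (mapAlgHom σ : MvPolynomial (Fin 2) A₀ →ₐ[ℂ] MvPolynomial (Fin 2) k) (X i) =
          X i := by
        change map (σ : A₀ →+* k) (X i) = X i
        rw [map_X]
      rw [h7, aeval_X] at h6
      exact pow_ne_zero N hxi h6
    have hx' : x 0 ≠ 0 ∨ x 1 ≠ 0 := by
      by_contra h
      push Not at h
      apply hx
      funext i
      fin_cases i
      · exact h.1
      · exact h.2
    rcases hx' with h | h
    · refine key 0 N0 n0 c0 r0 k0 hk0 hr0 h0 (fun j => ?_) h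
      refine subset_trans ?_ hSA
      rw [hS]
      intro e he
      simp only [Finset.coe_union, Set.mem_union, Finset.mem_coe, Finset.mem_biUnion]
      exact Or.inl (Or.inr ⟨j, Finset.mem_univ _, he⟩)
    · refine key 1 N1 n1 c1 r1 k1 hk1 hr1 h1 (fun j => ?_) h
      refine subset_trans ?_ hSA
      rw [hS]
      intro e he
      simp only [Finset.coe_union, Set.mem_union, Finset.mem_coe, Finset.mem_biUnion]
      exact Or.inr ⟨j, Finset.mem_univ _, he⟩
  · intro r m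
    refine ⟨by rw [← hcf r m]; exact (coeff m (φ₀ r)).2, ?_⟩
    rw [hmap, coeff_map]
    change σ _ = σ _
    congr 1
    exact Subtype.ext (hcf r m)

/-- Points of finitely generated algebras over an algebraically closed field. -/
theorem nic_exists_point {k : Type v} [Field k] [IsAlgClosed k] {A : Type w} [CommRing A]
    [Nontrivial A] [Algebra k A] [Algebra.FiniteType k A] : Nonempty (A →ₐ[k] k) := by
  obtain ⟨𝔪, h𝔪⟩ := Ideal.exists_maximal A
  let _ : Field (A ⧸ 𝔪) := Ideal.Quotient.field 𝔪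
  have : Algebra.FiniteType k (A ⧸ 𝔪) := inferInstance
  have hfin : Module.Finite k (A ⧸ 𝔪) := finite_of_finite_type_of_isJacobsonRing k (A ⧸ 𝔪)
  have hbij : Function.Bijective (algebraMap k (A ⧸ 𝔪)) :=
    IsAlgClosed.algebraMap_bijective_of_isIntegral
  let e : k ≃ₐ[k] A ⧸ 𝔪 := AlgEquiv.ofBijective (Algebra.ofId k (A ⧸ 𝔪)) hbij
  exact ⟨(e.symm : A ⧸ 𝔪 →ₐ[k] k).comp (Ideal.Quotient.mkₐ k 𝔪)⟩

/-- I-1 specialisation of a curve to an algebraically closed subfield -/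
theorem ni_closed [Algebra.FiniteType ℂ R] {k : Type v} {E : Type w} [Field k] [IsAlgClosed k]
    [Field E] [IsAlgClosed E]
    [Algebra ℂ k] [Algebra ℂ E] [Algebra k E] [IsScalarTower ℂ k E] {d : ℕ}
    {φ : R →ₐ[ℂ] MvPolynomial (Fin 2) E} (hφ : IsCurve 𝒜 d φ)
    (F : Finset E) (hF : ∀ e ∈ F, e ≠ 0) :
    ∃ (A₀ : Subalgebra k E) (σ : A₀ →ₐ[k] k) (ψ : R →ₐ[ℂ] MvPolynomial (Fin 2) k),
      IsCurve 𝒜 d ψ ∧
      (∀ r m, ∃ h : coeff m (φ r) ∈ A₀, coeff m (ψ r) = σ ⟨coeff m (φ r), h⟩) ∧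
      (∀ e ∈ F, ∃ h : e ∈ A₀, σ ⟨e, h⟩ ≠ 0) := by
  classical
  obtain ⟨S, hS⟩ := nic_exists_finset (k := k) hφ
  set T : Finset E := S ∪ (F ∪ F.image (fun e => e⁻¹)) with hT
  set A₀ : Subalgebra k E := Algebra.adjoin k (T : Set E) with hA
  have hTA : (T : Set E) ⊆ A₀ := Algebra.subset_adjoin
  have : Algebra.FiniteType k A₀ :=
    (Subalgebra.fg_iff_finiteType A₀).mp (Subalgebra.fg_adjoin_finset _)
  obtain ⟨σ⟩ := nic_exists_point (k := k) (A := A₀)
  let A₁ : Subalgebra ℂ E := A₀.restrictScalars ℂ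
  let σ₁ : A₁ →ₐ[ℂ] k :=
    { (σ : A₀ →+* k) with
      commutes' := fun c => by
        change σ (algebraMap ℂ A₁ c) = _
        have h1 : (algebraMap ℂ A₁ c : A₀) = algebraMap k A₀ (algebraMap ℂ k c) := by
          apply Subtype.ext
          change algebraMap ℂ E c = algebraMap k E (algebraMap ℂ k c)
          exact IsScalarTower.algebraMap_apply ℂ k E c
        rw [h1, σ.commutes]
        rfl }
  obtain ⟨ψ, hψ, hc⟩ := hS A₁ (fun e he => hTA (by
    rw [hT]
    exact Finset.mem_coe.2 (Finset.mem_union_left _ he))) σ₁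
  refine ⟨A₀, σ, ψ, hψ, fun r m => ?_, fun e he => ?_⟩
  · obtain ⟨h1, h2⟩ := hc r m
    exact ⟨h1, h2⟩
  · have he1 : e ∈ A₀ := hTA (by
      rw [hT]
      exact Finset.mem_coe.2 (Finset.mem_union_right _ (Finset.mem_union_left _ he)))
    have he2 : e⁻¹ ∈ A₀ := hTA (by
      rw [hT]
      exact Finset.mem_coe.2 (Finset.mem_union_right _ (Finset.mem_union_right _
        (Finset.mem_image_of_mem _ he))))
    refine ⟨he1, fun h => ?_⟩
    have h3 : (⟨e, he1⟩ : A₀) * ⟨e⁻¹, he2⟩ = 1 := Subtype.ext (mul_inv_cancel₀ (hF e he))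
    have h4 := congrArg σ h3
    rw [map_mul, h, zero_mul, map_one] at h4
    exact zero_ne_one h4

/-- specialisation of values. -/
theorem nic_eval_spec {k : Type v} {E : Type w} [Field k] [Field E] [Algebra k E]
    (A₀ : Subalgebra k E) (σ : A₀ →ₐ[k] k) (p : MvPolynomial (Fin 2) E)
    (q : MvPolynomial (Fin 2) k)
    (h : ∀ m, ∃ h : coeff m p ∈ A₀, coeff m q = σ ⟨coeff m p, h⟩)
    (a : Fin 2 → E) (ha : ∀ i, a i ∈ A₀) (b : Fin 2 → k) (hb : ∀ i, b i = σ ⟨a i, ha i⟩) :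
    ∃ h : eval a p ∈ A₀, eval b q = σ ⟨eval a p, h⟩ := by
  classical
  choose h1 h2 using h
  let p₀ : MvPolynomial (Fin 2) A₀ := ∑ m ∈ p.support, monomial m ⟨coeff m p, h1 m⟩
  have hp₀ : ∀ m, coeff m p₀ = ⟨coeff m p, h1 m⟩ := by
    intro m
    rw [show coeff m p₀ = ∑ n ∈ p.support, coeff m (monomial n (⟨coeff n p, h1 n⟩ : A₀)) from
      coeff_sum _ _ _]
    simp only [coeff_monomial]
    rw [Finset.sum_ite_eq' p.support m]
    split_ifs with hm
    · rfl
    · rw [notMem_support_iff] at hm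
      exact Subtype.ext hm.symm
  have hp : map (algebraMap A₀ E) p₀ = p := by
    ext m
    rw [coeff_map, hp₀]
    rfl
  have hq : map (σ : A₀ →+* k) p₀ = q := by
    ext m
    rw [coeff_map, hp₀, h2]
    rfl
  have h3 : ((eval (fun i => (⟨a i, ha i⟩ : A₀)) p₀ : A₀) : E) = eval a p := by
    rw [← hp, eval_map]
    have := eval₂_comp_left (algebraMap A₀ E) (RingHom.id A₀) (fun i => (⟨a i, ha i⟩ : A₀)) p₀
    rw [RingHom.comp_id] at this
    exact this
  have hmem : eval a p ∈ A₀ := by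
    rw [← h3]
    exact SetLike.coe_mem _
  refine ⟨hmem, ?_⟩
  have h4 : (⟨eval a p, hmem⟩ : A₀) = eval (fun i => (⟨a i, ha i⟩ : A₀)) p₀ := Subtype.ext h3.symm
  rw [h4, ← hq, eval_map]
  have h5 := eval₂_comp_left (σ : A₀ →+* k) (RingHom.id A₀) (fun i => (⟨a i, ha i⟩ : A₀)) p₀
  rw [RingHom.comp_id] at h5
  have h6 : b = (σ : A₀ →+* k) ∘ fun i => (⟨a i, ha i⟩ : A₀) := by
    funext i
    rw [hb]
    rfl
  rw [h6]
  exact h5.symm

/-- I-2 a linear condition on the tangents of the lines through `η₀` over `k` holds for the lines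
over `E`. -/
theorem ni_linear [Algebra.FiniteType ℂ R] {k : Type v} {E : Type w} [Field k] [IsAlgClosed k]
    [Field E] [IsAlgClosed E]
    [Algebra ℂ k] [Algebra ℂ E] [Algebra k E] [IsScalarTower ℂ k E] (η₀ : R →ₐ[ℂ] k)
    {n : ℕ} (x : Fin n → R) (a : Fin n → k)
    (h : ∀ ψ₀ : R →ₐ[ℂ] MvPolynomial (Fin 2) k, IsCurve 𝒜 1 ψ₀ → pt ψ₀ ![1, 0] = η₀ →
      ∑ i, a i * evL ![1, 0] (pd ψ₀ 1) (x i) = 0)
    {φ : R →ₐ[ℂ] MvPolynomial (Fin 2) E} (hφ : IsCurve 𝒜 1 φ)
    (h0 : ∀ r, pt φ ![1, 0] r = algebraMap k E (η₀ r)) :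
    ∑ i, algebraMap k E (a i) * evL ![1, 0] (pd φ 1) (x i) = 0 := by
  classical
  by_contra hne
  obtain ⟨A₀, σ, ψ, hψ, hc, hF⟩ := ni_closed (k := k) hφ
    ({∑ i, algebraMap k E (a i) * evL ![1, 0] (pd φ 1) (x i)} : Finset E) (fun e he => by
      rw [Finset.mem_singleton] at he
      rwa [he])
  have hm : ∀ i, (![1, 0] : Fin 2 → E) i ∈ A₀ := by
    intro i
    fin_cases i
    · exact one_mem _
    · exact zero_mem _
  have h10 : ∀ i, (![1, 0] : Fin 2 → k) i = σ ⟨(![1, 0] : Fin 2 → E) i, hm i⟩ := by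
    intro i
    fin_cases i
    · exact (map_one σ).symm
    · exact (map_zero σ).symm
  have hpt : pt ψ ![1, 0] = η₀ := by
    ext r
    rw [pt_apply]
    obtain ⟨m1, e1⟩ := nic_eval_spec A₀ σ (φ r) (ψ r) (hc r) ![1, 0] hm ![1, 0] h10
    rw [e1]
    have h3 := h0 r
    rw [pt_apply] at h3
    have h4 : (⟨eval ![1, 0] (φ r), m1⟩ : A₀) = algebraMap k A₀ (η₀ r) := Subtype.ext h3
    rw [h4, AlgHom.commutes]
    rfl
  have hd : ∀ r, ∃ hr : evL ![1, 0] (pd φ 1) r ∈ A₀,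
      evL ![1, 0] (pd ψ 1) r = σ ⟨evL ![1, 0] (pd φ 1) r, hr⟩ := by
    intro r
    refine nic_eval_spec A₀ σ (pderiv 1 (φ r)) (pderiv 1 (ψ r)) (fun m => ?_) ![1, 0] hm ![1, 0] h10
    obtain ⟨m1, e1⟩ := hc r (m + Finsupp.single 1 1)
    have hmem : coeff m (pderiv 1 (φ r)) ∈ A₀ := by
      rw [coeff_pderiv]
      refine mul_mem m1 ?_
      have : ((m 1 : E) + 1) = ((m 1 + 1 : ℕ) : E) := by push_cast; ring
      rw [this]
      exact natCast_mem _ _
    refine ⟨hmem, ?_⟩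
    have h5 : (⟨coeff m (pderiv 1 (φ r)), hmem⟩ : A₀) =
        ⟨coeff (m + Finsupp.single 1 1) (φ r), m1⟩ * ((m 1 : A₀) + 1) := by
      apply Subtype.ext
      change coeff m (pderiv 1 (φ r)) = coeff (m + Finsupp.single 1 1) (φ r) * _
      rw [coeff_pderiv]
      push_cast
      rfl
    rw [h5, map_mul, ← e1, coeff_pderiv, map_add, map_natCast, map_one σ]
  choose hr hr' using hd
  obtain ⟨m3, e3⟩ := hF _ (Finset.mem_singleton_self _)
  apply e3
  have h6 := h ψ hψ hpt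
  rw [← h6]
  have h7 : (⟨∑ i, algebraMap k E (a i) * evL ![1, 0] (pd φ 1) (x i), m3⟩ : A₀) =
      ∑ i, algebraMap k A₀ (a i) * ⟨evL ![1, 0] (pd φ 1) (x i), hr (x i)⟩ := by
    apply Subtype.ext
    rw [AddSubmonoidClass.coe_finsetSum]
    rfl
  rw [h7, map_sum]
  refine Finset.sum_congr rfl fun i _ => ?_
  rw [map_mul, AlgHom.commutes, ← hr']
  rfl

end Vale.Agent.P292
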