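import Vale.Agent.P292.K.Basic
import Vale.Agent.P292.K.PicDef
import Vale.Agent.P292.Q.Newton

/-! # Meeting prime divisors, for Picard number one. -/

namespace Vale.Agent.P292

open MvPolynomial

universe u v

/-- A binary form of positive degree over an algebraically closed field has a zero. -/
theorem pic_exists_zero {κ : Type v} [Field κ] [IsAlgClosed κ] [Algebra ℂ κ]
    {F : MvPolynomial (Fin 2) κ} {m : ℕ} (hm : 0 < m) (hF : F.IsHomogeneous m) :
    ∃ a : Fin 2 → κ, a ≠ 0 ∧ eval a F = 0 := by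
  classical
  have h10 : (1 : Fin 2) ≠ 0 := by decide
  have hcf := nwDehom_coeff (L := κ) 1 0 h10 hF (m := Finsupp.single 0 m) (by simp)
  have hev : ∀ a : κ, (nwDehom κ 1 F).eval a = eval ![a, 1] F := by
    intro a
    rw [nwDehom_apply 1 0 h10, Polynomial.eval_finsetSum, eval_eq']
    refine Finset.sum_congr rfl fun d _ => ?_
    rw [Polynomial.eval_mul, Polynomial.eval_C, Polynomial.eval_pow, Polynomial.eval_X,
      Fin.prod_univ_two]
    simp
  by_cases h0 : F.coeff (Finsupp.single 0 m) = 0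
  · refine ⟨![1, 0], fun h => one_ne_zero (α := κ) (by simpa using congrFun h 0), ?_⟩
    rw [eval_eq']
    refine Finset.sum_eq_zero fun d hd => ?_
    have h2 := hF (mem_support_iff.1 hd)
    rw [Finsupp.weight_apply, Finsupp.sum_fintype _ _ (by simp), Fin.sum_univ_two] at h2
    by_cases h3 : d 1 = 0
    · have h4 : d = Finsupp.single 0 m := by
        ext j
        fin_cases j
        · simp [h3] at h2 ⊢
          exact h2
        · simp [h3]
      rw [h4, h0, zero_mul]
    · rw [Fin.prod_univ_two]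
      simp [h3]
  · have hne : (nwDehom κ 1 F).degree ≠ 0 := by
      intro h
      have h1 := Polynomial.natDegree_eq_zero_iff_degree_le_zero.2 h.le
      have h2 : (nwDehom κ 1 F).coeff m = 0 :=
        Polynomial.coeff_eq_zero_of_natDegree_lt (by rw [h1]; exact hm)
      simp only [Finsupp.single_eq_same] at hcf
      rw [hcf] at h2
      exact h0 h2
    obtain ⟨a, ha⟩ := IsAlgClosed.exists_root _ hne
    refine ⟨![a, 1], fun h => one_ne_zero (α := κ) (by simpa using congrFun h 1), ?_⟩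
    rw [← hev]
    exact ha

variable {R : Type u} [CommRing R] [Algebra ℂ R] {𝒜 : ℕ → Submodule ℂ R} [GradedAlgebra 𝒜]
  {P : R →ₗ[ℂ] R →ₗ[ℂ] R}

theorem meets_of_pic (hX : IsContactFano 𝒜 P) [IsDomain R] (hp : IsPicardOne 𝒜)
    {d : ℕ} (hd : 0 < d) {κ : Type v} [Field κ] [IsAlgClosed κ] [Algebra ℂ κ]
    {φ : R →ₐ[ℂ] MvPolynomial (Fin 2) κ} (hφ : IsCurve 𝒜 d φ)
    (𝔭 : Ideal R) [h𝔭 : 𝔭.IsPrime] (hdvr : IsDiscreteValuationRing (Localization.AtPrime 𝔭))
    (hh : 𝔭.IsHomogeneous 𝒜) : ∃ a : Fin 2 → κ, a ≠ 0 ∧ ∀ r ∈ 𝔭, pt φ a r = 0 := by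
  have h1 : 𝔭.height = 1 := by
    have h2 := IsLocalization.AtPrime.ringKrullDim_eq_height 𝔭 (Localization.AtPrime 𝔭)
    rw [IsDiscreteValuationRing.ringKrullDim_eq_one] at h2
    exact_mod_cast h2.symm
  obtain ⟨k, g, hg, hgp⟩ := hp 𝔭 h𝔭 h1 hh
  have hk : 0 < k := by
    rcases Nat.eq_zero_or_pos k with rfl | h0
    · exfalso
      obtain ⟨c, rfl⟩ := hX.connected g hg
      by_cases hc : c = 0
      · -- then `𝔭 = radical 0 = 0`
        subst hc
        rw [map_zero, Ideal.span_singleton_zero] at hgp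
        have h3 : (⊥ : Ideal R).radical = ⊥ := Ideal.radical_bot_of_isReduced
        rw [h3] at hgp
        rw [hgp] at h1
        simp at h1
      · have h4 : algebraMap ℂ R c ∈ 𝔭 := by
          rw [hgp]
          exact Ideal.le_radical (Ideal.mem_span_singleton_self _)
        refine h𝔭.ne_top ((Ideal.eq_top_iff_one _).2 ?_)
        have h5 : algebraMap ℂ R c⁻¹ * algebraMap ℂ R c = 1 := by
          rw [← map_mul, inv_mul_cancel₀ hc, map_one]
        rw [← h5]
        exact 𝔭.mul_mem_left _ h4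
    · exact h0
  obtain ⟨a, ha, ha0⟩ := pic_exists_zero (Nat.mul_pos hd hk) (hφ.degree k g hg)
  refine ⟨a, ha, fun r hr => ?_⟩
  rw [hgp] at hr
  obtain ⟨n, hn⟩ := hr
  obtain ⟨c, hc⟩ := Ideal.mem_span_singleton.1 hn
  have h6 : pt φ a (r ^ n) = 0 := by
    rw [hc, map_mul, pt_apply, ha0, zero_mul]
  rw [map_pow] at h6
  exact (pow_eq_zero_iff (by
    rintro rfl
    rw [pow_zero] at h6
    exact one_ne_zero h6)).1 h6

end Vale.Agent.P292
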