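import Vale.Agent.P292.K.NiA
import Vale.Agent.P292.K.Ni3
import Vale.Agent.P292.K.NiC
import Vale.Agent.P292.K.Ni5a
import Vale.Agent.P292.K.Ni6
import Vale.Agent.P292.K.Ni7
import Vale.Agent.P292.K.Ni8
import Vale.Agent.P292.K.FrameLine
import Vale.Agent.P292.K.Pic
import Vale.Agent.P292.Meet.BP

/-! # Block I: two lines through the generic point which are not orthogonal. -/

namespace Vale.Agent.P292

open MvPolynomial

universe u v w

variable {R : Type u} [CommRing R] [Algebra ℂ R] {𝒜 : ℕ → Submodule ℂ R} [GradedAlgebra 𝒜]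
  {P : R →ₗ[ℂ] R →ₗ[ℂ] R}

/-- The Euler derivation of the fraction field. -/
theorem ni_exists_euler [IsDomain R] : ∃ E : Derivation ℂ (FractionRing R) (FractionRing R),
    ∀ r : R, E (algebraMap R _ r) = algebraMap R _ (euler 𝒜 r) := by
  have : CharZero (FractionRing R) :=
    charZero_of_injective_algebraMap (algebraMap ℂ (FractionRing R)).injective
  let d : Derivation ℂ R (FractionRing R) := Derivation.mk'
    ((IsScalarTower.toAlgHom ℂ R (FractionRing R)).toLinearMap ∘ₗ euler 𝒜) (fun a b => by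
      change algebraMap R (FractionRing R) (euler 𝒜 (a * b)) =
        a • algebraMap R (FractionRing R) (euler 𝒜 b) + b • algebraMap R (FractionRing R) (euler 𝒜 a)
      rw [euler_mul, Algebra.smul_def, Algebra.smul_def, map_add, map_mul, map_mul]
      ring)
  exact exists_derivation_extend (k := ℂ) (A := R) (E := FractionRing R)
    (IsFractionRing.injective R (FractionRing R)) d

section reparam

variable {κ : Type v} [Field κ] [Algebra ℂ κ]

omit [Algebra ℂ κ] in
/-- Chain rule. -/
theorem ni_pderiv_reparamHom (a b : Fin 2 → κ) (p : MvPolynomial (Fin 2) κ) :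
    pderiv 1 (reparamHom a b p) =
      C (b 0) * reparamHom a b (pderiv 0 p) + C (b 1) * reparamHom a b (pderiv 1 p) := by
  induction p using MvPolynomial.induction_on with
  | C c => simp [reparamHom]
  | add p q hp hq =>
    rw [map_add, map_add, hp, hq, map_add, map_add, map_add, map_add]
    ring
  | mul_X p i hp =>
    have hX : reparamHom a b (X i) = C (a i) * X 0 + C (b i) * X 1 := by simp [reparamHom]
    rw [map_mul, Derivation.leibniz, hp, hX, Derivation.leibniz, Derivation.leibniz]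
    fin_cases i
    · simp [pderiv_X, smul_eq_mul, reparamHom]
      ring
    · simp [pderiv_X, smul_eq_mul, reparamHom]
      ring

end reparam

/-- Conjugation of a derivation by an automorphism. -/
theorem ni_exists_conj {F : Type u} {L : Type v} [Field F] [Field L] [Algebra F L] [Algebra ℂ F]
    [Algebra ℂ L] [IsScalarTower ℂ F L] (D : Derivation ℂ L L) (σ : L ≃ₐ[F] L) :
    ∃ D' : Derivation ℂ L L, ∀ x, D' x = σ.symm (D (σ x)) := by
  refine ⟨Derivation.mk' (((σ.symm.restrictScalars ℂ : L ≃ₐ[ℂ] L).toAlgHom.toLinearMap) ∘ₗ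
    (D : L →ₗ[ℂ] L) ∘ₗ ((σ.restrictScalars ℂ : L ≃ₐ[ℂ] L).toAlgHom.toLinearMap)) fun a b => ?_,
    fun x => rfl⟩
  change σ.symm (D (σ (a * b))) = a * σ.symm (D (σ b)) + b * σ.symm (D (σ a))
  rw [map_mul, Derivation.leibniz, map_add, smul_eq_mul, smul_eq_mul, map_mul, map_mul,
    AlgEquiv.symm_apply_apply, AlgEquiv.symm_apply_apply]

/-- An element of the fraction field which is constant along all lines through the generic
point. -/
theorem ni_exists_f (hX : IsContactFano 𝒜 P) [IsDomain R]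
    {K : Type u} [Field K] [IsAlgClosed K] [Algebra ℂ K]
    {ψ : R →ₐ[ℂ] MvPolynomial (Fin 2) K} (h : IsAnch 𝒜 1 ψ) (hfull : IsFull 𝒜 1 ψ)
    (hinj : Function.Injective (pt ψ ![0, 1]))
    (hlag : ∀ x : R →ₗ[ℂ] K, IsDer (pt ψ ![0, 1]) x →
      (∀ τ, IsHDer 𝒜 1 ψ (-1) τ → om P (pt ψ ![0, 1]) x (evL ![0, 1] τ) = 0) →
      ∃ τ, IsHDer 𝒜 1 ψ (-1) τ ∧ evL ![0, 1] τ = x)
    (iso : ∀ ψ₂ : R →ₐ[ℂ] MvPolynomial (Fin 2) K, IsAnch 𝒜 1 ψ₂ →
      pt ψ₂ ![1, 0] = pt ψ ![1, 0] →
      om P (pt ψ ![1, 0]) (evL ![1, 0] (pd ψ₂ 1)) (evL ![1, 0] (pd ψ 1)) = 0) :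
    ∃ (E : Derivation ℂ (FractionRing R) (FractionRing R)) (f : FractionRing R),
      (∀ k, ∀ r ∈ 𝒜 k, E (algebraMap R _ r) = (k : FractionRing R) * algebraMap R _ r) ∧
      E f = 0 ∧ (∀ c : ℂ, f ≠ algebraMap ℂ (FractionRing R) c) ∧
      ∀ g h' : R, f * algebraMap R _ h' = algebraMap R _ g →
      ∀ ψ₀ : R →ₐ[ℂ] MvPolynomial (Fin 2) (AlgebraicClosure (FractionRing R)), IsCurve 𝒜 1 ψ₀ →
        (∀ r, pt ψ₀ ![1, 0] r = algebraMap R _ r) →
        evL ![1, 0] (pd ψ₀ 1) g * algebraMap R _ h' =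
          algebraMap R _ g * evL ![1, 0] (pd ψ₀ 1) h' := by
  classical
  have := hX.finiteType
  have hcF : CharZero (FractionRing R) :=
    charZero_of_injective_algebraMap (algebraMap ℂ (FractionRing R)).injective
  have hcL : CharZero (AlgebraicClosure (FractionRing R)) :=
    charZero_of_injective_algebraMap
      (algebraMap ℂ (AlgebraicClosure (FractionRing R))).injective
  have hinjR : Function.Injective (algebraMap R (AlgebraicClosure (FractionRing R))) := by
    rw [IsScalarTower.algebraMap_eq R (FractionRing R) (AlgebraicClosure (FractionRing R))]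
    exact (algebraMap (FractionRing R) _).injective.comp (IsFractionRing.injective R _)
  obtain ⟨i, hi⟩ := ni_exists_embedding h.inj
  let _ : Algebra (AlgebraicClosure (FractionRing R)) K := (i : _ →+* K).toAlgebra
  have hst : IsScalarTower ℂ (AlgebraicClosure (FractionRing R)) K :=
    IsScalarTower.of_algebraMap_eq fun c => (i.commutes c).symm
  let η₀ : R →ₐ[ℂ] AlgebraicClosure (FractionRing R) :=
    IsScalarTower.toAlgHom ℂ R (AlgebraicClosure (FractionRing R))
  have h0 : ∀ r, pt ψ ![1, 0] r = algebraMap (AlgebraicClosure (FractionRing R)) K (η₀ r) :=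
    fun r => (hi r).symm
  obtain ⟨c, hc, hkill⟩ := ni_coeff hX h.curve hfull hinj hlag h0
    (fun D hD a => ni_alg_killed i D hD a)
  -- the derivations given by the lines
  let S : Set (Derivation ℂ (AlgebraicClosure (FractionRing R))
      (AlgebraicClosure (FractionRing R))) :=
    {D | ∃ ψ₂ : R →ₐ[ℂ] MvPolynomial (Fin 2) (AlgebraicClosure (FractionRing R)),
      IsCurve 𝒜 1 ψ₂ ∧ (∀ r, pt ψ₂ ![1, 0] r = algebraMap R _ r) ∧
      ∀ r : R, D (algebraMap R _ r) = evL ![1, 0] (pd ψ₂ 1) r}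
  have hSex : ∀ ψ₂ : R →ₐ[ℂ] MvPolynomial (Fin 2) (AlgebraicClosure (FractionRing R)),
      IsCurve 𝒜 1 ψ₂ → (∀ r, pt ψ₂ ![1, 0] r = algebraMap R _ r) →
      ∃ D ∈ S, ∀ r : R, D (algebraMap R _ r) = evL ![1, 0] (pd ψ₂ 1) r := by
    intro ψ₂ h1 h2
    let d : Derivation ℂ R (AlgebraicClosure (FractionRing R)) := Derivation.mk'
      (evL ![1, 0] (pd ψ₂ 1)) fun a b => by
        rw [((isHDer_pd h1 1).der.evL ![1, 0]) a b, h2, h2, Algebra.smul_def, Algebra.smul_def]
    obtain ⟨D, hD⟩ := exists_derivation_extend (k := ℂ) (A := R)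
      (E := AlgebraicClosure (FractionRing R)) hinjR d
    exact ⟨D, ⟨ψ₂, h1, h2, hD⟩, hD⟩
  have hSc : ∀ D ∈ S, D c = 0 := by
    rintro D ⟨ψ₂, h1, h2, h3⟩
    refine hkill D fun v' hv' => ?_
    have hv : v' = evL ![1, 0] (pd (niMap i ψ₂) 1) := by
      ext r
      rw [hv', evL_pd_niMap, ← h3]
      rfl
    have hpt : pt (niMap i ψ₂) ![1, 0] = pt ψ ![1, 0] := by
      ext r
      rw [pt_niMap_10, h2, hi]
    rw [hv]
    exact iso (niMap i ψ₂) ⟨h1.niMap i, by rw [hpt]; exact h.inj⟩ hpt
  have hSσ : ∀ D ∈ S, ∀ σ : AlgebraicClosure (FractionRing R) ≃ₐ[FractionRing R]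
      AlgebraicClosure (FractionRing R), ∃ D' ∈ S, ∀ x, D' x = σ.symm (D (σ x)) := by
    rintro D ⟨ψ₂, h1, h2, h3⟩ σ
    obtain ⟨D', hD'⟩ := ni_exists_conj D σ
    have hσ : ∀ r : R, σ.symm (algebraMap R _ r) = algebraMap R _ r := by
      intro r
      rw [IsScalarTower.algebraMap_apply R (FractionRing R)
        (AlgebraicClosure (FractionRing R)), AlgEquiv.commutes]
    have hσ' : ∀ r : R, σ (algebraMap R _ r) = algebraMap R _ r := by
      intro r
      rw [IsScalarTower.algebraMap_apply R (FractionRing R)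
        (AlgebraicClosure (FractionRing R)), AlgEquiv.commutes]
    refine ⟨D', ⟨niMap ((σ.symm.restrictScalars ℂ : _ ≃ₐ[ℂ] _) : _ →ₐ[ℂ] _) ψ₂, h1.niMap _,
      fun r => ?_, fun r => ?_⟩, hD'⟩
    · rw [pt_niMap_10, h2]
      exact hσ r
    · rw [hD', hσ', h3, evL_pd_niMap]
      rfl
  obtain ⟨f, hf, hSf⟩ := ni_galois S hSσ hSc hc
  -- there is a line over the algebraic closure
  obtain ⟨A₀, σ, ψ₂, hψ₂, hspec, -⟩ := ni_closed (k := AlgebraicClosure (FractionRing R))
    h.curve ∅ (by simp)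
  have hψ₂' : ∀ r, pt ψ₂ ![1, 0] r = algebraMap R _ r := by
    intro r
    have ha : ∀ j, (![1, 0] : Fin 2 → K) j ∈ A₀ := by
      intro j
      fin_cases j
      · exact A₀.one_mem
      · exact A₀.zero_mem
    obtain ⟨h1, h2⟩ := nic_eval_spec A₀ σ (ψ r) (ψ₂ r) (hspec r) ![1, 0] ha ![1, 0] (by
      intro j
      fin_cases j
      · exact (map_one σ).symm
      · exact (map_zero σ).symm)
    rw [pt_apply, h2]
    have h3 : (⟨eval ![1, 0] (ψ r), h1⟩ : A₀) =
        algebraMap (AlgebraicClosure (FractionRing R)) A₀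
          (algebraMap R (AlgebraicClosure (FractionRing R)) r) := by
      apply Subtype.val_injective
      change eval ![1, 0] (ψ r) = i (algebraMap R _ r)
      rw [hi, pt_apply]
    rw [h3]
    exact σ.commutes _
  -- the Euler derivation kills `f`
  obtain ⟨E, hE⟩ := ni_exists_euler (R := R) (𝒜 := 𝒜)
  have hEf : E f = 0 := by
    obtain ⟨D, hD, hDr⟩ := hSex ψ₂ hψ₂ hψ₂'
    have hψ₃ : IsCurve 𝒜 1 (reparam ![1, 0] ![1, 1] ψ₂) :=
      hψ₂.reparam _ _ (ne_zero_of_det (by simp))
    have hψ₃' : ∀ r, pt (reparam ![1, 0] ![1, 1] ψ₂) ![1, 0] r = algebraMap R _ r := by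
      intro r
      rw [pt_reparam, ← hψ₂' r]
      congr 2
      funext j
      fin_cases j <;> simp
    obtain ⟨D', hD', hDr'⟩ := hSex _ hψ₃ hψ₃'
    have hdiff : ∀ r : R, D' (algebraMap R _ r) - D (algebraMap R _ r) =
        algebraMap R _ (euler 𝒜 r) := by
      intro r
      rw [hDr, hDr']
      have h1 := mm_evL_pd_zero hψ₂ r
      rw [hψ₂', Nat.cast_one, one_mul] at h1
      rw [← h1, evL_apply, evL_apply, evL_apply, pd_apply, pd_apply, pd_apply, reparam_apply,
        ni_pderiv_reparamHom, map_add, map_mul, map_mul, eval_reparamHom, eval_reparamHom, eval_C,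
        eval_C]
      have h2 : ((![1, 0] : Fin 2 → AlgebraicClosure (FractionRing R)) 0 • ![1, 0] +
          (![1, 0] : Fin 2 → AlgebraicClosure (FractionRing R)) 1 • ![1, 1] :
          Fin 2 → AlgebraicClosure (FractionRing R)) = ![1, 0] := by
        funext j
        fin_cases j <;> simp
      rw [h2]
      simp
    have hj := ni_frac_killed (IsScalarTower.toAlgHom ℂ (FractionRing R)
        (AlgebraicClosure (FractionRing R)))
      (((D' : _ →ₗ[ℂ] _) - (D : _ →ₗ[ℂ] _)) ∘ₗ (IsScalarTower.toAlgHom ℂ (FractionRing R)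
        (AlgebraicClosure (FractionRing R))).toLinearMap - (IsScalarTower.toAlgHom ℂ
        (FractionRing R) (AlgebraicClosure (FractionRing R))).toLinearMap ∘ₗ
        (E : _ →ₗ[ℂ] _)) ?_ ?_ f
    · have h1 : D' (algebraMap _ _ f) - D (algebraMap _ _ f) -
          algebraMap (FractionRing R) (AlgebraicClosure (FractionRing R)) (E f) = 0 := hj
      rw [hSf D hD, hSf D' hD', sub_zero, zero_sub, neg_eq_zero, map_eq_zero] at h1
      exact h1
    · intro x y
      change D' (algebraMap _ _ (x * y)) - D (algebraMap _ _ (x * y)) -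
          algebraMap (FractionRing R) (AlgebraicClosure (FractionRing R)) (E (x * y)) =
        algebraMap _ _ x * (D' (algebraMap _ _ y) - D (algebraMap _ _ y) -
          algebraMap _ _ (E y)) +
        algebraMap _ _ y * (D' (algebraMap _ _ x) - D (algebraMap _ _ x) -
          algebraMap _ _ (E x))
      rw [Derivation.leibniz, map_mul, Derivation.leibniz, Derivation.leibniz, smul_eq_mul,
        smul_eq_mul, smul_eq_mul, smul_eq_mul, smul_eq_mul, smul_eq_mul, map_add, map_mul,
        map_mul]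
      ring
    · intro r
      change D' (algebraMap (FractionRing R) _ (algebraMap R _ r)) -
        D (algebraMap (FractionRing R) _ (algebraMap R _ r)) -
          algebraMap (FractionRing R) (AlgebraicClosure (FractionRing R))
            (E (algebraMap R _ r)) = 0
      rw [hE, ← IsScalarTower.algebraMap_apply, ← IsScalarTower.algebraMap_apply, hdiff, sub_self]
  refine ⟨E, f, fun k r hr => ?_, hEf, hf, fun g h' hfgh ψ₀ h1 h2 => ?_⟩
  · rw [hE, euler_apply k r hr, Algebra.smul_def, map_mul, ← IsScalarTower.algebraMap_apply,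
      map_natCast]
  · obtain ⟨D, hD, hDr⟩ := hSex ψ₀ h1 h2
    have h3 := hSf D hD
    have h4 : algebraMap (FractionRing R) (AlgebraicClosure (FractionRing R)) f *
        algebraMap R _ h' = algebraMap R _ g := by
      rw [IsScalarTower.algebraMap_apply R (FractionRing R) (AlgebraicClosure (FractionRing R)),
        IsScalarTower.algebraMap_apply R (FractionRing R) (AlgebraicClosure (FractionRing R)),
        ← map_mul, hfgh]
    have h5 := congrArg D h4
    rw [Derivation.leibniz, h3, smul_zero, add_zero, smul_eq_mul, hDr, hDr] at h5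
    rw [← h5, ← h4]
    ring

/-- The Wronskian vanishes. -/
theorem ni_wronskian (hX : IsContactFano 𝒜 P) [IsDomain R]
    {K : Type u} [Field K] [IsAlgClosed K] [Algebra ℂ K]
    {ψ : R →ₐ[ℂ] MvPolynomial (Fin 2) K} (h : IsAnch 𝒜 1 ψ) {k : ℕ} {g h' : R} (hg : g ∈ 𝒜 k)
    (hh : h' ∈ 𝒜 k)
    (hlin : ∀ ψ₀ : R →ₐ[ℂ] MvPolynomial (Fin 2) (AlgebraicClosure (FractionRing R)),
      IsCurve 𝒜 1 ψ₀ → (∀ r, pt ψ₀ ![1, 0] r = algebraMap R _ r) →
        evL ![1, 0] (pd ψ₀ 1) g * algebraMap R _ h' =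
          algebraMap R _ g * evL ![1, 0] (pd ψ₀ 1) h') :
    pderiv 1 (ψ g) * ψ h' = ψ g * pderiv 1 (ψ h') := by
  classical
  have := hX.finiteType
  have : Infinite K := IsAlgClosed.instInfinite
  -- the generic point of the line
  let e : Polynomial K →ₐ[ℂ] AlgebraicClosure (RatFunc K) :=
    (IsScalarTower.toAlgHom ℂ (RatFunc K) (AlgebraicClosure (RatFunc K))).comp
      (IsScalarTower.toAlgHom ℂ (Polynomial K) (RatFunc K))
  have he : Function.Injective e :=
    (algebraMap (RatFunc K) (AlgebraicClosure (RatFunc K))).injective.comp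
      (RatFunc.algebraMap_injective K)
  let j : K →ₐ[ℂ] AlgebraicClosure (RatFunc K) :=
    e.comp (IsScalarTower.toAlgHom ℂ K (Polynomial K))
  have hj : ∀ c, j c = e (Polynomial.C c) := fun c => rfl
  set lam : AlgebraicClosure (RatFunc K) := e Polynomial.X with hlam
  have key : ∀ p : MvPolynomial (Fin 2) K,
      eval ![1, lam] (map (j : K →+* AlgebraicClosure (RatFunc K)) p) = e (ni7D 1 p) := by
    intro p
    induction p using MvPolynomial.induction_on with
    | C c =>
      have : ni7D (1 : K) (C c) = Polynomial.C c := (ni7D 1).commutes c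
      rw [this, map_C, eval_C]
      exact hj c
    | add p q hp hq => rw [map_add, map_add, hp, hq, map_add, map_add]
    | mul_X p i hp =>
      have hXi : ni7D (1 : K) (X i) = ![Polynomial.C 1, Polynomial.X] i := by
        rw [ni7D, aeval_X]
      rw [map_mul, map_mul, hp, map_X, eval_X, map_mul, map_mul, hXi]
      congr 1
      fin_cases i
      · simp
      · simp [hlam]
  set φ₁ := reparam ![1, lam] ![0, 1] (niMap j ψ) with hφ₁
  have hφ₁c : IsCurve 𝒜 1 φ₁ := (h.curve.niMap j).reparam _ _ (ne_zero_of_det (by simp))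
  have hvec : ((![1, 0] : Fin 2 → AlgebraicClosure (RatFunc K)) 0 • ![1, lam] +
      (![1, 0] : Fin 2 → AlgebraicClosure (RatFunc K)) 1 • ![0, 1] :
      Fin 2 → AlgebraicClosure (RatFunc K)) = ![1, lam] := by
    funext l
    fin_cases l <;> simp
  have hpt : ∀ r, pt φ₁ ![1, 0] r = e (ni7D 1 (ψ r)) := by
    intro r
    rw [hφ₁, pt_reparam, hvec, pt_apply, niMap_apply, key]
  have hv : ∀ r, evL ![1, 0] (pd φ₁ 1) r = e (ni7D 1 (pderiv 1 (ψ r))) := by
    intro r
    rw [evL_apply, pd_apply, hφ₁, reparam_apply, ni_pderiv_reparamHom, map_add, map_mul, map_mul,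
      eval_reparamHom, eval_reparamHom, hvec, eval_C, eval_C, niMap_apply, pderiv_map, pderiv_map,
      key, key]
    simp
  have hinj₁ : Function.Injective (pt φ₁ ![1, 0]) := by
    rw [injective_iff_map_eq_zero]
    intro r hr
    rw [hpt] at hr
    have h1 : ni7D 1 (ψ r) = 0 := he (by rw [hr, map_zero])
    have h2 := ni7D_eval 1 0 (ψ r)
    rw [h1, Polynomial.eval_zero] at h2
    exact (injective_iff_map_eq_zero (pt ψ ![1, 0])).1 h.inj r (by rw [pt_apply, ← h2])
  obtain ⟨i₁, hi₁⟩ := ni_exists_embedding hinj₁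
  let _ : Algebra (AlgebraicClosure (FractionRing R)) (AlgebraicClosure (RatFunc K)) :=
    (i₁ : _ →+* _).toAlgebra
  have hst : IsScalarTower ℂ (AlgebraicClosure (FractionRing R)) (AlgebraicClosure (RatFunc K)) :=
    IsScalarTower.of_algebraMap_eq fun c => (i₁.commutes c).symm
  have h1 := ni_linear (k := AlgebraicClosure (FractionRing R))
    (IsScalarTower.toAlgHom ℂ R (AlgebraicClosure (FractionRing R))) ![g, h']
    ![algebraMap R (AlgebraicClosure (FractionRing R)) h',
      -algebraMap R (AlgebraicClosure (FractionRing R)) g] (fun ψ₀ h2 h3 => by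
      rw [Fin.sum_univ_two]
      have h4 := hlin ψ₀ h2 fun r => by rw [h3]; rfl
      simp only [Matrix.cons_val_zero, Matrix.cons_val_one]
      linear_combination h4) hφ₁c (fun r => (hi₁ r).symm)
  rw [Fin.sum_univ_two] at h1
  simp only [Matrix.cons_val_zero, Matrix.cons_val_one] at h1
  have h2 : ∀ r : R, algebraMap (AlgebraicClosure (FractionRing R)) (AlgebraicClosure (RatFunc K))
      (algebraMap R _ r) = e (ni7D 1 (ψ r)) := fun r => (hi₁ r).trans (hpt r)
  rw [map_neg, h2, h2, hv, hv, ← map_mul, ← map_mul, neg_mul, ← map_mul, ← map_mul,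
    ← sub_eq_add_neg, ← map_sub, ← map_sub] at h1
  have h3 : ni7D 1 (ψ h' * pderiv 1 (ψ g) - ψ g * pderiv 1 (ψ h')) = 0 :=
    he (by rw [h1, map_zero])
  have h4 : (ψ h' * pderiv 1 (ψ g) - ψ g * pderiv 1 (ψ h')).IsHomogeneous
      (1 * k + (1 * k - 1)) :=
    ((h.curve.degree k h' hh).mul (h.curve.degree k g hg).pderiv).sub
      ((h.curve.degree k g hg).mul (h.curve.degree k h' hh).pderiv)
  by_contra hne
  refine ni7D_ne h4 ?_ one_ne_zero h3
  intro h5
  apply hne
  rw [mul_comm]
  exact sub_eq_zero.1 h5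

end Vale.Agent.P292
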