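import Vale.Agent.P292.K.Q2Defs
import Vale.Agent.P292.K.V1
import Vale.Agent.P292.K.ChartKD
import Vale.Agent.P292.VF.Simp

set_option linter.all false

/-! # Q2 part I, block G, first half. -/

namespace Vale.Agent.P292

open MvPolynomial TensorProduct

universe u v w

variable {R : Type u} [CommRing R] [Algebra ℂ R] {𝒜 : ℕ → Submodule ℂ R} [GradedAlgebra 𝒜]
  {P : R →ₗ[ℂ] R →ₗ[ℂ] R}

/-- A pair of field valued nonvertex points at which the Hamiltonian vector fields in both
variables are induced by derivations of the field is generic. -/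
theorem g1_injective (hX : IsContactFano 𝒜 P) {K : Type v} [Field K] [Algebra ℂ K]
    (x y : R →ₐ[ℂ] K) (hx : IsNV 𝒜 x) (hy : IsNV 𝒜 y)
    (h1 : ∀ a, ∃ D : Derivation ℂ K K, (∀ r, D (x r) = x (P a r)) ∧ ∀ r, D (y r) = 0)
    (h2 : ∀ a, ∃ D : Derivation ℂ K K, (∀ r, D (x r) = 0) ∧ ∀ r, D (y r) = y (P a r)) :
    Function.Injective (Algebra.TensorProduct.lift x y (fun _ _ => Commute.all _ _)) := by
  classical
  have := hX.finiteType
  have hft2 : Algebra.FiniteType ℂ (R ⊗[ℂ] R) :=
    Algebra.FiniteType.trans (S := R) inferInstance inferInstance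
  set Λ := Algebra.TensorProduct.lift x y (fun _ _ => Commute.all _ _) with hΛ
  obtain ⟨k, hk, f, hf, hfx⟩ := hx
  obtain ⟨l, hl, g, hg, hgy⟩ := hy
  have hfg : Λ (f ⊗ₜ g) ≠ 0 := by
    rw [hΛ, Algebra.TensorProduct.lift_tmul]
    exact mul_ne_zero hfx hgy
  obtain ⟨p₀, hp₀, hp₀'⟩ := kd_exists_closed Λ (f ⊗ₜ g) hfg
  set p := p₀.comp (Algebra.TensorProduct.includeLeft : R →ₐ[ℂ] R ⊗[ℂ] R) with hp
  set q := p₀.comp (Algebra.TensorProduct.includeRight : R →ₐ[ℂ] R ⊗[ℂ] R) with hq
  have hpq : Algebra.TensorProduct.lift p q (fun _ _ => Commute.all _ _) = p₀ := by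
    apply Algebra.TensorProduct.ext
    · ext r
      simp [hp]
    · ext r
      simp [hq]
  have hne : p f * q g ≠ 0 := by
    have h3 := hp₀'
    rw [← hpq, Algebra.TensorProduct.lift_tmul] at h3
    exact h3
  have hΛ1 : ∀ (D : Derivation ℂ K K) (a : R), (∀ r, D (x r) = x (P a r)) → (∀ r, D (y r) = 0) →
      ∀ F, Λ (TensorProduct.map (P a) LinearMap.id F) = D (Λ F) := by
    intro D a hD1 hD2 F
    induction F using TensorProduct.induction_on with
    | zero => simp
    | tmul r s =>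
      rw [TensorProduct.map_tmul, hΛ, Algebra.TensorProduct.lift_tmul,
        Algebra.TensorProduct.lift_tmul, Derivation.leibniz, hD1, hD2, smul_zero, zero_add,
        smul_eq_mul, mul_comm]
      rfl
    | add F G hF hG => rw [map_add, map_add, hF, hG, map_add, map_add]
  have hΛ2 : ∀ (D : Derivation ℂ K K) (a : R), (∀ r, D (x r) = 0) → (∀ r, D (y r) = y (P a r)) →
      ∀ F, Λ (TensorProduct.map LinearMap.id (P a) F) = D (Λ F) := by
    intro D a hD1 hD2 F
    induction F using TensorProduct.induction_on with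
    | zero => simp
    | tmul r s =>
      rw [TensorProduct.map_tmul, hΛ, Algebra.TensorProduct.lift_tmul,
        Algebra.TensorProduct.lift_tmul, Derivation.leibniz, hD1, hD2, smul_zero, add_zero,
        smul_eq_mul]
      rfl
    | add F G hF hG => rw [map_add, map_add, hF, hG, map_add, map_add]
  let N : Submodule ℂ (R ⊗[ℂ] R) := LinearMap.ker Λ.toLinearMap
  have hN : ∀ F, F ∈ N ↔ Λ F = 0 := fun F => LinearMap.mem_ker
  have hbot : N = ⊥ := by
    refine VF.simp_tensor hX (p := p) (q := q) (fun h => left_ne_zero_of_mul hne (h k hk f hf))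
      (fun h => right_ne_zero_of_mul hne (h l hl g hg)) N ?_ ?_ ?_
    · intro a F hF
      obtain ⟨D, hD1, hD2⟩ := h1 a
      rw [hN] at hF ⊢
      rw [hΛ1 D a hD1 hD2, hF, map_zero]
    · intro a F hF
      obtain ⟨D, hD1, hD2⟩ := h2 a
      rw [hN] at hF ⊢
      rw [hΛ2 D a hD1 hD2, hF, map_zero]
    · intro F hF
      rw [hpq]
      exact hp₀ F ((hN F).1 hF)
  rw [injective_iff_map_eq_zero]
  intro F hF
  have : F ∈ N := (hN F).2 hF
  rwa [hbot, Submodule.mem_bot] at this

end Vale.Agent.P292
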