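import Vale.Agent.P292.K.Q2G1
import Vale.Agent.P292.K.Frame0

set_option linter.all false

/-! # Q2 part I, block G, second half: from a frame to the generic pair. -/

namespace Vale.Agent.P292

open MvPolynomial TensorProduct

universe u v w

variable {R : Type u} [CommRing R] [Algebra ℂ R] {𝒜 : ℕ → Submodule ℂ R} [GradedAlgebra 𝒜]
  {P : R →ₗ[ℂ] R →ₗ[ℂ] R}

/-- A derivation of degree `-2` along a full conic which is rigid with fixed ends is zero. -/
theorem g2_eq_zero {K : Type v} [Field K] [Algebra ℂ K]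
    {φ : R →ₐ[ℂ] MvPolynomial (Fin 2) K} (hfull : IsFull 𝒜 2 φ)
    (halg : ∀ D : Derivation ℂ K K, (∀ r, D (pt φ ![1, 0] r) = 0) →
      (∀ r, D (pt φ ![0, 1] r) = 0) → ∀ r m, D (coeff m (φ r)) = 0)
    {θ : R →ₗ[ℂ] MvPolynomial (Fin 2) K} (hθ : IsHDer 𝒜 2 φ (-2) θ) : θ = 0 := by
  have hX2 : ZHom (X 0 * X 1 : MvPolynomial (Fin 2) K) 2 :=
    (ZHom.of_nat ((isHomogeneous_X K 0).mul (isHomogeneous_X K 1))).congr (by norm_num)
  have h1 : IsHDer 𝒜 2 φ 0 ((X 0 * X 1 : MvPolynomial (Fin 2) K) • θ) :=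
    (hθ.fr_smul hX2).fr_congr (by norm_num)
  obtain ⟨D, hD⟩ := hfull _ h1
  have h2 : ∀ r, D (pt φ ![1, 0] r) = 0 := by
    intro r
    rw [pt_apply, ← eval_mapD_10, hD, LinearMap.smul_apply, smul_eq_mul]
    simp
  have h3 : ∀ r, D (pt φ ![0, 1] r) = 0 := by
    intro r
    rw [pt_apply, ← eval_mapD_01, hD, LinearMap.smul_apply, smul_eq_mul]
    simp
  have h4 := halg D h2 h3
  ext1 r
  have h5 : mapD D (φ r) = 0 := by
    ext m
    rw [coeff_mapD, h4, coeff_zero]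
  rw [hD, LinearMap.smul_apply, smul_eq_mul] at h5
  rw [LinearMap.zero_apply]
  exact (mul_eq_zero.1 h5).resolve_left (mul_ne_zero (X_ne_zero 0) (X_ne_zero 1))

/-- Block G modulo the frame. -/
theorem g2_injective (hX : IsContactFano 𝒜 P) {K : Type v} [Field K] [Algebra ℂ K]
    {φ : R →ₐ[ℂ] MvPolynomial (Fin 2) K} (hφ : IsCurve 𝒜 2 φ) (hfull : IsFull 𝒜 2 φ)
    (halg : ∀ D : Derivation ℂ K K, (∀ r, D (pt φ ![1, 0] r) = 0) →
      (∀ r, D (pt φ ![0, 1] r) = 0) → ∀ r m, D (coeff m (φ r)) = 0)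
    {N : ℕ} (e : Fin N → ℤ) (δ : Fin N → R →ₗ[ℂ] MvPolynomial (Fin 2) K)
    (hδ : ∀ i, IsHDer 𝒜 2 φ (e i) (δ i)) (hne : ∀ i, δ i ≠ 0) (hlow : ∀ i, -2 ≤ e i)
    (hsum : ∑ i, (2 * e i + 2) = 0)
    (hspan : ∀ u : Fin 2 → K, u ≠ 0 → ∀ v, IsDer (pt φ u) v →
      ∃ c : Fin N → K, v = ∑ i, c i • evL u (δ i)) :
    Function.Injective (Algebra.TensorProduct.lift (pt φ ![1, 0]) (pt φ ![0, 1])
      (fun _ _ => Commute.all _ _)) := by
  classical
  have he1 : ∀ i, -1 ≤ e i := by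
    intro i
    by_contra h
    have h2 : e i = -2 := by have := hlow i; omega
    exact hne i (g2_eq_zero hfull halg (h2 ▸ hδ i))
  have he : ∀ i, e i = -1 := by
    have h1 := (Finset.sum_eq_zero_iff_of_nonneg (s := Finset.univ) (f := fun i => 2 * e i + 2)
      (fun i _ => by have := he1 i; omega)).1 hsum
    intro i
    have := h1 i (Finset.mem_univ i)
    omega
  -- arbitrary tangent vectors at both ends
  have key : ∀ v v', IsDer (pt φ ![1, 0]) v → IsDer (pt φ ![0, 1]) v' →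
      ∃ D : Derivation ℂ K K, (∀ r, D (pt φ ![1, 0] r) = v r) ∧
        ∀ r, D (pt φ ![0, 1] r) = v' r := by
    intro v v' hv hv'
    obtain ⟨c, hc⟩ := hspan _ vec10_ne v hv
    obtain ⟨c', hc'⟩ := hspan _ vec01_ne v' hv'
    have hl : ∀ i, ZHom (C (c i) * X 0 + C (c' i) * X 1 : MvPolynomial (Fin 2) K) 1 := fun i =>
      (ZHom.of_nat ((isHomogeneous_C_mul_X (c i) 0).add (isHomogeneous_C_mul_X (c' i) 1))).congr
        (by norm_num)
    have hh : IsHDer 𝒜 2 φ 0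
        (∑ i, (C (c i) * X 0 + C (c' i) * X 1 : MvPolynomial (Fin 2) K) • δ i) :=
      IsHDer.fr_sum _ fun i _ => ((hδ i).fr_smul (hl i)).fr_congr (by rw [he i]; norm_num)
    obtain ⟨D, hD⟩ := hfull _ hh
    refine ⟨D, fun r => ?_, fun r => ?_⟩
    · rw [pt_apply, ← eval_mapD_10, hD, hc, LinearMap.sum_apply, LinearMap.sum_apply, map_sum]
      refine Finset.sum_congr rfl fun i _ => ?_
      rw [LinearMap.smul_apply, LinearMap.smul_apply, evL_apply]
      simp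
    · rw [pt_apply, ← eval_mapD_01, hD, hc', LinearMap.sum_apply, LinearMap.sum_apply, map_sum]
      refine Finset.sum_congr rfl fun i _ => ?_
      rw [LinearMap.smul_apply, LinearMap.smul_apply, evL_apply]
      simp
  have hzero : ∀ x : R →ₐ[ℂ] K, IsDer x (0 : R →ₗ[ℂ] K) := fun x => (DerAt x).zero_mem
  refine g1_injective hX _ _ (hφ.isNV_pt vec10_ne) (hφ.isNV_pt vec01_ne) (fun a => ?_)
    (fun a => ?_)
  · obtain ⟨D, h1, h2⟩ := key (hamAt P (pt φ ![1, 0]) a) 0 (isDer_hamAt hX _ a) (hzero _)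
    exact ⟨D, h1, h2⟩
  · obtain ⟨D, h1, h2⟩ := key 0 (hamAt P (pt φ ![0, 1]) a) (hzero _) (isDer_hamAt hX _ a)
    exact ⟨D, h1, h2⟩

end Vale.Agent.P292
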