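import Vale.Agent.P292.K.NiM

/-! # Block I: two lines through the generic point which are not orthogonal. -/

namespace Vale.Agent.P292

open MvPolynomial

universe u v w

variable {R : Type u} [CommRing R] [Algebra ℂ R] {𝒜 : ℕ → Submodule ℂ R} [GradedAlgebra 𝒜]
  {P : R →ₗ[ℂ] R →ₗ[ℂ] R}

/-- Coefficientwise derivation and evaluation. -/
theorem ni_eval_mapD {K : Type v} [Field K] [Algebra ℂ K] (D : Derivation ℂ K K) (u : Fin 2 → K)
    (p : MvPolynomial (Fin 2) K) : eval u (mapD D p) =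
      D (eval u p) - D (u 0) * eval u (pderiv 0 p) - D (u 1) * eval u (pderiv 1 p) := by
  induction p using MvPolynomial.induction_on with
  | C c => simp [mapD_C]
  | add p q hp hq =>
    simp only [map_add, hp, hq]
    ring
  | mul_X p i hp =>
    rw [Derivation.leibniz, mapD_X, smul_zero, zero_add, smul_eq_mul, map_mul, hp, map_mul,
      Derivation.leibniz, Derivation.leibniz, Derivation.leibniz, eval_X]
    fin_cases i
    · simp [pderiv_X, smul_eq_mul]
      ring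
    · simp [pderiv_X, smul_eq_mul]
      ring

/-- At a point of a full anchored line all derivations are proportional on the kernel. -/
theorem ni_proportional_on_ker (hX : IsContactFano 𝒜 P) [IsDomain R] {K : Type v} [Field K]
    [IsAlgClosed K] [Algebra ℂ K] {ψ : R →ₐ[ℂ] MvPolynomial (Fin 2) K} (h : IsAnch 𝒜 1 ψ)
    (hfull : IsFull 𝒜 1 ψ) {u : Fin 2 → K} (hu : u ≠ 0) (hu0 : ∀ D : Derivation ℂ K K, D (u 0) = 0)
    (x : R →ₗ[ℂ] K) (hx : IsDer (pt ψ u) x) :
    ∃ c : K, ∀ r, pt ψ u r = 0 → x r = c * evL u (pd ψ 1) r := by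
  obtain ⟨δ, hδ, rfl⟩ := ni_exists_value hX h hu x hx
  obtain ⟨D, hD⟩ := hfull δ hδ
  refine ⟨-D (u 1), fun r hr => ?_⟩
  rw [pt_apply] at hr
  rw [evL_apply, ← hD, ni_eval_mapD, hr, map_zero, hu0, evL_apply, pd_apply]
  ring

/-- A zero of two forms can be normalised. -/
theorem ni_normalise {K : Type v} [Field K] [Algebra ℂ K] {u : Fin 2 → K} (hu : u ≠ 0) :
    ∃ c : K, c ≠ 0 ∧ (fun i => c * u i) ≠ 0 ∧
      ∀ D : Derivation ℂ K K, D ((fun i => c * u i) 0) = 0 := by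
  by_cases h0 : u 0 = 0
  · refine ⟨1, one_ne_zero, by simpa using hu, fun D => ?_⟩
    simp [h0]
  · refine ⟨(u 0)⁻¹, inv_ne_zero h0, fun h => ?_, fun D => ?_⟩
    · have := congrFun h 0
      simp [h0] at this
    · have : (u 0)⁻¹ * u 0 = 1 := inv_mul_cancel₀ h0
      change D ((u 0)⁻¹ * u 0) = 0
      rw [this]
      exact D.map_one_eq_zero

/-- The second end of a full anchored line is generic. -/
theorem ni_second_end (hX : IsContactFano 𝒜 P) [IsDomain R] {K : Type v} [Field K]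
    [IsAlgClosed K] [Algebra ℂ K] {ψ : R →ₐ[ℂ] MvPolynomial (Fin 2) K} (h : IsAnch 𝒜 1 ψ)
    (hfull : IsFull 𝒜 1 ψ) : Function.Injective (pt ψ ![0, 1]) := by
  refine ni_injective hX _ fun x hx r hr => ?_
  obtain ⟨δ, hδ, rfl⟩ := ni_exists_value hX h vec01_ne x hx
  obtain ⟨D, hD⟩ := hfull δ hδ
  rw [evL_apply, ← hD, eval_mapD_01, ← pt_apply, hr, map_zero]

/-- **I: non-isotropy in the factorial case.** -/
theorem exists_lines_ne_zero (hX : IsContactFano 𝒜 P) [IsDomain R] [UniqueFactorizationMonoid R]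
    (_hdim : 4 ≤ cdim R) {K : Type u} [Field K] [IsAlgClosed K] [Algebra ℂ K]
    {ψ : R →ₐ[ℂ] MvPolynomial (Fin 2) K} (h : IsAnch 𝒜 1 ψ) (hfull : IsFull 𝒜 1 ψ) :
    ∃ (Ω : Type u) (_ : Field Ω) (_ : IsAlgClosed Ω) (_ : Algebra ℂ Ω)
      (ψ₁ ψ₂ : R →ₐ[ℂ] MvPolynomial (Fin 2) Ω), IsAnch 𝒜 1 ψ₁ ∧ IsAnch 𝒜 1 ψ₂ ∧
      pt ψ₁ ![1, 0] = pt ψ₂ ![1, 0] ∧
      om P (pt ψ₁ ![1, 0]) (evL ![1, 0] (pd ψ₁ 1)) (evL ![1, 0] (pd ψ₂ 1)) ≠ 0 := by
  by_contra hcon
  have hcK : CharZero K := charZero_of_injective_algebraMap (algebraMap ℂ K).injective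
  obtain ⟨E, f, hE, hEf, hf, hlin⟩ := ni_exists_f hX h hfull (ni_second_end hX h hfull)
    (fun x hx ho => ni_lagrangian hX h vec01_ne x hx ho) (fun ψ₂ h2 hpt => by
      by_contra hne
      refine hcon ⟨K, inferInstance, inferInstance, inferInstance, ψ₂, ψ, h2, h, hpt, ?_⟩
      rw [hpt]
      exact hne)
  obtain ⟨k, hk, g, hg, h', hh', hh0, hrel, hfgh⟩ := ni_exists_homog hX E hE hEf hf
  have hg0 : g ≠ 0 := by
    rintro rfl
    rw [map_zero] at hfgh
    have h1 : algebraMap R (FractionRing R) h' ≠ 0 := by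
      rw [Ne, ← map_zero (algebraMap R (FractionRing R))]
      exact fun h1 => hh0 (IsFractionRing.injective R _ h1)
    have h2 := (mul_eq_zero.1 hfgh).resolve_right h1
    exact hf 0 (by rw [h2, map_zero])
  have hW := ni_wronskian hX h hg hh' (hlin g h' hfgh)
  have hne : ∀ r : R, r ≠ 0 → ψ r ≠ 0 := by
    intro r hr h0
    apply hr
    apply (injective_iff_map_eq_zero (pt ψ ![1, 0])).1 h.inj
    rw [pt_apply, h0, map_zero]
  obtain ⟨u, hu, huG, huH⟩ := ni_common_zero (k := 1 * k) (by omega) (h.curve.degree k g hg)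
    (h.curve.degree k h' hh') (hne g hg0) (hne h' hh0) hW
  obtain ⟨c, hc, hu', hD⟩ := ni_normalise hu
  refine ni_no_common_zero hX (pt ψ fun i => c * u i) _
    (ni_proportional_on_ker hX h hfull hu' hD) hrel ?_ ?_
  · rw [pt_apply, ni7_eval_smul (h.curve.degree k g hg), huG, mul_zero]
  · rw [pt_apply, ni7_eval_smul (h.curve.degree k h' hh'), huH, mul_zero]

end Vale.Agent.P292
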