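import Vale.Agent.P292.K.Q2G
import Vale.Agent.P292.K.Q2H
import Vale.Agent.P292.K.Q2IP
import Vale.Agent.P292.K.Q2I
import Vale.Agent.P292.K.Q2N4
import Vale.Agent.P292.K.FC1
import Vale.Agent.P292.K.ArcsFin
import Vale.Agent.P292.Q2.E2
import Vale.Agent.P292.MM.Final

/-! # Q2, part I: a contact Fano manifold with an anchored curve of degree at most two is
conic-connected. -/

namespace Vale.Agent.P292

open MvPolynomial TensorProduct

universe u v w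

section
variable {R : Type u} [CommRing R] [Algebra ℂ R] {𝒜 : ℕ → Submodule ℂ R} [GradedAlgebra 𝒜]
  {P : R →ₗ[ℂ] R →ₗ[ℂ] R}

/-- Part I, from the non-isotropy of the lines. -/
theorem isConicConnected_of_anch_aux (hX : IsContactFano 𝒜 P) [IsDomain R]
    (hlines : ∀ (K : Type u) [Field K] [IsAlgClosed K] [Algebra ℂ K]
      (ψ : R →ₐ[ℂ] MvPolynomial (Fin 2) K), IsAnch 𝒜 1 ψ → IsFull 𝒜 1 ψ →
      ∃ (Ω : Type u) (_ : Field Ω) (_ : IsAlgClosed Ω) (_ : Algebra ℂ Ω)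
      (ψ₁ ψ₂ : R →ₐ[ℂ] MvPolynomial (Fin 2) Ω), IsAnch 𝒜 1 ψ₁ ∧ IsAnch 𝒜 1 ψ₂ ∧
      pt ψ₁ ![1, 0] = pt ψ₂ ![1, 0] ∧
      om P (pt ψ₁ ![1, 0]) (evL ![1, 0] (pd ψ₁ 1)) (evL ![1, 0] (pd ψ₂ 1)) ≠ 0)
    {d : ℕ} (hd0 : 0 < d) (hd : d ≤ 2) {K : Type u} [Field K] [IsAlgClosed K] [Algebra ℂ K]
    {φ : R →ₐ[ℂ] MvPolynomial (Fin 2) K} (hφ : IsAnch 𝒜 d φ) : IsConicConnected 𝒜 := by
  classical
  by_cases hl : ∃ (κ : Type u) (_ : Field κ) (_ : IsAlgClosed κ) (_ : Algebra ℂ κ)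
      (ψ : R →ₐ[ℂ] MvPolynomial (Fin 2) κ), IsAnch 𝒜 1 ψ
  · obtain ⟨κ, _, _, _, ψ, hψ⟩ := hl
    obtain ⟨κ, _, _, _, ψ, hψ, hψf⟩ := exists_full_line hX hψ
    obtain ⟨κ, _, _, _, ψ₁, ψ₂, h1, h2, h3, h4⟩ := hlines _ ψ hψ hψf
    obtain ⟨κ, _, _, _, φ, b, h5, h6, h7⟩ := exists_conic_of_lines hX h1 h2 h3 h4
    obtain ⟨κ, _, _, _, φ, h8, h9, b', h10, h11⟩ := exists_full_conic hX h5 h6 h7
    refine isConicConnected_of_generic hX h8.curve (g_injective hX h8 h9 ?_)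
    intro D h12 h13 r m
    exact fc1_apply_coeff hX h8.curve h10 h11 D h12 h13 r m
  · obtain rfl : d = 2 := by
      by_contra h2
      obtain rfl : d = 1 := by omega
      exact hl ⟨K, inferInstance, inferInstance, inferInstance, φ, hφ⟩
    obtain ⟨ψ, h1, h2⟩ := exists_nonProp hX hd0 hφ
    obtain ⟨κ, _, _, _, ψ, h3, h4, h5⟩ := exists_full_conic' hX h1 h2
    refine isConicConnected_of_generic hX h3.curve (g_injective hX h3 h4 ?_)
    intro D h6 h7 r m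
    exact e2_apply_coeff hX (fun κ _ _ _ ψ hψ => hl ⟨κ, inferInstance, inferInstance,
      inferInstance, ψ, hψ⟩) h3 h5 D h6 h7 r m

/-- **Part I, Picard number one.** -/
theorem isConicConnected_of_anch_pic (hX : IsContactFano 𝒜 P) [IsDomain R]
    (hpic : IsPicardOne 𝒜) {d : ℕ} (hd0 : 0 < d) (hd : d ≤ 2) {K : Type u} [Field K]
    [IsAlgClosed K] [Algebra ℂ K] {φ : R →ₐ[ℂ] MvPolynomial (Fin 2) K} (hφ : IsAnch 𝒜 d φ) :
    IsConicConnected 𝒜 :=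
  isConicConnected_of_anch_aux hX
    (fun K _ _ _ ψ h1 h2 => exists_lines_ne_zero_pic hX hpic h1 h2) hd0 hd hφ

/-- **Part I, factorial case.** -/
theorem isConicConnected_of_anch (hX : IsContactFano 𝒜 P) [IsDomain R]
    [UniqueFactorizationMonoid R] (hdim : 4 ≤ cdim R) {d : ℕ} (hd0 : 0 < d) (hd : d ≤ 2)
    {K : Type u} [Field K] [IsAlgClosed K] [Algebra ℂ K]
    {φ : R →ₐ[ℂ] MvPolynomial (Fin 2) K} (hφ : IsAnch 𝒜 d φ) : IsConicConnected 𝒜 :=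
  isConicConnected_of_anch_aux hX
    (fun K _ _ _ ψ h1 h2 => exists_lines_ne_zero hX hdim h1 h2) hd0 hd hφ

/-- A contact Fano manifold of Picard number one with an anchored curve of degree one or two is
an adjoint variety. -/
theorem isAdjointVariety_of_anch_pic (hX : IsContactFano 𝒜 P) [IsDomain R]
    (hpic : IsPicardOne 𝒜) (hdim : 3 ≤ cdim R) {d : ℕ} (hd0 : 0 < d) (hd : d ≤ 2)
    {K : Type u} [Field K] [IsAlgClosed K] [Algebra ℂ K]
    {φ : R →ₐ[ℂ] MvPolynomial (Fin 2) K} (hφ : IsAnch 𝒜 d φ) : IsAdjointVariety 𝒜 P :=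
  isAdjointVariety_of_isConicConnected hX hdim (isConicConnected_of_anch_pic hX hpic hd0 hd hφ)

/-- The same in the factorial case. -/
theorem isAdjointVariety_of_anch (hX : IsContactFano 𝒜 P) [IsDomain R]
    [UniqueFactorizationMonoid R] (hdim : 4 ≤ cdim R) {d : ℕ} (hd0 : 0 < d) (hd : d ≤ 2)
    {K : Type u} [Field K] [IsAlgClosed K] [Algebra ℂ K]
    {φ : R →ₐ[ℂ] MvPolynomial (Fin 2) K} (hφ : IsAnch 𝒜 d φ) : IsAdjointVariety 𝒜 P :=
  isAdjointVariety_of_isConicConnected hX (by omega) (isConicConnected_of_anch hX hdim hd0 hd hφ)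

end

end Vale.Agent.P292
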