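import Vale.Agent.P292.K.Q2N1

set_option linter.all false

/-! # Q2 part I, block N2.1e: the decomposition of the form. -/

namespace Vale.Agent.P292

open MvPolynomial

universe u v w

section
variable {K : Type v} [Field K]

theorem nd_sum_split {M : Type*} [AddCommMonoid M] (f : ℕ → M) (k : ℕ) :
    ∑ i ∈ Finset.range (2 * k + 1), f i =
      f k + ∑ j ∈ Finset.Icc 1 k, (f (k + j) + f (k - j)) := by
  have h1 : ∀ g : ℕ → M, ∑ j ∈ Finset.Icc 1 k, g j = ∑ i ∈ Finset.range k, g (i + 1) := by
    intro g
    have h2 : Finset.Icc 1 k = (Finset.range k).image (fun i => i + 1) := by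
      ext j
      simp only [Finset.mem_image, Finset.mem_range, Finset.mem_Icc]
      constructor
      · intro h
        exact ⟨j - 1, by omega, by omega⟩
      · rintro ⟨i, hi, rfl⟩
        omega
    rw [h2, Finset.sum_image]
    intro a _ b _ h
    simpa using h
  rw [h1, Finset.sum_add_distrib]
  have h2 : ∑ i ∈ Finset.range k, f (k - (i + 1)) = ∑ i ∈ Finset.range k, f i := by
    rw [← Finset.sum_range_reflect f k]
    refine Finset.sum_congr rfl fun i hi => ?_
    congr 1
    omega
  rw [h2, show 2 * k + 1 = k + (k + 1) by ring, Finset.sum_range_add, Finset.sum_range_succ',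
    add_zero]
  abel

/-- the shifted coefficients -/
noncomputable def ndShift (j : ℕ) (G : PowerSeries K) : PowerSeries K :=
  PowerSeries.mk fun N => PowerSeries.coeff (N + j) G

theorem nd_shift {j : ℕ} {G : PowerSeries K} (h : ∀ N < j, PowerSeries.coeff N G = 0) :
    G = PowerSeries.X ^ j * ndShift j G := by
  ext N
  rw [PowerSeries.coeff_X_pow_mul']
  split_ifs with hN
  · rw [ndShift, PowerSeries.coeff_mk, Nat.sub_add_cancel hN]
  · exact h N (by omega)

/-- N2.1e decomposition used for the base points -/
theorem ndForm_decomp (k : ℕ) (F : MvPowerSeries (Fin 2) K) :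
    ∃ c d : ℕ → PowerSeries K,
      (∀ j ≤ k, PowerSeries.constantCoeff (c j) = MvPowerSeries.coeff (Finsupp.single 0 j) F) ∧
      (∀ j ≤ k, PowerSeries.constantCoeff (d j) = MvPowerSeries.coeff (Finsupp.single 1 j) F) ∧
      c 0 = d 0 ∧
      ndForm k F = C (c 0) * X 0 ^ k * X 1 ^ k +
        ∑ j ∈ Finset.Icc 1 k, (C (PowerSeries.X ^ j * c j) * X 0 ^ (k + j) * X 1 ^ (k - j) +
          C (PowerSeries.X ^ j * d j) * X 0 ^ (k - j) * X 1 ^ (k + j)) := by
  classical
  have hc : ∀ j, ∀ N < j, PowerSeries.coeff N (ndSer k F (k + j)) = 0 := by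
    intro j N hN
    rw [nd_coeff_ser]
    refine Finset.sum_eq_zero fun p hp => ?_
    rw [Finset.HasAntidiagonal.mem_antidiagonal] at hp
    rw [if_neg (by omega)]
  have hd : ∀ j ≤ k, ∀ N < j, PowerSeries.coeff N (ndSer k F (k - j)) = 0 := by
    intro j hj N hN
    rw [nd_coeff_ser]
    refine Finset.sum_eq_zero fun p hp => ?_
    rw [Finset.HasAntidiagonal.mem_antidiagonal] at hp
    rw [if_neg (by omega)]
  refine ⟨fun j => ndShift j (ndSer k F (k + j)), fun j => ndShift j (ndSer k F (k - j)),
    ?_, ?_, rfl, ?_⟩
  · intro j hj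
    simp only [ndShift]
    rw [← PowerSeries.coeff_zero_eq_constantCoeff_apply, PowerSeries.coeff_mk,
      nd_coeff_ser, Finset.sum_eq_single (j, 0)]
    · rw [if_pos (by simp only; omega)]
      simp
    · rintro ⟨a, b⟩ hab hne
      rw [Finset.HasAntidiagonal.mem_antidiagonal] at hab
      rw [if_neg]
      intro h
      apply hne
      simp only at hab h
      ext <;> simp only <;> omega
    · intro h
      exact absurd (Finset.HasAntidiagonal.mem_antidiagonal.2 (by simp)) h
  · intro j hj
    simp only [ndShift]
    rw [← PowerSeries.coeff_zero_eq_constantCoeff_apply, PowerSeries.coeff_mk,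
      nd_coeff_ser, Finset.sum_eq_single (0, j)]
    · rw [if_pos (by simp only; omega)]
      simp
    · rintro ⟨a, b⟩ hab hne
      rw [Finset.HasAntidiagonal.mem_antidiagonal] at hab
      rw [if_neg]
      intro h
      apply hne
      simp only at hab h
      ext <;> simp only <;> omega
    · intro h
      exact absurd (Finset.HasAntidiagonal.mem_antidiagonal.2 (by simp)) h
  · have hm : ∀ (a b : ℕ) (G : PowerSeries K),
        monomial (Finsupp.single 0 a + Finsupp.single 1 b) G =
          C G * X 0 ^ a * (X 1 ^ b : MvPolynomial (Fin 2) (PowerSeries K)) := by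
      intro a b G
      rw [X_pow_eq_monomial, X_pow_eq_monomial, C_mul_monomial, monomial_mul, mul_one, mul_one]
    rw [ndForm_eq, nd_sum_split]
    congr 1
    · rw [hm, show 2 * k - k = k by omega]
      congr 3
      have := nd_shift (hc 0)
      rw [pow_zero, one_mul, add_zero] at this
      exact this
    · refine Finset.sum_congr rfl fun j hj => ?_
      rw [Finset.mem_Icc] at hj
      rw [hm, hm, show 2 * k - (k + j) = k - j by omega, show 2 * k - (k - j) = k + j by omega,
        ← nd_shift (hc j), ← nd_shift (hd j hj.2)]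

end

end Vale.Agent.P292
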