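import Vale.Agent.P292.K.Q2N1

/-! # Q2 part I, block N2.1f: the conic over `K⟦q⟧`. -/

namespace Vale.Agent.P292

open MvPolynomial Finset.HasAntidiagonal

universe u v w

variable {K : Type v} [Field K]

theorem ndf_one : ndForm 0 (1 : MvPowerSeries (Fin 2) K) = 1 := by
  classical
  have h2 : (PowerSeries.mk fun N => ∑ p ∈ antidiagonal N, if 0 + p.1 = 0 + p.2 then
      MvPowerSeries.coeff (Finsupp.single 0 p.1 + Finsupp.single 1 p.2)
        (1 : MvPowerSeries (Fin 2) K) else 0) = (1 : PowerSeries K) := by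
    ext n
    rw [PowerSeries.coeff_mk, PowerSeries.coeff_one]
    simp only [MvPowerSeries.coeff_one]
    split_ifs with hn
    · subst hn
      simp
    · refine Finset.sum_eq_zero fun p hp => ?_
      rw [Finset.HasAntidiagonal.mem_antidiagonal] at hp
      split_ifs with h3 h4
      · exfalso
        have h5 := DFunLike.congr_fun h4 0
        have h6 := DFunLike.congr_fun h4 1
        simp at h5 h6
        omega
      · rfl
      · rfl
  rw [ndForm, mul_zero, zero_add, Finset.sum_range_one, h2, Nat.sub_zero, Finsupp.single_zero,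
    Finsupp.single_zero, add_zero]
  rfl

variable {R : Type u} [CommRing R] [Algebra ℂ R] {𝒜 : ℕ → Submodule ℂ R} [Algebra ℂ K]

/-- N2.1f the conic over `K⟦q⟧` -/
theorem exists_ndHom [GradedAlgebra 𝒜] (Φ : R →ₐ[ℂ] MvPowerSeries (Fin 2) K)
    (h : ∀ k, ∀ r ∈ 𝒜 k, NdSupp k (Φ r)) :
    ∃ φ : R →ₐ[ℂ] MvPolynomial (Fin 2) (PowerSeries K), ∀ k, ∀ r ∈ 𝒜 k, φ r = ndForm k (Φ r) := by
  classical
  let F : ∀ k, 𝒜 k →ₗ[ℂ] MvPolynomial (Fin 2) (PowerSeries K) := fun k =>
    { toFun := fun r => ndForm k (Φ r)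
      map_add' := fun r s => by
        rw [ndForm, ndForm, ndForm, ← Finset.sum_add_distrib]
        refine Finset.sum_congr rfl fun i _ => ?_
        rw [← map_add]
        congr 1
        ext n
        rw [map_add, PowerSeries.coeff_mk, PowerSeries.coeff_mk, PowerSeries.coeff_mk,
          ← Finset.sum_add_distrib]
        refine Finset.sum_congr rfl fun p _ => ?_
        split_ifs
        · rw [Submodule.coe_add, map_add, map_add]
        · rw [add_zero]
      map_smul' := fun c r => by
        rw [ndForm, ndForm, RingHom.id_apply, Finset.smul_sum]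
        refine Finset.sum_congr rfl fun i _ => ?_
        rw [smul_monomial]
        congr 1
        ext n
        have h1 : ∀ g : PowerSeries K, PowerSeries.coeff n (c • g) = c • PowerSeries.coeff n g :=
          fun g => rfl
        rw [h1, PowerSeries.coeff_mk, PowerSeries.coeff_mk, Finset.smul_sum]
        refine Finset.sum_congr rfl fun p _ => ?_
        split_ifs
        · rw [Submodule.coe_smul, map_smul]
          rfl
        · rw [smul_zero] }
  have hF : ∀ k (r : 𝒜 k), F k r = ndForm k (Φ r) := fun _ _ => rfl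
  have hone : F 0 (GradedMonoid.GOne.one (A := fun i => 𝒜 i)) = 1 := by
    rw [hF]
    have h1 : (((GradedMonoid.GOne.one (A := fun i => 𝒜 i)) : 𝒜 0) : R) = 1 := rfl
    rw [h1, map_one, ndf_one]
  have hmul : ∀ {i j : ℕ} (ai : 𝒜 i) (aj : 𝒜 j),
      F (i + j) (GradedMonoid.GMul.mul (A := fun i => 𝒜 i) ai aj) = F i ai * F j aj := by
    intro i j ai aj
    rw [hF, hF, hF, ← ndForm_mul (h i _ ai.2) (h j _ aj.2), ← map_mul]
    rfl
  refine ⟨(DirectSum.toAlgebra ℂ (fun i => 𝒜 i) F hone hmul).comp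
      (DirectSum.decomposeAlgEquiv 𝒜).toAlgHom, fun k r hr => ?_⟩
  change DirectSum.toAlgebra ℂ (fun i => 𝒜 i) F hone hmul (DirectSum.decompose 𝒜 r) = _
  rw [DirectSum.decompose_of_mem 𝒜 hr]
  change DirectSum.toModule ℂ ℕ _ F (DirectSum.lof ℂ ℕ (fun i => 𝒜 i) k ⟨r, hr⟩) = _
  rw [DirectSum.toModule_lof, hF]

end Vale.Agent.P292
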