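import Vale.Agent.P292.K.Q2Defs
import Vale.Agent.P292.Q2.Node2

set_option linter.all false

/-! # Q2 part I, block N2: definitions.

`x = q s / t`, `z = q t / s`, `T = s t`; the form attached to `F T^k` with
`F = ∑ F_m x^(m 0) z^(m 1)` (`|m 0 - m 1| ≤ k` on the support of `F`) is
`∑ F_m q^(m 0 + m 1) s^(k + m 0 - m 1) t^(k + m 1 - m 0)`. -/

namespace Vale.Agent.P292

open MvPolynomial

universe u v w

section
variable {K : Type v} [Field K]

/-- exponent of `x^(m 0) z^(m 1) T^k` in `s, t`. -/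
noncomputable def ndExp (k : ℕ) (m : Fin 2 →₀ ℕ) : Fin 2 →₀ ℕ :=
  Finsupp.single 0 (k + m 0 - m 1) + Finsupp.single 1 (k + m 1 - m 0)

/-- The form `∑ F_m q^(m 0 + m 1) s^(k + m 0 - m 1) t^(k + m 1 - m 0)`. -/
noncomputable def ndForm (k : ℕ) (F : MvPowerSeries (Fin 2) K) :
    MvPolynomial (Fin 2) (PowerSeries K) :=
  ∑ i ∈ Finset.range (2 * k + 1), monomial (Finsupp.single 0 i + Finsupp.single 1 (2 * k - i))
    (PowerSeries.mk fun N => ∑ p ∈ Finset.HasAntidiagonal.antidiagonal N,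
      if k + p.1 = i + p.2 then
        MvPowerSeries.coeff (Finsupp.single 0 p.1 + Finsupp.single 1 p.2) F else 0)

/-- support condition -/
def NdSupp (k : ℕ) (F : MvPowerSeries (Fin 2) K) : Prop :=
  (∀ m : Fin 2 →₀ ℕ, m 1 + k < m 0 → MvPowerSeries.coeff m F = 0) ∧
  (∀ m : Fin 2 →₀ ℕ, m 0 + k < m 1 → MvPowerSeries.coeff m F = 0)

end

end Vale.Agent.P292
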