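import Vale.Agent.P292.K.Q2S
import Vale.Agent.P292.K.Ext
import Vale.Agent.P292.Q.Chain

/-! # Q2: families of curves over a ring `A` with good reduction. -/

namespace Vale.Agent.P292

open MvPolynomial

universe u v w

variable {R : Type u} [CommRing R] [Algebra ℂ R] {𝒜 : ℕ → Submodule ℂ R}

/-- If the reduction of a family of curves is a curve (over an algebraically closed field), then
so is the generic member. -/
theorem IsCurve.of_reduction {A : Type v} [CommRing A] [Algebra ℂ A] {K : Type w} [Field K]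
    [IsAlgClosed K] [Algebra ℂ K] (π : A →ₐ[ℂ] K) (hπ : Function.Surjective π)
    {Ω : Type*} [Field Ω] [Algebra ℂ Ω] (ι : A →ₐ[ℂ] Ω) (O : ValuationSubring Ω)
    (hO : ∀ a, ι a ∈ O) (hk : ∀ a, π a = 0 → O.valuation (ι a) < 1)
    (Φ : R →ₐ[ℂ] MvPolynomial (Fin 2) A) {d : ℕ}
    (hdeg : ∀ k, ∀ r ∈ 𝒜 k, (Φ r).IsHomogeneous (d * k))
    (hφ : IsCurve 𝒜 d ((mapAlgHom π).comp Φ)) : IsCurve 𝒜 d ((mapAlgHom ι).comp Φ) := by
  classical
  refine ⟨fun k r hr => (hdeg k r hr).map _, ?_⟩
  let T : Set (MvPolynomial (Fin 2) K) :=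
    {p | ∃ k, 0 < k ∧ ∃ r ∈ 𝒜 k, p = map (π : A →+* K) (Φ r)}
  have hrad : ∀ i : Fin 2, (X i : MvPolynomial (Fin 2) K) ∈ (Ideal.span T).radical := by
    intro i
    rw [← vanishingIdeal_zeroLocus_eq_radical (K := K)]
    intro x hx
    rw [aeval_X]
    by_contra hxi
    obtain ⟨k, hk0, r, hr, hne⟩ := hφ.bpf x (fun h0 => hxi (by rw [h0]; rfl))
    exact hne (hx _ (Ideal.subset_span ⟨k, hk0, r, hr, rfl⟩))
  have key : ∀ (y : Fin 2 → Ω) (i : Fin 2), (∀ j, y j ∈ O) → y i = 1 →
      ∃ k, 0 < k ∧ ∃ r ∈ 𝒜 k, eval y (map (ι : A →+* Ω) (Φ r)) ≠ 0 := by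
    intro y i hy hyi
    by_contra hcon
    push Not at hcon
    obtain ⟨M, hM⟩ := hrad i
    have hlift : ∀ p ∈ Ideal.span T, ∃ q : MvPolynomial (Fin 2) A,
        map (π : A →+* K) q = p ∧ eval y (map (ι : A →+* Ω) q) = 0 := by
      intro p hp
      induction hp using Submodule.span_induction with
      | mem p hp =>
        obtain ⟨k, hk0, r, hr, rfl⟩ := hp
        exact ⟨Φ r, rfl, hcon k hk0 r hr⟩
      | zero => exact ⟨0, by simp, by simp⟩
      | add p p' _ _ h h' =>
        obtain ⟨q, h1, h2⟩ := h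
        obtain ⟨q', h1', h2'⟩ := h'
        exact ⟨q + q', by rw [map_add, h1, h1'], by rw [map_add, map_add, h2, h2', add_zero]⟩
      | smul a p _ h =>
        obtain ⟨q, h1, h2⟩ := h
        obtain ⟨b, hb⟩ := map_surjective (π : A →+* K) hπ a
        exact ⟨b * q, by rw [map_mul, h1, hb, smul_eq_mul], by
          rw [map_mul, map_mul, h2, mul_zero]⟩
    obtain ⟨q, hq1, hq2⟩ := hlift _ hM
    have hE : map (π : A →+* K) (X i ^ M - q) = 0 := by
      rw [map_sub, map_pow, map_X, hq1, sub_self]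
    have hE2 : eval y (map (ι : A →+* Ω) (X i ^ M - q)) = 1 := by
      rw [map_sub, map_sub, hq2, sub_zero, map_pow, map_pow, map_X, eval_X, hyi, one_pow]
    have hlt : O.valuation (eval y (map (ι : A →+* Ω) (X i ^ M - q))) < 1 := by
      rw [eval_map, eval₂_eq']
      refine Valuation.map_sum_lt _ one_ne_zero fun m _ => ?_
      rw [map_mul]
      have h1 : O.valuation ((ι : A →+* Ω) (coeff m (X i ^ M - q))) < 1 := by
        apply hk
        have := congrArg (coeff m) hE
        rwa [coeff_map, coeff_zero] at this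
      have h2 : O.valuation (∏ i, y i ^ m i) ≤ 1 := by
        rw [O.valuation_le_one_iff]
        exact prod_mem fun j _ => pow_mem (hy j) _
      exact lt_of_le_of_lt (mul_le_mul_right h2 _) (by rwa [mul_one])
    rw [hE2, map_one] at hlt
    exact lt_irrefl _ hlt
  intro x hx
  -- the coordinate of maximal value
  obtain ⟨i, hi0, hi⟩ : ∃ i, x i ≠ 0 ∧ ∀ j, O.valuation (x j) ≤ O.valuation (x i) := by
    rcases le_total (O.valuation (x 0)) (O.valuation (x 1)) with h | h
    · refine ⟨1, fun h1 => hx ?_, fun j => by fin_cases j <;> simp [h]⟩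
      rw [h1, map_zero, le_zero_iff, map_eq_zero] at h
      funext j
      fin_cases j
      · exact h
      · exact h1
    · refine ⟨0, fun h1 => hx ?_, fun j => by fin_cases j <;> simp [h]⟩
      rw [h1, map_zero, le_zero_iff, map_eq_zero] at h
      funext j
      fin_cases j
      · exact h1
      · exact h
  obtain ⟨k, hk0, r, hr, hne⟩ := key ((x i)⁻¹ • x) i (fun j => by
    rw [← O.valuation_le_one_iff, Pi.smul_apply, smul_eq_mul, map_mul, map_inv₀]
    have h0 : O.valuation (x i) ≠ 0 := (map_ne_zero _).2 hi0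
    calc (O.valuation (x i))⁻¹ * O.valuation (x j)
        ≤ (O.valuation (x i))⁻¹ * O.valuation (x i) := mul_le_mul_right (hi j) _
      _ = 1 := inv_mul_cancel₀ h0) (by
    rw [Pi.smul_apply, smul_eq_mul, inv_mul_cancel₀ hi0])
  refine ⟨k, hk0, r, hr, ?_⟩
  rw [aeval_eq_eval]
  change eval x (map (ι : A →+* Ω) (Φ r)) ≠ 0
  intro h0
  apply hne
  rw [eval_smul_form ((hdeg k r hr).map _), h0, mul_zero]

end Vale.Agent.P292
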