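import Vale.Agent.P292.K.Ultra

/-! # Q2, block S: a curve through the generic point, from closed curves through many points. -/

namespace Vale.Agent.P292

open Filter MvPolynomial

universe u v

variable {R : Type u} [CommRing R] [Algebra ℂ R] {𝒜 : ℕ → Submodule ℂ R}

/-- A curve over `Ω` whose point with parameter `(1, 0)` is generic. -/
structure IsAnch (𝒜 : ℕ → Submodule ℂ R) (d : ℕ) {Ω : Type v} [Field Ω] [Algebra ℂ Ω]
    (φ : R →ₐ[ℂ] MvPolynomial (Fin 2) Ω) : Prop where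
  curve : IsCurve 𝒜 d φ
  inj : Function.Injective (pt φ ![1, 0])

variable [GradedAlgebra 𝒜]

/-- An ultraproduct of closed curves whose `(1, 0)` ends are dense is an anchored curve. -/
theorem exists_isAnch {P : R →ₗ[ℂ] R →ₗ[ℂ] R} (hX : IsContactFano 𝒜 P) {d : ℕ}
    (h : ∀ g : R, g ≠ 0 → ∃ φ : R →ₐ[ℂ] MvPolynomial (Fin 2) ℂ, IsCurve 𝒜 d φ ∧
      pt φ ![1, 0] g ≠ 0) :
    ∃ (Ω : Type u) (_ : Field Ω) (_ : IsAlgClosed Ω) (_ : Algebra ℂ Ω)
      (φ : R →ₐ[ℂ] MvPolynomial (Fin 2) Ω), IsAnch 𝒜 d φ := by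
  classical
  have := hX.domain
  have := hX.finiteType
  let S : Type u := {φ : R →ₐ[ℂ] MvPolynomial (Fin 2) ℂ // IsCurve 𝒜 d φ}
  let F : Filter S := Filter.generate {V | ∃ a : R, a ≠ 0 ∧ V = {s : S | pt s.1 ![1, 0] a ≠ 0}}
  have hne : F.NeBot := by
    rw [Filter.generate_neBot_iff]
    intro t ht htf
    have key : ∀ t : Set (Set S), t.Finite →
        t ⊆ {V | ∃ a : R, a ≠ 0 ∧ V = {s : S | pt s.1 ![1, 0] a ≠ 0}} →
        ∃ a : R, a ≠ 0 ∧ ∀ s : S, pt s.1 ![1, 0] a ≠ 0 → s ∈ ⋂₀ t := by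
      intro t htf
      induction t, htf using Set.Finite.induction_on with
      | empty => intro _; exact ⟨1, one_ne_zero, fun s _ => by simp⟩
      | insert _ _ ih =>
        intro ht
        obtain ⟨a, ha, h1⟩ := ih fun x hx => ht (Set.mem_insert_of_mem _ hx)
        obtain ⟨b, hb, h2⟩ := ht (Set.mem_insert _ _)
        refine ⟨a * b, mul_ne_zero ha hb, fun s hs => ?_⟩
        rw [map_mul] at hs
        rw [Set.sInter_insert, h2]
        exact ⟨right_ne_zero_of_mul hs, h1 s (left_ne_zero_of_mul hs)⟩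
    obtain ⟨a, ha, h1⟩ := key t htf ht
    obtain ⟨φ, hφ, hs⟩ := h a ha
    exact ⟨⟨φ, hφ⟩, h1 ⟨φ, hφ⟩ hs⟩
  let U := Ultrafilter.of F
  have hU : ∀ a : R, a ≠ 0 → ∀ᶠ s in (U : Filter S), pt s.1 ![1, 0] a ≠ 0 := fun a ha =>
    Ultrafilter.of_le F (Filter.mem_generate_of_mem ⟨a, ha, rfl⟩)
  obtain ⟨Ω, _, _, g, hg⟩ := exists_isUP U
  obtain ⟨Φ, hΦ, -, heval⟩ := hg.exists_curve hX.connected (fun s : S => s.1) (fun s => s.2)
  refine ⟨Ω, inferInstance, hg.isAlgClosed, inferInstance, Φ, hΦ, ?_⟩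
  rw [injective_iff_map_eq_zero]
  intro r hr
  by_contra hr0
  have h1 : (![1, 0] : Fin 2 → Ω) = fun j => g ((![1, 0] : Fin 2 → S → ℂ) j) := by
    funext j
    fin_cases j
    · simp
    · simp
  rw [pt_apply, h1, heval, hg.zero] at hr
  obtain ⟨s, hs1, hs2⟩ := (hr.and (hU r hr0)).exists
  apply hs2
  have h3 : (fun j => (![1, 0] : Fin 2 → S → ℂ) j s) = ![1, 0] := by
    funext j
    fin_cases j <;> simp
  rw [h3] at hs1
  rw [pt_apply]
  exact hs1

end Vale.Agent.P292
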