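import Vale.Agent.P292.K.Defs

/-! # Twistor lines: very free conics. -/

namespace Vale.Agent.P292

open MvPolynomial

universe u

/-- There is a very free conic `φ`, for example a twistor line: every tangent vector `d` of the
cone at a point of the conic is the value of a derivation `D` along `φ` which maps the elements
of degree `k + 1` to forms of degree `2 (k + 1) - 1`, that is, of a section of `E(-1)` for the
pull back `E` of the tangent bundle of the cone. In other words `E` is a sum of line bundles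
`O(1)`, and the normal bundle of the conic is `O(1) ^ 2n`. -/
def HasVeryFreeConic {R : Type u} [CommRing R] [Algebra ℂ R] (𝒜 : ℕ → Submodule ℂ R) : Prop :=
  ∃ φ : R →ₐ[ℂ] MvPolynomial (Fin 2) ℂ, IsCurve 𝒜 2 φ ∧
    ∀ a : Fin 2 → ℂ, a ≠ 0 → ∀ d : R →ₗ[ℂ] ℂ,
      (∀ r s, d (r * s) = pt φ a r * d s + pt φ a s * d r) →
      ∃ D : R →ₗ[ℂ] MvPolynomial (Fin 2) ℂ, (∀ r s, D (r * s) = φ r * D s + φ s * D r) ∧
        (∀ k, ∀ r ∈ 𝒜 (k + 1), (D r).IsHomogeneous (2 * k + 1)) ∧ ∀ r, eval a (D r) = d r

end Vale.Agent.P292
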